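import Crest.Agent.R109.OneSiteA
import Crest.Agent.R109.Annealed
import Crest.Agent.R109.FinStart1

-- ▼ part R109/OneSiteB
section

/-!
# One-site lemma, part B (row 109, helper135)

`J`-bound: if `q k s μ ≤ 1` then the truncated even moment sum is at most `4`.
-/

set_option autoImplicit false

namespace Crest.Agent.R109

open PowerSeries Finset

variable {ι : Type*} [Fintype ι]

/-! ### series with nonnegative coefficients -/

def CPos (F : ℝ⟦X⟧) : Prop := ∀ n, 0 ≤ coeff n F

theorem CPos.one : CPos 1 := by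
  intro n; rw [coeff_one]; split_ifs <;> norm_num

theorem CPos.mul {F G : ℝ⟦X⟧} (hF : CPos F) (hG : CPos G) : CPos (F * G) := by
  intro n
  rw [coeff_mul]
  exact Finset.sum_nonneg fun p _ => mul_nonneg (hF _) (hG _)

theorem CPos.pow {F : ℝ⟦X⟧} (hF : CPos F) (n : ℕ) : CPos (F ^ n) := by
  induction n with
  | zero => simpa using CPos.one
  | succ n ih => rw [pow_succ]; exact ih.mul hF

theorem CPos.coeff_qS_nonneg {F : ℝ⟦X⟧} (hF : CPos F) (h0 : constantCoeff F = 0) (N : ℕ) :
    0 ≤ coeff N (qS F) := by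
  rw [coeff_qS F h0]
  apply Finset.sum_nonneg
  intro n _
  have := hF.pow (n + 1) N
  positivity

theorem qS_of_mul (F G H : ℝ⟦X⟧) (hF : constantCoeff F = 0) (hG : constantCoeff G = 0)
    (h : 1 - H = (1 - F) * (1 - G)) : qS H = qS F + qS G := by
  have hu : (1 - F) * (1 - F)⁻¹ = 1 := PowerSeries.mul_inv_cancel _ (by simp [hF])
  have e : H = F + (1 - F) * G := by
    have : H = 1 - (1 - F) * (1 - G) := by rw [← h]; ring
    rw [this]; ring
  have e2 : (1 - F) * G * (1 - F)⁻¹ = G := by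
    calc (1 - F) * G * (1 - F)⁻¹ = G * ((1 - F) * (1 - F)⁻¹) := by ring
      _ = G := by rw [hu, mul_one]
  rw [e, qS_add F ((1 - F) * G) hF (by simp [hG]), e2]

/-! ### the one-sided part -/

/-- `∑_i (∑_j ν_j σ_j^i) u^(i+1)` -/
noncomputable def mom1 (σ ν : ι → ℝ) : ℝ⟦X⟧ := ∑ j, C (ν j) * (geo (σ j) * X)

theorem coeff_mom1_succ (σ ν : ι → ℝ) (i : ℕ) :
    coeff (i + 1) (mom1 σ ν) = ∑ j, ν j * σ j ^ i := by
  simp only [mom1, map_sum, coeff_C_mul, coeff_succ_mul_X, coeff_geo]

theorem coeff_mom1_zero (σ ν : ι → ℝ) : coeff 0 (mom1 σ ν) = 0 := by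
  simp only [mom1, map_sum, coeff_C_mul]
  apply Finset.sum_eq_zero
  intro j _
  simp

theorem constantCoeff_mom1 (σ ν : ι → ℝ) : constantCoeff (mom1 σ ν) = 0 := by
  rw [← coeff_zero_eq_constantCoeff_apply]; exact coeff_mom1_zero σ ν

theorem CPos.mom1 (σ ν : ι → ℝ) (hσ : ∀ j, 0 ≤ σ j) (hν : ∀ j, 0 ≤ ν j) : CPos (mom1 σ ν) := by
  intro n
  rcases n with _ | n
  · rw [coeff_mom1_zero]
  · rw [coeff_mom1_succ]
    exact Finset.sum_nonneg fun j _ => mul_nonneg (hν j) (pow_nonneg (hσ j) n)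

theorem CPos.mom (s μ : ι → ℝ) (hs : ∀ j, 0 ≤ s j) (hμ : ∀ j, 0 ≤ μ j) : CPos (mom s μ) := by
  intro n
  rcases n with _ | _ | n
  · rw [coeff_mom_zero]
  · rw [coeff_mom_one]
  · rw [coeff_mom_add_two]
    exact Finset.sum_nonneg fun j _ => mul_nonneg (hμ j) (pow_nonneg (hs j) n)

theorem coeff_mom_two_mul (s μ : ι → ℝ) (i : ℕ) :
    coeff (2 * i) (mom s μ) = coeff i (mom1 (fun j => s j ^ 2) μ) := by
  rcases i with _ | i
  · rw [Nat.mul_zero, coeff_mom_zero, coeff_mom1_zero]
  · rw [coeff_mom1_succ]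
    have : 2 * (i + 1) = 2 * i + 2 := by ring
    rw [this, coeff_mom_add_two]
    apply Finset.sum_congr rfl
    intro j _
    rw [← pow_mul]

theorem coeff_mom_pow_ge (s μ : ι → ℝ) (hs : ∀ j, 0 ≤ s j) (hμ : ∀ j, 0 ≤ μ j) (n : ℕ) :
    ∀ m, coeff m (mom1 (fun j => s j ^ 2) μ ^ n) ≤ coeff (2 * m) (mom s μ ^ n) := by
  induction n with
  | zero =>
    intro m
    rw [pow_zero, pow_zero, coeff_one, coeff_one]
    rcases m with _ | m
    · simp
    · simp
  | succ n ih =>
    intro m
    rw [pow_succ, pow_succ, coeff_mul, coeff_mul]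
    have hM := (CPos.mom s μ hs hμ)
    have hg : CPos (mom1 (fun j => s j ^ 2) μ) :=
      CPos.mom1 _ _ (fun j => sq_nonneg _) hμ
    calc ∑ p ∈ antidiagonal m, coeff p.1 (mom1 (fun j => s j ^ 2) μ ^ n) *
            coeff p.2 (mom1 (fun j => s j ^ 2) μ)
        ≤ ∑ p ∈ antidiagonal m, coeff (2 * p.1) (mom s μ ^ n) * coeff (2 * p.2) (mom s μ) := by
          apply Finset.sum_le_sum
          intro p _
          rw [coeff_mom_two_mul]
          exact mul_le_mul_of_nonneg_right (ih _) (hg _)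
      _ = ∑ p ∈ (antidiagonal m).image (fun p : ℕ × ℕ => (2 * p.1, 2 * p.2)),
            coeff p.1 (mom s μ ^ n) * coeff p.2 (mom s μ) := by
          rw [Finset.sum_image]
          rintro ⟨a, b⟩ _ ⟨c, d⟩ _ h
          simp only [Prod.mk.injEq] at h ⊢
          omega
      _ ≤ _ := by
          apply Finset.sum_le_sum_of_subset_of_nonneg
          · intro p hp
            rw [Finset.mem_image] at hp
            obtain ⟨a, ha, rfl⟩ := hp
            rw [HasAntidiagonal.mem_antidiagonal] at ha ⊢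
            simp only
            omega
          · intro p _ _
            exact mul_nonneg (hM.pow n _) (hM _)

theorem q_ge_two_mul (k : ℕ) (s μ : ι → ℝ) (hs : ∀ j, 0 ≤ s j) (hμ : ∀ j, 0 ≤ μ j) :
    2 * coeff k (qS (mom1 (fun j => s j ^ 2) μ)) ≤ q k s μ := by
  rw [q_eq_sum, coeff_qS _ (constantCoeff_mom1 _ _), Finset.mul_sum]
  calc ∑ n ∈ range (k + 1), 2 * ((k : ℝ) / (n + 1) *
          coeff k (mom1 (fun j => s j ^ 2) μ ^ (n + 1)))
      ≤ ∑ n ∈ range (k + 1), ((2 * k : ℕ) : ℝ) / (n + 1) *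
          coeff (2 * k) (mom s μ ^ (n + 1)) := by
        apply Finset.sum_le_sum
        intro n _
        have h1 := coeff_mom_pow_ge s μ hs hμ (n + 1) k
        have h2 : (0:ℝ) ≤ ((2 * k : ℕ) : ℝ) / (n + 1) := by positivity
        calc 2 * ((k : ℝ) / (n + 1) * coeff k (mom1 (fun j => s j ^ 2) μ ^ (n + 1)))
            = ((2 * k : ℕ) : ℝ) / (n + 1) * coeff k (mom1 (fun j => s j ^ 2) μ ^ (n + 1)) := by
              push_cast; ring
          _ ≤ _ := mul_le_mul_of_nonneg_left h1 h2
    _ ≤ _ := by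
        apply Finset.sum_le_sum_of_subset_of_nonneg
        · intro n hn
          rw [Finset.mem_range] at hn ⊢; omega
        · intro n _ _
          have := coeff_mom_pow_nonneg k s μ hμ (n + 1)
          positivity

/-- the exactly solvable case -/
theorem coeff_qS_mom1_ge (k : ℕ) (w : ℝ) (hw : 1 < w) (σ ν : ι → ℝ) (hσ0 : ∀ j, 0 ≤ σ j)
    (hσ1 : ∀ j, σ j ≤ 1) (hν : ∀ j, 0 ≤ ν j) (h1 : ∑ j, ν j / (w - σ j) = 1) (hk : 1 ≤ k) :
    w ^ k - 1 ≤ coeff k (qS (mom1 σ ν)) := by
  set B : ℝ⟦X⟧ := ∑ j, C (ν j / (w - σ j)) * geo (σ j) with hB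
  have hBc : ∀ i, coeff i B = ∑ j, ν j / (w - σ j) * σ j ^ i := by
    intro i; simp only [hB, map_sum, coeff_C_mul, coeff_geo]
  have hwσ : ∀ j, 0 < w - σ j := fun j => by linarith [hσ1 j]
  -- 1 - g = (1 - w X) B
  have e1 : 1 - mom1 σ ν = (1 - C w * X) * B := by
    ext n
    rcases n with _ | n
    · simp only [map_sub, coeff_mom1_zero, sub_mul, one_mul, mul_assoc]
      rw [hBc]
      simp [h1]
    · rw [map_sub, coeff_mom1_succ, sub_mul, one_mul, mul_assoc, map_sub, coeff_C_mul,
        coeff_succ_X_mul, hBc, hBc, coeff_one, if_neg (Nat.succ_ne_zero n), zero_sub,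
        Finset.mul_sum, ← Finset.sum_sub_distrib, ← Finset.sum_neg_distrib]
      apply Finset.sum_congr rfl
      intro j _
      have := (hwσ j).ne'
      field_simp
      ring
  set d : ℝ⟦X⟧ := 1 - (1 - X) * B with hd
  have hdc : ∀ n, coeff (n + 1) d = ∑ j, ν j / (w - σ j) * (σ j ^ n * (1 - σ j)) := by
    intro n
    rw [hd, sub_mul, one_mul, map_sub, map_sub, coeff_one, if_neg (Nat.succ_ne_zero n),
      coeff_succ_X_mul, hBc, hBc, ← Finset.sum_sub_distrib, zero_sub, ← Finset.sum_neg_distrib]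
    apply Finset.sum_congr rfl
    intro j _
    ring
  have hd0 : constantCoeff d = 0 := by
    have : constantCoeff B = 1 := by
      rw [← coeff_zero_eq_constantCoeff_apply, hBc]; simp [h1]
    simp [hd, this]
  have hdpos : CPos d := by
    intro n
    rcases n with _ | n
    · rw [coeff_zero_eq_constantCoeff_apply, hd0]
    · rw [hdc]
      apply Finset.sum_nonneg
      intro j _
      have := (hwσ j).le
      have := hν j
      have := pow_nonneg (hσ0 j) n
      have : 0 ≤ 1 - σ j := by linarith [hσ1 j]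
      positivity
  -- both factorisations of (1 - X)(1 - g)
  set H : ℝ⟦X⟧ := 1 - (1 - X) * (1 - mom1 σ ν) with hH
  have q1 : qS H = qS X + qS (mom1 σ ν) :=
    qS_of_mul X (mom1 σ ν) H (by simp) (constantCoeff_mom1 _ _) (by rw [hH]; ring)
  have q2 : qS H = qS (C w * X) + qS d :=
    qS_of_mul (C w * X) d H (by simp) hd0 (by rw [hH, e1, hd]; ring)
  have hgeo : ∀ a : ℝ, (1 - C a * X)⁻¹ = geo a := by
    intro a
    have h1 := geo_mul a
    have h2 : (1 - C a * X) * (1 - C a * X)⁻¹ = 1 := PowerSeries.mul_inv_cancel _ (by simp)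
    calc (1 - C a * X)⁻¹ = (1 - C a * X)⁻¹ * ((1 - C a * X) * geo a) := by rw [h1, mul_one]
      _ = ((1 - C a * X) * (1 - C a * X)⁻¹) * geo a := by ring
      _ = geo a := by rw [h2, one_mul]
  have hq : ∀ a : ℝ, coeff k (qS (C a * X)) = a ^ k := by
    intro a
    obtain ⟨m, rfl⟩ : ∃ m, k = m + 1 := ⟨k - 1, by omega⟩
    rw [qS, hgeo]
    have : d⁄dX ℝ (C a * X) = C a := by
      rw [Derivation.leibniz]; simp
    rw [this, mul_assoc, coeff_succ_X_mul, coeff_C_mul, coeff_geo, pow_succ]; ring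
  have hX : qS (X : ℝ⟦X⟧) = qS (C 1 * X) := by simp
  have := congrArg (coeff k) (q1.symm.trans q2)
  rw [map_add, map_add, hX, hq, hq, one_pow] at this
  have hpos := hdpos.coeff_qS_nonneg hd0 k
  linarith

theorem sum_mom1_le (k : ℕ) (hk : 1 ≤ k) (σ ν : ι → ℝ) (hσ0 : ∀ j, 0 ≤ σ j)
    (hσ1 : ∀ j, σ j ≤ 1) (hν : ∀ j, 0 ≤ ν j) (h : coeff k (qS (mom1 σ ν)) ≤ 1 / 2) :
    ∑ j, ν j * ∑ i ∈ range k, σ j ^ i ≤ 3 / 2 := by
  by_contra hcon
  push Not at hcon
  have hk0 : (0 : ℝ) < k := by exact_mod_cast hk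
  set w : ℝ := 1 + 1 / (2 * k) with hw
  have hw1 : 1 < w := by rw [hw]; have : (0:ℝ) < 1 / (2 * k) := by positivity
                         linarith
  have hwσ : ∀ j, 0 < w - σ j := fun j => by linarith [hσ1 j]
  have hgeo : ∀ j, ∑ i ∈ range k, σ j ^ i ≤ (3 / 2) / (w - σ j) := by
    intro j
    rw [le_div_iff₀ (hwσ j)]
    have h1 : (∑ i ∈ range k, σ j ^ i) * (1 - σ j) = 1 - σ j ^ k := geom_sum_mul_neg (σ j) k
    have h2 : ∑ i ∈ range k, σ j ^ i ≤ k := by
      calc ∑ i ∈ range k, σ j ^ i ≤ ∑ i ∈ range k, (1 : ℝ) :=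
            Finset.sum_le_sum fun i _ => pow_le_one₀ (hσ0 j) (hσ1 j)
        _ = k := by simp
    have h3 : (∑ i ∈ range k, σ j ^ i) * (1 / (2 * k)) ≤ 1 / 2 := by
      calc (∑ i ∈ range k, σ j ^ i) * (1 / (2 * k)) ≤ k * (1 / (2 * k)) :=
            mul_le_mul_of_nonneg_right h2 (by positivity)
        _ = 1 / 2 := by field_simp
    have h4 : 0 ≤ σ j ^ k := pow_nonneg (hσ0 j) k
    calc (∑ i ∈ range k, σ j ^ i) * (w - σ j)
        = (∑ i ∈ range k, σ j ^ i) * (1 - σ j) + (∑ i ∈ range k, σ j ^ i) * (1 / (2 * k)) := by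
          rw [hw]; ring
      _ ≤ 3 / 2 := by rw [h1]; linarith
  set Θ : ℝ := ∑ j, ν j / (w - σ j) with hΘ
  have hΘ1 : 1 < Θ := by
    have : ∑ j, ν j * ∑ i ∈ range k, σ j ^ i ≤ (3 / 2) * Θ := by
      rw [hΘ, Finset.mul_sum]
      apply Finset.sum_le_sum
      intro j _
      calc ν j * ∑ i ∈ range k, σ j ^ i ≤ ν j * ((3 / 2) / (w - σ j)) :=
            mul_le_mul_of_nonneg_left (hgeo j) (hν j)
        _ = 3 / 2 * (ν j / (w - σ j)) := by ring
    linarith
  have hΘ0 : 0 < Θ := by linarith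
  have hsum1 : ∑ j, (ν j / Θ) / (w - σ j) = 1 := by
    have : ∑ j, (ν j / Θ) / (w - σ j) = (∑ j, ν j / (w - σ j)) / Θ := by
      rw [Finset.sum_div]
      apply Finset.sum_congr rfl
      intro j _
      rw [div_div, div_div, mul_comm]
    rw [this, ← hΘ]; exact div_self hΘ0.ne'
  have hν' : ∀ j, 0 ≤ ν j / Θ := fun j => div_nonneg (hν j) hΘ0.le
  have key := coeff_qS_mom1_ge k w hw1 σ (fun j => ν j / Θ) hσ0 hσ1 hν' hsum1 hk
  have hpow : (3 : ℝ) / 2 ≤ w ^ k := by
    have := one_add_mul_le_pow (a := 1 / (2 * (k : ℝ))) (by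
      have : (0:ℝ) ≤ 1 / (2 * k) := by positivity
      linarith) k
    calc (3 : ℝ) / 2 = 1 + k * (1 / (2 * k)) := by field_simp; norm_num
      _ ≤ _ := this
  have hge : Θ * coeff k (qS (mom1 σ (fun j => ν j / Θ))) ≤ coeff k (qS (mom1 σ ν)) := by
    rw [coeff_qS _ (constantCoeff_mom1 _ _), coeff_qS _ (constantCoeff_mom1 _ _), Finset.mul_sum]
    apply Finset.sum_le_sum
    intro n _
    have e : mom1 σ ν = C Θ * mom1 σ (fun j => ν j / Θ) := by
      rw [mom1, mom1, Finset.mul_sum]
      apply Finset.sum_congr rfl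
      intro j _
      have : C (ν j) = C Θ * C (ν j / Θ) := by
        rw [← map_mul]; congr 1; field_simp
      rw [this]; ring
    have hp := (CPos.mom1 σ (fun j => ν j / Θ) hσ0 hν').pow (n + 1) k
    rw [e, mul_pow, ← map_pow, coeff_C_mul]
    have h1 : Θ ≤ Θ ^ (n + 1) := by
      calc Θ = Θ ^ 1 := (pow_one _).symm
        _ ≤ Θ ^ (n + 1) := pow_le_pow_right₀ hΘ1.le (by omega)
    have h2 : 0 ≤ (k : ℝ) / (n + 1) * coeff k (mom1 σ (fun j => ν j / Θ) ^ (n + 1)) := by
      positivity
    calc Θ * ((k : ℝ) / (n + 1) * coeff k (mom1 σ (fun j => ν j / Θ) ^ (n + 1)))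
        ≤ Θ ^ (n + 1) * ((k : ℝ) / (n + 1) * coeff k (mom1 σ (fun j => ν j / Θ) ^ (n + 1))) :=
          mul_le_mul_of_nonneg_right h1 h2
      _ = _ := by ring
  nlinarith

/-- restriction of a weight to a set -/
noncomputable def restr (A : ι → Prop) [DecidablePred A] (μ : ι → ℝ) : ι → ℝ :=
  fun j => if A j then μ j else 0

theorem mom_restr (A : ι → Prop) [DecidablePred A] (s μ : ι → ℝ) :
    mom s (restr A μ) = mom (fun j => if A j then s j else 0) (restr A μ) := by
  rw [mom, mom]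
  apply Finset.sum_congr rfl
  intro j _
  by_cases h : A j
  · simp [restr, h]
  · simp [restr, h]

theorem even_sum_nonneg_part (k : ℕ) (hk : 1 ≤ k) (s μ : ι → ℝ) (hμ : ∀ j, 0 ≤ μ j)
    (h : q k s μ ≤ 1) :
    ∑ j, restr (fun j => 0 ≤ s j ∧ s j ≤ 1) μ j * ∑ i ∈ range k, s j ^ (2 * i) ≤ 3 / 2 := by
  classical
  set A : ι → Prop := fun j => 0 ≤ s j ∧ s j ≤ 1 with hA
  set ν := restr A μ with hν
  have hν0 : ∀ j, 0 ≤ ν j := by
    intro j; simp only [hν, restr]; split_ifs
    · exact hμ j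
    · exact le_rfl
  have hνμ : ∀ j, ν j ≤ μ j := by
    intro j; simp only [hν, restr]; split_ifs
    · exact le_rfl
    · exact hμ j
  have h1 : q k s ν ≤ 1 := (q_mono k s ν μ hν0 hνμ).trans h
  set s' : ι → ℝ := fun j => if A j then s j else 0 with hs'
  have h2 : q k s' ν ≤ 1 := by
    rw [q, ← mom_restr A s μ]; exact h1
  have hs0 : ∀ j, 0 ≤ s' j := by
    intro j; simp only [hs']; split_ifs with hj
    · exact hj.1
    · exact le_rfl
  have hs1 : ∀ j, s' j ≤ 1 := by
    intro j; simp only [hs']; split_ifs with hj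
    · exact hj.2
    · norm_num
  have h3 := q_ge_two_mul k s' ν hs0 hν0
  have h4 : coeff k (qS (mom1 (fun j => s' j ^ 2) ν)) ≤ 1 / 2 := by linarith
  have h5 := sum_mom1_le k hk (fun j => s' j ^ 2) ν (fun j => sq_nonneg _)
    (fun j => pow_le_one₀ (hs0 j) (hs1 j)) hν0 h4
  refine le_trans (le_of_eq ?_) h5
  apply Finset.sum_congr rfl
  intro j _
  by_cases hj : A j
  · simp only [hs', hj, if_true]
    congr 1
    apply Finset.sum_congr rfl
    intro i _
    rw [pow_mul]
  · have : ν j = 0 := by simp [hν, restr, hj]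
    simp [this]

/-! ### symmetries -/

theorem mom_rescale (a : ℝ) (s μ : ι → ℝ) :
    mom (fun j => a * s j) (fun j => a ^ 2 * μ j) = rescale a (mom s μ) := by
  ext n
  rw [coeff_rescale]
  rcases n with _ | _ | n
  · rw [coeff_mom_zero, coeff_mom_zero, mul_zero]
  · rw [coeff_mom_one, coeff_mom_one, mul_zero]
  · rw [coeff_mom_add_two, coeff_mom_add_two, Finset.mul_sum]
    apply Finset.sum_congr rfl
    intro j _
    rw [mul_pow, pow_add]; ring

theorem q_rescale (k : ℕ) (a : ℝ) (s μ : ι → ℝ) :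
    q k (fun j => a * s j) (fun j => a ^ 2 * μ j) = a ^ (2 * k) * q k s μ := by
  rw [q_eq_sum, q_eq_sum, mom_rescale, Finset.mul_sum]
  apply Finset.sum_congr rfl
  intro n _
  rw [← map_pow, coeff_rescale]; ring

theorem q_neg (k : ℕ) (s μ : ι → ℝ) : q k (fun j => - s j) μ = q k s μ := by
  have := q_rescale k (-1) s μ
  have e1 : (fun j => (-1 : ℝ) * s j) = fun j => - s j := by ext j; ring
  have e2 : (fun j => (-1 : ℝ) ^ 2 * μ j) = μ := by ext j; ring
  rw [e1, e2] at this
  rw [this, pow_mul]; norm_num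

/-- the linear functional -/
noncomputable def Jfun (k : ℕ) (s μ : ι → ℝ) : ℝ :=
  ∑ j, μ j * (∑ i ∈ range k, s j ^ (2 * i) + k * s j ^ (2 * k - 2))

theorem Jfun_le (k : ℕ) (hk : 1 ≤ k) (s μ : ι → ℝ) (hμ : ∀ j, 0 ≤ μ j) (h : q k s μ ≤ 1) :
    Jfun k s μ ≤ 4 := by
  classical
  have hp := even_sum_nonneg_part k hk s μ hμ h
  have hn := even_sum_nonneg_part k hk (fun j => - s j) μ hμ (by rw [q_neg]; exact h)
  have hf := q_ge_first k hk s μ hμ
  have hkR : (1 : ℝ) ≤ k := by exact_mod_cast hk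
  set E : ℝ := ∑ j, μ j * s j ^ (2 * k - 2) with hE
  have hfirst : (k : ℝ) * E ≤ 1 / 2 := by nlinarith
  have hev : ∀ j, 0 ≤ s j ^ (2 * k - 2) := by
    intro j
    have : 2 * k - 2 = 2 * (k - 1) := by omega
    rw [this, pow_mul]; positivity
  have hterm : ∀ j, μ j * ∑ i ∈ range k, s j ^ (2 * i) ≤
      restr (fun j => 0 ≤ s j ∧ s j ≤ 1) μ j * ∑ i ∈ range k, s j ^ (2 * i)
      + restr (fun j => 0 ≤ - s j ∧ - s j ≤ 1) μ j * ∑ i ∈ range k, (- s j) ^ (2 * i)
      + k * (μ j * s j ^ (2 * k - 2)) := by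
    intro j
    have hsum0 : 0 ≤ ∑ i ∈ range k, s j ^ (2 * i) := by
      apply Finset.sum_nonneg; intro i _; rw [pow_mul]; positivity
    have hneg : ∑ i ∈ range k, (- s j) ^ (2 * i) = ∑ i ∈ range k, s j ^ (2 * i) := by
      apply Finset.sum_congr rfl; intro i _; rw [pow_mul, pow_mul, neg_sq]
    rw [hneg]
    have hb : 0 ≤ (k : ℝ) * (μ j * s j ^ (2 * k - 2)) :=
      mul_nonneg (by positivity) (mul_nonneg (hμ j) (hev j))
    have hr1 : 0 ≤ restr (fun j => 0 ≤ s j ∧ s j ≤ 1) μ j := by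
      simp only [restr]; split_ifs; exacts [hμ j, le_rfl]
    have hr2 : 0 ≤ restr (fun j => 0 ≤ - s j ∧ - s j ≤ 1) μ j := by
      simp only [restr]; split_ifs; exacts [hμ j, le_rfl]
    by_cases h1 : 0 ≤ s j ∧ s j ≤ 1
    · have : restr (fun j => 0 ≤ s j ∧ s j ≤ 1) μ j = μ j := by simp [restr, h1]
      rw [this]
      have := mul_nonneg hr2 hsum0
      linarith
    · by_cases h2 : 0 ≤ - s j ∧ - s j ≤ 1
      · have : restr (fun j => 0 ≤ - s j ∧ - s j ≤ 1) μ j = μ j := by
          simp only [restr]; rw [if_pos h2]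
        rw [this]
        have := mul_nonneg hr1 hsum0
        linarith
      · -- |s j| > 1
        have hs : 1 ≤ s j ^ 2 := by
          by_contra hlt
          push Not at hlt
          have hab : |s j| < 1 := by
            rw [← sq_lt_one_iff_abs_lt_one]; exact hlt
          rw [abs_lt] at hab
          rcases le_total 0 (s j) with h0 | h0
          · exact h1 ⟨h0, hab.2.le⟩
          · exact h2 ⟨by linarith, by linarith⟩
        have hle : ∑ i ∈ range k, s j ^ (2 * i) ≤ k * s j ^ (2 * k - 2) := by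
          calc ∑ i ∈ range k, s j ^ (2 * i) ≤ ∑ i ∈ range k, s j ^ (2 * k - 2) := by
                apply Finset.sum_le_sum
                intro i hi
                have hi' := Finset.mem_range.mp hi
                have : 2 * k - 2 = 2 * (k - 1) := by omega
                rw [this, pow_mul, pow_mul]
                exact pow_le_pow_right₀ hs (by omega)
            _ = k * s j ^ (2 * k - 2) := by simp
        have h3 : μ j * ∑ i ∈ range k, s j ^ (2 * i) ≤ k * (μ j * s j ^ (2 * k - 2)) := by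
          calc μ j * ∑ i ∈ range k, s j ^ (2 * i) ≤ μ j * (k * s j ^ (2 * k - 2)) :=
                mul_le_mul_of_nonneg_left hle (hμ j)
            _ = _ := by ring
        have := mul_nonneg hr1 hsum0
        have := mul_nonneg hr2 hsum0
        linarith
  have hJ : Jfun k s μ = ∑ j, μ j * ∑ i ∈ range k, s j ^ (2 * i) + k * E := by
    rw [Jfun, hE, Finset.mul_sum, ← Finset.sum_add_distrib]
    apply Finset.sum_congr rfl
    intro j _
    ring
  have hsum := Finset.sum_le_sum (fun j (_ : j ∈ (Finset.univ : Finset ι)) => hterm j)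
  rw [Finset.sum_add_distrib, Finset.sum_add_distrib, ← Finset.mul_sum, ← hE] at hsum
  rw [hJ]
  have hn' : ∑ j, restr (fun j => 0 ≤ - s j ∧ - s j ≤ 1) μ j *
      ∑ i ∈ range k, (- s j) ^ (2 * i) ≤ 3 / 2 := hn
  linarith

end Crest.Agent.R109
end

-- ▼ part R109/OneSiteC
section

/-!
# One-site lemma, part C (row 109, helper135)

Main results: `q_div_le_one`, `oneSite`.
-/

set_option autoImplicit false

namespace Crest.Agent.R109

open PowerSeries Finset

variable {ι : Type*} [Fintype ι]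

theorem abs_coeff_pow_le {F G : ℝ⟦X⟧} (h : ∀ n, |coeff n F| ≤ coeff n G) (m : ℕ) :
    ∀ n, |coeff n (F ^ m)| ≤ coeff n (G ^ m) := by
  have hG : CPos G := fun n => (abs_nonneg _).trans (h n)
  induction m with
  | zero =>
    intro n
    rw [pow_zero, pow_zero, coeff_one]
    split_ifs <;> simp
  | succ m ih =>
    intro n
    rw [pow_succ, pow_succ, coeff_mul, coeff_mul]
    refine (Finset.abs_sum_le_sum_abs _ _).trans ?_
    apply Finset.sum_le_sum
    intro p _
    rw [abs_mul]
    exact mul_le_mul (ih _) (h _) (abs_nonneg _) (hG.pow m _)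

theorem abs_coeff_mom_le (s μ : ι → ℝ) (hμ : ∀ j, 0 ≤ μ j) (n : ℕ) :
    |coeff n (mom s μ)| ≤ coeff n (mom (fun j => |s j|) μ) := by
  rcases n with _ | _ | n
  · rw [coeff_mom_zero, coeff_mom_zero, abs_zero]
  · rw [coeff_mom_one, coeff_mom_one, abs_zero]
  · rw [coeff_mom_add_two, coeff_mom_add_two]
    refine (Finset.abs_sum_le_sum_abs _ _).trans (le_of_eq ?_)
    apply Finset.sum_congr rfl
    intro j _
    rw [abs_mul, abs_pow, abs_of_nonneg (hμ j)]

/-- truncated coefficient sums are submultiplicative on series with nonnegative coefficients -/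
theorem sum_coeff_mul_le {F G : ℝ⟦X⟧} (hF : CPos F) (hG : CPos G) (N : ℕ) :
    ∑ n ∈ range (N + 1), coeff n (F * G) ≤
      (∑ n ∈ range (N + 1), coeff n F) * ∑ n ∈ range (N + 1), coeff n G := by
  rw [Finset.sum_mul_sum, ← Finset.sum_product']
  have h1 : ∑ n ∈ range (N + 1), coeff n (F * G) =
      ∑ n ∈ range (N + 1), ∑ p ∈ antidiagonal n, coeff p.1 F * coeff p.2 G := by
    apply Finset.sum_congr rfl
    intro n _
    rw [coeff_mul]
  rw [h1, ← Finset.sum_biUnion]
  · apply Finset.sum_le_sum_of_subset_of_nonneg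
    · intro p hp
      rw [Finset.mem_biUnion] at hp
      obtain ⟨n, hn, hp⟩ := hp
      rw [HasAntidiagonal.mem_antidiagonal] at hp
      rw [Finset.mem_range] at hn
      rw [Finset.mem_product, Finset.mem_range, Finset.mem_range]
      omega
    · intro p _ _
      exact mul_nonneg (hF _) (hG _)
  · intro a _ b _ hab
    rw [Function.onFun, Finset.disjoint_left]
    intro p hp hp'
    rw [HasAntidiagonal.mem_antidiagonal] at hp hp'
    exact hab (hp.symm.trans hp')

theorem sum_coeff_pow_le {F : ℝ⟦X⟧} (hF : CPos F) (N n : ℕ) :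
    ∑ i ∈ range (N + 1), coeff i (F ^ n) ≤ (∑ i ∈ range (N + 1), coeff i F) ^ n := by
  induction n with
  | zero =>
    rw [pow_zero, pow_zero, Finset.sum_eq_single 0]
    · simp
    · intro b _ hb; rw [coeff_one, if_neg hb]
    · intro h; simp at h
  | succ n ih =>
    rw [pow_succ, pow_succ]
    refine (sum_coeff_mul_le (hF.pow n) hF N).trans ?_
    exact mul_le_mul_of_nonneg_right ih (Finset.sum_nonneg fun i _ => hF i)

theorem coeff_pow_succ_le {G : ℝ⟦X⟧} (hG : CPos G) (N n : ℕ) (T : ℝ)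
    (hT : ∀ a, a ≤ N → (a : ℝ) * coeff a G ≤ T) :
    (N : ℝ) / (n + 1) * coeff N (G ^ (n + 1)) ≤ T * (∑ i ∈ range (N + 1), coeff i G) ^ n := by
  rw [← coeff_X_mul_derivative_mul_pow, coeff_mul,
    Finset.Nat.sum_antidiagonal_eq_sum_range_succ_mk]
  simp only [coeff_X_mul_derivative]
  have hT0 : 0 ≤ T := by have := hT 0 (Nat.zero_le _); simpa using this
  calc ∑ k ∈ range N.succ, (k : ℝ) * coeff k G * coeff (N - k) (G ^ n)
      ≤ ∑ k ∈ range N.succ, T * coeff (N - k) (G ^ n) := by
        apply Finset.sum_le_sum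
        intro a ha
        have := Finset.mem_range.mp ha
        exact mul_le_mul_of_nonneg_right (hT a (by omega)) (hG.pow n _)
    _ = T * ∑ k ∈ range (N + 1), coeff k (G ^ n) := by
        rw [← Finset.mul_sum]
        congr 1
        exact Finset.sum_range_reflect (fun k => coeff k (G ^ n)) (N + 1)
    _ ≤ _ := mul_le_mul_of_nonneg_left (sum_coeff_pow_le hG N n) hT0

theorem sum_pow_le_even (t : ℝ) (ht : 0 ≤ t) (k : ℕ) :
    ∑ l ∈ range (2 * k + 1), t ^ l ≤ 2 * ∑ i ∈ range (k + 1), t ^ (2 * i) - (1 + t ^ (2 * k)) / 2 := by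
  induction k with
  | zero => simp; norm_num
  | succ k ih =>
    have e : 2 * (k + 1) + 1 = (2 * k + 1) + 1 + 1 := by ring
    rw [e, Finset.sum_range_succ, Finset.sum_range_succ, Finset.sum_range_succ _ (k + 1)]
    have h1 : t ^ (2 * k + 1) ≤ (t ^ (2 * k) + t ^ (2 * k + 1 + 1)) / 2 := by
      have h2 : 0 ≤ t ^ (2 * k) * (1 - t) ^ 2 := mul_nonneg (pow_nonneg ht _) (sq_nonneg _)
      have h3 : t ^ (2 * k) * (1 - t) ^ 2 = t ^ (2 * k) - 2 * t ^ (2 * k + 1) + t ^ (2 * k + 1 + 1) := by
        ring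
      linarith
    have e2 : 2 * (k + 1) = 2 * k + 1 + 1 := by ring
    rw [e2]
    linarith

theorem sum_pow_le_even' (t : ℝ) (ht : 0 ≤ t) (k : ℕ) (hk : 1 ≤ k) :
    ∑ l ∈ range (2 * k - 1), t ^ l ≤ 2 * ∑ i ∈ range k, t ^ (2 * i) := by
  obtain ⟨m, rfl⟩ : ∃ m, k = m + 1 := ⟨k - 1, by omega⟩
  have := sum_pow_le_even t ht m
  have e : 2 * (m + 1) - 1 = 2 * m + 1 := by omega
  rw [e]
  have := pow_nonneg ht (2 * m)
  linarith

theorem mul_pow_le (t : ℝ) (ht : 0 ≤ t) (k : ℕ) (hk : 1 ≤ k) (i : ℕ) (hi : i + 2 ≤ 2 * k) :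
    ((i : ℝ) + 2) * t ^ i ≤ 2 * ∑ l ∈ range (2 * k - 1), t ^ l + 2 * k * t ^ (2 * k - 2) := by
  have hsum0 : 0 ≤ ∑ l ∈ range (2 * k - 1), t ^ l := Finset.sum_nonneg fun l _ => pow_nonneg ht l
  rcases le_total t 1 with h1 | h1
  · have h2 : ((i : ℝ) + 1) * t ^ i ≤ ∑ l ∈ range (i + 1), t ^ l := by
      calc ((i : ℝ) + 1) * t ^ i = ∑ l ∈ range (i + 1), t ^ i := by simp
        _ ≤ _ := by
          apply Finset.sum_le_sum
          intro l hl
          have := Finset.mem_range.mp hl
          exact pow_le_pow_of_le_one ht h1 (by omega)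
    have h3 : ∑ l ∈ range (i + 1), t ^ l ≤ ∑ l ∈ range (2 * k - 1), t ^ l := by
      apply Finset.sum_le_sum_of_subset_of_nonneg
      · intro l hl
        rw [Finset.mem_range] at hl ⊢; omega
      · intro l _ _; exact pow_nonneg ht l
    have h4 : 0 ≤ (i : ℝ) * t ^ i := mul_nonneg (by positivity) (pow_nonneg ht i)
    have h5 : 0 ≤ 2 * (k : ℝ) * t ^ (2 * k - 2) := mul_nonneg (by positivity) (pow_nonneg ht _)
    nlinarith
  · have h2 : t ^ i ≤ t ^ (2 * k - 2) := pow_le_pow_right₀ h1 (by omega)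
    have h3 : (i : ℝ) + 2 ≤ 2 * k := by exact_mod_cast hi
    have h4 : ((i : ℝ) + 2) * t ^ i ≤ 2 * k * t ^ (2 * k - 2) :=
      mul_le_mul h3 h2 (pow_nonneg ht i) (by positivity)
    linarith

theorem mom_div (s μ : ι → ℝ) (K : ℝ) :
    mom s (fun j => μ j / K) = C (K⁻¹) * mom s μ := by
  rw [mom, mom, Finset.mul_sum]
  apply Finset.sum_congr rfl
  intro j _
  have : C (μ j / K) = C K⁻¹ * C (μ j) := by
    rw [← map_mul]; congr 1; rw [div_eq_mul_inv, mul_comm]
  rw [this]; ring

/-- (b) of the one-site lemma -/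
theorem q_div_le_one (k : ℕ) (hk : 1 ≤ k) (s μ : ι → ℝ) (hμ : ∀ j, 0 ≤ μ j) (K : ℝ) (hK : 0 < K)
    (h : 6 * Jfun k s μ ≤ K) : q k s (fun j => μ j / K) ≤ 1 := by
  have hkR : (1 : ℝ) ≤ k := by exact_mod_cast hk
  set G := mom (fun j => |s j|) μ with hG
  have hGpos : CPos G := CPos.mom _ _ (fun j => abs_nonneg _) hμ
  set D : ℝ := ∑ i ∈ range (2 * k + 1), coeff i G with hD
  have hD0 : 0 ≤ D := Finset.sum_nonneg fun i _ => hGpos i
  set E : ℝ := ∑ j, μ j * ∑ i ∈ range k, s j ^ (2 * i) with hE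
  set P : ℝ := ∑ j, μ j * s j ^ (2 * k - 2) with hP
  have hJ : Jfun k s μ = E + k * P := by
    rw [Jfun, hE, hP, Finset.mul_sum, ← Finset.sum_add_distrib]
    apply Finset.sum_congr rfl
    intro j _
    ring
  have habs : ∀ j, |s j| ^ (2 * k - 2) = s j ^ (2 * k - 2) := by
    intro j
    have : 2 * k - 2 = 2 * (k - 1) := by omega
    rw [this, pow_mul, pow_mul, sq_abs]
  have habs2 : ∀ j i, |s j| ^ (2 * i) = s j ^ (2 * i) := by
    intro j i; rw [pow_mul, pow_mul, sq_abs]
  have hP0 : 0 ≤ P := by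
    apply Finset.sum_nonneg
    intro j _
    rw [← habs j]
    exact mul_nonneg (hμ j) (pow_nonneg (abs_nonneg _) _)
  have hE0 : 0 ≤ E := by
    apply Finset.sum_nonneg
    intro j _
    refine mul_nonneg (hμ j) (Finset.sum_nonneg fun i _ => ?_)
    rw [← habs2 j]
    exact pow_nonneg (abs_nonneg _) _
  -- D as a moment sum
  have hDeq : D = ∑ j, μ j * ∑ l ∈ range (2 * k - 1), |s j| ^ l := by
    rw [hD]
    have e : 2 * k + 1 = (2 * k - 1) + 1 + 1 := by omega
    rw [e, Finset.sum_range_succ', Finset.sum_range_succ']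
    rw [hG, coeff_mom_zero, coeff_mom_one, add_zero, add_zero]
    simp only [add_assoc, Nat.reduceAdd, coeff_mom_add_two]
    rw [Finset.sum_comm]
    apply Finset.sum_congr rfl
    intro j _
    rw [Finset.mul_sum]
  have hDE : D ≤ 2 * E := by
    rw [hDeq, hE, Finset.mul_sum]
    apply Finset.sum_le_sum
    intro j _
    have := sum_pow_le_even' |s j| (abs_nonneg _) k hk
    simp only [habs2] at this
    calc μ j * ∑ l ∈ range (2 * k - 1), |s j| ^ l
        ≤ μ j * (2 * ∑ i ∈ range k, s j ^ (2 * i)) := mul_le_mul_of_nonneg_left this (hμ j)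
      _ = _ := by ring
  set T : ℝ := 2 * D + 2 * k * P with hT
  have hTb : ∀ a, a ≤ 2 * k → (a : ℝ) * coeff a G ≤ T := by
    intro a ha
    rcases a with _ | _ | i
    · simp only [Nat.cast_zero, zero_mul]
      positivity
    · rw [hG, coeff_mom_one, mul_zero]
      positivity
    · rw [hG, coeff_mom_add_two, Finset.mul_sum, hT, hDeq, hP, Finset.mul_sum, Finset.mul_sum,
        ← Finset.sum_add_distrib]
      apply Finset.sum_le_sum
      intro j _
      have := mul_pow_le |s j| (abs_nonneg _) k hk i (by omega)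
      rw [habs] at this
      have h2 := mul_le_mul_of_nonneg_left this (hμ j)
      push_cast
      calc ((i : ℝ) + 1 + 1) * (μ j * |s j| ^ i) = μ j * (((i : ℝ) + 2) * |s j| ^ i) := by ring
        _ ≤ _ := h2
        _ = _ := by ring
  have hT0 : 0 ≤ T := by positivity
  -- K - D > 0 and T ≤ K - D
  have hTK : T + D ≤ K := by
    rw [hJ] at h
    nlinarith
  by_cases hTz : T = 0
  · -- everything vanishes
    have hD00 : D = 0 := by nlinarith [mul_nonneg (by positivity : (0:ℝ) ≤ 2 * k) hP0]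
    rw [q_eq_sum]
    have : ∀ n ∈ range (2 * k + 1), ((2 * k : ℕ) : ℝ) / (n + 1) *
        coeff (2 * k) (mom s (fun j => μ j / K) ^ (n + 1)) ≤ 0 := by
      intro n _
      rw [mom_div, mul_pow, ← map_pow, coeff_C_mul]
      have h1 := abs_coeff_pow_le (abs_coeff_mom_le s μ hμ) (n + 1) (2 * k)
      have h2 := coeff_pow_succ_le hGpos (2 * k) n T hTb
      rw [hTz, zero_mul] at h2
      have h3 : coeff (2 * k) (mom s μ ^ (n + 1)) ≤ coeff (2 * k) (G ^ (n + 1)) :=
        (le_abs_self _).trans h1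
      have h4 : ((2 * k : ℕ) : ℝ) / (n + 1) * coeff (2 * k) (mom s μ ^ (n + 1)) ≤ 0 :=
        (mul_le_mul_of_nonneg_left h3 (by positivity)).trans h2
      have h5 : 0 ≤ (K⁻¹) ^ (n + 1) := by positivity
      calc ((2 * k : ℕ) : ℝ) / (n + 1) * (K⁻¹ ^ (n + 1) * coeff (2 * k) (mom s μ ^ (n + 1)))
          = K⁻¹ ^ (n + 1) * (((2 * k : ℕ) : ℝ) / (n + 1) * coeff (2 * k) (mom s μ ^ (n + 1))) := by
            ring
        _ ≤ 0 := mul_nonpos_of_nonneg_of_nonpos h5 h4
    exact (Finset.sum_nonpos this).trans zero_le_one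
  · have hTpos : 0 < T := lt_of_le_of_ne hT0 (Ne.symm hTz)
    have hKD : 0 < K - D := by linarith
    rw [q_eq_sum]
    have hterm : ∀ n ∈ range (2 * k + 1), ((2 * k : ℕ) : ℝ) / (n + 1) *
        coeff (2 * k) (mom s (fun j => μ j / K) ^ (n + 1)) ≤ T / K * (D / K) ^ n := by
      intro n _
      rw [mom_div, mul_pow, ← map_pow, coeff_C_mul]
      have h1 := abs_coeff_pow_le (abs_coeff_mom_le s μ hμ) (n + 1) (2 * k)
      have h2 := coeff_pow_succ_le hGpos (2 * k) n T hTb
      have h3 : coeff (2 * k) (mom s μ ^ (n + 1)) ≤ coeff (2 * k) (G ^ (n + 1)) :=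
        (le_abs_self _).trans h1
      have h4 : ((2 * k : ℕ) : ℝ) / (n + 1) * coeff (2 * k) (mom s μ ^ (n + 1)) ≤ T * D ^ n :=
        (mul_le_mul_of_nonneg_left h3 (by positivity)).trans h2
      have h5 : 0 ≤ (K⁻¹) ^ (n + 1) := by positivity
      calc ((2 * k : ℕ) : ℝ) / (n + 1) * (K⁻¹ ^ (n + 1) * coeff (2 * k) (mom s μ ^ (n + 1)))
          = K⁻¹ ^ (n + 1) * (((2 * k : ℕ) : ℝ) / (n + 1) * coeff (2 * k) (mom s μ ^ (n + 1))) := by
            ring
        _ ≤ K⁻¹ ^ (n + 1) * (T * D ^ n) := mul_le_mul_of_nonneg_left h4 h5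
        _ = T / K * (D / K) ^ n := by
            rw [div_pow, pow_succ, inv_pow]
            field_simp
    refine (Finset.sum_le_sum hterm).trans ?_
    rw [← Finset.mul_sum]
    have hx0 : 0 ≤ D / K := by positivity
    have hx1 : D / K < 1 := by rw [div_lt_one hK]; linarith
    have hgs : ∑ n ∈ range (2 * k + 1), (D / K) ^ n ≤ 1 / (1 - D / K) := by
      rw [le_div_iff₀ (by linarith), geom_sum_mul_neg]
      have := pow_nonneg hx0 (2 * k + 1)
      linarith
    calc T / K * ∑ n ∈ range (2 * k + 1), (D / K) ^ n ≤ T / K * (1 / (1 - D / K)) :=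
          mul_le_mul_of_nonneg_left hgs (by positivity)
      _ = T / (K - D) := by
          have : K - D ≠ 0 := hKD.ne'
          have h2 : 1 - D / K ≠ 0 := by
            intro h0
            have : D / K = 1 := by linarith
            linarith
          field_simp
      _ ≤ 1 := by rw [div_le_one hKD]; linarith

theorem Jfun_nonneg (k : ℕ) (s μ : ι → ℝ) (hμ : ∀ j, 0 ≤ μ j) : 0 ≤ Jfun k s μ := by
  apply Finset.sum_nonneg
  intro j _
  refine mul_nonneg (hμ j) (add_nonneg (Finset.sum_nonneg fun i _ => ?_) ?_)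
  · rw [pow_mul]; positivity
  · rcases k with _ | k
    · simp
    · have : 2 * (k + 1) - 2 = 2 * k := by omega
      rw [this, pow_mul]; positivity

theorem Jfun_sum {κ : Type*} [Fintype κ] (k : ℕ) (s : ι → ℝ) (f : κ → ℝ) (m : κ → ι → ℝ) :
    Jfun k s (fun j => ∑ c, f c * m c j) = ∑ c, f c * Jfun k s (m c) := by
  simp only [Jfun, Finset.sum_mul, Finset.mul_sum]
  rw [Finset.sum_comm]
  apply Finset.sum_congr rfl
  intro c _
  apply Finset.sum_congr rfl
  intro j _
  ring

theorem q_zero (k : ℕ) (s : ι → ℝ) : q k s (fun _ => 0) = 0 := by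
  rw [q_eq_sum]
  apply Finset.sum_eq_zero
  intro n _
  have : mom s (fun _ : ι => (0 : ℝ)) = 0 := by simp [mom]
  rw [this, zero_pow (Nat.succ_ne_zero n), map_zero, mul_zero]

/-- Scaled form of the `J` bound. -/
theorem Jfun_scaled_le (k : ℕ) (hk : 1 ≤ k) (s μ : ι → ℝ) (hμ : ∀ j, 0 ≤ μ j) (t : ℝ) (ht : 0 < t)
    (h : q k s μ ≤ t ^ (2 * k)) :
    Jfun k (fun j => t⁻¹ * s j) (fun j => t⁻¹ ^ 2 * μ j) ≤ 4 := by
  apply Jfun_le k hk
  · intro j; exact mul_nonneg (by positivity) (hμ j)
  · rw [q_rescale]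
    have h0 : 0 < t ^ (2 * k) := pow_pos ht _
    rw [inv_pow, inv_mul_le_iff₀ h0, mul_one]
    exact h

theorem q_scaled_div_le (k : ℕ) (hk : 1 ≤ k) (s μ : ι → ℝ) (hμ : ∀ j, 0 ≤ μ j) (t : ℝ) (ht : 0 < t)
    (K : ℝ) (hK : 0 < K)
    (h : 6 * Jfun k (fun j => t⁻¹ * s j) (fun j => t⁻¹ ^ 2 * μ j) ≤ K) :
    q k s (fun j => μ j / K) ≤ t ^ (2 * k) := by
  have h1 := q_div_le_one k hk (fun j => t⁻¹ * s j) (fun j => t⁻¹ ^ 2 * μ j)
    (fun j => mul_nonneg (by positivity) (hμ j)) K hK h
  have e : (fun j => t⁻¹ ^ 2 * μ j / K) = fun j => t⁻¹ ^ 2 * (μ j / K) := by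
    ext j; ring
  rw [e, q_rescale, inv_pow, inv_mul_le_iff₀ (pow_pos ht _), mul_one] at h1
  exact h1

/-- **One-site lemma** (row 109).  `m c` are the colour measures (common atoms `s`), `f` the colour
probabilities, `m̄ = ∑ f c • m c`.  If `24/ρ ≤ K`, then all colours outside a set of probability at
most `ρ` satisfy `q(m_c/K) ≤ q(m̄)`. -/
theorem oneSite {κ : Type*} [Fintype κ] (k : ℕ) (hk : 1 ≤ k) (s : ι → ℝ) (f : κ → ℝ)
    (hf0 : ∀ c, 0 ≤ f c) (hf1 : ∑ c, f c = 1) (m : κ → ι → ℝ) (hm : ∀ c j, 0 ≤ m c j)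
    (ρ : ℝ) (hρ : 0 < ρ) (K : ℝ) (hK : 24 / ρ ≤ K) :
    ∃ good : Finset κ,
      (∀ c ∈ good, q k s (fun j => m c j / K) ≤ q k s (fun j => ∑ c, f c * m c j)) ∧
      1 - ρ ≤ ∑ c ∈ good, f c := by
  classical
  have hKpos : 0 < K := lt_of_lt_of_le (by positivity) hK
  set mb : ι → ℝ := fun j => ∑ c, f c * m c j with hmb
  have hmb0 : ∀ j, 0 ≤ mb j := fun j => Finset.sum_nonneg fun c _ => mul_nonneg (hf0 c) (hm c j)
  have hq0 : 0 ≤ q k s mb := q_nonneg k s mb hmb0
  rcases hq0.eq_or_lt with hz | hpos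
  · -- q(mb) = 0: then mb = 0
    have hmbz : ∀ j, mb j = 0 := by
      intro j
      by_contra hne
      have hjpos : 0 < mb j := lt_of_le_of_ne (hmb0 j) (Ne.symm hne)
      set t : ℝ := Real.sqrt (mb j / 8) with ht
      have htpos : 0 < t := Real.sqrt_pos.mpr (by positivity)
      have ht2 : t ^ 2 = mb j / 8 := Real.sq_sqrt (by positivity)
      have h1 := Jfun_scaled_le k hk s mb hmb0 t htpos (by rw [← hz]; positivity)
      have h2 : t⁻¹ ^ 2 * mb j ≤ Jfun k (fun j => t⁻¹ * s j) (fun j => t⁻¹ ^ 2 * mb j) := by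
        rw [Jfun]
        have hterm : ∀ i, 0 ≤ t⁻¹ ^ 2 * mb i *
            (∑ l ∈ range k, (t⁻¹ * s i) ^ (2 * l) + k * (t⁻¹ * s i) ^ (2 * k - 2)) := by
          intro i
          refine mul_nonneg (mul_nonneg (by positivity) (hmb0 i)) (add_nonneg
            (Finset.sum_nonneg fun l _ => ?_) ?_)
          · rw [pow_mul]; positivity
          · have : 2 * k - 2 = 2 * (k - 1) := by omega
            rw [this, pow_mul]; positivity
        refine le_trans ?_ (Finset.single_le_sum (f := fun i => t⁻¹ ^ 2 * mb i *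
            (∑ l ∈ range k, (t⁻¹ * s i) ^ (2 * l) + k * (t⁻¹ * s i) ^ (2 * k - 2)))
            (fun i _ => hterm i) (Finset.mem_univ j))
        have h3 : (1 : ℝ) ≤ ∑ l ∈ range k, (t⁻¹ * s j) ^ (2 * l) := by
          have : (0 : ℕ) ∈ range k := Finset.mem_range.mpr hk
          refine le_trans ?_ (Finset.single_le_sum (f := fun l => (t⁻¹ * s j) ^ (2 * l))
            (fun l _ => by simp only [pow_mul]; positivity) this)
          simp
        have h4 : 0 ≤ (k : ℝ) * (t⁻¹ * s j) ^ (2 * k - 2) := by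
          have : 2 * k - 2 = 2 * (k - 1) := by omega
          rw [this, pow_mul]; positivity
        have h5 : 0 ≤ t⁻¹ ^ 2 * mb j := mul_nonneg (by positivity) (hmb0 j)
        calc t⁻¹ ^ 2 * mb j = t⁻¹ ^ 2 * mb j * 1 := (mul_one _).symm
          _ ≤ _ := mul_le_mul_of_nonneg_left (by linarith) h5
      have h3 : t⁻¹ ^ 2 * mb j = 8 := by
        rw [inv_pow, ht2]
        field_simp
      linarith
    refine ⟨univ.filter (fun c => f c ≠ 0), ?_, ?_⟩
    · intro c hc
      have hfc : f c ≠ 0 := (Finset.mem_filter.mp hc).2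
      have hmc : ∀ j, m c j = 0 := by
        intro j
        have h1 := hmbz j
        simp only [hmb] at h1
        rw [Finset.sum_eq_zero_iff_of_nonneg (fun c _ => mul_nonneg (hf0 c) (hm c j))] at h1
        exact (mul_eq_zero.mp (h1 c (Finset.mem_univ c))).resolve_left hfc
      have e1 : (fun j => m c j / K) = fun _ => (0 : ℝ) := by
        ext j; rw [hmc j, zero_div]
      rw [e1, q_zero]
      exact hq0
    · have : ∑ c ∈ univ.filter (fun c => f c ≠ 0), f c = 1 := by
        rw [Finset.sum_filter_ne_zero, hf1]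
      rw [this]; linarith
  · -- q(mb) = t^(2k), t > 0
    obtain ⟨t, ht, htq⟩ : ∃ t : ℝ, 0 < t ∧ t ^ (2 * k) = q k s mb := by
      refine ⟨(q k s mb) ^ ((1 : ℝ) / (2 * k : ℕ)), Real.rpow_pos_of_pos hpos _, ?_⟩
      rw [← Real.rpow_natCast, ← Real.rpow_mul hpos.le]
      have : ((2 * k : ℕ) : ℝ) ≠ 0 := by
        have : 0 < 2 * k := by omega
        positivity
      rw [one_div, inv_mul_cancel₀ this, Real.rpow_one]
    have h1 := Jfun_scaled_le k hk s mb hmb0 t ht htq.ge
    set J' : κ → ℝ := fun c => Jfun k (fun j => t⁻¹ * s j) (fun j => t⁻¹ ^ 2 * m c j) with hJ'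
    have hJ0 : ∀ c, 0 ≤ J' c := fun c =>
      Jfun_nonneg k _ _ (fun j => mul_nonneg (by positivity) (hm c j))
    have hsum : ∑ c, f c * J' c ≤ 4 := by
      have e : (fun j => t⁻¹ ^ 2 * mb j) = fun j => ∑ c, f c * (t⁻¹ ^ 2 * m c j) := by
        ext j
        simp only [hmb, Finset.mul_sum]
        apply Finset.sum_congr rfl
        intro c _
        ring
      rw [e, Jfun_sum] at h1
      exact h1
    refine ⟨univ.filter (fun c => J' c ≤ 4 / ρ), ?_, ?_⟩
    · intro c hc
      have hc' : J' c ≤ 4 / ρ := (Finset.mem_filter.mp hc).2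
      rw [← htq]
      apply q_scaled_div_le k hk s (m c) (hm c) t ht K hKpos
      calc 6 * J' c ≤ 6 * (4 / ρ) := by linarith
        _ = 24 / ρ := by ring
        _ ≤ K := hK
    · -- Markov
      have h2 : ∑ c ∈ univ.filter (fun c => ¬ J' c ≤ 4 / ρ), f c * (4 / ρ) ≤ 4 := by
        calc ∑ c ∈ univ.filter (fun c => ¬ J' c ≤ 4 / ρ), f c * (4 / ρ)
            ≤ ∑ c ∈ univ.filter (fun c => ¬ J' c ≤ 4 / ρ), f c * J' c := by
              apply Finset.sum_le_sum
              intro c hc
              have := (Finset.mem_filter.mp hc).2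
              push Not at this
              exact mul_le_mul_of_nonneg_left this.le (hf0 c)
          _ ≤ ∑ c, f c * J' c := by
              apply Finset.sum_le_sum_of_subset_of_nonneg (Finset.filter_subset _ _)
              intro c _ _
              exact mul_nonneg (hf0 c) (hJ0 c)
          _ ≤ 4 := hsum
      rw [← Finset.sum_mul] at h2
      have h3 : ∑ c ∈ univ.filter (fun c => ¬ J' c ≤ 4 / ρ), f c ≤ ρ := by
        have h4 : (∑ c ∈ univ.filter (fun c => ¬ J' c ≤ 4 / ρ), f c) * (4 / ρ) ≤ ρ * (4 / ρ) := by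
          have : ρ * (4 / ρ) = 4 := by field_simp
          rw [this]; exact h2
        exact le_of_mul_le_mul_right h4 (by positivity)
      have h5 := Finset.sum_filter_add_sum_filter_not univ (fun c => J' c ≤ 4 / ρ) f
      rw [hf1] at h5
      linarith


end Crest.Agent.R109
end

-- ▼ part R109/AnnLink
section

/-!
# Link between annealed determinants and moment series (row 109, helper135)

`RP x a : ℝ[X]` is the reversed characteristic polynomial `y ↦ ann x (y a)`, `KP x a v i` the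
cofactor of the weight of colour `i` at `v`.  Main result `link`:
`RP x (update a v h) = RP x (update a v 0) * (1 - ∑_i h i * mom s (m i))`, `m ≥ 0`.
-/

set_option autoImplicit false
set_option linter.unusedSectionVars false

namespace Crest.Agent.R109.Lk

open Matrix Finset Polynomial Crest.Agent.R109.Ann

variable {V C : Type*} [Fintype V] [DecidableEq V] [Fintype C] [DecidableEq C]

/-! ### reality of the coefficients -/

theorem det_N_real {x : V → V → ℂ} (hx : Herm x) (c : V → Option C) :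
    (((N x c).det.re : ℝ) : ℂ) = (N x c).det := by
  have h1 : (starRingEnd ℂ) (N x c).det = (N x c).det := by
    rw [RingHom.map_det]
    have h2 : (starRingEnd ℂ).mapMatrix (N x c) = (N x c)ᵀ := by
      ext u w
      simp only [RingHom.mapMatrix_apply, Matrix.map_apply, Matrix.transpose_apply, N,
        Matrix.of_apply, map_sub]
      congr 1
      · by_cases h : u = w ∧ c u = none
        · rw [if_pos h, if_pos ⟨h.1.symm, h.1 ▸ h.2⟩, map_one]
        · rw [if_neg h, if_neg, map_zero]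
          rintro ⟨h3, h4⟩; exact h ⟨h3.symm, h3 ▸ h4⟩
      · by_cases h : c u = c w ∧ c u ≠ none
        · rw [if_pos h, if_pos ⟨h.1.symm, h.1 ▸ h.2⟩, hx u w]
        · rw [if_neg h, if_neg, map_zero]
          rintro ⟨h3, h4⟩; exact h ⟨h3.symm, h3 ▸ h4⟩
    rw [h2, Matrix.det_transpose]
  exact Complex.conj_eq_iff_re.mp h1

/-- the real multilinear form with polynomial arguments -/
noncomputable def LP (x : V → V → ℂ) (w : V → Option C → ℝ[X]) : ℝ[X] :=
  ∑ c : V → Option C, Polynomial.C ((N x c).det.re) * ∏ v, w v (c v)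

theorem map_LP {x : V → V → ℂ} (hx : Herm x) (w : V → Option C → ℝ[X]) :
    (LP x w).map (algebraMap ℝ ℂ)
      = lam (fun u v => (Polynomial.C (x u v) : ℂ[X])) (fun v o => (w v o).map (algebraMap ℝ ℂ)) := by
  rw [LP, Polynomial.map_sum, lam_apply]
  refine Finset.sum_congr rfl fun c _ => ?_
  rw [Polynomial.map_mul, Polynomial.map_C, Polynomial.map_prod]
  congr 1
  have h1 : (algebraMap ℝ ℂ) ((N x c).det.re) = (N x c).det := det_N_real hx c
  rw [h1, RingHom.map_det]
  congr 1
  ext u v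
  simp only [N, RingHom.mapMatrix_apply, Matrix.map_apply, Matrix.of_apply, map_sub]
  split_ifs <;> simp

/-- weights `y a` -/
noncomputable def pw (a : V → C → ℝ) : V → Option C → ℝ[X] :=
  fun v => wt (fun i => Polynomial.C (a v i) * X)

/-- `y ↦ ann x (y a)` -/
noncomputable def RP (x : V → V → ℂ) (a : V → C → ℝ) : ℝ[X] := LP x (pw a)

/-- the cofactor polynomial -/
noncomputable def KP (x : V → V → ℂ) (a : V → C → ℝ) (v : V) (i : C) : ℝ[X] :=
  LP x (Function.update (pw a) v (Pi.single (some i) 1))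

theorem map_wt (h : C → ℝ) :
    (fun o => (wt (fun i => Polynomial.C (h i) * X) o).map (algebraMap ℝ ℂ))
      = wt (fun i => Polynomial.C ((h i : ℝ) : ℂ) * X) := by
  funext o
  cases o <;> simp

theorem map_RP {x : V → V → ℂ} (hx : Herm x) (a : V → C → ℝ) :
    (RP x a).map (algebraMap ℝ ℂ)
      = ann (fun u v => (Polynomial.C (x u v) : ℂ[X]))
        (fun v i => Polynomial.C ((a v i : ℝ) : ℂ) * X) := by
  rw [RP, map_LP hx, ann]
  congr 1
  funext v
  exact map_wt (a v)

theorem map_KP {x : V → V → ℂ} (hx : Herm x) (a : V → C → ℝ) (v : V) (i : C) :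
    (KP x a v i).map (algebraMap ℝ ℂ)
      = cof (fun u v => (Polynomial.C (x u v) : ℂ[X]))
        (fun v i => Polynomial.C ((a v i : ℝ) : ℂ) * X) v i := by
  rw [KP, map_LP hx, cof]
  congr 1
  funext w
  by_cases hw : w = v
  · subst hw
    simp only [Function.update_self]
    funext o
    by_cases ho : o = some i
    · subst ho; simp
    · simp [Pi.single_eq_of_ne ho]
  · simp only [Function.update_of_ne hw]
    exact map_wt (a w)

theorem map_inj : Function.Injective (Polynomial.map (algebraMap ℝ ℂ)) :=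
  Polynomial.map_injective _ (algebraMap ℝ ℂ).injective

theorem RP_update {x : V → V → ℂ} (hx : Herm x) (a : V → C → ℝ) (v : V) (h : C → ℝ) :
    RP x (Function.update a v h)
      = RP x (Function.update a v 0) + ∑ i, Polynomial.C (h i) * X * KP x a v i := by
  apply map_inj
  have hup : ∀ h : C → ℝ, (fun w i => (Polynomial.C ((Function.update a v h w i : ℝ) : ℂ) * X : ℂ[X]))
      = Function.update (fun w i => (Polynomial.C ((a w i : ℝ) : ℂ) * X : ℂ[X])) v
        (fun i => Polynomial.C ((h i : ℝ) : ℂ) * X) := by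
    intro h
    funext w i
    by_cases hw : w = v
    · subst hw; simp
    · simp [Function.update_of_ne hw]
  rw [Polynomial.map_add, map_RP hx, map_RP hx, hup, hup, ann_update, Polynomial.map_sum]
  congr 1
  · congr 2
    funext i; simp
  · refine Finset.sum_congr rfl fun i _ => ?_
    rw [Polynomial.map_mul, Polynomial.map_mul, Polynomial.map_C, Polynomial.map_X, map_KP hx]
    rfl


theorem eval_ann (x : V → V → ℂ) (a : V → C → ℝ) (ζ : ℂ) :
    (ann (fun u v => (Polynomial.C (x u v) : ℂ[X]))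
        (fun v i => Polynomial.C ((a v i : ℝ) : ℂ) * X)).eval ζ
      = ann x (fun v i => (a v i : ℂ) * ζ) := by
  have := map_ann (Polynomial.evalRingHom ζ) (fun u v => (Polynomial.C (x u v) : ℂ[X]))
        (fun v i => Polynomial.C ((a v i : ℝ) : ℂ) * X)
  simpa using this

theorem eval_RP {x : V → V → ℂ} (hx : Herm x) (a : V → C → ℝ) (ζ : ℂ) :
    ((RP x a).map (algebraMap ℝ ℂ)).eval ζ = ann x (fun v i => (a v i : ℂ) * ζ) := by
  rw [map_RP hx, eval_ann]

theorem map_lam {R S : Type*} [CommRing R] [CommRing S] (φ : R →+* S) (x : V → V → R)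
    (w : V → Option C → R) :
    φ (lam x w) = lam (fun u v => φ (x u v)) (fun v o => φ (w v o)) := by
  simp only [lam_apply, map_sum, map_mul, map_prod, RingHom.map_det]
  refine Finset.sum_congr rfl fun c _ => ?_
  congr 2
  ext u w
  simp only [N, RingHom.mapMatrix_apply, Matrix.map_apply, Matrix.of_apply, map_sub]
  split_ifs <;> simp

theorem eval_KP {x : V → V → ℂ} (hx : Herm x) (a : V → C → ℝ) (v : V) (i : C) (ζ : ℂ) :
    ((KP x a v i).map (algebraMap ℝ ℂ)).eval ζ = cof x (fun v i => (a v i : ℂ) * ζ) v i := by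
  rw [map_KP hx, cof, cof]
  have := map_lam (Polynomial.evalRingHom ζ) (fun u v => (Polynomial.C (x u v) : ℂ[X]))
    (Function.update (fun w => wt (fun i => (Polynomial.C ((a w i : ℝ) : ℂ) * X : ℂ[X]))) v
      (Pi.single (some i) 1))
  simp only [Polynomial.coe_evalRingHom, Polynomial.eval_C] at this
  rw [this]
  congr 1
  funext w o
  by_cases hw : w = v
  · subst hw
    simp only [Function.update_self]
    by_cases ho : o = some i
    · subst ho; simp
    · simp [Pi.single_eq_of_ne ho]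
  · simp only [Function.update_of_ne hw]
    cases o <;> simp

/-! ### constant coefficients -/

theorem ann_zero {R : Type*} [CommRing R] (x : V → V → R) : ann x (0 : V → C → R) = 1 := by
  have h0 : (fun v => wt ((0 : V → C → R) v)) = fun _ => Pi.single none 1 := by
    funext v; exact wt_zero
  rw [ann, h0, lam_apply, Finset.sum_eq_single (fun _ => none)]
  · have : N x (fun _ => (none : Option C)) = 1 := by
      ext u w
      simp [N, Matrix.one_apply]
    simp [this]
  · intro c _ hc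
    obtain ⟨v, hv⟩ := Function.ne_iff.mp hc
    rw [Finset.prod_eq_zero (Finset.mem_univ v), mul_zero]
    rw [Pi.single_eq_of_ne hv]
  · intro h; exact absurd (Finset.mem_univ _) h

theorem RP_coeff_zero {x : V → V → ℂ} (hx : Herm x) (a : V → C → ℝ) : (RP x a).coeff 0 = 1 := by
  have h1 := eval_RP hx a 0
  have h2 : (fun v i => ((a v i : ℝ) : ℂ) * 0) = (0 : V → C → ℂ) := by
    funext v i; simp
  rw [h2, ann_zero, ← Polynomial.coeff_zero_eq_eval_zero, Polynomial.coeff_map] at h1
  exact (algebraMap ℝ ℂ).injective (h1.trans (map_one _).symm)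

theorem KP_coeff_zero {x : V → V → ℂ} (hx : Herm x) (hd : ∀ v, x v v = 0) (a : V → C → ℝ) (v : V)
    (i : C) : (KP x a v i).coeff 0 = 0 := by
  have h1 := eval_KP hx a v i 0
  have h2 : (fun v i => ((a v i : ℝ) : ℂ) * 0) = (0 : V → C → ℂ) := by
    funext v i; simp
  rw [h2, ← Polynomial.coeff_zero_eq_eval_zero, Polynomial.coeff_map] at h1
  have h3 : cof x (0 : V → C → ℂ) v i = 0 := by
    rw [cof, lam_apply, Finset.sum_eq_single (Function.update (fun _ => none) v (some i))]
    · have : (N x (Function.update (fun _ => none) v (some i))).det = 0 := by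
        apply Matrix.det_eq_zero_of_row_eq_zero v
        intro w
        simp only [N, Matrix.of_apply, Function.update_self]
        by_cases hw : w = v
        · subst hw; simp [hd]
        · simp [Function.update_of_ne hw]
      rw [this, zero_mul]
    · intro c _ hc
      obtain ⟨w, hw⟩ := Function.ne_iff.mp hc
      rw [Finset.prod_eq_zero (Finset.mem_univ w), mul_zero]
      by_cases hwv : w = v
      · subst hwv
        rw [Function.update_self] at hw
        rw [Function.update_self, Pi.single_eq_of_ne hw]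
      · rw [Function.update_of_ne hwv] at hw
        rw [Function.update_of_ne hwv]
        cases hcw : c w with
        | none => exact absurd hcw hw
        | some j => simp
    · intro h; exact absurd (Finset.mem_univ _) h
  rw [h3] at h1
  exact (algebraMap ℝ ℂ).injective (h1.trans (map_zero _).symm)

end Crest.Agent.R109.Lk
end

-- ▼ part R109/NevRev
section

/-!
# Nevanlinna quotients in reversed form (row 109, helper135)

If `p K_i : ℝ[X]`, `p(0) = 1`, `K_i(0) = 0`, `p` has no zeros in the lower half plane and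
`Im (K_i/p) ≥ 0` there, then `-y K_i(y) = p(y) * mom s (m i)(y)` with `m ≥ 0` and
`p = ∏ (1 - s_j y)`.
-/

set_option autoImplicit false

namespace Crest.Agent.R109

open Polynomial Finset

theorem eval_map_conj (P : ℝ[X]) (z : ℂ) :
    (P.map (algebraMap ℝ ℂ)).eval ((starRingEnd ℂ) z)
      = (starRingEnd ℂ) ((P.map (algebraMap ℝ ℂ)).eval z) := by
  rw [Polynomial.eval_map, Polynomial.eval_map, Polynomial.hom_eval₂]
  congr 1
  ext x
  simp

/-- a monic real polynomial all of whose complex roots are real is a product of linear factors -/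
theorem exists_prod_of_real_roots (P : ℝ[X]) (hP : P.Monic)
    (h : ∀ z : ℂ, (P.map (algebraMap ℝ ℂ)).eval z = 0 → z.im = 0) :
    ∃ s : Fin P.natDegree → ℝ, P = ∏ j, (X - C (s j)) := by
  set Q := P.map (algebraMap ℝ ℂ) with hQ
  have hQm : Q.Monic := hP.map _
  have hsp : Q.Splits := IsAlgClosed.splits Q
  have h1 := hsp.eq_prod_roots_of_monic hQm
  set r : Multiset ℝ := Q.roots.map Complex.re with hr
  have h2 : (r.map (fun s : ℝ => X - C s)).prod = P := by
    apply Polynomial.map_injective _ (algebraMap ℝ ℂ).injective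
    rw [← hQ]
    conv_rhs => rw [h1]
    rw [Polynomial.map_multiset_prod, Multiset.map_map, hr, Multiset.map_map]
    congr 1
    apply Multiset.map_congr rfl
    intro z hz
    have hz0 : Q.eval z = 0 := by
      have := (Polynomial.mem_roots hQm.ne_zero).mp hz
      exact this
    have him := h z hz0
    simp only [Function.comp, Polynomial.map_sub, Polynomial.map_X, Polynomial.map_C]
    congr 2
    apply Complex.ext
    · simp
    · simp [him]
  have hcard : r.card = P.natDegree := by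
    have := congrArg Polynomial.natDegree h2
    rw [Polynomial.natDegree_multiset_prod_X_sub_C_eq_card] at this
    exact this
  have hl : r.toList.length = P.natDegree := by rw [Multiset.length_toList, hcard]
  refine ⟨fun j => r.toList.get (Fin.cast hl.symm j), ?_⟩
  have h3 : (r.toList.map (fun s : ℝ => X - C s)).prod = P := by
    rw [← h2]
    conv_rhs => rw [← Multiset.coe_toList r]
    rw [Multiset.map_coe, Multiset.prod_coe]
  conv_lhs => rw [← h3]
  rw [← List.prod_ofFn]
  congr 1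
  apply List.ext_getElem
  · simp [hl]
  · intro i h1 h2
    simp

theorem reflect_prod_X_sub_C {ι : Type*} [DecidableEq ι] (s : ι → ℝ) (t : Finset ι) :
    reflect t.card (∏ j ∈ t, (X - C (s j))) = ∏ j ∈ t, (1 - C (s j) * X) := by
  induction t using Finset.induction_on with
  | empty =>
    simp only [Finset.card_empty, Finset.prod_empty]
    simp
  | insert a t ha ih =>
    rw [Finset.prod_insert ha, Finset.prod_insert ha, Finset.card_insert_of_notMem ha, ← ih,
      mul_comm, mul_comm (1 - C (s a) * X)]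
    have h1 : reflect 1 (X - C (s a)) = 1 - C (s a) * X := by
      rw [Polynomial.reflect_sub, Polynomial.reflect_one_X, Polynomial.reflect_C, pow_one]
    rw [Polynomial.reflect_mul, h1]
    · refine (natDegree_prod_le _ _).trans ?_
      simp
    · simp

theorem reflect_succ_of_natDegree_le (N : ℕ) (f : ℝ[X]) (hf : f.natDegree ≤ N) :
    reflect (N + 1) f = reflect N f * X := by
  have h1 := Polynomial.reflect_mul f (1 : ℝ[X]) hf (G := 1) (by simp)
  rw [mul_one, Polynomial.reflect_one, pow_one] at h1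
  exact h1

theorem reflect_of_natDegree_le_pred (n : ℕ) (hn : 1 ≤ n) (f : ℝ[X]) (hf : f.natDegree ≤ n - 1) :
    reflect n f = reflect (n - 1) f * X := by
  obtain ⟨N, rfl⟩ : ∃ N, n = N + 1 := ⟨n - 1, by omega⟩
  exact reflect_succ_of_natDegree_le N f hf

theorem coe_prod_PS {ι : Type*} (t : Finset ι) (f : ι → ℝ[X]) :
    ((∏ j ∈ t, f j : ℝ[X]) : PowerSeries ℝ) = ∏ j ∈ t, (f j : PowerSeries ℝ) := by
  rw [← Polynomial.coeToPowerSeries.ringHom_apply, map_prod]
  simp

theorem coe_sum_PS {ι : Type*} (t : Finset ι) (f : ι → ℝ[X]) :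
    ((∑ j ∈ t, f j : ℝ[X]) : PowerSeries ℝ) = ∑ j ∈ t, (f j : PowerSeries ℝ) := by
  rw [← Polynomial.coeToPowerSeries.ringHom_apply, map_sum]
  simp

theorem eval_reflect (N : ℕ) (f : ℝ[X]) (hf : f.natDegree ≤ N) (z : ℂ) (hz : z ≠ 0) :
    ((reflect N f).map (algebraMap ℝ ℂ)).eval z
      = z ^ N * (f.map (algebraMap ℝ ℂ)).eval z⁻¹ := by
  let _ : Invertible (z⁻¹) := invertibleOfNonzero (inv_ne_zero hz)
  have h1 := Polynomial.eval₂_reflect_mul_pow (algebraMap ℝ ℂ) (z⁻¹) N f hf
  have h2 : ⅟(z⁻¹) = z := by rw [invOf_eq_inv, inv_inv]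
  rw [h2] at h1
  rw [Polynomial.eval_map, Polynomial.eval_map, ← h1, inv_pow]
  field_simp

/-- **reversed partial fractions** -/
theorem nev_rev {κ : Type*} [Fintype κ] (p : ℝ[X]) (K : κ → ℝ[X]) (hp0 : p.coeff 0 = 1)
    (hK0 : ∀ i, (K i).coeff 0 = 0)
    (hst : ∀ ζ : ℂ, ζ.im < 0 → (p.map (algebraMap ℝ ℂ)).eval ζ ≠ 0)
    (him : ∀ i, ∀ ζ : ℂ, ζ.im < 0 →
      0 ≤ (((K i).map (algebraMap ℝ ℂ)).eval ζ / (p.map (algebraMap ℝ ℂ)).eval ζ).im) :
    ∃ (n : ℕ) (s : Fin n → ℝ) (m : κ → Fin n → ℝ), (∀ i j, 0 ≤ m i j) ∧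
      p = ∏ j, (1 - C (s j) * X) ∧
      ∀ i, - (PowerSeries.X * (K i : PowerSeries ℝ)) = mom s (m i) * (p : PowerSeries ℝ) := by
  classical
  -- common degree
  set n : ℕ := p.natDegree + ∑ i, (K i).natDegree with hn
  have hpn : p.natDegree ≤ n := Nat.le_add_right _ _
  have hKn : ∀ i, (K i).natDegree ≤ n := by
    intro i
    have := Finset.single_le_sum (f := fun i => (K i).natDegree) (fun j _ => Nat.zero_le _)
      (Finset.mem_univ i)
    exact this.trans (Nat.le_add_left _ _)
  set P := reflect n p with hP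
  have hPdeg : P.natDegree ≤ n := by
    refine (Polynomial.natDegree_reflect_le).trans ?_
    exact max_le le_rfl hpn
  have hPn : P.coeff n = 1 := by
    rw [hP, Polynomial.coeff_reflect, Polynomial.revAt_le le_rfl, Nat.sub_self, hp0]
  have hPm : P.Monic := by
    apply Polynomial.monic_of_natDegree_le_of_coeff_eq_one n hPdeg hPn
  have hPnat : P.natDegree = n :=
    le_antisymm hPdeg (Polynomial.le_natDegree_of_ne_zero (by rw [hPn]; exact one_ne_zero))
  -- all complex roots are real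
  have hst' : ∀ ζ : ℂ, ζ.im ≠ 0 → (p.map (algebraMap ℝ ℂ)).eval ζ ≠ 0 := by
    intro ζ hζ h0
    rcases lt_or_gt_of_ne hζ with h | h
    · exact hst ζ h h0
    · apply hst ((starRingEnd ℂ) ζ) (by rw [Complex.conj_im]; linarith)
      rw [eval_map_conj, h0, map_zero]
  have hreal : ∀ z : ℂ, (P.map (algebraMap ℝ ℂ)).eval z = 0 → z.im = 0 := by
    intro z hz
    by_contra him
    have hz0 : z ≠ 0 := by rintro rfl; simp at him
    rw [hP, eval_reflect n p hpn z hz0] at hz
    rcases mul_eq_zero.mp hz with h | h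
    · exact absurd h (pow_ne_zero n hz0)
    · refine hst' z⁻¹ ?_ h
      rw [Complex.inv_im]
      have := Complex.normSq_pos.mpr hz0
      intro h0
      rcases div_eq_zero_iff.mp h0 with h1 | h1
      · exact him (by linarith)
      · exact this.ne' h1
  obtain ⟨s', hs'⟩ := exists_prod_of_real_roots P hPm hreal
  obtain ⟨s, hs⟩ : ∃ s : Fin n → ℝ, P = ∏ j, (X - C (s j)) := by
    rw [← hPnat]; exact ⟨s', hs'⟩
  -- partial fractions for each i
  have hpf : ∀ i, ∃ a : Fin n → ℝ, (∀ k, 0 ≤ a k) ∧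
      - reflect n (K i) = ∑ k, C (a k) * ∏ j ∈ univ.erase k, (X - C (s j)) := by
    intro i
    have hq : (- reflect n (K i)).natDegree ≤ n := by
      rw [natDegree_neg]
      exact (Polynomial.natDegree_reflect_le).trans (max_le le_rfl (hKn i))
    obtain ⟨a, ha0, ha⟩ := Start.partial_fractions s n univ (by simp) (- reflect n (K i)) hq (by
      intro y hy
      have hy0 : y ≠ 0 := by rintro rfl; simp at hy
      have h1 : ∏ k, (y - (s k : ℂ)) = (P.map (algebraMap ℝ ℂ)).eval y := by
        rw [hs, Polynomial.map_prod, Polynomial.eval_prod]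
        apply Finset.prod_congr rfl
        intro k _
        simp
      rw [h1, hP, Polynomial.map_neg, Polynomial.eval_neg, eval_reflect n p hpn y hy0,
        eval_reflect n (K i) (hKn i) y hy0]
      have hyn : y ^ n ≠ 0 := pow_ne_zero _ hy0
      have hinv : (y⁻¹).im < 0 := by
        rw [Complex.inv_im]
        apply div_neg_of_neg_of_pos _ (Complex.normSq_pos.mpr hy0)
        linarith
      have h2 := him i y⁻¹ hinv
      have h3 : -(y ^ n * ((K i).map (algebraMap ℝ ℂ)).eval y⁻¹)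
          / (y ^ n * (p.map (algebraMap ℝ ℂ)).eval y⁻¹)
          = -(((K i).map (algebraMap ℝ ℂ)).eval y⁻¹ / (p.map (algebraMap ℝ ℂ)).eval y⁻¹) := by
        have := hst _ hinv
        field_simp
      rw [h3, Complex.neg_im]
      linarith)
    refine ⟨a, fun k => ha0 k (Finset.mem_univ k), ?_⟩
    have h0 : (- reflect n (K i)).coeff n = 0 := by
      rw [coeff_neg, Polynomial.coeff_reflect, Polynomial.revAt_le le_rfl, Nat.sub_self, hK0,
        neg_zero]
    rw [h0, C_0, zero_mul, zero_add] at ha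
    exact ha
  choose m hm0 hm using hpf
  refine ⟨n, s, m, hm0, ?_, ?_⟩
  · have h1 : p = reflect n P := by rw [hP, Polynomial.reflect_reflect]
    have h2 := reflect_prod_X_sub_C s (univ : Finset (Fin n))
    rw [Finset.card_univ, Fintype.card_fin] at h2
    rw [h1, hs, h2]
  · intro i
    have hp : p = ∏ j, (1 - C (s j) * X) := by
      have h1 : p = reflect n P := by rw [hP, Polynomial.reflect_reflect]
      have h2 := reflect_prod_X_sub_C s (univ : Finset (Fin n))
      rw [Finset.card_univ, Fintype.card_fin] at h2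
      rw [h1, hs, h2]
    have hKi : - K i = ∑ k, C (m i k) * ((∏ j ∈ univ.erase k, (1 - C (s j) * X)) * X) := by
      have h1 : - K i = reflect n (- reflect n (K i)) := by
        rw [Polynomial.reflect_neg, Polynomial.reflect_reflect]
      rw [h1, hm i]
      rw [← Finset.sum_hom_rel (f := fun k => C (m i k) * ∏ j ∈ univ.erase k, (X - C (s j)))
        (g := fun k => C (m i k) * ((∏ j ∈ univ.erase k, (1 - C (s j) * X)) * X))
        (r := fun a b => reflect n a = b)]
      · exact Polynomial.reflect_zero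
      · intro k a b hab
        rw [Polynomial.reflect_add, hab]
        congr 1
        rw [Polynomial.reflect_C_mul]
        congr 1
        have hcard : (univ.erase k : Finset (Fin n)).card = n - 1 := by
          rw [Finset.card_erase_of_mem (Finset.mem_univ k), Finset.card_univ, Fintype.card_fin]
        have hn1 : 1 ≤ n := k.pos
        have hd : (∏ j ∈ univ.erase k, (X - C (s j))).natDegree ≤ n - 1 := by
          refine (natDegree_prod_le _ _).trans ?_
          simp [hcard]
        rw [reflect_of_natDegree_le_pred n hn1 _ hd, ← hcard, reflect_prod_X_sub_C]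
    have hKi' : -((K i : ℝ[X]) : PowerSeries ℝ)
        = ∑ k, PowerSeries.C (m i k) *
          ((∏ j ∈ univ.erase k, (1 - PowerSeries.C (s j) * PowerSeries.X)) * PowerSeries.X) := by
      rw [← Polynomial.coe_neg, hKi, coe_sum_PS]
      apply Finset.sum_congr rfl
      intro k _
      rw [Polynomial.coe_mul, Polynomial.coe_mul, Polynomial.coe_C, Polynomial.coe_X, coe_prod_PS]
      congr 2
      apply Finset.prod_congr rfl
      intro j _
      rw [Polynomial.coe_sub, Polynomial.coe_one, Polynomial.coe_mul, Polynomial.coe_C,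
        Polynomial.coe_X]
    have hp' : ((p : ℝ[X]) : PowerSeries ℝ)
        = ∏ j, (1 - PowerSeries.C (s j) * PowerSeries.X) := by
      rw [hp, coe_prod_PS]
      apply Finset.prod_congr rfl
      intro j _
      rw [Polynomial.coe_sub, Polynomial.coe_one, Polynomial.coe_mul, Polynomial.coe_C,
        Polynomial.coe_X]
    have h1 : -(PowerSeries.X * ((K i : ℝ[X]) : PowerSeries ℝ))
        = PowerSeries.X * (-((K i : ℝ[X]) : PowerSeries ℝ)) := by ring
    rw [h1, hKi', mom, Finset.sum_mul, Finset.mul_sum]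
    apply Finset.sum_congr rfl
    intro k _
    rw [hp', ← Finset.mul_prod_erase univ _ (Finset.mem_univ k)]
    have hg := geo_mul (s k)
    calc PowerSeries.X * (PowerSeries.C (m i k) *
          ((∏ j ∈ univ.erase k, (1 - PowerSeries.C (s j) * PowerSeries.X)) * PowerSeries.X))
        = PowerSeries.C (m i k) * (1 * PowerSeries.X ^ 2) *
          (∏ j ∈ univ.erase k, (1 - PowerSeries.C (s j) * PowerSeries.X)) := by ring
      _ = PowerSeries.C (m i k) * (((1 - PowerSeries.C (s k) * PowerSeries.X) * geo (s k)) *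
          PowerSeries.X ^ 2) *
          (∏ j ∈ univ.erase k, (1 - PowerSeries.C (s j) * PowerSeries.X)) := by rw [hg]
      _ = _ := by ring

end Crest.Agent.R109
end

-- ▼ part R109/AnnFlip

/-!
# Flip identity for the power-sum potential (row 109, helper135)

`P2 k x a` = sum of the `2k`-th powers of the roots of `t ↦ t^N ann x (a / t)`.
* `link`, `P2_update`: changing the weights of one vertex changes `P2` by `q`;
* `one_vertex`: all but a fraction `ρ` of the colours do not increase `P2`;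
* `P2_update_zero_le`: deleting a vertex does not increase `P2`;
* `P2_start`: `P2(update a v h) - P2(update a v 0) ≤ 2 R^(2k)` if `ann x (y a)` has no real zero
  with `|y| R < 1`.
-/

set_option autoImplicit false
set_option linter.unusedSectionVars false

namespace Crest.Agent.R109.Lk

open Finset Crest.Agent.R109.Ann

variable {V C : Type*} [Fintype V] [DecidableEq V] [Fintype C] [DecidableEq C]

/-- the root power sum of order `2k` -/
noncomputable def P2 (k : ℕ) (x : V → V → ℂ) (a : V → C → ℝ) : ℝ :=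
  PowerSeries.coeff (2 * k) (qS (1 - ((RP x a : Polynomial ℝ) : PowerSeries ℝ)))

theorem update_mul (a : V → C → ℝ) (v : V) (h : C → ℝ) (ζ : ℂ) :
    (fun w i => ((Function.update a v h w i : ℝ) : ℂ) * ζ)
      = Function.update (fun w i => (a w i : ℂ) * ζ) v (fun i => (h i : ℂ) * ζ) := by
  funext w i
  by_cases hw : w = v
  · subst hw; simp
  · simp [Function.update_of_ne hw]

theorem update_nonneg {a : V → C → ℝ} (ha : ∀ v i, 0 ≤ a v i) (v : V) {h : C → ℝ}
    (hh : ∀ i, 0 ≤ h i) : ∀ w i, 0 ≤ Function.update a v h w i := by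
  intro w i
  by_cases hw : w = v
  · subst hw; simpa using hh i
  · simpa [Function.update_of_ne hw] using ha w i

theorem RP_ne_zero [Nonempty C] {x : V → V → ℂ} (hx : Herm x) (a : V → C → ℝ)
    (ha : ∀ v i, 0 ≤ a v i) (ζ : ℂ) (hζ : ζ.im < 0) :
    ((RP x a).map (algebraMap ℝ ℂ)).eval ζ ≠ 0 := by
  rw [eval_RP hx]
  exact stable hx a ha (fun _ => ζ) (fun _ => hζ)

theorem KP_im_nonneg [Nonempty C] {x : V → V → ℂ} (hx : Herm x) (a : V → C → ℝ)
    (ha : ∀ v i, 0 ≤ a v i) (v : V) (i : C) (ζ : ℂ) (hζ : ζ.im < 0) :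
    0 ≤ (((KP x a v i).map (algebraMap ℝ ℂ)).eval ζ /
      ((RP x (Function.update a v 0)).map (algebraMap ℝ ℂ)).eval ζ).im := by
  rw [eval_KP hx, eval_RP hx, update_mul]
  have := cof_im_nonneg hx a ha (fun _ => ζ) (fun _ => hζ) v i
  have h0 : (fun i => (((0 : C → ℝ) i : ℝ) : ℂ) * ζ) = (0 : C → ℂ) := by
    funext i; simp
  rw [h0]
  exact this

theorem mom_sum {ι κ : Type*} [Fintype ι] [Fintype κ] (s : ι → ℝ) (h : κ → ℝ) (m : κ → ι → ℝ) :
    mom s (fun j => ∑ i, h i * m i j) = ∑ i, PowerSeries.C (h i) * mom s (m i) := by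
  simp only [mom, map_sum, map_mul, Finset.sum_mul, Finset.mul_sum]
  rw [Finset.sum_comm]
  refine Finset.sum_congr rfl fun i _ => Finset.sum_congr rfl fun j _ => ?_
  ring

/-- **link** between the annealed determinant and moment series -/
theorem link [Nonempty C] {x : V → V → ℂ} (hx : Herm x) (hd : ∀ v, x v v = 0) (a : V → C → ℝ)
    (ha : ∀ v i, 0 ≤ a v i) (v : V) :
    ∃ (n : ℕ) (s : Fin n → ℝ) (m : C → Fin n → ℝ), (∀ i j, 0 ≤ m i j) ∧
      ∀ h : C → ℝ, ((RP x (Function.update a v h) : Polynomial ℝ) : PowerSeries ℝ)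
        = ((RP x (Function.update a v 0) : Polynomial ℝ) : PowerSeries ℝ) *
          (1 - mom s (fun j => ∑ i, h i * m i j)) := by
  obtain ⟨n, s, m, hm0, _, hK⟩ := nev_rev (RP x (Function.update a v 0)) (fun i => KP x a v i)
    (RP_coeff_zero hx _) (fun i => KP_coeff_zero hx hd a v i)
    (RP_ne_zero hx _ (update_nonneg ha v (fun i => le_rfl)))
    (fun i ζ hζ => KP_im_nonneg hx a ha v i ζ hζ)
  refine ⟨n, s, m, hm0, ?_⟩
  intro h
  rw [RP_update hx, Polynomial.coe_add, coe_sum_PS, mul_sub, mul_one, sub_eq_add_neg]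
  congr 1
  rw [mom_sum, Finset.mul_sum, ← Finset.sum_neg_distrib]
  refine Finset.sum_congr rfl fun i _ => ?_
  rw [Polynomial.coe_mul, Polynomial.coe_mul, Polynomial.coe_C, Polynomial.coe_X]
  calc PowerSeries.C (h i) * PowerSeries.X * ((KP x a v i : Polynomial ℝ) : PowerSeries ℝ)
      = - (PowerSeries.C (h i) * -(PowerSeries.X * ((KP x a v i : Polynomial ℝ) : PowerSeries ℝ))) := by
        ring
    _ = - (PowerSeries.C (h i) * (mom s (m i) *
          ((RP x (Function.update a v 0) : Polynomial ℝ) : PowerSeries ℝ))) := by rw [hK i]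
    _ = _ := by ring

theorem constantCoeff_one_sub_RP {x : V → V → ℂ} (hx : Herm x) (a : V → C → ℝ) :
    PowerSeries.constantCoeff (1 - ((RP x a : Polynomial ℝ) : PowerSeries ℝ)) = 0 := by
  rw [map_sub, map_one, Polynomial.constantCoeff_coe, RP_coeff_zero hx, sub_self]

/-- flip identity -/
theorem P2_update [Nonempty C] {x : V → V → ℂ} (hx : Herm x) (hd : ∀ v, x v v = 0)
    (a : V → C → ℝ) (ha : ∀ v i, 0 ≤ a v i) (v : V) (k : ℕ) :
    ∃ (n : ℕ) (s : Fin n → ℝ) (m : C → Fin n → ℝ), (∀ i j, 0 ≤ m i j) ∧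
      ∀ h : C → ℝ, P2 k x (Function.update a v h)
        = P2 k x (Function.update a v 0) + q k s (fun j => ∑ i, h i * m i j) := by
  obtain ⟨n, s, m, hm0, hl⟩ := link hx hd a ha v
  refine ⟨n, s, m, hm0, ?_⟩
  intro h
  rw [P2, P2, q, ← map_add, ← qS_of_mul (1 - ((RP x (Function.update a v 0) : Polynomial ℝ) : PowerSeries ℝ))
    (mom s (fun j => ∑ i, h i * m i j)) (1 - ((RP x (Function.update a v h) : Polynomial ℝ) : PowerSeries ℝ))
    (constantCoeff_one_sub_RP hx _) (constantCoeff_mom _ _)]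
  rw [hl h]; ring


/-- **one-vertex lemma**: undecided = probability weights `f` at level `u`, decided `c` = weight
`u/K` on the colour `c`. -/
theorem one_vertex [Nonempty C] {x : V → V → ℂ} (hx : Herm x) (hd : ∀ v, x v v = 0)
    (a : V → C → ℝ) (ha : ∀ v i, 0 ≤ a v i) (v : V) (k : ℕ) (hk : 1 ≤ k) (u : ℝ) (hu : 0 ≤ u)
    (f : C → ℝ) (hf0 : ∀ c, 0 ≤ f c) (hf1 : ∑ c, f c = 1)
    (ρ : ℝ) (hρ : 0 < ρ) (K : ℝ) (hK : 24 / ρ ≤ K) :
    ∃ good : Finset C,
      (∀ c ∈ good, P2 k x (Function.update a v (fun i => if i = c then u / K else 0))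
        ≤ P2 k x (Function.update a v (fun i => f i * u))) ∧
      1 - ρ ≤ ∑ c ∈ good, f c := by
  obtain ⟨n, s, m, hm0, hl⟩ := P2_update hx hd a ha v k
  obtain ⟨good, h1, h2⟩ := oneSite k hk s f hf0 hf1 (fun c j => u * m c j)
    (fun c j => mul_nonneg hu (hm0 c j)) ρ hρ K hK
  refine ⟨good, ?_, h2⟩
  intro c hc
  rw [hl (fun i => if i = c then u / K else 0), hl (fun i => f i * u)]
  have h3 := h1 c hc
  have e1 : (fun j => ∑ i, (if i = c then u / K else 0) * m i j) = fun j => u * m c j / K := by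
    funext j
    rw [Finset.sum_eq_single c]
    · rw [if_pos rfl]; ring
    · intro i _ hi; rw [if_neg hi, zero_mul]
    · intro h; exact absurd (Finset.mem_univ _) h
  have e2 : (fun j => ∑ i, f i * u * m i j) = fun j => ∑ c, f c * (u * m c j) := by
    funext j
    refine Finset.sum_congr rfl fun i _ => ?_
    ring
  rw [e1, e2]
  linarith

/-- uniform version: `r = card C` colours -/
theorem one_vertex_uniform [Nonempty C] {x : V → V → ℂ} (hx : Herm x) (hd : ∀ v, x v v = 0)
    (a : V → C → ℝ) (ha : ∀ v i, 0 ≤ a v i) (v : V) (k : ℕ) (hk : 1 ≤ k) (u : ℝ) (hu : 0 ≤ u)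
    (ρ : ℝ) (hρ : 0 < ρ) (K : ℝ) (hK : 24 / ρ ≤ K) :
    ∃ good : Finset C,
      (∀ c ∈ good, P2 k x (Function.update a v (fun i => if i = c then u / K else 0))
        ≤ P2 k x (Function.update a v (fun _ => u / Fintype.card C))) ∧
      (1 - ρ) * Fintype.card C ≤ good.card := by
  have hr : (0 : ℝ) < Fintype.card C := by exact_mod_cast Fintype.card_pos
  obtain ⟨good, h1, h2⟩ := one_vertex hx hd a ha v k hk u hu (fun _ => (1 : ℝ) / Fintype.card C)
    (fun _ => by positivity) (by
      rw [Finset.sum_const, Finset.card_univ, nsmul_eq_mul]; field_simp) ρ hρ K hK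
  refine ⟨good, ?_, ?_⟩
  · intro c hc
    have := h1 c hc
    have e : (fun _ : C => 1 / (Fintype.card C : ℝ) * u) = fun _ => u / Fintype.card C := by
      funext i; ring
    rwa [e] at this
  · rw [Finset.sum_const, nsmul_eq_mul] at h2
    have : (good.card : ℝ) * (1 / Fintype.card C) * Fintype.card C = good.card := by field_simp
    nlinarith

/-! ### start: the Green function -/

/-- if `(1 - mom s μ) * ∑ ν geo σ = 1`, `|σ| ≤ R`, `ν ≥ 0` then `q ≤ 2 R^(2k)` -/
theorem q_le_of_green {ι ι' : Type*} [Fintype ι] [Fintype ι'] (k : ℕ) (s μ : ι → ℝ)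
    (σ ν : ι' → ℝ) (hν : ∀ j, 0 ≤ ν j) (R : ℝ) (hR : 0 ≤ R) (hσ : ∀ j, |σ j| ≤ R)
    (h : (1 - mom s μ) * (∑ j, PowerSeries.C (ν j) * geo (σ j)) = 1) (hk : 1 ≤ k) :
    q k s μ ≤ 2 * R ^ (2 * k) := by
  classical
  set G : PowerSeries ℝ := ∑ j, PowerSeries.C (ν j) * geo (σ j) with hG
  have hGc : ∀ n, PowerSeries.coeff n G = ∑ j, ν j * σ j ^ n := by
    intro n; simp only [hG, map_sum, PowerSeries.coeff_C_mul, coeff_geo]
  have hM0 := constantCoeff_mom s μ
  have hG0 : PowerSeries.constantCoeff G = 1 := by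
    have := congrArg PowerSeries.constantCoeff h
    rw [map_mul, map_sub, map_one, hM0, sub_zero, one_mul] at this
    exact this
  have hG1 : PowerSeries.coeff 1 G = 0 := by
    have h1 := congrArg (PowerSeries.coeff 1) h
    have h2 : (1 - mom s μ) * G = G - mom s μ * G := by ring
    rw [h2, map_sub, PowerSeries.coeff_mul, PowerSeries.coeff_one, if_neg one_ne_zero] at h1
    have h3 : ∑ p ∈ antidiagonal 1, PowerSeries.coeff p.1 (mom s μ) * PowerSeries.coeff p.2 G = 0 := by
      apply Finset.sum_eq_zero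
      rintro ⟨i, j⟩ hp
      rw [HasAntidiagonal.mem_antidiagonal] at hp
      simp only at hp
      have : i = 0 ∨ i = 1 := by omega
      rcases this with h | h
      · subst h; rw [coeff_mom_zero, zero_mul]
      · subst h; rw [coeff_mom_one, zero_mul]
    rw [h3, sub_zero] at h1
    exact h1
  -- d
  set d : PowerSeries ℝ := mom σ (fun j => ν j * (R ^ 2 - σ j ^ 2)) with hd
  have hdpos : ∀ j, 0 ≤ ν j * (R ^ 2 - σ j ^ 2) := by
    intro j
    refine mul_nonneg (hν j) ?_
    have := sq_le_sq' (by linarith [neg_abs_le (σ j), hσ j, abs_nonneg (σ j)]) ((le_abs_self _).trans (hσ j))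
    linarith
  have hd1 : 1 - d = (1 - PowerSeries.C (R ^ 2) * PowerSeries.X ^ 2) * G := by
    ext n
    rcases n with _ | _ | n
    · rw [map_sub, hd, coeff_mom_zero, sub_zero, sub_mul, one_mul, map_sub, mul_assoc,
        PowerSeries.coeff_C_mul, PowerSeries.coeff_X_pow_mul']
      simp [hG0]
    · rw [map_sub, hd, zero_add, coeff_mom_one, sub_zero, sub_mul, one_mul, map_sub, mul_assoc,
        PowerSeries.coeff_C_mul, PowerSeries.coeff_X_pow_mul', hG1]
      simp [PowerSeries.coeff_one]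
    · rw [map_sub, hd, coeff_mom_add_two, sub_mul, one_mul, map_sub, mul_assoc,
        PowerSeries.coeff_C_mul, PowerSeries.coeff_X_pow_mul', if_pos (by omega : 2 ≤ n + 1 + 1),
        hGc, hGc, PowerSeries.coeff_one,
        if_neg (by omega), zero_sub, Finset.mul_sum, ← Finset.sum_sub_distrib,
        ← Finset.sum_neg_distrib]
      have hn2 : n + 1 + 1 - 2 = n := by omega
      rw [hn2]
      refine Finset.sum_congr rfl fun j _ => ?_
      ring
  have e1 : qS (mom s μ) + qS (1 - G) = 0 := by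
    rw [← qS_of_mul (mom s μ) (1 - G) 0 hM0 (by simp [hG0]) (by
      rw [sub_zero, sub_sub_cancel, h])]
    simp [qS]
  have e2 : qS d = qS (PowerSeries.C (R ^ 2) * PowerSeries.X ^ 2) + qS (1 - G) := by
    apply qS_of_mul _ _ _ (by simp) (by simp [hG0])
    rw [hd1]; ring
  have e3 : PowerSeries.coeff (2 * k) (qS (PowerSeries.C (R ^ 2) * PowerSeries.X ^ 2 : PowerSeries ℝ))
      = 2 * R ^ (2 * k) := by
    rw [coeff_qS _ (by simp)]
    have hXp : ∀ m : ℕ, ((PowerSeries.X ^ 2) ^ m : PowerSeries ℝ) = PowerSeries.X ^ (2 * m) :=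
      fun m => (pow_mul _ _ _).symm
    rw [Finset.sum_eq_single (k - 1)]
    · have hk1 : k - 1 + 1 = k := by omega
      rw [hk1, mul_pow, ← map_pow, hXp, PowerSeries.coeff_C_mul, PowerSeries.coeff_X_pow,
        if_pos rfl]
      have : ((k - 1 : ℕ) : ℝ) + 1 = k := by
        rw [← Nat.cast_add_one, hk1]
      rw [this, ← pow_mul]
      have hk0 : (k : ℝ) ≠ 0 := by positivity
      push_cast
      field_simp
    · intro n _ hn
      rw [mul_pow, ← map_pow, hXp, PowerSeries.coeff_C_mul, PowerSeries.coeff_X_pow,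
        if_neg (by omega)]
      ring
    · intro h; exact absurd (Finset.mem_range.mpr (by omega)) h
  have e4 : 0 ≤ PowerSeries.coeff (2 * k) (qS d) := q_nonneg k σ _ hdpos
  have e5 := congrArg (PowerSeries.coeff (2 * k)) e1
  have e6 := congrArg (PowerSeries.coeff (2 * k)) e2
  rw [map_add, map_zero] at e5
  rw [map_add, e3] at e6
  rw [q]
  linarith

/-- **start bound** for one vertex -/
theorem P2_start [Nonempty C] {x : V → V → ℂ} (hx : Herm x) (hd : ∀ v, x v v = 0)
    (a : V → C → ℝ) (ha : ∀ v i, 0 ≤ a v i) (v : V) (k : ℕ) (hk : 1 ≤ k) (h : C → ℝ)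
    (hh : ∀ i, 0 ≤ h i) (R : ℝ) (hR : 0 < R)
    (hroot : ∀ y : ℝ, |y| * R < 1 → (RP x (Function.update a v h)).eval y ≠ 0) :
    P2 k x (Function.update a v h) - P2 k x (Function.update a v 0) ≤ 2 * R ^ (2 * k) := by
  classical
  obtain ⟨n, s, m, hm0, hl⟩ := link hx hd a ha v
  set μ : Fin n → ℝ := fun j => ∑ i, h i * m i j with hμ
  have hP : P2 k x (Function.update a v h) - P2 k x (Function.update a v 0) = q k s μ := by
    rw [sub_eq_iff_eq_add', P2, P2, q, ← map_add, ← qS_of_mul
      (1 - ((RP x (Function.update a v 0) : Polynomial ℝ) : PowerSeries ℝ))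
      (mom s μ) (1 - ((RP x (Function.update a v h) : Polynomial ℝ) : PowerSeries ℝ))
      (constantCoeff_one_sub_RP hx _) (constantCoeff_mom _ _)]
    rw [hl h]; ring
  rw [hP]
  -- Green function
  set p := RP x (Function.update a v h) with hp
  set p0 := RP x (Function.update a v 0) with hp0
  have hah := update_nonneg ha v hh
  have ha0 := update_nonneg ha v (h := (0 : C → ℝ)) (fun i => le_rfl)
  obtain ⟨n', σ, ν, hν0, hfac, hK⟩ := nev_rev p (fun _ : Unit => - (Polynomial.X * p0))
    (RP_coeff_zero hx _) (fun _ => by simp)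
    (RP_ne_zero hx _ hah) (by
      intro _ ζ hζ
      have hζ0 : ζ ≠ 0 := by rintro rfl; simp at hζ
      have h1 := RP_ne_zero hx _ hah ζ hζ
      have h2 := RP_ne_zero hx _ ha0 ζ hζ
      rw [← hp] at h1
      rw [← hp0] at h2
      set A := (p.map (algebraMap ℝ ℂ)).eval ζ with hA
      set B := (p0.map (algebraMap ℝ ℂ)).eval ζ with hB
      have h3 : A = B + ∑ i, (h i : ℂ) * ζ * ((KP x a v i).map (algebraMap ℝ ℂ)).eval ζ := by
        rw [hA, hp, RP_update hx, Polynomial.map_add, Polynomial.eval_add, Polynomial.map_sum,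
          Polynomial.eval_finsetSum]
        congr 1
        refine Finset.sum_congr rfl fun i _ => ?_
        simp
      have h4 : A / (ζ * B) = ζ⁻¹ + ∑ i, (h i : ℂ) *
          (((KP x a v i).map (algebraMap ℝ ℂ)).eval ζ / B) := by
        rw [h3, add_div, Finset.sum_div]
        congr 1
        · field_simp
        · refine Finset.sum_congr rfl fun i _ => ?_
          field_simp
      have h5 : 0 < (A / (ζ * B)).im := by
        rw [h4, Complex.add_im, Complex.im_sum]
        have h6 : 0 < (ζ⁻¹).im := by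
          rw [Complex.inv_im]
          exact div_pos (by linarith) (Complex.normSq_pos.mpr hζ0)
        have h7 : 0 ≤ ∑ i, ((h i : ℂ) * (((KP x a v i).map (algebraMap ℝ ℂ)).eval ζ / B)).im := by
          refine Finset.sum_nonneg fun i _ => ?_
          rw [Complex.im_ofReal_mul]
          exact mul_nonneg (hh i) (KP_im_nonneg hx a ha v i ζ hζ)
        linarith
      have h8 : ((-(Polynomial.X * p0)).map (algebraMap ℝ ℂ)).eval ζ / A = - (A / (ζ * B))⁻¹ := by
        rw [Polynomial.map_neg, Polynomial.map_mul, Polynomial.map_X, Polynomial.eval_neg,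
          Polynomial.eval_mul, Polynomial.eval_X, ← hB]
        field_simp
      rw [h8, Complex.neg_im, Complex.inv_im]
      have h9 : 0 ≤ (A / (ζ * B)).im / Complex.normSq (A / (ζ * B)) :=
        div_nonneg h5.le (Complex.normSq_nonneg _)
      have : -(-(A / (ζ * B)).im / Complex.normSq (A / (ζ * B)))
          = (A / (ζ * B)).im / Complex.normSq (A / (ζ * B)) := by ring
      rw [this]; exact h9)
  have hK' := hK ()
  -- X^2 p0 = mom σ ν * p
  set G : PowerSeries ℝ := ∑ j, PowerSeries.C (ν () j) * geo (σ j) with hG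
  have hmom : mom σ (ν ()) = G * PowerSeries.X ^ 2 := by
    rw [mom, hG, Finset.sum_mul]
    refine Finset.sum_congr rfl fun j _ => ?_
    ring
  have h1 : (PowerSeries.X ^ 2 : PowerSeries ℝ) * (p0 : PowerSeries ℝ)
      = PowerSeries.X ^ 2 * (G * (p : PowerSeries ℝ)) := by
    have h2 : (-(Polynomial.X * p0) : Polynomial ℝ) = -(Polynomial.X * p0) := rfl
    rw [Polynomial.coe_neg, Polynomial.coe_mul, Polynomial.coe_X, hmom] at hK'
    calc (PowerSeries.X ^ 2 : PowerSeries ℝ) * (p0 : PowerSeries ℝ)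
        = -(PowerSeries.X * -(PowerSeries.X * (p0 : PowerSeries ℝ))) := by ring
      _ = _ := by rw [hK']; ring
  have h2 : (p0 : PowerSeries ℝ) = G * (p : PowerSeries ℝ) := by
    have hX : (PowerSeries.X ^ 2 : PowerSeries ℝ) ≠ 0 := pow_ne_zero 2 PowerSeries.X_ne_zero
    exact mul_left_cancel₀ hX h1
  have hpne : (p : PowerSeries ℝ) ≠ 0 := by
    intro h0
    have h3 : PowerSeries.constantCoeff (p : PowerSeries ℝ) = 1 := by
      rw [Polynomial.constantCoeff_coe, hp, RP_coeff_zero hx]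
    rw [h0, map_zero] at h3
    exact zero_ne_one h3
  have h3 : (1 - mom s μ) * G = 1 := by
    have h4 : (p : PowerSeries ℝ) * ((1 - mom s μ) * G) = (p : PowerSeries ℝ) * 1 := by
      calc (p : PowerSeries ℝ) * ((1 - mom s μ) * G) = (G * (p : PowerSeries ℝ)) * (1 - mom s μ) := by
            ring
        _ = (p0 : PowerSeries ℝ) * (1 - mom s μ) := by rw [← h2]
        _ = (p : PowerSeries ℝ) := by rw [hp, hl h]
        _ = _ := (mul_one _).symm
    exact mul_left_cancel₀ hpne h4
  have hσ : ∀ j, |σ j| ≤ R := by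
    intro j
    by_contra hcon
    push Not at hcon
    have hσ0 : σ j ≠ 0 := by
      intro h0; rw [h0, abs_zero] at hcon; linarith
    have habs : 0 < |σ j| := abs_pos.mpr hσ0
    apply hroot (σ j)⁻¹
    · rw [abs_inv, inv_mul_lt_iff₀ habs, mul_one]; exact hcon
    · rw [hfac, Polynomial.eval_prod]
      apply Finset.prod_eq_zero (Finset.mem_univ j)
      simp [hσ0]
  exact q_le_of_green k s μ σ (ν ()) (hν0 ()) R hR.le hσ h3 hk

end Crest.Agent.R109.Lk
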