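import Mathlib
import Crest.Agent.R109.Annealed
import Crest.Agent.R109.FinStart1

/-!
# Annealed determinants as real rooted polynomials, row 109
-/

set_option autoImplicit false
set_option linter.unusedSectionVars false
set_option linter.unusedSimpArgs false

namespace Crest.Agent.R109.Ann

open Matrix Finset Polynomial

section General

variable {V K R : Type*} [Fintype V] [DecidableEq V] [Fintype K] [DecidableEq K] [CommRing R]

/-- the multilinear form with coefficients `D` -/
noncomputable def ml (D : (V → Option K) → R) : MultilinearMap R (fun _ : V => Option K → R) R :=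
  ∑ c : V → Option K, (D c) •
    (MultilinearMap.mkPiAlgebra R V R).compLinearMap (fun v => LinearMap.proj (c v))

theorem ml_apply (D : (V → Option K) → R) (w : V → Option K → R) :
    ml D w = ∑ c : V → Option K, D c * ∏ v, w v (c v) := by
  simp only [ml, _root_.sum_apply]
  refine Finset.sum_congr rfl fun c _ => ?_
  simp only [_root_.smul_apply, MultilinearMap.compLinearMap_apply,
    MultilinearMap.mkPiAlgebra_apply, smul_eq_mul, LinearMap.proj_apply]

noncomputable def annD (D : (V → Option K) → R) (g : V → K → R) : R := ml D (fun v => wt (g v))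


theorem annD_apply (D : (V → Option K) → R) (g : V → K → R) :
    annD D g = ∑ c : V → Option K, D c * ∏ v, wt (g v) (c v) := ml_apply _ _


theorem map_wt {S : Type*} [CommRing S] (φ : R →+* S) (g : K → R) (o : Option K) :
    φ (wt g o) = wt (fun i => φ (g i)) o := by
  cases o <;> simp

theorem map_annD {S : Type*} [CommRing S] (φ : R →+* S) (D : (V → Option K) → R) (g : V → K → R) :
    φ (annD D g) = annD (fun c => φ (D c)) (fun v i => φ (g v i)) := by
  simp only [annD_apply, map_sum, map_mul, map_prod, map_wt]


/-- the coloured vertices -/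
def sup (c : V → Option K) : Finset V := Finset.univ.filter (fun v => c v ≠ none)

theorem prod_wt_smul (y : R) (g : V → K → R) (c : V → Option K) :
    ∏ v, wt (fun i => g v i * y) (c v) = y ^ (sup c).card * ∏ v, wt (g v) (c v) := by
  rw [← Finset.prod_const, sup, Finset.prod_filter, ← Finset.prod_mul_distrib]
  refine Finset.prod_congr rfl fun v _ => ?_
  cases hv : c v <;> simp [mul_comm]


end General

section Real

variable {V K : Type*} [Fintype V] [DecidableEq V] [Fintype K] [DecidableEq K]

theorem det_N_im {x : V → V → ℂ} (hx : Herm x) (c : V → Option K) : ((N x c).det).im = 0 := by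
  have h1 : (N x c).conjTranspose = N x c := by
    ext u w
    simp only [Matrix.conjTranspose_apply, N, Matrix.of_apply, RCLike.star_def, map_sub]
    by_cases h : u = w
    · subst h
      by_cases h2 : c u = none
      · simp [h2]
      · simp [h2, ← hx u u]
    · have h' : ¬ w = u := fun h' => h h'.symm
      by_cases h3 : c w = c u
      · by_cases h2 : c u = none
        · simp [h, h', h3, h2]
        · simp [h, h', h3, h2, ← hx w u]
      · have h3' : ¬ c u = c w := fun h4 => h3 h4.symm
        simp [h, h', h3, h3']
  have h2 : (starRingEnd ℂ) (N x c).det = (N x c).det := by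
    have := Matrix.det_conjTranspose (N x c)
    rw [h1] at this
    exact this.symm
  have := congrArg Complex.im h2
  rw [Complex.conj_im] at this
  linarith

/-- coefficient function of `pol` -/
noncomputable def Dp (x : V → V → ℂ) (c : V → Option K) : ℝ[X] :=
  C ((N x c).det.re) * X ^ (sup c).card

/-- the annealed polynomial `P(y)`, `y = 1/t` -/
noncomputable def pol (x : V → V → ℂ) (γ : V → K → ℝ) : ℝ[X] :=
  annD (Dp x) (fun v i => C (γ v i))




theorem eval_pol {x : V → V → ℂ} (hx : Herm x) (γ : V → K → ℝ) (y : ℂ) :
    ((pol x γ).map (algebraMap ℝ ℂ)).eval y = ann x (fun v i => (γ v i : ℂ) * y) := by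
  have h1 : ((pol x γ).map (algebraMap ℝ ℂ)).eval y
      = ((Polynomial.evalRingHom y).comp (Polynomial.mapRingHom (algebraMap ℝ ℂ))) (pol x γ) := rfl
  rw [h1, pol, map_annD, annD_apply, ann_apply]
  refine Finset.sum_congr rfl fun c _ => ?_
  rw [prod_wt_smul]
  have h2 : ((Polynomial.evalRingHom y).comp (Polynomial.mapRingHom (algebraMap ℝ ℂ))) (Dp x c)
      = (N x c).det * y ^ (sup c).card := by
    simp only [Dp, RingHom.comp_apply, Polynomial.coe_mapRingHom, Polynomial.map_mul,
      Polynomial.map_C, Polynomial.map_pow, Polynomial.map_X, Polynomial.coe_evalRingHom,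
      Polynomial.eval_mul, Polynomial.eval_C, Polynomial.eval_pow, Polynomial.eval_X]
    congr 1
    exact Complex.ext (by simp) (by simp [det_N_im hx c])
  rw [h2, mul_assoc]
  congr 2
  refine Finset.prod_congr rfl fun v _ => ?_
  congr 1
  funext i
  simp


/-! ### degrees and low coefficients -/


theorem pol_coeff_zero (x : V → V → ℂ) (γ : V → K → ℝ) : (pol x γ).coeff 0 = 1 := by
  rw [pol, annD_apply, Polynomial.finsetSum_coeff, Finset.sum_eq_single (fun _ => none)]
  · have h1 : N x (fun _ : V => (none : Option K)) = 1 := by
      ext u w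
      simp [N, Matrix.one_apply]
    simp [Dp, h1, sup]
  · intro c _ hc
    obtain ⟨v, hv⟩ := Function.ne_iff.mp hc
    have h1 : 0 < (sup c).card := Finset.card_pos.mpr ⟨v, by simp [sup, hv]⟩
    rw [Dp, mul_assoc, Polynomial.coeff_C_mul, Polynomial.coeff_X_pow_mul']
    rw [if_neg (by omega)]
    simp
  · intro h; exact absurd (Finset.mem_univ _) h








/-! ### real rootedness -/


variable [Nonempty K]








end Real

end Crest.Agent.R109.Ann
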