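import Crest.Agent.R109.CE
import Crest.Agent.R109.Spec
import Crest.Agent.R109.BallFro

/-!
# Row 109: the orbit model on the spectrum of the masa (A)

`UN M A η` = group of unitaries of `M` normalising `A` with bounded Radon-Nikodym derivatives.
It acts on the spectrum `m.X` of the masa by homeomorphisms, and coincidence sets are clopen.
-/

set_option autoImplicit false
set_option linter.unusedSectionVars false

namespace Crest.Agent.R109

open scoped InnerProductSpace ComplexOrder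
open ContinuousLinearMap Set TopologicalSpace

universe u

variable {H : Type u} [NormedAddCommGroup H] [InnerProductSpace ℂ H] [CompleteSpace H]
variable {M : VonNeumannAlgebra H} {A : StarSubalgebra ℂ (H →L[ℂ] H)} {η : H}

/-- the vector state translated by `u` is dominated by `C` times the vector state -/
def BDom (M : VonNeumannAlgebra H) (η : H) (u : H →L[ℂ] H) (C : ℝ) : Prop :=
  ∀ x ∈ M, 0 ≤ x → (⟪η, (star u * x * u) η⟫_ℂ).re ≤ C * (⟪η, x η⟫_ℂ).re

lemma inner_nonneg_re {x : H →L[ℂ] H} (hx : 0 ≤ x) (ζ : H) : 0 ≤ (⟪ζ, x ζ⟫_ℂ).re := by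
  have := (ContinuousLinearMap.nonneg_iff_isPositive x).1 hx
  exact this.re_inner_nonneg_right ζ

lemma BDom.mul {u v : H →L[ℂ] H} (hu : u ∈ M) {C D : ℝ} (h1 : BDom M η u C) (h2 : BDom M η v D) :
    BDom M η (u * v) (|D| * |C|) := by
  intro x hx h0
  have e : star (u * v) * x * (u * v) = star v * (star u * x * u) * v := by
    rw [star_mul]; simp only [mul_assoc]
  have p1 : 0 ≤ star u * x * u := by
    have := star_left_conjugate_nonneg h0 u
    simpa using this
  have hm : star u * x * u ∈ M := mul_mem (mul_mem (star_mem hu) hx) hu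
  rw [e]
  calc _ ≤ D * (⟪η, (star u * x * u) η⟫_ℂ).re := h2 _ hm p1
    _ ≤ |D| * (⟪η, (star u * x * u) η⟫_ℂ).re :=
      mul_le_mul_of_nonneg_right (le_abs_self D) (inner_nonneg_re p1 η)
    _ ≤ |D| * (|C| * (⟪η, x η⟫_ℂ).re) := by
      refine mul_le_mul_of_nonneg_left ?_ (abs_nonneg D)
      exact (h1 x hx h0).trans (mul_le_mul_of_nonneg_right (le_abs_self C) (inner_nonneg_re h0 η))
    _ = _ := by ring

/-- unitaries of `M` normalising `A`, with bounded Radon-Nikodym derivatives -/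
def UNsub (M : VonNeumannAlgebra H) (A : StarSubalgebra ℂ (H →L[ℂ] H)) (η : H) :
    Subgroup (unitary (H →L[ℂ] H)) where
  carrier := {u | (u : H →L[ℂ] H) ∈ M ∧ (∀ a ∈ A, (u : H →L[ℂ] H) * a * star (u : H →L[ℂ] H) ∈ A) ∧
    (∀ a ∈ A, star (u : H →L[ℂ] H) * a * u ∈ A) ∧ (∃ C, BDom M η (u : H →L[ℂ] H) C) ∧
    ∃ C, BDom M η (star (u : H →L[ℂ] H)) C}
  one_mem' := by
    refine ⟨one_mem M, fun a ha => by simpa using ha, fun a ha => by simpa using ha, ⟨1, ?_⟩,
      ⟨1, ?_⟩⟩ <;> intro x _ _ <;> simp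
  mul_mem' := by
    rintro u v ⟨h1, h2, h3, ⟨C, h4⟩, ⟨C', h5⟩⟩ ⟨k1, k2, k3, ⟨D, k4⟩, ⟨D', k5⟩⟩
    refine ⟨mul_mem h1 k1, fun a ha => ?_, fun a ha => ?_, ⟨_, h4.mul h1 k4⟩, ⟨|C'| * |D'|, ?_⟩⟩
    · have := h2 _ (k2 a ha)
      simpa [star_mul, mul_assoc] using this
    · have := k3 _ (h3 a ha)
      simpa [star_mul, mul_assoc] using this
    · have := k5.mul (star_mem k1) h5
      rw [← star_mul] at this
      simpa using this
  inv_mem' := by
    rintro u ⟨h1, h2, h3, h4, h5⟩
    refine ⟨?_, fun a ha => ?_, fun a ha => ?_, ?_, ?_⟩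
    · change star (u : H →L[ℂ] H) ∈ M
      exact star_mem h1
    · change star (u : H →L[ℂ] H) * a * star (star (u : H →L[ℂ] H)) ∈ A
      rw [star_star]; exact h3 a ha
    · change star (star (u : H →L[ℂ] H)) * a * star (u : H →L[ℂ] H) ∈ A
      rw [star_star]; exact h2 a ha
    · exact h5
    · change ∃ C, BDom M η (star (star (u : H →L[ℂ] H))) C
      rw [star_star]; exact h4

/-- the group of unitary normalisers with bounded Radon-Nikodym derivatives, as a type -/
def UN (M : VonNeumannAlgebra H) (A : StarSubalgebra ℂ (H →L[ℂ] H)) (η : H) : Type u :=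
  UNsub M A η

noncomputable instance : Group (UN M A η) := inferInstanceAs (Group (UNsub M A η))

namespace UN

/-- the underlying operator -/
def op (g : UN M A η) : H →L[ℂ] H := (g.1 : H →L[ℂ] H)

variable (g h : UN M A η)

lemma mem : g.op ∈ M := g.2.1
lemma conj {a : H →L[ℂ] H} (ha : a ∈ A) : g.op * a * star g.op ∈ A := g.2.2.1 a ha
lemma conj' {a : H →L[ℂ] H} (ha : a ∈ A) : star g.op * a * g.op ∈ A := g.2.2.2.1 a ha
lemma dom : ∃ C, BDom M η g.op C := g.2.2.2.2.1
@[simp] lemma star_mul_self : star g.op * g.op = 1 := Unitary.star_mul_self_of_mem g.1.2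
@[simp] lemma mul_star_self : g.op * star g.op = 1 := Unitary.mul_star_self_of_mem g.1.2
@[simp] lemma op_one : (1 : UN M A η).op = 1 := rfl
@[simp] lemma op_mul : (g * h).op = g.op * h.op := rfl
@[simp] lemma op_inv : (g⁻¹).op = star g.op := rfl

end UN

namespace Model

variable (m : Model A) (g h : UN M A η)

/-- the preimage of an element of `A` -/
noncomputable def inv (a : H →L[ℂ] H) : C(m.X, ℂ) := Function.invFun m.Φ a

lemma Φ_inv {a : H →L[ℂ] H} (ha : a ∈ A) : m.Φ (m.inv a) = a := by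
  obtain ⟨f, rfl⟩ := (m.mem_iff a).1 ha
  exact Function.invFun_eq ⟨f, rfl⟩

lemma inv_Φ (f : C(m.X, ℂ)) : m.inv (m.Φ f) = f := m.inj (m.Φ_inv (m.mem f))


/-- the automorphism `f ↦ g* f g` -/
noncomputable def al : C(m.X, ℂ) →⋆ₐ[ℂ] C(m.X, ℂ) where
  toFun f := m.inv (star g.op * m.Φ f * g.op)
  map_one' := by
    rw [map_one, mul_one, g.star_mul_self, ← map_one m.Φ, m.inv_Φ]
  map_mul' f k := by
    apply m.inj
    rw [m.Φ_inv (g.conj' (m.mem _)), map_mul, map_mul, m.Φ_inv (g.conj' (m.mem _)),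
      m.Φ_inv (g.conj' (m.mem _))]
    have : star g.op * m.Φ f * g.op * (star g.op * m.Φ k * g.op)
        = star g.op * m.Φ f * (g.op * star g.op) * m.Φ k * g.op := by simp only [mul_assoc]
    rw [this, g.mul_star_self, mul_one]
    simp only [mul_assoc]
  map_zero' := by
    rw [map_zero, mul_zero, zero_mul, ← map_zero m.Φ, m.inv_Φ]
  map_add' f k := by
    apply m.inj
    rw [m.Φ_inv (g.conj' (m.mem _)), map_add, map_add, m.Φ_inv (g.conj' (m.mem _)),
      m.Φ_inv (g.conj' (m.mem _)), mul_add, add_mul]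
  commutes' c := by
    apply m.inj
    rw [m.Φ_inv (g.conj' (m.mem _)), AlgHomClass.commutes m.Φ]
    rw [Algebra.algebraMap_eq_smul_one, mul_smul_comm, smul_mul_assoc, mul_one, g.star_mul_self]
  map_star' f := by
    apply m.inj
    rw [m.Φ_inv (g.conj' (m.mem _)), map_star, map_star, m.Φ_inv (g.conj' (m.mem _)), star_mul,
      star_mul, star_star, mul_assoc]

lemma Φ_al (f : C(m.X, ℂ)) : m.Φ (m.al g f) = star g.op * m.Φ f * g.op :=
  m.Φ_inv (g.conj' (m.mem _))

/-- the action of the normaliser on the spectrum -/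
noncomputable def act : C(m.X, m.X) :=
  ((WeakDual.CharacterSpace.homeoEval m.X ℂ).symm : C(_, _)).comp
    ((WeakDual.CharacterSpace.compContinuousMap (m.al g)).comp
      (WeakDual.CharacterSpace.continuousMapEval m.X ℂ))

lemma apply_act (f : C(m.X, ℂ)) (x : m.X) : f (m.act g x) = m.al g f x := by
  set φ := (WeakDual.CharacterSpace.compContinuousMap (m.al g))
    (WeakDual.CharacterSpace.homeoEval m.X ℂ x) with hφ
  have h1 : m.act g x = (WeakDual.CharacterSpace.homeoEval m.X ℂ).symm φ := rfl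
  have h2 : (WeakDual.CharacterSpace.homeoEval m.X ℂ) (m.act g x) = φ := by
    rw [h1, Homeomorph.apply_symm_apply]
  have h3 : (WeakDual.CharacterSpace.homeoEval m.X ℂ) (m.act g x) f = f (m.act g x) := rfl
  rw [← h3, h2, hφ]
  rfl

lemma ext_of_apply {x y : m.X} (hxy : ∀ f : C(m.X, ℂ), f x = f y) : x = y := by
  apply (WeakDual.CharacterSpace.homeoEval m.X ℂ).injective
  exact DFunLike.ext _ _ fun f => hxy f

noncomputable instance : MulAction (UN M A η) m.X where
  smul g x := m.act g x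
  one_smul x := m.ext_of_apply fun f => by
    change f (m.act 1 x) = f x
    rw [apply_act]
    have : m.al (1 : UN M A η) f = f := by
      apply m.inj
      rw [Φ_al]; simp
    rw [this]
  mul_smul g h x := m.ext_of_apply fun f => by
    change f (m.act (g * h) x) = f (m.act g (m.act h x))
    rw [apply_act, apply_act, apply_act]
    have : m.al (g * h) f = m.al h (m.al g f) := by
      apply m.inj
      rw [Φ_al, Φ_al, Φ_al]; simp [mul_assoc]
    rw [this]

lemma apply_smul (f : C(m.X, ℂ)) (x : m.X) : f (g • x) = m.al g f x := m.apply_act g f x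

lemma continuous_smul : Continuous fun x : m.X => g • x := (m.act g).continuous

/-- the homeomorphism given by a normaliser -/
noncomputable def homeo : m.X ≃ₜ m.X where
  toFun x := g • x
  invFun x := g⁻¹ • x
  left_inv x := inv_smul_smul g x
  right_inv x := smul_inv_smul g x
  continuous_toFun := m.continuous_smul g
  continuous_invFun := m.continuous_smul g⁻¹

@[simp] lemma homeo_apply (x : m.X) : m.homeo g x = g • x := rfl

instance : ContinuousConstSMul (UN M A η) m.X := ⟨fun g => m.continuous_smul g⟩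

/-- conjugation in function form -/
lemma Φ_comp (f : C(m.X, ℂ)) : star g.op * m.Φ f * g.op = m.Φ (f.comp ⟨_, m.continuous_smul g⟩) := by
  rw [← Φ_al]
  congr 1
  ext x
  rw [← m.apply_smul]
  rfl

section Coincidence

variable (hA : Masa M A)
include hA

lemma isClopen_fix : IsClopen {x : m.X | g • x = x} := by
  have := m.extremallyDisconnected hA
  exact Ball.frolik_clopen (m.homeo g)

lemma isClopen_eq : IsClopen {x : m.X | g • x = h • x} := by
  have : {x : m.X | g • x = h • x} = {x | (h⁻¹ * g) • x = x} := by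
    ext x
    simp only [mem_ofPred_eq, mul_smul]
    exact ⟨fun hx => by rw [hx, inv_smul_smul], fun hx => by rw [← hx, smul_inv_smul, hx]⟩
  rw [this]
  exact m.isClopen_fix _ hA

/-- the clopen set of fixed points -/
noncomputable def fixC : Clopens m.X := ⟨{x | g • x = x}, m.isClopen_fix g hA⟩

lemma mem_fixC {x : m.X} : x ∈ m.fixC g hA ↔ g • x = x := Iff.rfl

/-- `g` restricted to its fixed points belongs to `A` -/
lemma mul_pr_fix_mem : g.op * m.pr (m.fixC g hA) ∈ A := by
  apply hA.max _ (mul_mem g.mem (hA.le (m.pr_mem _)))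
  intro a ha
  obtain ⟨f, rfl⟩ := (m.mem_iff a).1 ha
  have h1 : m.Φ f * g.op = g.op * m.Φ (m.al g f) := by
    rw [Φ_al, ← mul_assoc, ← mul_assoc, g.mul_star_self, one_mul]
  have h2 : m.al g f * m.ind (m.fixC g hA) = m.ind (m.fixC g hA) * f := by
    ext x
    simp only [ContinuousMap.mul_apply]
    by_cases hx : x ∈ m.fixC g hA
    · rw [m.ind_of_mem hx, one_mul, mul_one, ← apply_smul, (m.mem_fixC g hA).1 hx]
    · rw [m.ind_of_notMem hx]; simp
  rw [← mul_assoc, h1, mul_assoc, pr, ← map_mul, h2, map_mul, mul_assoc]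

end Coincidence

/-- `Φ` reflects positivity -/
lemma nonneg_of_Φ {f : C(m.X, ℂ)} (h0 : 0 ≤ m.Φ f) (t : m.X) : 0 ≤ f t := by
  have hs : star f = f := by
    apply m.inj
    rw [map_star]
    exact h0.isSelfAdjoint
  have hre : ∀ x, f x = ((f x).re : ℂ) := by
    intro x
    have := congrArg (fun k : C(m.X, ℂ) => k x) hs
    simp only [ContinuousMap.star_apply] at this
    exact (Complex.conj_eq_iff_re.1 this).symm
  by_contra hneg
  have hlt : (f t).re < 0 := by
    by_contra hge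
    apply hneg
    rw [hre t]
    exact_mod_cast not_lt.1 hge
  let k : C(m.X, ℂ) := ⟨fun x => ((max (-(f x).re) 0 : ℝ) : ℂ), by fun_prop⟩
  have hks : star k = k := by
    ext x
    simp only [ContinuousMap.star_apply, k, ContinuousMap.coe_mk, Complex.star_def,
      Complex.conj_ofReal]
  have h1 : k * f * k = -(k * k * k) := by
    ext x
    simp only [ContinuousMap.mul_apply, ContinuousMap.neg_apply, k, ContinuousMap.coe_mk]
    obtain ⟨r, hr⟩ : ∃ r : ℝ, f x = r := ⟨_, hre x⟩
    rw [hr, Complex.ofReal_re]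
    rcases le_or_gt 0 r with h | h
    · rw [max_eq_right (by linarith)]
      simp
    · rw [max_eq_left (by linarith)]
      push_cast
      ring
  have h2 : 0 ≤ m.Φ (-(k * k * k)) := by
    rw [← h1, map_mul, map_mul]
    have := star_left_conjugate_nonneg h0 (m.Φ k)
    rwa [← map_star, hks] at this
  have h3 : 0 ≤ m.Φ (k * k * k) := by
    apply m.nonneg_of_nonneg
    intro x
    change (0 : ℂ) ≤ ((max (-(f x).re) 0 : ℝ) : ℂ) * ((max (-(f x).re) 0 : ℝ) : ℂ)
      * ((max (-(f x).re) 0 : ℝ) : ℂ)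
    have : (0 : ℝ) ≤ max (-(f x).re) 0 := le_max_right _ _
    exact_mod_cast mul_nonneg (mul_nonneg this this) this
  have h4 : m.Φ (k * k * k) = 0 := by
    rw [map_neg] at h2
    exact le_antisymm (neg_nonneg.1 h2) h3
  have h5 := congrArg (fun q : C(m.X, ℂ) => q t) (m.eq_zero_iff.1 h4)
  simp only [ContinuousMap.mul_apply, k, ContinuousMap.coe_mk, ContinuousMap.zero_apply] at h5
  have h6 : (max (-(f t).re) 0) * (max (-(f t).re) 0) * (max (-(f t).re) 0) = 0 := by
    exact_mod_cast h5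
  have h7 : 0 < max (-(f t).re) 0 := lt_max_of_lt_left (by linarith)
  exact absurd h6 (by positivity)

/-- the conditional expectation as a function on the spectrum -/
noncomputable def cE (η : H) (x : H →L[ℂ] H) : C(m.X, ℂ) := m.inv (CE A η x)

section cE

variable (hN : NCE M A η) {x y : H →L[ℂ] H}
include hN

lemma Φ_cE (hx : x ∈ M) : m.Φ (m.cE η x) = CE A η x := m.Φ_inv (hN.CE_mem hx)

lemma cE_add (hx : x ∈ M) (hy : y ∈ M) : m.cE η (x + y) = m.cE η x + m.cE η y := by
  apply m.inj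
  rw [map_add, m.Φ_cE hN (add_mem hx hy), m.Φ_cE hN hx, m.Φ_cE hN hy, hN.CE_add hx hy]


lemma cE_smul (hx : x ∈ M) (c : ℂ) : m.cE η (c • x) = c • m.cE η x := by
  apply m.inj
  rw [map_smul, m.Φ_cE hN (M.smul_mem hx c), m.Φ_cE hN hx, hN.CE_smul hx]

lemma cE_sum {ι : Type*} (s : Finset ι) {F : ι → H →L[ℂ] H} (hF : ∀ i ∈ s, F i ∈ M) :
    m.cE η (∑ i ∈ s, F i) = ∑ i ∈ s, m.cE η (F i) := by
  apply m.inj
  rw [map_sum, m.Φ_cE hN (sum_mem hF), hN.CE_sum s hF]
  exact Finset.sum_congr rfl fun i hi => (m.Φ_cE hN (hF i hi)).symm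

lemma cE_star (hx : x ∈ M) : m.cE η (star x) = star (m.cE η x) := by
  apply m.inj
  rw [map_star, m.Φ_cE hN (star_mem hx), m.Φ_cE hN hx, hN.CE_star hx]

lemma cE_Φ (f : C(m.X, ℂ)) : m.cE η (m.Φ f) = f := by
  apply m.inj
  rw [m.Φ_cE hN (hN.masa.le (m.mem f)), hN.CE_of_mem (m.mem f)]

lemma cE_Φ_mul (f : C(m.X, ℂ)) (hx : x ∈ M) : m.cE η (m.Φ f * x) = f * m.cE η x := by
  apply m.inj
  rw [map_mul, m.Φ_cE hN (mul_mem (hN.masa.le (m.mem f)) hx), m.Φ_cE hN hx,
    hN.CE_mul_left (m.mem f) hx]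

lemma cE_mul_Φ (f : C(m.X, ℂ)) (hx : x ∈ M) : m.cE η (x * m.Φ f) = m.cE η x * f := by
  apply m.inj
  rw [map_mul, m.Φ_cE hN (mul_mem hx (hN.masa.le (m.mem f))), m.Φ_cE hN hx,
    hN.CE_mul_right (m.mem f) hx]

/-- positivity, pointwise -/
lemma cE_nonneg (hx : x ∈ M) (h0 : 0 ≤ x) (t : m.X) : 0 ≤ m.cE η x t := by
  apply m.nonneg_of_Φ
  rw [m.Φ_cE hN hx]
  exact hN.CE_nonneg hx h0

/-- `E(g)` vanishes where `g` moves the point -/
lemma cE_op_of_ne {t : m.X} (ht : g • t ≠ t) : m.cE η g.op t = 0 := by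
  by_contra hne
  apply ht
  apply m.ext_of_apply
  intro f
  have h1 : m.Φ f * g.op = g.op * m.Φ (m.al g f) := by
    rw [Φ_al, ← mul_assoc, ← mul_assoc, g.mul_star_self, one_mul]
  have h2 := m.cE_Φ_mul hN f g.mem
  rw [h1, m.cE_mul_Φ hN _ g.mem] at h2
  have h3 := congrArg (fun k : C(m.X, ℂ) => k t) h2
  simp only [ContinuousMap.mul_apply] at h3
  rw [← apply_smul, mul_comm] at h3
  exact mul_right_cancel₀ hne h3

/-- `E(g) = g 1_{Fix g}` -/
lemma cE_op : m.Φ (m.cE η g.op) = g.op * m.pr (m.fixC g hN.masa) := by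
  have h1 : m.cE η g.op * m.ind (m.fixC g hN.masa) = m.cE η g.op := by
    ext t
    simp only [ContinuousMap.mul_apply]
    by_cases ht : t ∈ m.fixC g hN.masa
    · rw [m.ind_of_mem ht, mul_one]
    · rw [m.ind_of_notMem ht, mul_zero, m.cE_op_of_ne g hN ht]
  have h2 := m.cE_mul_Φ hN (m.ind (m.fixC g hN.masa)) g.mem
  rw [h1] at h2
  obtain ⟨f, hf⟩ := (m.mem_iff _).1 (m.mul_pr_fix_mem g hN.masa)
  have h3 : m.cE η (g.op * m.Φ (m.ind (m.fixC g hN.masa))) = f := by
    change m.cE η (g.op * m.pr (m.fixC g hN.masa)) = f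
    rw [← hf, m.cE_Φ hN]
  rw [← h2, h3, hf]

lemma norm_cE_op {t : m.X} (ht : g • t = t) : ‖m.cE η g.op t‖ = 1 := by
  have h1 : star (m.cE η g.op) * m.cE η g.op = m.ind (m.fixC g hN.masa) := by
    apply m.inj
    rw [map_mul, map_star, m.cE_op g hN, star_mul, m.star_pr]
    have : m.pr (m.fixC g hN.masa) * star g.op * (g.op * m.pr (m.fixC g hN.masa))
        = m.pr (m.fixC g hN.masa) * (star g.op * g.op) * m.pr (m.fixC g hN.masa) := by
      simp only [mul_assoc]
    rw [this, g.star_mul_self, mul_one, m.pr_idem]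
    rfl
  have h2 := congrArg (fun k : C(m.X, ℂ) => k t) h1
  simp only [ContinuousMap.mul_apply, ContinuousMap.star_apply] at h2
  rw [m.ind_of_mem ((m.mem_fixC g hN.masa).2 ht)] at h2
  have h3 : ((‖m.cE η g.op t‖ ^ 2 : ℝ) : ℂ) = 1 := by
    rw [← h2, Complex.star_def, ← Complex.normSq_eq_conj_mul_self, Complex.normSq_eq_norm_sq]
  have h4 : ‖m.cE η g.op t‖ ^ 2 = 1 := by exact_mod_cast h3
  exact (pow_eq_one_iff_of_nonneg (norm_nonneg _) two_ne_zero).1 h4

end cE

end Model

end Crest.Agent.R109
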