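import Mathlib.MeasureTheory.Integral.RieszMarkovKakutani.Real
import Mathlib.Topology.Separation.Profinite

/-!
# Row 109: measures on the Baire σ-algebra of a compact totally separated space
-/

set_option autoImplicit false
set_option linter.unusedSectionVars false

namespace Crest.Agent.R109.Ball

open MeasureTheory Set TopologicalSpace
open scoped CompactlySupported

section Riesz

variable {X : Type*} [TopologicalSpace X] [CompactSpace X] [T2Space X]

/-- Riesz representation on a compact space -/
theorem exists_measure_borel [MeasurableSpace X] [BorelSpace X] (Λ : C(X, ℝ) →ₗ[ℝ] ℝ)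
    (hΛ : ∀ f, 0 ≤ f → 0 ≤ Λ f) :
    ∃ μ : Measure X, IsFiniteMeasure μ ∧ ∀ f : C(X, ℝ), ∫ x, f x ∂μ = Λ f := by
  let e : C(X, ℝ) ≃ C_c(X, ℝ) := CompactlySupportedContinuousMap.continuousMapEquiv
  let L : C_c(X, ℝ) →ₗ[ℝ] ℝ :=
    { toFun := fun f => Λ (e.symm f)
      map_add' := fun f g => by
        rw [← map_add]; congr 1
      map_smul' := fun c f => by
        rw [RingHom.id_apply, ← map_smul]; congr 1 }
  let P : C_c(X, ℝ) →ₚ[ℝ] ℝ := PositiveLinearMap.mk₀ L fun f hf => hΛ _ hf
  refine ⟨RealRMK.rieszMeasure P, ?_, fun f => ?_⟩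
  · exact ⟨IsCompact.measure_lt_top isCompact_univ⟩
  · have h := RealRMK.integral_rieszMeasure P (e f)
    exact h

/-- the σ-algebra generated by the clopen sets -/
@[reducible] def baire (X : Type*) [TopologicalSpace X] : MeasurableSpace X :=
  MeasurableSpace.generateFrom {s | IsClopen s}

lemma baire_le_borel : baire X ≤ borel X := by
  apply MeasurableSpace.generateFrom_le
  intro s hs
  exact MeasurableSpace.measurableSet_generateFrom hs.2

lemma baire_measurableSet {s : Set X} (hs : IsClopen s) : @MeasurableSet X (baire X) s :=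
  MeasurableSpace.measurableSet_generateFrom hs


/-- continuous real functions on a totally separated compact space are Baire measurable -/
lemma baire_measurable_real [TotallySeparatedSpace X] {f : X → ℝ} (hf : Continuous f) :
    @Measurable X ℝ (baire X) _ f := by
  let _ : MeasurableSpace X := baire X
  -- a clopen set between a closed and an open set
  have key : ∀ K U : Set X, IsClosed K → IsOpen U → K ⊆ U → ∃ V : Set X, IsClopen V ∧ K ⊆ V ∧
      V ⊆ U := by
    intro K U hK hU h
    choose! V hV hxV hVU using fun (x : X) (hx : x ∈ K) =>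
      compact_exists_isClopen_in_isOpen hU (h hx)
    obtain ⟨t, hcov⟩ := hK.isCompact.elim_nhds_subcover' (fun x _ => V x)
      fun x hx => (hV x hx).2.mem_nhds (hxV x hx)
    refine ⟨⋃ x ∈ t, V x.1, ?_, hcov, iUnion₂_subset fun x _ => hVU x.1 x.2⟩
    exact isClopen_biUnion_finset fun x _ => hV x.1 x.2
  apply measurable_of_Ioi
  intro a
  have h1 : ∀ n : ℕ, ∃ V : Set X, IsClopen V ∧ {x | a + 1 / ((n : ℝ) + 1) ≤ f x} ⊆ V ∧
      V ⊆ {x | a < f x} := by
    intro n
    apply key
    · exact isClosed_le continuous_const hf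
    · exact isOpen_lt continuous_const hf
    · intro x hx
      have h2 : (0 : ℝ) < 1 / ((n : ℝ) + 1) := by positivity
      have h3 : a + 1 / ((n : ℝ) + 1) ≤ f x := hx
      change a < f x
      linarith
  choose V hV hKV hVU using h1
  have h2 : f ⁻¹' Ioi a = ⋃ n, V n := by
    apply Subset.antisymm
    · intro x hx
      have hx' : a < f x := hx
      obtain ⟨n, hn⟩ := exists_nat_one_div_lt (sub_pos.2 hx')
      refine mem_iUnion.2 ⟨n, hKV n ?_⟩
      change a + 1 / ((n : ℝ) + 1) ≤ f x
      linarith
    · exact iUnion_subset fun n => hVU n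
  rw [h2]
  exact MeasurableSet.iUnion fun n => baire_measurableSet (hV n)

/-- Riesz representation on the Baire σ-algebra -/
theorem exists_measure_baire [TotallySeparatedSpace X] (Λ : C(X, ℝ) →ₗ[ℝ] ℝ)
    (hΛ : ∀ f, 0 ≤ f → 0 ≤ Λ f) :
    ∃ μ : @Measure X (baire X), @IsFiniteMeasure X (baire X) μ ∧
      ∀ f : C(X, ℝ), @integral X ℝ _ _ (baire X) μ (fun x => f x) = Λ f := by
  have h0 : ∃ μ : @Measure X (borel X), @IsFiniteMeasure X (borel X) μ ∧
      ∀ f : C(X, ℝ), @integral X ℝ _ _ (borel X) μ (fun x => f x) = Λ f := by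
    let _ : MeasurableSpace X := borel X
    have : BorelSpace X := ⟨rfl⟩
    exact exists_measure_borel Λ hΛ
  obtain ⟨μ, hμ, h⟩ := h0
  refine ⟨@Measure.trim X (baire X) (borel X) μ baire_le_borel, ?_, fun f => ?_⟩
  · exact @isFiniteMeasure_trim X (baire X) (borel X) μ baire_le_borel hμ
  · have hsm : @StronglyMeasurable X ℝ _ (baire X) (fun x => f x) :=
      (baire_measurable_real f.continuous).stronglyMeasurable
    rw [← h f]
    exact (integral_trim (m := baire X) (m0 := borel X) (μ := μ) (f := fun x => f x)
      baire_le_borel hsm).symm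

end Riesz

/-- two finite measures on the Baire σ-algebra which agree on clopen sets are equal -/
theorem ext_baire {X : Type*} [TopologicalSpace X] {μ ν : @Measure X (baire X)}
    (hμ : @IsFiniteMeasure X (baire X) μ) (h : ∀ s : Set X, IsClopen s → μ s = ν s) : μ = ν := by
  let _ : MeasurableSpace X := baire X
  refine ext_of_generate_finite {s : Set X | IsClopen s} rfl
    (fun _ hs _ ht _ => hs.inter ht) (fun s hs => h s hs) (h univ isClopen_univ)

end Crest.Agent.R109.Ball
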