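import Mathlib

/-!
# Row 109, module BOOK (1): quasi-invariant actions and mass transport

`Gam` acts on a finite measure space `X`, `D g x = dμ(g x)/dμ(x)`.  For finite symmetric `S ⊆ Gam`
the ball of `x` is `S • x`.  The mass transport principle is `massTransport`.
-/

set_option autoImplicit false
set_option linter.unusedSectionVars false

open MeasureTheory
open scoped ENNReal

namespace Crest.Agent.R109.Book

/-- sums over the image of a finite family, written with multiplicities -/
theorem sum_image_mult {J Z : Type*} [DecidableEq Z] (s : Finset J) (u : J → Z) (f : Z → ℝ) :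
    ∑ z ∈ s.image u, f z = ∑ j ∈ s, f (u j) / ((s.filter (fun i => u i = u j)).card : ℝ) := by
  classical
  rw [← Finset.sum_fiberwise_of_maps_to (s := s) (t := s.image u) (g := u)
    (fun i hi => Finset.mem_image_of_mem u hi)]
  refine Finset.sum_congr rfl fun z hz => ?_
  obtain ⟨i, hi, rfl⟩ := Finset.mem_image.1 hz
  have hcard : ((s.filter (fun j => u j = u i)).card : ℝ) ≠ 0 := by
    have : i ∈ s.filter (fun j => u j = u i) := by simp [hi]
    exact_mod_cast (Finset.card_pos.2 ⟨i, this⟩).ne'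
  have : ∀ j ∈ s.filter (fun j => u j = u i),
      f (u j) / ((s.filter (fun k => u k = u j)).card : ℝ)
        = f (u i) / ((s.filter (fun k => u k = u i)).card : ℝ) := by
    intro j hj
    rw [(Finset.mem_filter.1 hj).2]
  rw [Finset.sum_congr rfl this, Finset.sum_const, nsmul_eq_mul]
  field_simp

/-- measurability of sums over moving finite sets -/
theorem measurable_sum_image {J Z X : Type*} [DecidableEq Z] [MeasurableSpace X] (s : Finset J)
    (u : J → X → Z) (hu : ∀ i ∈ s, ∀ j ∈ s, MeasurableSet {x | u i x = u j x}) (G : X → Z → ℝ)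
    (hG : ∀ j ∈ s, Measurable fun x => G x (u j x)) :
    Measurable fun x => ∑ z ∈ s.image (fun j => u j x), G x z := by
  classical
  have h1 : (fun x => ∑ z ∈ s.image (fun j => u j x), G x z)
      = fun x => ∑ j ∈ s, G x (u j x) / ((s.filter (fun i => u i x = u j x)).card : ℝ) := by
    funext x
    exact sum_image_mult s (fun j => u j x) (G x)
  rw [h1]
  refine Finset.measurable_sum _ fun j hj => (hG j hj).div ?_
  have h2 : (fun x => ((s.filter (fun i => u i x = u j x)).card : ℝ))
      = fun x => ∑ i ∈ s, Set.indicator {x | u i x = u j x} (fun _ => (1 : ℝ)) x := by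
    funext x
    rw [Finset.card_filter]
    push_cast
    refine Finset.sum_congr rfl fun i _ => ?_
    by_cases h : u i x = u j x <;> simp [Set.indicator, h]
  rw [h2]
  exact Finset.measurable_sum _ fun i hi => measurable_const.indicator (hu i hi j hj)

/-- a quasi-invariant action with Radon-Nikodym cocycle `D g x = dμ(g x)/dμ(x)` -/
structure QI (Gam X : Type*) [Group Gam] [MulAction Gam X] [MeasurableSpace X]
    (μ : Measure X) where
  /-- the cocycle -/
  D : Gam → X → ℝ
  meas_smul : ∀ g : Gam, Measurable (fun x : X => g • x)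
  meas_eq : ∀ g h : Gam, MeasurableSet {x : X | g • x = h • x}
  meas_D : ∀ g, Measurable (D g)
  D_pos : ∀ g x, 0 < D g x
  D_mul : ∀ g h x, D (g * h) x = D g (h • x) * D h x
  D_fix : ∀ g x, g • x = x → D g x = 1
  D_bdd : ∀ g, ∃ C, ∀ x, D g x ≤ C
  change : ∀ (g : Gam) (f : X → ℝ), Measurable f → (∃ C, ∀ x, |f x| ≤ C) →
    ∫ x, f (g • x) * D g x ∂μ = ∫ x, f x ∂μ

section Basic

variable {Gam X : Type*} [Group Gam] [MulAction Gam X] [MeasurableSpace X] {μ : Measure X}

/-- the orbit relation -/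
def Rel (Gam : Type*) {X : Type*} [Group Gam] [MulAction Gam X] (x y : X) : Prop :=
  ∃ g : Gam, g • x = y

theorem Rel.refl (x : X) : Rel Gam x x := ⟨1, one_smul _ _⟩

theorem Rel.symm {x y : X} (h : Rel Gam x y) : Rel Gam y x := by
  obtain ⟨g, rfl⟩ := h
  exact ⟨g⁻¹, by simp⟩

theorem Rel.trans {x y z : X} (h : Rel Gam x y) (h' : Rel Gam y z) : Rel Gam x z := by
  obtain ⟨g, rfl⟩ := h
  obtain ⟨g', rfl⟩ := h'
  exact ⟨g' * g, by rw [mul_smul]⟩

open Classical in
/-- `rel x y = dμ(y)/dμ(x)` for `y` in the orbit of `x` -/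
noncomputable def QI.rel (Q : QI Gam X μ) (x y : X) : ℝ :=
  if h : Rel Gam x y then Q.D h.choose x else 1

theorem QI.D_one (Q : QI Gam X μ) (x : X) : Q.D 1 x = 1 := Q.D_fix 1 x (one_smul _ _)

theorem QI.D_congr (Q : QI Gam X μ) {g h : Gam} {x : X} (hx : g • x = h • x) :
    Q.D g x = Q.D h x := by
  have h1 : (h⁻¹ * g) • x = x := by rw [mul_smul, hx, inv_smul_smul]
  have h2 := Q.D_mul h (h⁻¹ * g) x
  rw [h1, Q.D_fix _ _ h1, mul_one, mul_inv_cancel_left] at h2
  exact h2

theorem QI.rel_smul (Q : QI Gam X μ) (g : Gam) (x : X) : Q.rel x (g • x) = Q.D g x := by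
  have h : Rel Gam x (g • x) := ⟨g, rfl⟩
  rw [QI.rel, dif_pos h]
  exact Q.D_congr h.choose_spec

theorem QI.rel_self (Q : QI Gam X μ) (x : X) : Q.rel x x = 1 := by
  have := Q.rel_smul 1 x
  rwa [one_smul, Q.D_one] at this

theorem QI.rel_pos (Q : QI Gam X μ) (x y : X) : 0 < Q.rel x y := by
  unfold QI.rel
  split_ifs
  · exact Q.D_pos _ _
  · exact one_pos

theorem QI.rel_trans (Q : QI Gam X μ) {x y z : X} (h : Rel Gam x y) (h' : Rel Gam y z) :
    Q.rel x z = Q.rel x y * Q.rel y z := by
  obtain ⟨g, rfl⟩ := h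
  obtain ⟨g', rfl⟩ := h'
  have h1 : Q.rel x (g' • g • x) = Q.D (g' * g) x := by
    rw [← mul_smul]; exact Q.rel_smul _ _
  rw [h1, Q.rel_smul, Q.rel_smul, Q.D_mul]
  ring


open Classical in
/-- the ball `S • x` -/
noncomputable def ball (S : Finset Gam) (x : X) : Finset X := S.image (fun g => g • x)

theorem mem_ball {S : Finset Gam} {x y : X} : y ∈ ball S x ↔ ∃ g ∈ S, g • x = y := by
  simp [ball]

theorem ball_rel {S : Finset Gam} {x y : X} (h : y ∈ ball S x) : Rel Gam x y := by
  obtain ⟨g, _, hg⟩ := mem_ball.1 h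
  exact ⟨g, hg⟩

theorem self_mem_ball {S : Finset Gam} (h1 : (1 : Gam) ∈ S) (x : X) : x ∈ ball S x :=
  mem_ball.2 ⟨1, h1, one_smul _ _⟩


/-- **mass transport** -/
theorem massTransport (Q : QI Gam X μ) [IsFiniteMeasure μ] {S : Finset Gam}
    (hS : ∀ g ∈ S, g⁻¹ ∈ S) (F : X → X → ℝ)
    (hF : ∀ g ∈ S, Measurable fun x => F x (g • x)) (hb : ∃ C, ∀ x y, |F x y| ≤ C) :
    ∫ x, ∑ y ∈ ball S x, F x y ∂μ = ∫ y, ∑ x ∈ ball S y, Q.rel y x * F x y ∂μ := by
  classical
  obtain ⟨C, hC⟩ := hb
  have hC0 : ∀ x : X, 0 ≤ C := fun x => (abs_nonneg _).trans (hC x x)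
  set N : Gam → X → ℝ := fun g x => ((S.filter (fun i => i • x = g • x)).card : ℝ) with hN
  have hNmeas : ∀ g, Measurable (N g) := by
    intro g
    have h2 : N g = fun x => ∑ i ∈ S, Set.indicator {x | i • x = g • x} (fun _ => (1 : ℝ)) x := by
      funext x
      simp only [hN]
      rw [Finset.card_filter]
      push_cast
      refine Finset.sum_congr rfl fun i _ => ?_
      by_cases h : i • x = g • x <;> simp [Set.indicator, h]
    rw [h2]
    exact Finset.measurable_sum _ fun i hi => measurable_const.indicator (Q.meas_eq i g)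
  have hN1 : ∀ g ∈ S, ∀ x, 1 ≤ N g x := by
    intro g hg x
    have : g ∈ S.filter (fun i => i • x = g • x) := by simp [hg]
    have h3 := Finset.card_pos.2 ⟨g, this⟩
    simp only [hN]
    exact_mod_cast h3
  -- left side
  have hL : ∀ x, ∑ y ∈ ball S x, F x y = ∑ g ∈ S, F x (g • x) / N g x := by
    intro x
    exact sum_image_mult S (fun g => g • x) (F x)
  have hR : ∀ y, ∑ x ∈ ball S y, Q.rel y x * F x y
      = ∑ g ∈ S, (F (g • y) y / N g y) * Q.D g y := by
    intro y
    rw [ball]
    rw [sum_image_mult S (fun g => g • y) (fun x => Q.rel y x * F x y)]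
    refine Finset.sum_congr rfl fun g _ => ?_
    rw [Q.rel_smul]
    simp only [hN]
    ring
  simp_rw [hL, hR]
  have hφm : ∀ g ∈ S, Measurable fun x => F x (g • x) / N g x :=
    fun g hg => (hF g hg).div (hNmeas g)
  have hφb : ∀ g ∈ S, ∀ x, |F x (g • x) / N g x| ≤ C := by
    intro g hg x
    rw [abs_div, abs_of_nonneg (zero_le_one.trans (hN1 g hg x))]
    exact (div_le_self (abs_nonneg _) (hN1 g hg x)).trans (hC _ _)
  have hφi : ∀ g ∈ S, Integrable (fun x => F x (g • x) / N g x) μ := by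
    intro g hg
    exact Integrable.of_bound (hφm g hg).aestronglyMeasurable C
      (Filter.Eventually.of_forall fun x => by
        rw [Real.norm_eq_abs]; exact hφb g hg x)
  have hkey : ∀ g ∈ S, (fun y => (F (g • y) y / N g y) * Q.D g y)
      = fun y => (fun x => F x (g⁻¹ • x) / N g⁻¹ x) (g • y) * Q.D g y := by
    intro g hg
    funext y
    have hNN : N g⁻¹ (g • y) = N g y := by
      simp only [hN]
      congr 1
      refine Finset.card_bij (fun k _ => k⁻¹) ?_ ?_ ?_
      · intro k hk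
        rw [Finset.mem_filter] at hk ⊢
        refine ⟨hS k hk.1, ?_⟩
        have : k • g • y = y := by rw [hk.2]; simp
        calc k⁻¹ • y = k⁻¹ • (k • g • y) := by rw [this]
          _ = g • y := by simp
      · intro a _ b _ hab
        exact inv_injective hab
      · intro k hk
        rw [Finset.mem_filter] at hk
        refine ⟨k⁻¹, ?_, by simp⟩
        rw [Finset.mem_filter]
        refine ⟨hS k hk.1, ?_⟩
        rw [← hk.2, inv_smul_smul, hk.2, inv_smul_smul]
    simp only [hNN, inv_smul_smul]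
  have hD : ∀ g ∈ S, Integrable (fun y => (F (g • y) y / N g y) * Q.D g y) μ := by
    intro g hg
    obtain ⟨C', hC'⟩ := Q.D_bdd g
    rw [hkey g hg]
    refine Integrable.of_bound ((((hφm g⁻¹ (hS g hg)).comp (Q.meas_smul g)).mul
      (Q.meas_D g)).aestronglyMeasurable) (C * C') (Filter.Eventually.of_forall fun x => ?_)
    rw [Real.norm_eq_abs, abs_mul]
    refine mul_le_mul (hφb g⁻¹ (hS g hg) _) ?_ (abs_nonneg _) (hC0 x)
    rw [abs_of_pos (Q.D_pos _ _)]
    exact hC' _
  rw [integral_finsetSum _ hφi, integral_finsetSum _ hD]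
  -- reindex by inversion
  have hre : ∑ g ∈ S, ∫ x, F x (g • x) / N g x ∂μ
      = ∑ g ∈ S, ∫ x, F x (g⁻¹ • x) / N g⁻¹ x ∂μ := by
    refine Finset.sum_bij (fun g _ => g⁻¹) (fun g hg => hS g hg)
      (fun a _ b _ hab => inv_injective hab)
      (fun g hg => ⟨g⁻¹, hS g hg, by simp⟩) ?_
    intro g hg
    simp
  rw [hre]
  refine Finset.sum_congr rfl fun g hg => ?_
  rw [hkey g hg]
  exact (Q.change g (fun x => F x (g⁻¹ • x) / N g⁻¹ x) (hφm g⁻¹ (hS g hg))
    ⟨C, hφb g⁻¹ (hS g hg)⟩).symm

end Basic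

end Crest.Agent.R109.Book
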