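import Crest.Agent.R109.Book4

-- ▼ part R109/Book5
section

/-!
# Row 109, module BOOK (5): the potential as the integral of a local density
-/

set_option autoImplicit false
set_option linter.unusedSectionVars false

open MeasureTheory
open scoped ENNReal

namespace Crest.Agent.R109.Book

section Density

variable {Gam X : Type*} [Group Gam] [MulAction Gam X] [MeasurableSpace X] {μ : Measure X}

/-- the Moebius inverse of a function which only depends on `W ∩ B` is carried by subsets of
`B` -/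
theorem mob_eq_zero_of_local [DecidableEq X] {f : Finset X → ℝ} {B U : Finset X}
    (h : ∀ V ⊆ U, f V = f (V ∩ B)) (hU : ¬ U ⊆ B) : mob f U = 0 := by
  obtain ⟨a, haU, haB⟩ := Finset.not_subset.1 hU
  have h1 : mob f (insert a (U.erase a)) = 0 := by
    rw [mob_insert f (Finset.notMem_erase a U), sub_eq_zero]
    refine mob_congr fun V hV => ?_
    have hVU : V ⊆ U := hV.trans (Finset.erase_subset _ _)
    rw [h (insert a V) (Finset.insert_subset haU hVU), h V hVU,
      Finset.insert_inter_of_notMem haB]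
  rwa [Finset.insert_erase haU] at h1

theorem mob_sum {ι : Type*} (s : Finset ι) (f : ι → Finset X → ℝ) (U : Finset X) :
    mob (fun V => ∑ i ∈ s, f i V) U = ∑ i ∈ s, mob (f i) U := by
  simp only [mob, Finset.mul_sum]
  rw [Finset.sum_comm]

open Classical in
/-- **DENSITY**: if the finite volume potential is the sum over `v ∈ W` of densities `L x v W`
which only depend on the `S0`-ball of `v`, then the infinite volume potential is the integral of
the density at the root. -/
theorem phi_eq_density {Q : QI Gam X μ} [IsFiniteMeasure μ] {S S0 : Finset Gam}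
    (h1 : (1 : Gam) ∈ S) (hS : ∀ g ∈ S, g⁻¹ ∈ S) (hS0 : ∀ g ∈ S0, ∀ h ∈ S0, g * h⁻¹ ∈ S)
    {P : X → Finset X → ℝ} (hP : FV Q S P) (L : X → X → Finset X → ℝ)
    (hsum : ∀ x W, (∀ w ∈ W, Rel Gam x w) → P x W = ∑ v ∈ W, L x v W)
    (hcov : ∀ x y v W, Rel Gam x y → (∀ w ∈ W, Rel Gam x w) → v ∈ W →
      L y v W = Q.rel y x * L x v W)
    (hloc : ∀ x v W, (∀ w ∈ W, Rel Gam x w) → v ∈ W → L x v W = L x v (W ∩ ball S0 v))
    (hmeas : MeasK Gam fun x W => L x x W)
    (hbdd : ∃ C, ∀ x W, W ⊆ ball S x → |L x x W| ≤ C)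
    (hS01 : (1 : Gam) ∈ S0) :
    Phi μ S P = ∫ x, L x x (ball S x) ∂μ := by
  obtain ⟨C0, hC0⟩ := hbdd
  set C := max C0 0 with hCdef
  have hC : ∀ x W, W ⊆ ball S x → |L x x W| ≤ C :=
    fun x W hW => (hC0 x W hW).trans (le_max_left _ _)
  have hCn : 0 ≤ C := le_max_right _ _
  obtain ⟨C1, hC1⟩ := hP.bdd
  set C' := max C1 0 with hCdef'
  have hC' : ∀ x V, V ⊆ ball S x → |P x V| ≤ C' :=
    fun x V hV => (hC1 x V hV).trans (le_max_left _ _)
  have hCn' : 0 ≤ C' := le_max_right _ _
  set f : X → X → Finset X → ℝ := fun x v W => if v ∈ W then L x v W else 0 with hf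
  set F' : X → Finset X → ℝ := fun x U =>
    if x ∈ U ∧ U ⊆ ball S x then mob (f x x) U else 0 with hF'
  -- locality of the pieces
  have hfloc : ∀ x v U, (∀ w ∈ U, Rel Gam x w) → v ∈ U → mob (f x v) U ≠ 0 → U ⊆ ball S0 v := by
    intro x v U hU hv hne
    by_contra hcon
    refine hne (mob_eq_zero_of_local (B := ball S0 v) (fun V hV => ?_) hcon)
    have hvB : v ∈ ball S0 v := self_mem_ball hS01 v
    simp only [hf]
    by_cases hvV : v ∈ V
    · rw [if_pos hvV, if_pos (Finset.mem_inter.2 ⟨hvV, hvB⟩)]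
      exact hloc x v V (fun w hw => hU w (hV hw)) hvV
    · rw [if_neg hvV, if_neg fun h => hvV (Finset.mem_inter.1 h).1]
  have hball : ∀ (v : X) (U : Finset X), U ⊆ ball S0 v → ∀ y ∈ U, U ⊆ ball S y := by
    intro v U hU y hy u hu
    obtain ⟨g, hg, rfl⟩ := mem_ball.1 (hU hy)
    obtain ⟨k, hk, rfl⟩ := mem_ball.1 (hU hu)
    exact mem_ball.2 ⟨k * g⁻¹, hS0 k hk g hg, by rw [mul_smul, inv_smul_smul]⟩
  have hfcov : ∀ x y v U, Rel Gam x y → (∀ w ∈ U, Rel Gam x w) →
      mob (f y v) U = Q.rel y x * mob (f x v) U := by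
    intro x y v U hxy hU
    rw [← mob_mul]
    refine mob_congr fun V hV => ?_
    simp only [hf]
    by_cases hvV : v ∈ V
    · rw [if_pos hvV, if_pos hvV]
      exact hcov x y v V hxy (fun w hw => hU w (hV hw)) hvV
    · rw [if_neg hvV, if_neg hvV, mul_zero]
  have hfm : MeasK Gam fun x W => f x x W := by
    intro F
    exact Measurable.ite (measurableSet_self_mem_ball Q F) (hmeas F) measurable_const
  have hF'm : MeasK Gam F' := by
    intro F
    refine Measurable.ite ?_ (measK_mob Q hfm F) measurable_const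
    exact (measurableSet_self_mem_ball Q F).inter (measurableSet_ball_subset Q F S)
  have hF'b : ∀ x U, |F' x U| ≤ 2 ^ S.card * C := by
    intro x U
    simp only [hF']
    split_ifs with h
    · refine (abs_mob_le (C := C) fun V hV => ?_).trans ?_
      · simp only [hf]
        split_ifs
        · exact hC x V (hV.trans h.2)
        · simpa using hCn
      · refine mul_le_mul_of_nonneg_right ?_ hCn
        exact pow_le_pow_right₀ (by norm_num)
          ((Finset.card_le_card h.2).trans (card_ball_le S x))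
    · simp only [abs_zero]
      positivity
  have hF'loc : Loc S F' := by
    intro x U hx hne y hy
    simp only [hF'] at hne
    split_ifs at hne with h
    · exact hball x U (hfloc x x U (cl_rel h.2) hx hne) y hy
    · exact absurd rfl hne
  rw [phi_eq_cut]
  have key := clusterTransport Q hS (fun x U => cut S P x U / (U.card : ℝ)) F'
    (fun F => (measK_cut Q S hP.meas F).div (measurable_card_ball Q F)) hF'm
    (C := max (2 ^ S.card * C') (2 ^ S.card * C)) ?_
    (fun x U => (hF'b x U).trans (le_max_right _ _)) ?_ hF'loc ?_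
  · rw [key]
    refine integral_congr_ae (Filter.Eventually.of_forall fun x => ?_)
    simp only
    have e1 : ∑ U ∈ cl S x, F' x U
        = ∑ U ∈ (ball S x).powerset, if x ∈ U then mob (f x x) U else 0 := by
      rw [sum_cl]
      refine Finset.sum_congr rfl fun U hU => ?_
      have hUb := Finset.mem_powerset.1 hU
      by_cases hx : x ∈ U
      · simp only [hx, if_true, hF', hUb, and_self]
      · simp only [hx, if_false]
    rw [e1, sum_mob_mem]
    simp only [hf]
    rw [if_pos (self_mem_ball h1 x), if_neg (Finset.notMem_erase x _), sub_zero]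
  · intro x U
    refine le_trans ?_ (le_max_left _ _)
    rw [abs_div]
    rcases Nat.eq_zero_or_pos U.card with hU | hU
    · rw [hU]
      simp only [Nat.cast_zero, abs_zero, div_zero]
      positivity
    · refine (div_le_self (abs_nonneg _) ?_).trans (abs_cut_le hCn' hC' x U)
      rw [Nat.abs_cast]
      exact_mod_cast hU
  · intro x U hx hne
    refine hP.cut_loc x U hx fun h0 => hne ?_
    simp only [h0, zero_div]
  · intro y U hy hU
    have hUy := cl_rel hU
    have e1 : ∑ x ∈ U, Q.rel y x * (cut S P x U / (U.card : ℝ)) = mob (P y) U := by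
      have h2 : ∀ x ∈ U, Q.rel y x * (cut S P x U / (U.card : ℝ)) = mob (P y) U / (U.card : ℝ) := by
        intro x hx
        have h3 := hP.cut_cov hx hy fun w hw => (hUy x hx).symm.trans (hUy w hw)
        rw [cut_of_mem (mem_cl.2 ⟨hU, hy⟩)] at h3
        rw [h3]
        ring
      rw [Finset.sum_congr rfl h2, Finset.sum_const, nsmul_eq_mul]
      have hc : (U.card : ℝ) ≠ 0 := by exact_mod_cast (Finset.card_pos.2 ⟨y, hy⟩).ne'
      field_simp
    have e2 : mob (P y) U = ∑ x ∈ U, mob (f y x) U := by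
      rw [← mob_sum]
      refine mob_congr fun V hV => ?_
      rw [hsum y V fun w hw => hUy w (hV hw)]
      simp only [hf]
      rw [← Finset.sum_filter]
      refine Finset.sum_congr ?_ fun _ _ => rfl
      ext v
      simp only [Finset.mem_filter]
      exact ⟨fun h => ⟨hV h, h⟩, fun h => h.2⟩
    rw [e1, e2]
    refine Finset.sum_congr rfl fun x hx => ?_
    have hyx := hUy x hx
    have hUx : ∀ w ∈ U, Rel Gam x w := fun w hw => hyx.symm.trans (hUy w hw)
    have h4 := hfcov x y x U hyx.symm hUx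
    rw [h4]
    simp only [hF']
    by_cases h0 : mob (f x x) U = 0
    · rw [h0]
      simp
    · rw [if_pos ⟨hx, hball x U (hfloc x x U hUx hx h0) x hx⟩]

end Density

end Crest.Agent.R109.Book
end

-- ▼ part R109/Book6

/-!
# Row 109, module BOOK (6): from a homogeneous cluster function to a family of potentials

`H g W` is a function of the weights `g : X → Fin r → ℝ` and of the finite set `W`, homogeneous of
degree `2k` in `g`, whose Moebius inverse is carried by connected sets with at most `2k` points.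
With the tilted weights `gam` this gives a family `FVS`.
-/

set_option autoImplicit false
set_option linter.unusedSectionVars false

open MeasureTheory
open scoped Pointwise

namespace Crest.Agent.R109.Book

section Conn

variable {Gam X : Type*} [Group Gam] [MulAction Gam X] [MeasurableSpace X] [DecidableEq Gam]

theorem ball_mul_subset {S T : Finset Gam} {x y : X} (hy : y ∈ ball S x) :
    ball T y ⊆ ball (T * S) x := by
  intro z hz
  obtain ⟨g, hg, rfl⟩ := mem_ball.1 hy
  obtain ⟨h, hh, rfl⟩ := mem_ball.1 hz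
  exact mem_ball.2 ⟨h * g, Finset.mul_mem_mul hh hg, by rw [mul_smul]⟩

theorem ball_pow_mono {S : Finset Gam} (h1 : (1 : Gam) ∈ S) {m n : ℕ} (h : m ≤ n) (x : X) :
    ball (S ^ m) x ⊆ ball (S ^ n) x := by
  intro z hz
  obtain ⟨g, hg, rfl⟩ := mem_ball.1 hz
  exact mem_ball.2 ⟨g, Finset.pow_subset_pow_right h1 h hg, rfl⟩

theorem inv_mem_pow {S : Finset Gam} (hS : ∀ g ∈ S, g⁻¹ ∈ S) (n : ℕ) :
    ∀ g ∈ S ^ n, g⁻¹ ∈ S ^ n := by
  intro g hg
  have h : S⁻¹ = S := by
    ext a
    rw [Finset.mem_inv']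
    exact ⟨fun h => by simpa using hS _ h, fun h => hS _ h⟩
  have h2 : (S ^ n)⁻¹ = S ^ n := by rw [← inv_pow, h]
  rw [← Finset.mem_inv', h2]
  exact hg

theorem mul_inv_mem_pow {S : Finset Gam} (hS : ∀ g ∈ S, g⁻¹ ∈ S) (k : ℕ) :
    ∀ g ∈ S ^ k, ∀ h ∈ S ^ k, g * h⁻¹ ∈ S ^ (2 * k) := by
  intro g hg h hh
  rw [two_mul, pow_add]
  exact Finset.mul_mem_mul hg (inv_mem_pow hS k h hh)

open Classical in
/-- a connected set with at most `n + 1` points lies in the `n`-ball of each of its points -/
theorem conn_ball {S : Finset Gam} (h1 : (1 : Gam) ∈ S) {E : X → X → Prop}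
    (hE : ∀ a b, E a b → b ∈ ball S a) {U : Finset X}
    (hconn : ∀ A ⊆ U, A.Nonempty → (U \ A).Nonempty → ∃ a ∈ A, ∃ b ∈ U \ A, E a b)
    {n : ℕ} (hn : U.card ≤ n + 1) {y : X} (hy : y ∈ U) : U ⊆ ball (S ^ n) y := by
  have key : ∀ j : ℕ, U ⊆ ball (S ^ j) y ∨ j + 1 ≤ (U ∩ ball (S ^ j) y).card := by
    intro j
    induction j with
    | zero =>
      right
      refine Finset.card_pos.2 ⟨y, Finset.mem_inter.2 ⟨hy, ?_⟩⟩
      exact mem_ball.2 ⟨1, by simp, one_smul _ _⟩
    | succ j ih =>
      rcases ih with h | h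
      · exact Or.inl (h.trans (ball_pow_mono h1 (Nat.le_succ j) y))
      · by_cases hsub : U ⊆ ball (S ^ j) y
        · exact Or.inl (hsub.trans (ball_pow_mono h1 (Nat.le_succ j) y))
        · right
          set A := U ∩ ball (S ^ j) y with hA
          have hAU : A ⊆ U := Finset.inter_subset_left
          have hne : (U \ A).Nonempty := by
            obtain ⟨u, hu, hu'⟩ := Finset.not_subset.1 hsub
            exact ⟨u, Finset.mem_sdiff.2 ⟨hu, fun h => hu' (Finset.mem_inter.1 h).2⟩⟩
          have hAne : A.Nonempty := Finset.card_pos.1 (by omega)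
          obtain ⟨a, ha, b, hb, hab⟩ := hconn A hAU hAne hne
          have hbb : b ∈ ball (S ^ (j + 1)) y := by
            have h2 := ball_mul_subset (T := S) (Finset.mem_inter.1 ha).2 (hE a b hab)
            rwa [← pow_succ'] at h2
          have hlt : A ⊂ U ∩ ball (S ^ (j + 1)) y := by
            refine ⟨fun z hz => ?_, fun hcon => ?_⟩
            · rw [Finset.mem_inter] at hz ⊢
              exact ⟨hz.1, ball_pow_mono h1 (Nat.le_succ j) y hz.2⟩
            · have h3 := hcon (Finset.mem_inter.2 ⟨(Finset.mem_sdiff.1 hb).1, hbb⟩)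
              exact (Finset.mem_sdiff.1 hb).2 h3
          have := Finset.card_lt_card hlt
          omega
  rcases key n with h | h
  · exact h
  · have h2 : U ∩ ball (S ^ n) y = U :=
      Finset.eq_of_subset_of_card_le Finset.inter_subset_left (by omega)
    exact Finset.inter_eq_left.1 h2

end Conn

section Family

variable {Gam X : Type*} [Group Gam] [MulAction Gam X] [MeasurableSpace X] {μ : Measure X}

/-- levels: undecided `β` (uniform colour), decided `K0 β` -/
noncomputable def lev (β K0 : ℝ) {r : ℕ} : Option (Fin r) → Fin r → ℝ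
  | none, _ => 1 / (r * β)
  | some c, i => if i = c then 1 / (K0 * β) else 0

/-- tilted weights, normalised at the root -/
noncomputable def gam (Q : QI Gam X μ) (k : ℕ) (β K0 : ℝ) {r : ℕ} (x : X)
    (s : X → Option (Fin r)) (w : X) (i : Fin r) : ℝ :=
  (Q.rel x w) ^ (1 / (2 * (k : ℝ))) * lev β K0 (s w) i

theorem lev_nonneg {β K0 : ℝ} (hβ : 0 < β) (hK : 0 < K0) {r : ℕ} (o : Option (Fin r))
    (i : Fin r) : 0 ≤ lev β K0 o i := by
  cases o with
  | none => simp only [lev]; positivity
  | some c => simp only [lev]; split_ifs <;> positivity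

theorem gam_nonneg (Q : QI Gam X μ) (k : ℕ) {β K0 : ℝ} (hβ : 0 < β) (hK : 0 < K0) {r : ℕ}
    (x : X) (s : X → Option (Fin r)) (w : X) (i : Fin r) : 0 ≤ gam Q k β K0 x s w i :=
  mul_nonneg (Real.rpow_nonneg (Q.rel_pos _ _).le _) (lev_nonneg hβ hK _ _)

theorem gam_root (Q : QI Gam X μ) (k : ℕ) (β K0 : ℝ) {r : ℕ} {x y w : X}
    (s : X → Option (Fin r)) (i : Fin r) (hxy : Rel Gam x y) (hxw : Rel Gam x w) :
    gam Q k β K0 y s w i = (Q.rel y x) ^ (1 / (2 * (k : ℝ))) * gam Q k β K0 x s w i := by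
  unfold gam
  rw [Q.rel_trans hxy.symm hxw, Real.mul_rpow (Q.rel_pos _ _).le (Q.rel_pos _ _).le]
  ring

/-- what the finite volume theory has to supply about `H` -/
structure HIn (Q : QI Gam X μ) (S1 : Finset Gam) (k : ℕ) {r : ℕ}
    (H : (X → Fin r → ℝ) → Finset X → ℝ) : Prop where
  dep : ∀ g g' W, (∀ w ∈ W, g w = g' w) → H g W = H g' W
  hom : ∀ (g : X → Fin r → ℝ) (c : ℝ) W, (∀ w i, 0 ≤ g w i) → 0 ≤ c →
    H (fun w i => c * g w i) W = c ^ (2 * k) * H g W
  card : ∀ (g : X → Fin r → ℝ) U, mob (H g) U ≠ 0 → U.card ≤ 2 * k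
  conn : ∀ (g : X → Fin r → ℝ) (U A : Finset X), mob (H g) U ≠ 0 → A ⊆ U → A.Nonempty → A ≠ U →
    ∃ a ∈ A, ∃ b ∈ U, b ∉ A ∧ b ∈ ball S1 a

theorem rpow_pow_two_mul {c : ℝ} (hc : 0 < c) {k : ℕ} (hk : 1 ≤ k) :
    (c ^ (1 / (2 * (k : ℝ)))) ^ (2 * k) = c := by
  rw [← Real.rpow_natCast, ← Real.rpow_mul hc.le]
  have : (1 / (2 * (k : ℝ))) * ((2 * k : ℕ) : ℝ) = 1 := by
    have hk' : (0 : ℝ) < k := by exact_mod_cast hk
    push_cast
    field_simp
  rw [this, Real.rpow_one]

/-- the family of potentials -/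
theorem fvs_of [DecidableEq Gam] {Q : QI Gam X μ} {S1 : Finset Gam} (h1 : (1 : Gam) ∈ S1) {k : ℕ}
    (hk : 1 ≤ k) {r : ℕ} {H : (X → Fin r → ℝ) → Finset X → ℝ} (hH : HIn Q S1 k H) {β K0 : ℝ}
    (hβ : 0 < β) (hK : 0 < K0)
    (hmeas : ∀ s : X → Option (Fin r), MeasF s → MeasK Gam fun x W => H (gam Q k β K0 x s) W)
    (hbdd : ∀ s : X → Option (Fin r), MeasF s →
      ∃ C, ∀ x V, V ⊆ ball (S1 ^ (2 * k)) x → |H (gam Q k β K0 x s) V| ≤ C) :
    FVS Q (S1 ^ (2 * k)) fun (s : X → Option (Fin r)) x W => H (gam Q k β K0 x s) W := by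
  classical
  refine ⟨fun s hs => ⟨?_, ?_, hmeas s hs, hbdd s hs⟩, ?_⟩
  · intro x y W hxy hW
    have e1 : H (gam Q k β K0 y s) W
        = H (fun w i => (Q.rel y x) ^ (1 / (2 * (k : ℝ))) * gam Q k β K0 x s w i) W := by
      refine hH.dep _ _ W fun w hw => ?_
      funext i
      exact gam_root Q k β K0 s i hxy (hW w hw)
    rw [e1, hH.hom _ _ W (gam_nonneg Q k hβ hK x s) (Real.rpow_nonneg (Q.rel_pos _ _).le _),
      rpow_pow_two_mul (Q.rel_pos _ _) hk]
  · intro x U _ _ hne y hy
    have hc := hH.card _ _ hne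
    have h2 : U ⊆ ball (S1 ^ (2 * k - 1)) y := by
      refine conn_ball h1 (E := fun a b => b ∈ ball S1 a) (fun a b h => h) ?_ (by omega) hy
      intro A hA hAne hne'
      obtain ⟨a, ha, b, hb, hbA, hab⟩ := hH.conn _ U A hne hA hAne (by
        rintro rfl
        simp at hne')
      exact ⟨a, ha, b, Finset.mem_sdiff.2 ⟨hb, hbA⟩, hab⟩
    exact h2.trans (ball_pow_mono h1 (by omega) y)
  · intro s s' x W _ hs
    refine hH.dep _ _ W fun w hw => ?_
    funext i
    simp only [gam, hs w hw]

end Family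

end Crest.Agent.R109.Book
private theorem rz_c7840f629b : type_of% @_root_.Crest.Agent.R109.Book.lev.eq_1 := @_root_.Crest.Agent.R109.Book.lev.eq_1 -- L103
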