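import Crest.Agent.R109.Simple

/-!
# Row 109, module CE: the conditional expectation onto a masa with an `A`-central separating vector
-/

set_option autoImplicit false
set_option linter.unusedSectionVars false
set_option linter.style.haveILetI false

namespace Crest.Agent.R109

open Crest.Agent.R124 Crest.Agent.R121 Filter Topology
open scoped InnerProductSpace

universe u

variable {H : Type u} [NormedAddCommGroup H] [InnerProductSpace ℂ H] [CompleteSpace H]

/-! ### finite partitions of `1` in `A` -/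

/-- finite partitions of `1` into projections of `A` -/
structure FP (A : StarSubalgebra ℂ (H →L[ℂ] H)) where
  n : ℕ
  e : Fin n → H →L[ℂ] H
  part : Part A 1 e

namespace FP

variable {A : StarSubalgebra ℂ (H →L[ℂ] H)}

/-- refinement -/
instance : Preorder (FP A) where
  le P Q := ∃ f : Fin Q.n → Fin P.n, ∀ i, P.e i = ∑ j, if f j = i then Q.e j else 0
  le_refl P := ⟨id, fun i => by simp⟩
  le_trans P Q R := by
    rintro ⟨f, hf⟩ ⟨g, hg⟩
    refine ⟨f ∘ g, fun i => ?_⟩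
    rw [hf i]
    have h1 : ∀ j, (if f j = i then Q.e j else 0)
        = ∑ k, if g k = j then (if f j = i then R.e k else 0) else 0 := by
      intro j
      by_cases h : f j = i
      · simp only [h, if_true]; exact hg j
      · simp [h]
    rw [Finset.sum_congr rfl fun j _ => h1 j, Finset.sum_comm]
    refine Finset.sum_congr rfl fun k _ => ?_
    rw [Finset.sum_ite_eq Finset.univ (g k)]
    simp

lemma le_def {P Q : FP A} : P ≤ Q ↔ ∃ f : Fin Q.n → Fin P.n, ∀ i,
    P.e i = ∑ j, if f j = i then Q.e j else 0 := Iff.rfl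

/-- common refinement -/
noncomputable def inf (hA : ∀ a ∈ A, ∀ b ∈ A, a * b = b * a) (P Q : FP A) : FP A where
  n := P.n * Q.n
  e k := P.e (finProdFinEquiv.symm k).1 * Q.e (finProdFinEquiv.symm k).2
  part :=
    { mem := fun k => mul_mem (P.part.mem _) (Q.part.mem _)
      proj := fun k => by
        refine ⟨?_, ?_⟩
        · have h := hA _ (P.part.mem (finProdFinEquiv.symm k).1) _
            (Q.part.mem (finProdFinEquiv.symm k).2)
          have h1 := (P.part.proj (finProdFinEquiv.symm k).1).isIdempotentElem.eq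
          have h2 := (Q.part.proj (finProdFinEquiv.symm k).2).isIdempotentElem.eq
          change _ * _ = _
          calc P.e (finProdFinEquiv.symm k).1 * Q.e (finProdFinEquiv.symm k).2
                * (P.e (finProdFinEquiv.symm k).1 * Q.e (finProdFinEquiv.symm k).2)
              = P.e (finProdFinEquiv.symm k).1 * (Q.e (finProdFinEquiv.symm k).2
                * P.e (finProdFinEquiv.symm k).1) * Q.e (finProdFinEquiv.symm k).2 := by
                simp only [mul_assoc]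
            _ = (P.e (finProdFinEquiv.symm k).1 * P.e (finProdFinEquiv.symm k).1)
                * (Q.e (finProdFinEquiv.symm k).2 * Q.e (finProdFinEquiv.symm k).2) := by
                rw [← h]; simp only [mul_assoc]
            _ = _ := by rw [h1, h2]
        · have h := hA _ (P.part.mem (finProdFinEquiv.symm k).1) _
            (Q.part.mem (finProdFinEquiv.symm k).2)
          have h1 := (P.part.proj (finProdFinEquiv.symm k).1).isSelfAdjoint.star_eq
          have h2 := (Q.part.proj (finProdFinEquiv.symm k).2).isSelfAdjoint.star_eq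
          change star _ = _
          rw [star_mul, h1, h2, h]
      orth := fun k l hkl => by
        have hkl' : finProdFinEquiv.symm k ≠ finProdFinEquiv.symm l :=
          fun h => hkl (finProdFinEquiv.symm.injective h)
        have hc := hA _ (Q.part.mem (finProdFinEquiv.symm k).2) _
          (P.part.mem (finProdFinEquiv.symm l).1)
        have h0 : P.e (finProdFinEquiv.symm k).1 * Q.e (finProdFinEquiv.symm k).2
                * (P.e (finProdFinEquiv.symm l).1 * Q.e (finProdFinEquiv.symm l).2)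
              = (P.e (finProdFinEquiv.symm k).1 * P.e (finProdFinEquiv.symm l).1)
                * (Q.e (finProdFinEquiv.symm k).2 * Q.e (finProdFinEquiv.symm l).2) := by
          calc _ = P.e (finProdFinEquiv.symm k).1 * (Q.e (finProdFinEquiv.symm k).2
                * P.e (finProdFinEquiv.symm l).1) * Q.e (finProdFinEquiv.symm l).2 := by
                simp only [mul_assoc]
            _ = _ := by rw [hc]; simp only [mul_assoc]
        rw [h0]
        by_cases h1 : (finProdFinEquiv.symm k).1 = (finProdFinEquiv.symm l).1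
        · have h2 : (finProdFinEquiv.symm k).2 ≠ (finProdFinEquiv.symm l).2 :=
            fun h => hkl' (Prod.ext h1 h)
          rw [Q.part.orth _ _ h2, mul_zero]
        · rw [P.part.orth _ _ h1, zero_mul]
      sum := by
        rw [finProdFinEquiv.symm.sum_comp (fun p : Fin P.n × Fin Q.n => P.e p.1 * Q.e p.2),
          Fintype.sum_prod_type]
        simp only [← Finset.mul_sum, Q.part.sum, mul_one, P.part.sum] }

lemma le_inf_left (hA : ∀ a ∈ A, ∀ b ∈ A, a * b = b * a) (P Q : FP A) : P ≤ inf hA P Q := by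
  refine ⟨fun k => (finProdFinEquiv.symm k).1, fun i => ?_⟩
  change P.e i = ∑ k, if (finProdFinEquiv.symm k).1 = i then
    P.e (finProdFinEquiv.symm k).1 * Q.e (finProdFinEquiv.symm k).2 else 0
  rw [finProdFinEquiv.symm.sum_comp (fun p : Fin P.n × Fin Q.n =>
    if p.1 = i then P.e p.1 * Q.e p.2 else 0), Fintype.sum_prod_type]
  have h1 : ∀ x : Fin P.n, (∑ y : Fin Q.n, if x = i then P.e x * Q.e y else 0)
      = if x = i then P.e x else 0 := by
    intro x
    by_cases h : x = i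
    · simp only [h, if_true, ← Finset.mul_sum, Q.part.sum, mul_one]
    · simp [h]
  simp only [h1]
  simp

lemma le_inf_right (hA : ∀ a ∈ A, ∀ b ∈ A, a * b = b * a) (P Q : FP A) : Q ≤ inf hA P Q := by
  refine ⟨fun k => (finProdFinEquiv.symm k).2, fun i => ?_⟩
  change Q.e i = ∑ k, if (finProdFinEquiv.symm k).2 = i then
    P.e (finProdFinEquiv.symm k).1 * Q.e (finProdFinEquiv.symm k).2 else 0
  rw [finProdFinEquiv.symm.sum_comp (fun p : Fin P.n × Fin Q.n =>
    if p.2 = i then P.e p.1 * Q.e p.2 else 0), Fintype.sum_prod_type, Finset.sum_comm]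
  have h1 : ∀ y : Fin Q.n, (∑ x : Fin P.n, if y = i then P.e x * Q.e y else 0)
      = if y = i then Q.e y else 0 := by
    intro y
    by_cases h : y = i
    · simp only [h, if_true, ← Finset.sum_mul, P.part.sum, one_mul]
    · simp [h]
  simp only [h1]
  simp

/-- the trivial partition -/
def triv (A : StarSubalgebra ℂ (H →L[ℂ] H)) : FP A where
  n := 1
  e _ := 1
  part :=
    { mem := fun _ => one_mem _
      proj := fun _ => ⟨by simp [IsIdempotentElem], by simp⟩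
      orth := fun i j h => absurd (Subsingleton.elim i j) h
      sum := by simp }

instance : Nonempty (FP A) := ⟨triv A⟩

/-- the partition `{p, 1 - p}` -/
def two {p : H →L[ℂ] H} (hp : p ∈ A) (hpp : IsStarProjection p) : FP A where
  n := 2
  e := ![p, 1 - p]
  part :=
    { mem := fun i => by
        fin_cases i
        · exact hp
        · exact sub_mem (one_mem _) hp
      proj := fun i => by
        fin_cases i
        · exact hpp
        · exact hpp.one_sub
      orth := fun i j hij => by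
        have h := hpp.isIdempotentElem.eq
        fin_cases i <;> fin_cases j <;> simp_all [mul_sub, sub_mul]
      sum := by simp [Fin.sum_univ_two] }

end FP

/-- directedness, as a `Fact`-free instance is impossible; we use it as a lemma -/
lemma FP.directed {A : StarSubalgebra ℂ (H →L[ℂ] H)} (hA : ∀ a ∈ A, ∀ b ∈ A, a * b = b * a) :
    IsDirected (FP A) (· ≤ ·) :=
  ⟨fun P Q => ⟨FP.inf hA P Q, FP.le_inf_left hA P Q, FP.le_inf_right hA P Q⟩⟩


/-! ### pinchings -/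

/-- pinching -/
noncomputable def D {A : StarSubalgebra ℂ (H →L[ℂ] H)} (P : FP A) (x : H →L[ℂ] H) : H →L[ℂ] H :=
  ∑ i, P.e i * x * P.e i

variable {M : VonNeumannAlgebra H} {A : StarSubalgebra ℂ (H →L[ℂ] H)}

section Pinch

variable (P : FP A) (x y : H →L[ℂ] H)

lemma FP.star_e (i : Fin P.n) : star (P.e i) = P.e i := (P.part.proj i).isSelfAdjoint

lemma FP.e_mul_e (i : Fin P.n) : P.e i * P.e i = P.e i := (P.part.proj i).isIdempotentElem

lemma FP.e_mul (i j : Fin P.n) : P.e i * P.e j = if i = j then P.e i else 0 := by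
  by_cases h : i = j
  · subst h; simp [P.e_mul_e]
  · simp [h, P.part.orth _ _ h]




lemma D_star : D P (star x) = star (D P x) := by
  simp only [D, star_sum, star_mul, P.star_e, mul_assoc]

lemma e_mul_D (i : Fin P.n) : P.e i * D P x = P.e i * x * P.e i := by
  rw [D, Finset.mul_sum, Finset.sum_eq_single i]
  · rw [← mul_assoc, ← mul_assoc, P.e_mul_e]
  · intro j _ hj
    rw [← mul_assoc, ← mul_assoc, P.part.orth _ _ (Ne.symm hj), zero_mul, zero_mul]
  · simp

lemma D_mul_e (i : Fin P.n) : D P x * P.e i = P.e i * x * P.e i := by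
  rw [D, Finset.sum_mul, Finset.sum_eq_single i]
  · rw [mul_assoc (P.e i * x), P.e_mul_e]
  · intro j _ hj
    rw [mul_assoc (P.e j * x), P.part.orth _ _ hj, mul_zero]
  · simp

lemma D_comm_e (i : Fin P.n) : P.e i * D P x = D P x * P.e i := by rw [e_mul_D, D_mul_e]

lemma D_mem (hM : Masa M A) (hx : x ∈ M) : D P x ∈ M :=
  sum_mem fun i _ => mul_mem (mul_mem (hM.memM (P.part.mem i)) hx) (hM.memM (P.part.mem i))

lemma FP.norm_sq (ζ : H) : ‖ζ‖ ^ 2 = ∑ i, ‖P.e i ζ‖ ^ 2 := by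
  have h1 : ∀ i, ((‖P.e i ζ‖ ^ 2 : ℝ) : ℂ) = ⟪P.e i ζ, ζ⟫_ℂ := by
    intro i
    have e3 : ContinuousLinearMap.adjoint (P.e i) = P.e i := P.star_e i
    have : ⟪P.e i ζ, P.e i ζ⟫_ℂ = ⟪P.e i ζ, ζ⟫_ℂ := by
      conv_lhs => rw [← e3, ContinuousLinearMap.adjoint_inner_right, e3]
      change ⟪(P.e i * P.e i) ζ, ζ⟫_ℂ = _
      rw [P.e_mul_e]
    rw [← this, inner_self_eq_norm_sq_to_K]
    norm_cast
  have h2 : ((‖ζ‖ ^ 2 : ℝ) : ℂ) = ((∑ i, ‖P.e i ζ‖ ^ 2 : ℝ) : ℂ) := by
    push_cast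
    have h3 : ∀ i, ((‖P.e i ζ‖ : ℂ)) ^ 2 = ⟪P.e i ζ, ζ⟫_ℂ := fun i => by
      rw [← h1 i]; push_cast; rfl
    rw [Finset.sum_congr rfl fun i _ => h3 i, ← sum_inner]
    have h4 : ∑ i, P.e i ζ = ζ := by
      have := congrArg (fun R : H →L[ℂ] H => R ζ) P.part.sum
      simpa [sum_apply] using this
    rw [h4, inner_self_eq_norm_sq_to_K]
    norm_cast
  exact_mod_cast h2

lemma norm_D_le : ‖D P x‖ ≤ ‖x‖ := by
  refine ContinuousLinearMap.opNorm_le_bound _ (norm_nonneg _) fun ζ => ?_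
  apply le_of_sq_le_sq _ (by positivity)
  rw [P.norm_sq, mul_pow, P.norm_sq ζ, Finset.mul_sum]
  refine Finset.sum_le_sum fun i _ => ?_
  have h1 : P.e i (D P x ζ) = (P.e i * x * P.e i) ζ := by
    rw [← e_mul_D]; rfl
  rw [h1, ← mul_pow]
  apply pow_le_pow_left₀ (norm_nonneg _)
  change ‖P.e i (x (P.e i ζ))‖ ≤ _
  have h2 : ‖P.e i (x (P.e i ζ))‖ ≤ ‖x (P.e i ζ)‖ := by
    apply le_of_sq_le_sq _ (norm_nonneg _)
    exact norm_proj_le (P.part.proj i) _
  exact h2.trans (x.le_opNorm _)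

end Pinch


section Refine

variable {P Q : FP A}

lemma FP.le_mul (f : Fin Q.n → Fin P.n)
    (hf : ∀ i, P.e i = ∑ j, if f j = i then Q.e j else 0) (i : Fin P.n) (j : Fin Q.n) :
    P.e i * Q.e j = if f j = i then Q.e j else 0 := by
  rw [hf i, Finset.sum_mul, Finset.sum_eq_single j]
  · by_cases h : f j = i
    · simp [h, Q.e_mul_e]
    · simp [h]
  · intro k _ hk
    by_cases h : f k = i
    · simp [h, Q.part.orth _ _ hk]
    · simp [h]
  · simp

lemma FP.le_mul' (f : Fin Q.n → Fin P.n)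
    (hf : ∀ i, P.e i = ∑ j, if f j = i then Q.e j else 0) (i : Fin P.n) (j : Fin Q.n) :
    Q.e j * P.e i = if f j = i then Q.e j else 0 := by
  have h := congrArg star (FP.le_mul f hf i j)
  rw [star_mul, Q.star_e, P.star_e] at h
  rw [h]
  split_ifs <;> simp [Q.star_e]

lemma D_D_of_le (h : P ≤ Q) (x : H →L[ℂ] H) : D Q (D P x) = D Q x := by
  obtain ⟨f, hf⟩ := h
  change ∑ j, Q.e j * (D P x) * Q.e j = ∑ j, Q.e j * x * Q.e j
  refine Finset.sum_congr rfl fun j _ => ?_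
  rw [D, Finset.mul_sum, Finset.sum_mul, Finset.sum_eq_single (f j)]
  · rw [← mul_assoc, ← mul_assoc, FP.le_mul' f hf, if_pos rfl, mul_assoc (Q.e j * x),
      FP.le_mul f hf, if_pos rfl]
  · intro i _ hi
    rw [← mul_assoc, ← mul_assoc, FP.le_mul' f hf]
    simp [Ne.symm hi]
  · simp

lemma D_comm_of_le (h : P ≤ Q) (x : H →L[ℂ] H) (i : Fin P.n) :
    P.e i * D Q x = D Q x * P.e i := by
  obtain ⟨f, hf⟩ := h
  rw [hf i, Finset.sum_mul, Finset.mul_sum]
  refine Finset.sum_congr rfl fun j _ => ?_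
  split_ifs
  · exact D_comm_e Q x j
  · simp

end Refine

/-- standing hypotheses: `A` is a masa of `M` and `η` is an `A`-central separating vector -/
structure NCE (M : VonNeumannAlgebra H) (A : StarSubalgebra ℂ (H →L[ℂ] H)) (η : H) : Prop where
  masa : Masa M A
  cvec : CVec M A η
  sep : ∀ x ∈ M, x η = 0 → x = 0

variable {η : H}

lemma inner_D_D (hM : Masa M A) (hc : CVec M A η) (P : FP A) {x y : H →L[ℂ] H} (hx : x ∈ M)
    (hy : y ∈ M) : ⟪D P x η, D P y η⟫_ℂ = ⟪D P x η, y η⟫_ℂ := by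
  have h1 : ∀ z : H →L[ℂ] H, ⟪D P x η, z η⟫_ℂ = ⟪η, (star (D P x) * z) η⟫_ℂ := by
    intro z
    rw [ContinuousLinearMap.star_eq_adjoint]
    exact (ContinuousLinearMap.adjoint_inner_right _ _ _).symm
  have hxs : D P x ∈ M := D_mem P x hM hx
  have h2 : star (D P x) * y = ∑ i, P.e i * (star (D P x) * y) := by
    rw [← Finset.sum_mul, P.part.sum, one_mul]
  have h3 : star (D P x) * D P y = ∑ i, (P.e i * (star (D P x) * y)) * P.e i := by
    rw [← D_star, D, D, Finset.sum_mul]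
    refine Finset.sum_congr rfl fun i _ => ?_
    rw [← mul_assoc (P.e i) (∑ i, P.e i * star x * P.e i) y]
    have e1 : P.e i * (∑ i, P.e i * star x * P.e i) = P.e i * star x * P.e i :=
      e_mul_D P (star x) i
    have e2 : P.e i * star x * P.e i * (∑ i, P.e i * y * P.e i)
        = P.e i * star x * (P.e i * (∑ i, P.e i * y * P.e i)) := by simp only [mul_assoc]
    have e3 : P.e i * (∑ i, P.e i * y * P.e i) = P.e i * y * P.e i := e_mul_D P y i
    rw [e1, e2, e3]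
    simp only [mul_assoc]
  have h4 : ∀ (n : ℕ) (F : Fin n → H →L[ℂ] H), ⟪η, (∑ i, F i) η⟫_ℂ = ∑ i, ⟪η, F i η⟫_ℂ := by
    intro n F
    rw [sum_apply, inner_sum]
  rw [h1, h1, h3]
  conv_rhs => rw [h2]
  rw [h4, h4]
  refine Finset.sum_congr rfl fun i _ => ?_
  have hz : P.e i * (star (D P x) * y) ∈ M :=
    mul_mem (hM.memM (P.part.mem i)) (mul_mem (star_mem hxs) hy)
  rw [← hc (P.e i) (P.part.mem i) _ hz, ← mul_assoc, P.e_mul_e]

lemma norm_sq_D_sub (hM : Masa M A) (hc : CVec M A η) {P Q : FP A} (hPQ : P ≤ Q)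
    {x : H →L[ℂ] H} (hx : x ∈ M) :
    ‖D P x η - D Q x η‖ ^ 2 = ‖D P x η‖ ^ 2 - ‖D Q x η‖ ^ 2 := by
  have h1 : ⟪D Q x η, D P x η⟫_ℂ = ⟪D Q x η, D Q x η⟫_ℂ := by
    have := inner_D_D hM hc Q hx (D_mem P x hM hx)
    rw [D_D_of_le hPQ] at this
    exact this.symm
  have h2 : ⟪D P x η, D Q x η⟫_ℂ = ⟪D Q x η, D Q x η⟫_ℂ := by
    have := congrArg (starRingEnd ℂ) h1
    rwa [inner_conj_symm, inner_conj_symm] at this
  have h3 := norm_sub_sq (𝕜 := ℂ) (D P x η) (D Q x η)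
  rw [h2, inner_self_eq_norm_sq] at h3
  rw [h3]
  ring


lemma FP.atTop_neBot (hM : Masa M A) : (atTop : Filter (FP A)).NeBot := by
  haveI : IsDirectedOrder (FP A) := FP.directed hM.comm
  exact Filter.atTop_neBot

lemma cauchy_D (hM : Masa M A) (hc : CVec M A η) {x : H →L[ℂ] H} (hx : x ∈ M) :
    Cauchy (map (fun P : FP A => D P x η) atTop) := by
  haveI := FP.atTop_neBot hM
  rw [Metric.cauchy_iff]
  refine ⟨inferInstance, fun ε hε => ?_⟩
  set m := ⨅ P : FP A, ‖D P x η‖ ^ 2 with hm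
  have hbdd : BddBelow (Set.range fun P : FP A => ‖D P x η‖ ^ 2) :=
    ⟨0, by rintro _ ⟨P, rfl⟩; positivity⟩
  obtain ⟨P₀, hP₀⟩ := exists_lt_of_ciInf_lt (show m < m + (ε / 2) ^ 2 by
    have : 0 < (ε / 2) ^ 2 := by positivity
    linarith)
  have hle : ∀ P, m ≤ ‖D P x η‖ ^ 2 := fun P => ciInf_le hbdd P
  have hkey : ∀ P, P₀ ≤ P → ‖D P₀ x η - D P x η‖ < ε / 2 := by
    intro P hP
    have h1 := norm_sq_D_sub hM hc hP hx
    have h2 := hle P
    apply lt_of_pow_lt_pow_left₀ 2 (by positivity)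
    linarith
  refine ⟨(fun P : FP A => D P x η) '' Set.Ici P₀, image_mem_map (Ici_mem_atTop P₀), ?_⟩
  rintro _ ⟨P, hP, rfl⟩ _ ⟨Q, hQ, rfl⟩
  have h1 := hkey P hP
  have h2 := hkey Q hQ
  rw [dist_eq_norm]
  calc ‖D P x η - D Q x η‖ = ‖(D P₀ x η - D Q x η) - (D P₀ x η - D P x η)‖ := by congr 1; abel
    _ ≤ ‖D P₀ x η - D Q x η‖ + ‖D P₀ x η - D P x η‖ := norm_sub_le _ _
    _ < ε := by linarith

/-- existence of the conditional expectation as a limit of pinchings -/
theorem NCE.exists_lim (h : NCE M A η) {x : H →L[ℂ] H} (hx : x ∈ M) :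
    ∃ L ∈ A, ‖L‖ ≤ ‖x‖ ∧ ∀ ζ, Tendsto (fun P : FP A => D P x ζ) atTop (𝓝 (L ζ)) := by
  haveI := FP.atTop_neBot h.masa
  obtain ⟨L, hL, hLn, hLt⟩ := strong_lim M h.sep (fun P : FP A => D_mem P x h.masa hx)
    (fun P => norm_D_le P x) (cauchy_D h.masa h.cvec hx)
  refine ⟨L, ?_, hLn, hLt⟩
  apply h.masa.max _ hL
  intro a ha
  apply h.masa.comm_of_proj _ ha
  intro p hp hpp
  ext ζ
  change p (L ζ) = L (p ζ)
  refine tendsto_nhds_unique ((p.continuous.tendsto _).comp (hLt ζ)) ?_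
  refine (hLt (p ζ)).congr' ?_
  filter_upwards [Ici_mem_atTop (FP.two hp hpp)] with Q hQ
  have h1 : p * D Q x = D Q x * p := D_comm_of_le hQ x (0 : Fin 2)
  exact (congrArg (fun R : H →L[ℂ] H => R ζ) h1).symm

/-- the conditional expectation onto `A` -/
noncomputable def CE (A : StarSubalgebra ℂ (H →L[ℂ] H)) (η : H) (x : H →L[ℂ] H) : H →L[ℂ] H :=
  Classical.epsilon fun b => b ∈ A ∧ ∀ a ∈ A, ⟪η, (a * b) η⟫_ℂ = ⟪η, (a * x) η⟫_ℂ

section E

variable (h : NCE M A η)
include h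

lemma NCE.spec_of_lim {x L : H →L[ℂ] H} (hx : x ∈ M)
    (hL : ∀ ζ, Tendsto (fun P : FP A => D P x ζ) atTop (𝓝 (L ζ))) {a : H →L[ℂ] H} (ha : a ∈ A) :
    ⟪η, (a * L) η⟫_ℂ = ⟪η, (a * x) η⟫_ℂ := by
  haveI := FP.atTop_neBot h.masa
  have h1 : ∀ P : FP A, ⟪η, (a * D P x) η⟫_ℂ = ⟪η, (a * x) η⟫_ℂ := by
    intro P
    have e1 : a * D P x = ∑ i, P.e i * (a * x * P.e i) := by
      rw [D, Finset.mul_sum]
      refine Finset.sum_congr rfl fun i _ => ?_
      simp only [← mul_assoc]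
      rw [h.masa.comm a ha _ (P.part.mem i)]
    have e2 : ∀ i, ⟪η, (P.e i * (a * x * P.e i)) η⟫_ℂ = ⟪η, (a * x * P.e i) η⟫_ℂ := by
      intro i
      rw [h.cvec (P.e i) (P.part.mem i) _ (mul_mem (mul_mem (h.masa.memM ha) hx)
        (h.masa.memM (P.part.mem i))), mul_assoc (a * x), P.e_mul_e]
    rw [e1, sum_apply, inner_sum, Finset.sum_congr rfl fun i _ => e2 i, ← inner_sum,
      ← sum_apply, ← Finset.mul_sum, P.part.sum, mul_one]
  have h2 : Tendsto (fun P : FP A => ⟪η, (a * D P x) η⟫_ℂ) atTop (𝓝 ⟪η, (a * L) η⟫_ℂ) := by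
    have h3 : Tendsto (fun P : FP A => a (D P x η)) atTop (𝓝 (a (L η))) :=
      (a.continuous.tendsto _).comp (hL η)
    exact Filter.Tendsto.inner tendsto_const_nhds h3
  exact tendsto_nhds_unique h2 ((tendsto_const_nhds).congr fun P => (h1 P).symm)

lemma NCE.uniq {b c : H →L[ℂ] H} (hb : b ∈ A) (hc : c ∈ A)
    (he : ∀ a ∈ A, ⟪η, (a * b) η⟫_ℂ = ⟪η, (a * c) η⟫_ℂ) : b = c := by
  rw [← sub_eq_zero]
  apply h.sep _ (h.masa.memM (sub_mem hb hc))
  rw [← norm_eq_zero, ← sq_eq_zero_iff, ← inner_self_eq_norm_sq (𝕜 := ℂ)]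
  have h1 : ⟪(b - c) η, (b - c) η⟫_ℂ = ⟪η, (star (b - c) * (b - c)) η⟫_ℂ := by
    rw [ContinuousLinearMap.star_eq_adjoint]
    exact (ContinuousLinearMap.adjoint_inner_right _ _ _).symm
  have h2 := he (star (b - c)) (star_mem (sub_mem hb hc))
  rw [h1, mul_sub, sub_apply, inner_sub_right, h2, sub_self, map_zero]

lemma NCE.CE_spec {x : H →L[ℂ] H} (hx : x ∈ M) :
    CE A η x ∈ A ∧ ∀ a ∈ A, ⟪η, (a * CE A η x) η⟫_ℂ = ⟪η, (a * x) η⟫_ℂ := by
  obtain ⟨L, hL, -, hLt⟩ := h.exists_lim hx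
  exact Classical.epsilon_spec
    (p := fun b => b ∈ A ∧ ∀ a ∈ A, ⟪η, (a * b) η⟫_ℂ = ⟪η, (a * x) η⟫_ℂ)
    ⟨L, hL, fun a ha => h.spec_of_lim hx hLt ha⟩

lemma NCE.CE_mem {x : H →L[ℂ] H} (hx : x ∈ M) : CE A η x ∈ A := (h.CE_spec hx).1

lemma NCE.CE_memM {x : H →L[ℂ] H} (hx : x ∈ M) : CE A η x ∈ M := h.masa.memM (h.CE_mem hx)

lemma NCE.inner_CE {x a : H →L[ℂ] H} (hx : x ∈ M) (ha : a ∈ A) :
    ⟪η, (a * CE A η x) η⟫_ℂ = ⟪η, (a * x) η⟫_ℂ := (h.CE_spec hx).2 a ha

lemma NCE.inner_CE' {x : H →L[ℂ] H} (hx : x ∈ M) : ⟪η, CE A η x η⟫_ℂ = ⟪η, x η⟫_ℂ := by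
  simpa using h.inner_CE hx (one_mem A)

lemma NCE.CE_unique {x b : H →L[ℂ] H} (hx : x ∈ M) (hb : b ∈ A)
    (he : ∀ a ∈ A, ⟪η, (a * b) η⟫_ℂ = ⟪η, (a * x) η⟫_ℂ) : CE A η x = b :=
  h.uniq (h.CE_mem hx) hb fun a ha => by rw [h.inner_CE hx ha, he a ha]

theorem NCE.tendsto_D {x : H →L[ℂ] H} (hx : x ∈ M) (ζ : H) :
    Tendsto (fun P : FP A => D P x ζ) atTop (𝓝 (CE A η x ζ)) := by
  obtain ⟨L, hL, -, hLt⟩ := h.exists_lim hx
  rw [h.CE_unique hx hL fun a ha => h.spec_of_lim hx hLt ha]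
  exact hLt ζ

theorem NCE.norm_CE_le {x : H →L[ℂ] H} (hx : x ∈ M) : ‖CE A η x‖ ≤ ‖x‖ := by
  obtain ⟨L, hL, hLn, hLt⟩ := h.exists_lim hx
  rw [h.CE_unique hx hL fun a ha => h.spec_of_lim hx hLt ha]
  exact hLn

lemma NCE.CE_of_mem {a : H →L[ℂ] H} (ha : a ∈ A) : CE A η a = a :=
  h.CE_unique (h.masa.memM ha) ha fun _ _ => rfl

lemma NCE.CE_zero : CE A η (0 : H →L[ℂ] H) = 0 := h.CE_of_mem (zero_mem A)


lemma NCE.CE_add {x y : H →L[ℂ] H} (hx : x ∈ M) (hy : y ∈ M) :
    CE A η (x + y) = CE A η x + CE A η y :=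
  h.CE_unique (add_mem hx hy) (add_mem (h.CE_mem hx) (h.CE_mem hy)) fun a ha => by
    rw [mul_add, mul_add, add_apply, add_apply, inner_add_right, inner_add_right,
      h.inner_CE hx ha, h.inner_CE hy ha]

lemma NCE.CE_smul {x : H →L[ℂ] H} (hx : x ∈ M) (c : ℂ) : CE A η (c • x) = c • CE A η x :=
  h.CE_unique (M.smul_mem hx c) (A.smul_mem (h.CE_mem hx) c) fun a ha => by
    rw [mul_smul_comm, mul_smul_comm]
    change ⟪η, c • ((a * CE A η x) η)⟫_ℂ = ⟪η, c • ((a * x) η)⟫_ℂ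
    rw [inner_smul_right, inner_smul_right, h.inner_CE hx ha]

lemma NCE.CE_neg {x : H →L[ℂ] H} (hx : x ∈ M) : CE A η (-x) = -CE A η x := by
  have := h.CE_smul hx (-1)
  simpa using this

lemma NCE.CE_sub {x y : H →L[ℂ] H} (hx : x ∈ M) (hy : y ∈ M) :
    CE A η (x - y) = CE A η x - CE A η y := by
  rw [sub_eq_add_neg, h.CE_add hx (neg_mem hy), h.CE_neg hy, sub_eq_add_neg]

lemma NCE.CE_sum {ι : Type*} (s : Finset ι) {F : ι → H →L[ℂ] H} (hF : ∀ i ∈ s, F i ∈ M) :
    CE A η (∑ i ∈ s, F i) = ∑ i ∈ s, CE A η (F i) := by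
  classical
  induction s using Finset.induction_on with
  | empty => simp [h.CE_zero]
  | insert i s hi ih =>
    rw [Finset.sum_insert hi, Finset.sum_insert hi,
      h.CE_add (hF i (Finset.mem_insert_self i s))
        (sum_mem fun j hj => hF j (Finset.mem_insert_of_mem hj)),
      ih fun j hj => hF j (Finset.mem_insert_of_mem hj)]

lemma NCE.CE_mul_left {a x : H →L[ℂ] H} (ha : a ∈ A) (hx : x ∈ M) :
    CE A η (a * x) = a * CE A η x :=
  h.CE_unique (mul_mem (h.masa.memM ha) hx) (mul_mem ha (h.CE_mem hx)) fun b hb => by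
    rw [← mul_assoc, ← mul_assoc, h.inner_CE hx (mul_mem hb ha)]

lemma NCE.CE_mul_right {a x : H →L[ℂ] H} (ha : a ∈ A) (hx : x ∈ M) :
    CE A η (x * a) = CE A η x * a :=
  h.CE_unique (mul_mem hx (h.masa.memM ha)) (mul_mem (h.CE_mem hx) ha) fun b hb => by
    have e1 : b * (CE A η x * a) = a * (b * CE A η x) := by
      rw [← mul_assoc, h.masa.comm (b * CE A η x) (mul_mem hb (h.CE_mem hx)) a ha]
    have e2 : ⟪η, (b * (x * a)) η⟫_ℂ = ⟪η, (a * (b * x)) η⟫_ℂ := by
      rw [h.cvec a ha _ (mul_mem (h.masa.memM hb) hx), mul_assoc]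
    rw [e1, e2, ← mul_assoc, ← mul_assoc, h.inner_CE hx (mul_mem ha hb)]

lemma NCE.CE_star {x : H →L[ℂ] H} (hx : x ∈ M) : CE A η (star x) = star (CE A η x) :=
  h.CE_unique (star_mem hx) (star_mem (h.CE_mem hx)) fun b hb => by
    have hb' : star b ∈ A := star_mem hb
    have e : ∀ z : H →L[ℂ] H, ⟪η, (star z) η⟫_ℂ = starRingEnd ℂ ⟪η, z η⟫_ℂ := by
      intro z
      rw [ContinuousLinearMap.star_eq_adjoint, ContinuousLinearMap.adjoint_inner_right,
        inner_conj_symm]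
    have e1 : b * star (CE A η x) = star (CE A η x * star b) := by
      rw [star_mul, star_star]
    have e2 : b * star x = star (x * star b) := by rw [star_mul, star_star]
    rw [e1, e2, e, e, ← h.cvec _ hb' _ (h.CE_memM hx), ← h.cvec _ hb' _ hx,
      h.inner_CE hx hb']

lemma NCE.CE_CE {x : H →L[ℂ] H} (hx : x ∈ M) : CE A η (CE A η x) = CE A η x :=
  h.CE_of_mem (h.CE_mem hx)


lemma NCE.CE_nonneg {x : H →L[ℂ] H} (hx : x ∈ M) (h0 : 0 ≤ x) : 0 ≤ CE A η x := by
  haveI := FP.atTop_neBot h.masa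
  rw [ContinuousLinearMap.nonneg_iff_isPositive, ContinuousLinearMap.isPositive_def']
  have hxs : star x = x := h0.isSelfAdjoint
  refine ⟨?_, fun ζ => ?_⟩
  · rw [isSelfAdjoint_iff, ← h.CE_star hx, hxs]
  · rw [ContinuousLinearMap.reApplyInnerSelf_apply]
    have h1 : Tendsto (fun P : FP A => (⟪D P x ζ, ζ⟫_ℂ).re) atTop (𝓝 (⟪CE A η x ζ, ζ⟫_ℂ).re) :=
      (Complex.continuous_re.tendsto _).comp
        (Filter.Tendsto.inner (h.tendsto_D hx ζ) tendsto_const_nhds)
    refine ge_of_tendsto' h1 fun P => ?_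
    rw [D, sum_apply, sum_inner, Complex.re_sum]
    refine Finset.sum_nonneg fun i _ => ?_
    have e3 : ContinuousLinearMap.adjoint (P.e i) = P.e i := P.star_e i
    have e4 : ⟪(P.e i * x * P.e i) ζ, ζ⟫_ℂ = ⟪x (P.e i ζ), P.e i ζ⟫_ℂ := by
      change ⟪P.e i (x (P.e i ζ)), ζ⟫_ℂ = _
      conv_lhs => rw [← e3, ContinuousLinearMap.adjoint_inner_left, e3]
    rw [e4]
    exact re_inner_nonneg h0 _

lemma NCE.CE_mono {x y : H →L[ℂ] H} (hx : x ∈ M) (hy : y ∈ M) (hxy : x ≤ y) :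
    CE A η x ≤ CE A η y := by
  rw [← sub_nonneg, ← h.CE_sub hy hx]
  exact h.CE_nonneg (sub_mem hy hx) (sub_nonneg.2 hxy)

lemma NCE.norm_sq_apply {x : H →L[ℂ] H} (hx : x ∈ M) :
    ((‖x η‖ ^ 2 : ℝ) : ℂ) = ⟪η, CE A η (star x * x) η⟫_ℂ := by
  rw [h.inner_CE' (mul_mem (star_mem hx) hx)]
  have h1 : ⟪x η, x η⟫_ℂ = ⟪η, (star x * x) η⟫_ℂ := by
    rw [ContinuousLinearMap.star_eq_adjoint]
    exact (ContinuousLinearMap.adjoint_inner_right _ _ _).symm
  rw [← h1, inner_self_eq_norm_sq_to_K]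
  norm_cast

lemma NCE.eq_zero_of_CE {x : H →L[ℂ] H} (hx : x ∈ M) (h0 : CE A η (star x * x) = 0) :
    x = 0 := by
  apply h.sep _ hx
  have h1 := h.norm_sq_apply hx
  rw [h0] at h1
  have h2 : ‖x η‖ ^ 2 = 0 := by
    have : ((‖x η‖ ^ 2 : ℝ) : ℂ) = 0 := by simpa using h1
    exact_mod_cast this
  simpa using h2

/-- Schwarz inequality -/
lemma NCE.CE_schwarz {x : H →L[ℂ] H} (hx : x ∈ M) :
    star (CE A η x) * CE A η x ≤ CE A η (star x * x) := by
  have h1 : 0 ≤ CE A η (star (x - CE A η x) * (x - CE A η x)) :=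
    h.CE_nonneg (mul_mem (star_mem (sub_mem hx (h.CE_memM hx))) (sub_mem hx (h.CE_memM hx)))
      (star_mul_self_nonneg _)
  have h2 : star (x - CE A η x) * (x - CE A η x)
      = star x * x - star x * CE A η x - star (CE A η x) * x + star (CE A η x) * CE A η x := by
    rw [star_sub]; noncomm_ring
  have m1 := h.CE_memM hx
  have m2 : star x * CE A η x ∈ M := mul_mem (star_mem hx) m1
  have m3 : star (CE A η x) * x ∈ M := mul_mem (star_mem m1) hx
  have m4 : star (CE A η x) * CE A η x ∈ M := mul_mem (star_mem m1) m1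
  rw [h2, h.CE_add (sub_mem (sub_mem (mul_mem (star_mem hx) hx) m2) m3) m4,
    h.CE_sub (sub_mem (mul_mem (star_mem hx) hx) m2) m3,
    h.CE_sub (mul_mem (star_mem hx) hx) m2,
    h.CE_mul_right (h.CE_mem hx) (star_mem hx), h.CE_star hx,
    h.CE_mul_left (star_mem (h.CE_mem hx)) hx,
    h.CE_of_mem (mul_mem (star_mem (h.CE_mem hx)) (h.CE_mem hx))] at h1
  have h3 : CE A η (star x * x) - star (CE A η x) * CE A η x - star (CE A η x) * CE A η x
      + star (CE A η x) * CE A η x = CE A η (star x * x) - star (CE A η x) * CE A η x := by abel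
  rw [h3] at h1
  exact sub_nonneg.1 h1

end E

end Crest.Agent.R109
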