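import Mathlib
import Crest.Agent.R109.AsmIface
import Crest.Agent.R109.SmallBlock3
import Crest.Agent.R109.Kern
import Crest.Agent.R109.BookEnd
import Crest.Agent.R109.NZero
import Crest.Agent.R109.CartanIface
import Crest.Agent.R109.BallA
import Crest.Agent.R109.Dom
import Crest.Agent.R109.BallMeas
import Crest.Agent.R109.Book1
import Crest.Agent.R109.BookSep
import Crest.Agent.R109.Book2
import Mathlib.MeasureTheory.Measure.MeasuredSets

-- ▼ part R109/X2Deg
section

/-!
# Row 109, module X2 (random labels): degree (Efron-Stein) estimates for commuting projections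
-/

set_option autoImplicit false
set_option linter.unusedSectionVars false

namespace Crest.Agent.R109.X2

open scoped InnerProductSpace ComplexOrder
open ContinuousLinearMap

universe u v

variable {K : Type u} [NormedAddCommGroup K] [InnerProductSpace ℂ K] [CompleteSpace K]
variable {Λ : Type v} [DecidableEq Λ]

/-- quadratic form `Re ⟪ζ, Vζ⟫` -/
noncomputable def qf (V : K →L[ℂ] K) (ζ : K) : ℝ := (⟪ζ, V ζ⟫_ℂ).re

/-- commuting star projections -/
structure CP (P : Λ → K →L[ℂ] K) : Prop where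
  proj : ∀ k, IsStarProjection (P k)
  comm : ∀ k l, P k * P l = P l * P k

/-- `η` has degree at most `D` on the label set `S` -/
def Deg (P : Λ → K →L[ℂ] K) : ℕ → Finset Λ → K → Prop
  | 0, S, η => ∀ k ∈ S, P k η = 0
  | D + 1, S, η => ∀ k ∈ S, Deg P D (S.erase k) (P k η)

theorem nsq_re (ζ : K) : ‖ζ‖ ^ 2 = (⟪ζ, ζ⟫_ℂ).re := by
  have h := inner_self_eq_norm_sq_to_K (𝕜 := ℂ) ζ
  rw [h]
  norm_cast

section StarProj

variable {P : K →L[ℂ] K}

theorem sp_idem (h : IsStarProjection P) (ζ : K) : P (P ζ) = P ζ := by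
  have := h.isIdempotentElem.eq
  calc P (P ζ) = (P * P) ζ := rfl
    _ = P ζ := by rw [this]

theorem sp_sa (h : IsStarProjection P) (ζ χ : K) : ⟪P ζ, χ⟫_ℂ = ⟪ζ, P χ⟫_ℂ := by
  have := h.isSelfAdjoint
  have h2 := ContinuousLinearMap.adjoint_inner_left P χ ζ
  rw [← ContinuousLinearMap.star_eq_adjoint, this.star_eq] at h2
  exact h2

theorem sp_inner_self (h : IsStarProjection P) (ζ : K) : ⟪P ζ, P ζ⟫_ℂ = ⟪ζ, P ζ⟫_ℂ := by
  rw [sp_sa h, sp_idem h]

theorem sp_norm_sq (h : IsStarProjection P) (ζ : K) : ‖P ζ‖ ^ 2 = qf P ζ := by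
  have := inner_self_eq_norm_sq_to_K (𝕜 := ℂ) (P ζ)
  rw [sp_inner_self h] at this
  unfold qf
  rw [this]
  norm_cast

theorem sp_norm_le (h : IsStarProjection P) (ζ : K) : ‖P ζ‖ ≤ ‖ζ‖ := by
  have h1 : ‖P ζ‖ ^ 2 ≤ ‖ζ‖ * ‖P ζ‖ := by
    rw [sp_norm_sq h]
    calc qf P ζ ≤ ‖⟪ζ, P ζ⟫_ℂ‖ := Complex.re_le_norm _
      _ ≤ ‖ζ‖ * ‖P ζ‖ := norm_inner_le_norm _ _
  by_contra hc
  push Not at hc
  have h0 : 0 < ‖P ζ‖ := lt_of_le_of_lt (norm_nonneg _) hc
  nlinarith


end StarProj

section DegBasic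

variable {P : Λ → K →L[ℂ] K}

theorem Deg.zero : ∀ (D : ℕ) (S : Finset Λ), Deg P D S 0
  | 0, S => by intro k _; simp
  | D + 1, S => by
      intro k _
      rw [map_zero]
      exact Deg.zero D _

theorem Deg.add {D : ℕ} {S : Finset Λ} {η ζ : K} (h1 : Deg P D S η) (h2 : Deg P D S ζ) :
    Deg P D S (η + ζ) := by
  induction D generalizing S η ζ with
  | zero => intro k hk; rw [map_add, h1 k hk, h2 k hk, add_zero]
  | succ D ih => intro k hk; rw [map_add]; exact ih (h1 k hk) (h2 k hk)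

theorem Deg.sum {ι : Type*} {D : ℕ} {S : Finset Λ} (s : Finset ι) {f : ι → K}
    (h : ∀ i ∈ s, Deg P D S (f i)) : Deg P D S (∑ i ∈ s, f i) := by
  classical
  induction s using Finset.induction_on with
  | empty => simpa using Deg.zero D S
  | insert a s ha ih =>
    rw [Finset.sum_insert ha]
    exact (h a (Finset.mem_insert_self _ _)).add
      (ih (fun i hi => h i (Finset.mem_insert_of_mem hi)))

theorem Deg.mono_set {D : ℕ} {S S' : Finset Λ} {η : K} (hS : S' ⊆ S) (h : Deg P D S η) :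
    Deg P D S' η := by
  induction D generalizing S S' η with
  | zero => intro k hk; exact h k (hS hk)
  | succ D ih => intro k hk; exact ih (Finset.erase_subset_erase k hS) (h k (hS hk))

theorem Deg.succ {D : ℕ} {S : Finset Λ} {η : K} (h : Deg P D S η) : Deg P (D + 1) S η := by
  induction D generalizing S η with
  | zero => intro k hk; rw [h k hk]; exact Deg.zero _ _
  | succ D ih => intro k hk; exact ih (h k hk)

theorem Deg.mono {D D' : ℕ} (hD : D ≤ D') {S : Finset Λ} {η : K} (h : Deg P D S η) :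
    Deg P D' S η := by
  induction D', hD using Nat.le_induction with
  | base => exact h
  | succ n _ ih => exact ih.succ

/-- an operator depending on the labels in `N` only raises the degree by `|N ∩ S|` -/
theorem Deg.map {N : Finset Λ} (hP : CP P) :
    ∀ (s : ℕ) {D : ℕ} {S : Finset Λ} (_ : S.card ≤ s) {T : K →L[ℂ] K}
      (_ : ∀ k, k ∉ N → T * P k = P k * T) {η : K} (_ : Deg P D S η),
      Deg P (D + (N ∩ S).card) S (T η) := by
  intro s
  induction s with
  | zero =>
    intro D S hS T hT η _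
    have hS0 : S = ∅ := Finset.card_eq_zero.mp (Nat.le_zero.mp hS)
    subst hS0
    generalize D + (N ∩ ∅).card = D'
    cases D' with
    | zero => intro k hk; simp at hk
    | succ n => intro k hk; simp at hk
  | succ s ih =>
    intro D S hS T hT η hη
    -- the two cases
    have key : ∀ k ∈ S, ∀ D' : ℕ, D + (N ∩ S).card = D' + 1 →
        Deg P D' (S.erase k) (P k (T η)) := by
      intro k hk D' hD'
      have hcard : (S.erase k).card ≤ s := by
        rw [Finset.card_erase_of_mem hk]; omega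
      by_cases hkN : k ∈ N
      · have h1 : (N ∩ S.erase k).card + 1 = (N ∩ S).card := by
          have : N ∩ S.erase k = (N ∩ S).erase k := by
            ext l; simp only [Finset.mem_inter, Finset.mem_erase]; tauto
          rw [this, Finset.card_erase_of_mem (Finset.mem_inter.mpr ⟨hkN, hk⟩)]
          have : 0 < (N ∩ S).card := Finset.card_pos.mpr ⟨k, Finset.mem_inter.mpr ⟨hkN, hk⟩⟩
          omega
        have h2 := ih hcard (T := P k * T) (by
          intro l hl
          rw [mul_assoc, hT l hl, ← mul_assoc, hP.comm k l, mul_assoc]) (hη.mono_set (Finset.erase_subset k S))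
        have h3 : D + (N ∩ S.erase k).card = D' := by omega
        rw [h3] at h2
        exact h2
      · have hTk : P k (T η) = T (P k η) := by
          have := hT k hkN
          calc P k (T η) = (P k * T) η := rfl
            _ = (T * P k) η := by rw [this]
            _ = T (P k η) := rfl
        have h1 : (N ∩ S.erase k).card = (N ∩ S).card := by
          have : N ∩ S.erase k = N ∩ S := by
            ext l; simp only [Finset.mem_inter, Finset.mem_erase]
            constructor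
            · tauto
            · rintro ⟨h1, h2⟩; exact ⟨h1, fun h => hkN (h ▸ h1), h2⟩
          rw [this]
        rw [hTk]
        cases D with
        | zero =>
          have : P k η = 0 := hη k hk
          rw [this, map_zero]
          exact Deg.zero _ _
        | succ D =>
          have h2 := ih hcard hT (hη k hk)
          rw [h1] at h2
          have h3 : D + (N ∩ S).card = D' := by omega
          rw [h3] at h2
          exact h2
    rcases Nat.eq_zero_or_pos (D + (N ∩ S).card) with h0 | h0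
    · rw [h0]
      intro k hk
      have hD : D = 0 := by omega
      subst hD
      have hN : (N ∩ S).card = 0 := by omega
      have hkN : k ∉ N := by
        intro h
        have : 0 < (N ∩ S).card := Finset.card_pos.mpr ⟨k, Finset.mem_inter.mpr ⟨h, hk⟩⟩
        omega
      have hTk : P k (T η) = T (P k η) := by
        have := hT k hkN
        calc P k (T η) = (P k * T) η := rfl
          _ = (T * P k) η := by rw [this]
          _ = T (P k η) := rfl
      rw [hTk, hη k hk, map_zero]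
    · obtain ⟨D', hD'⟩ : ∃ D', D + (N ∩ S).card = D' + 1 := ⟨D + (N ∩ S).card - 1, by omega⟩
      rw [hD']
      intro k hk
      exact key k hk D' hD'

theorem Deg.map' {N : Finset Λ} (hP : CP P) {D d : ℕ} {S : Finset Λ} (hN : N.card ≤ d)
    {T : K →L[ℂ] K} (hT : ∀ k, k ∉ N → T * P k = P k * T) {η : K} (hη : Deg P D S η) :
    Deg P (D + d) S (T η) := by
  refine (Deg.map hP S.card le_rfl hT hη).mono ?_
  have : (N ∩ S).card ≤ N.card := Finset.card_le_card Finset.inter_subset_left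
  omega

theorem Deg.map_comm (hP : CP P) {D : ℕ} {S : Finset Λ}
    {T : K →L[ℂ] K} (hT : ∀ k, T * P k = P k * T) {η : K} (hη : Deg P D S η) :
    Deg P D S (T η) := by
  have := Deg.map' (N := ∅) (d := 0) hP (by simp) (fun k _ => hT k) hη
  simpa using this

theorem cp_norm_sq (hP : CP P) (k l : Λ) (η : K) :
    ⟪P k η, P l η⟫_ℂ = ((‖P l (P k η)‖ ^ 2 : ℝ) : ℂ) := by
  have h1 : ⟪P l (P k η), P l (P k η)⟫_ℂ = ⟪P k η, P l η⟫_ℂ := by
    rw [sp_inner_self (hP.proj l)]
    have : P l (P k η) = P k (P l η) := by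
      calc P l (P k η) = (P l * P k) η := rfl
        _ = (P k * P l) η := by rw [hP.comm]
        _ = _ := rfl
    rw [this, ← sp_sa (hP.proj k), sp_idem (hP.proj k)]
  rw [← h1, inner_self_eq_norm_sq_to_K]
  norm_cast

/-- the number operator is at most `D` on vectors of degree `D` -/
theorem Deg.bound (hP : CP P) {D : ℕ} {S : Finset Λ} {η : K} (hη : Deg P D S η) :
    ∑ k ∈ S, ‖P k η‖ ^ 2 ≤ D * ‖η‖ ^ 2 := by
  induction D generalizing S η with
  | zero =>
    rw [Finset.sum_eq_zero (fun k hk => by rw [hη k hk]; simp)]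
    simp
  | succ D ih =>
    set A : K := ∑ k ∈ S, P k η with hA
    have ha : ∑ k ∈ S, ‖P k η‖ ^ 2 = (⟪η, A⟫_ℂ).re := by
      rw [hA, inner_sum, Complex.re_sum]
      exact Finset.sum_congr rfl (fun k _ => sp_norm_sq (hP.proj k) η)
    have hb : ‖A‖ ^ 2 = ∑ k ∈ S, ∑ l ∈ S, ‖P l (P k η)‖ ^ 2 := by
      rw [nsq_re]
      conv_lhs => rw [hA]
      rw [sum_inner, Complex.re_sum]
      refine Finset.sum_congr rfl (fun k _ => ?_)
      rw [inner_sum, Complex.re_sum]
      refine Finset.sum_congr rfl (fun l _ => ?_)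
      rw [cp_norm_sq hP, Complex.ofReal_re]
    have hc : ‖A‖ ^ 2 ≤ (D + 1) * ∑ k ∈ S, ‖P k η‖ ^ 2 := by
      rw [hb, Finset.mul_sum]
      refine Finset.sum_le_sum (fun k hk => ?_)
      rw [← Finset.add_sum_erase S _ hk, sp_idem (hP.proj k)]
      have := ih (hη k hk)
      linarith
    have hd : (⟪η, A⟫_ℂ).re ≤ ‖η‖ * ‖A‖ :=
      (Complex.re_le_norm _).trans (norm_inner_le_norm _ _)
    rw [ha] at hc ⊢
    have he : ‖A‖ ≤ (D + 1) * ‖η‖ := by
      by_contra hcon
      push Not at hcon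
      have h0 : 0 < ‖A‖ := lt_of_le_of_lt (by positivity) hcon
      have hD : (0 : ℝ) ≤ D + 1 := by positivity
      nlinarith [mul_le_mul_of_nonneg_left hd hD]
    push_cast
    calc (⟪η, A⟫_ℂ).re ≤ ‖η‖ * ‖A‖ := hd
      _ ≤ ‖η‖ * ((D + 1) * ‖η‖) := mul_le_mul_of_nonneg_left he (norm_nonneg _)
      _ = (D + 1) * ‖η‖ ^ 2 := by ring

/-- Efron-Stein type inequality -/
theorem Deg.es [Fintype Λ] (hP : CP P) {D : ℕ} {η : K}
    (hη : Deg P D Finset.univ η) (y : Λ → K →L[ℂ] K) (hy : ∀ k l, y k * P l = P l * y k) :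
    ‖∑ k, y k (P k η)‖ ^ 2 ≤ D * ∑ k, ‖y k (P k η)‖ ^ 2 := by
  set u : Λ → K := fun k => y k (P k η) with hu
  have hPu : ∀ k, P k (u k) = u k := by
    intro k
    have : P k (y k (P k η)) = y k (P k (P k η)) := by
      calc P k (y k (P k η)) = (P k * y k) (P k η) := rfl
        _ = (y k * P k) (P k η) := by rw [hy]
        _ = _ := rfl
    simp only [hu]
    rw [this, sp_idem (hP.proj k)]
  have hdeg : ∀ k, Deg P D Finset.univ (u k) := by
    intro k
    have := Deg.map_comm hP (T := y k * P k) (fun l => by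
      rw [mul_assoc, hP.comm k l, ← mul_assoc, hy k l, mul_assoc]) hη
    exact this
  have hterm : ∀ k l, (⟪u k, u l⟫_ℂ).re ≤ (‖P l (u k)‖ ^ 2 + ‖P k (u l)‖ ^ 2) / 2 := by
    intro k l
    have h1 : ⟪u k, u l⟫_ℂ = ⟪P l (u k), P k (u l)⟫_ℂ := by
      conv_lhs => rw [← hPu k, ← hPu l]
      rw [sp_sa (hP.proj k)]
      have : P k (P l (u l)) = P l (P k (u l)) := by
        calc P k (P l (u l)) = (P k * P l) (u l) := rfl
          _ = (P l * P k) (u l) := by rw [hP.comm]
          _ = _ := rfl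
      rw [this, ← sp_sa (hP.proj l)]
    rw [h1]
    have h2 : (⟪P l (u k), P k (u l)⟫_ℂ).re ≤ ‖P l (u k)‖ * ‖P k (u l)‖ :=
      (Complex.re_le_norm _).trans (norm_inner_le_norm _ _)
    nlinarith [sq_nonneg (‖P l (u k)‖ - ‖P k (u l)‖)]
  have hnorm : ‖∑ k, u k‖ ^ 2 = ∑ k, ∑ l, (⟪u k, u l⟫_ℂ).re := by
    have h1 := inner_self_eq_norm_sq_to_K (𝕜 := ℂ) (∑ k, u k)
    have h2 : (⟪∑ k, u k, ∑ k, u k⟫_ℂ).re = ∑ k, ∑ l, (⟪u k, u l⟫_ℂ).re := by
      rw [sum_inner, Complex.re_sum]
      refine Finset.sum_congr rfl (fun k _ => ?_)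
      rw [inner_sum, Complex.re_sum]
    rw [← h2, h1]
    norm_cast
  show ‖∑ k, u k‖ ^ 2 ≤ D * ∑ k, ‖u k‖ ^ 2
  rw [hnorm]
  have hA : ∑ k, ∑ l, (⟪u k, u l⟫_ℂ).re ≤ ∑ k, ∑ l, (‖P l (u k)‖ ^ 2 + ‖P k (u l)‖ ^ 2) / 2 :=
    Finset.sum_le_sum (fun k _ => Finset.sum_le_sum (fun l _ => hterm k l))
  have hB : ∑ k, ∑ l, (‖P l (u k)‖ ^ 2 + ‖P k (u l)‖ ^ 2) / 2 = ∑ k, ∑ l, ‖P l (u k)‖ ^ 2 := by
    have h1 : ∑ k, ∑ l, ‖P k (u l)‖ ^ 2 = ∑ k, ∑ l, ‖P l (u k)‖ ^ 2 := Finset.sum_comm
    calc ∑ k, ∑ l, (‖P l (u k)‖ ^ 2 + ‖P k (u l)‖ ^ 2) / 2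
        = (∑ k, ∑ l, ‖P l (u k)‖ ^ 2 + ∑ k, ∑ l, ‖P k (u l)‖ ^ 2) / 2 := by
          simp only [add_div, Finset.sum_add_distrib, Finset.sum_div]
      _ = _ := by rw [h1]; ring
  refine hA.trans (hB.le.trans ?_)
  rw [Finset.mul_sum]
  exact Finset.sum_le_sum (fun k _ => (hdeg k).bound hP)

end DegBasic

end Crest.Agent.R109.X2
end

-- ▼ part R109/X2B
section

/-!
# Row 109, module T2: Lemma B (small blocks), abstract form
-/

set_option autoImplicit false
set_option linter.unusedSectionVars false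

namespace Crest.Agent.R109.X2

open scoped InnerProductSpace ComplexOrder
open ContinuousLinearMap

universe u v w

variable {K : Type u} [NormedAddCommGroup K] [InnerProductSpace ℂ K] [CompleteSpace K]

/-- iterates `(p x)^i p Ξ` -/
def psi (x p : K →L[ℂ] K) (Ξ : K) : ℕ → K
  | 0 => p Ξ
  | i + 1 => p (x (psi x p Ξ i))

variable {Λ : Type v} [DecidableEq Λ] [Fintype Λ] {𝔞 : Type w} [Fintype 𝔞]

/-- The abstract system: `P k = 1 - E k` (fluctuation in the label `k`), `e k` the cells,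
`p = ∑ g a` the colour projection, `g a` depends only on the labels in `N a`. -/
structure Sys (P e : Λ → K →L[ℂ] K) (x p : K →L[ℂ] K) (g : 𝔞 → K →L[ℂ] K)
    (N : 𝔞 → Finset Λ) (d : ℕ) : Prop where
  cp : CP P
  xP : ∀ k, x * P k = P k * x
  psp : IsStarProjection p
  esp : ∀ k, IsStarProjection (e k)
  eorth : ∀ k l, k ≠ l → e k * e l = 0
  esum : ∑ k, e k = 1
  eP : ∀ k l, e k * P l = P l * e k
  gsum : ∑ a, g a = p
  card : ∀ a, (N a).card ≤ d
  indep : ∀ a k, k ∉ N a → g a * P k = P k * g a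

/-- `Q = ∑ e_k E_k` -/
noncomputable def QQ (P e : Λ → K →L[ℂ] K) : K →L[ℂ] K := ∑ k, e k * (1 - P k)

/-- `1 - Q = ∑ e_k P_k` -/
noncomputable def RR (P e : Λ → K →L[ℂ] K) : K →L[ℂ] K := ∑ k, e k * P k

namespace Sys

variable {P e : Λ → K →L[ℂ] K} {x p : K →L[ℂ] K} {g : 𝔞 → K →L[ℂ] K} {N : 𝔞 → Finset Λ} {d : ℕ}

theorem degp (h : Sys P e x p g N d) {D : ℕ} {η : K} (hη : Deg P D Finset.univ η) :
    Deg P (D + d) Finset.univ (p η) := by
  have h1 : p η = ∑ a, g a η := by
    rw [← h.gsum, _root_.sum_apply]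
  rw [h1]
  exact Deg.sum _ (fun a _ => Deg.map' h.cp (h.card a) (fun k hk => h.indep a k hk) hη)

theorem deg_psi (h : Sys P e x p g N d) {Ξ : K} (hΞ : ∀ k, P k Ξ = 0) (i : ℕ) :
    Deg P ((i + 1) * d) Finset.univ (psi x p Ξ i) := by
  induction i with
  | zero =>
    have h0 : Deg P 0 Finset.univ Ξ := fun k _ => hΞ k
    have := h.degp h0
    simpa [psi] using this
  | succ i ih =>
    have := h.degp (Deg.map_comm h.cp h.xP ih)
    have h2 : (i + 1 + 1) * d = (i + 1) * d + d := by ring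
    rw [h2]
    exact this

theorem QR (h : Sys P e x p g N d) : QQ P e + RR P e = 1 := by
  unfold QQ RR
  rw [← Finset.sum_add_distrib]
  have : ∀ k ∈ Finset.univ, e k * (1 - P k) + e k * P k = e k := by
    intro k _
    rw [mul_sub, mul_one]; abel
  rw [Finset.sum_congr rfl this, h.esum]

/-- orthogonality of the cells -/
theorem norm_sum_e (h : Sys P e x p g N d) (ζ : K) : ‖ζ‖ ^ 2 = ∑ k, ‖e k ζ‖ ^ 2 := by
  have h1 : ζ = ∑ k, e k ζ := by
    rw [← _root_.sum_apply, h.esum]; rfl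
  conv_lhs => rw [nsq_re, h1]
  rw [inner_sum, Complex.re_sum]
  refine Finset.sum_congr rfl (fun k _ => ?_)
  rw [sp_norm_sq (h.esp k), ← h1]
  rfl

theorem norm_sum_e' (h : Sys P e x p g N d) (ζ : Λ → K) :
    ‖∑ k, e k (ζ k)‖ ^ 2 = ∑ k, ‖e k (ζ k)‖ ^ 2 := by
  rw [h.norm_sum_e]
  refine Finset.sum_congr rfl (fun k _ => ?_)
  congr 2
  rw [map_sum, Finset.sum_eq_single k]
  · exact sp_idem (h.esp k) _
  · intro l _ hl
    calc e k (e l (ζ l)) = (e k * e l) (ζ l) := rfl
      _ = 0 := by rw [h.eorth k l (Ne.symm hl)]; rfl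
  · intro hk; exact absurd (Finset.mem_univ k) hk

theorem Q_idem (h : Sys P e x p g N d) : QQ P e * QQ P e = QQ P e := by
  unfold QQ
  rw [Finset.sum_mul]
  refine Finset.sum_congr rfl (fun k _ => ?_)
  rw [Finset.mul_sum, Finset.sum_eq_single k]
  · have c : (1 - P k) * e k = e k * (1 - P k) := by
      rw [sub_mul, mul_sub, one_mul, mul_one, h.eP k k]
    have i1 := (h.esp k).isIdempotentElem.eq
    have i2 := (h.cp.proj k).one_sub.isIdempotentElem.eq
    calc e k * (1 - P k) * (e k * (1 - P k)) = e k * ((1 - P k) * e k) * (1 - P k) := by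
          noncomm_ring
      _ = (e k * e k) * ((1 - P k) * (1 - P k)) := by rw [c]; noncomm_ring
      _ = _ := by rw [i1, i2]
  · intro l _ hl
    have c : (1 - P k) * e l = e l * (1 - P k) := by
      rw [sub_mul, mul_sub, one_mul, mul_one, h.eP l k]
    calc e k * (1 - P k) * (e l * (1 - P l)) = e k * ((1 - P k) * e l) * (1 - P l) := by
          noncomm_ring
      _ = (e k * e l) * ((1 - P k) * (1 - P l)) := by rw [c]; noncomm_ring
      _ = 0 := by rw [h.eorth k l (Ne.symm hl), zero_mul]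
  · intro hk; exact absurd (Finset.mem_univ k) hk

theorem Q_sp (h : Sys P e x p g N d) : IsStarProjection (QQ P e) := by
  refine ⟨h.Q_idem, ?_⟩
  unfold IsSelfAdjoint QQ
  rw [star_sum]
  refine Finset.sum_congr rfl (fun k _ => ?_)
  rw [star_mul, (h.esp k).isSelfAdjoint.star_eq, (h.cp.proj k).one_sub.isSelfAdjoint.star_eq,
    sub_mul, mul_sub, one_mul, mul_one, h.eP k k]

theorem R_sp (h : Sys P e x p g N d) : IsStarProjection (RR P e) := by
  have : RR P e = 1 - QQ P e := by rw [← h.QR]; abel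
  rw [this]
  exact h.Q_sp.one_sub

/-- the `(1-Q) x (1-Q)` part is small on vectors of small degree when all blocks are small -/
theorem RxR_le (h : Sys P e x p g N d) {ε₁ : ℝ} (hε₁ : 0 ≤ ε₁) (hx : ∀ k l, ‖e k * x * e l‖ ≤ ε₁)
    {D : ℕ} {ζ : K} (hζ : Deg P D Finset.univ ζ) :
    ‖RR P e (x (RR P e ζ))‖ ≤ D * ε₁ * ‖ζ‖ := by
  have hcomm : ∀ k l, P k * P l = P l * P k := h.cp.comm
  -- expansion
  have h1 : ∀ k, (e k * P k) (x (RR P e ζ)) = ∑ l, (e k * x * e l) (P l (P k ζ)) := by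
    intro k
    unfold RR
    rw [_root_.sum_apply, map_sum, map_sum]
    refine Finset.sum_congr rfl (fun l _ => ?_)
    have : (e k * P k) * x * (e l * P l) = (e k * x * e l) * (P l * P k) := by
      have a1 : P k * x = x * P k := (h.xP k).symm
      have a2 : P k * e l = e l * P k := (h.eP l k).symm
      calc (e k * P k) * x * (e l * P l) = e k * (P k * x) * e l * P l := by noncomm_ring
        _ = e k * x * (P k * e l) * P l := by rw [a1]; noncomm_ring
        _ = (e k * x * e l) * (P k * P l) := by rw [a2]; noncomm_ring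
        _ = _ := by rw [hcomm k l]
    calc (e k * P k) (x ((e l * P l) ζ)) = ((e k * P k) * x * (e l * P l)) ζ := rfl
      _ = ((e k * x * e l) * (P l * P k)) ζ := by rw [this]
      _ = _ := rfl
  have h2 : ‖RR P e (x (RR P e ζ))‖ ^ 2 = ∑ k, ‖∑ l, (e k * x * e l) (P l (P k ζ))‖ ^ 2 := by
    have : RR P e (x (RR P e ζ)) = ∑ k, e k (P k (x (RR P e ζ))) := by
      conv_lhs => rw [RR]
      rw [_root_.sum_apply]
      rfl
    rw [this, h.norm_sum_e']
    refine Finset.sum_congr rfl (fun k _ => ?_)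
    rw [← h1 k]
    rfl
  have h3 : ∀ k, ‖∑ l, (e k * x * e l) (P l (P k ζ))‖ ^ 2 ≤ D * (ε₁ ^ 2 * ‖P k ζ‖ ^ 2) := by
    intro k
    have hk : Deg P D Finset.univ (P k ζ) := Deg.map_comm h.cp (fun l => hcomm k l) hζ
    refine (Deg.es h.cp hk (fun l => e k * x * e l) ?_).trans ?_
    · intro l m
      have a1 : P m * x = x * P m := (h.xP m).symm
      have a2 : ∀ j, P m * e j = e j * P m := fun j => (h.eP j m).symm
      calc e k * x * e l * P m = e k * x * (e l * P m) := by noncomm_ring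
        _ = e k * (x * P m) * e l := by rw [h.eP l m]; noncomm_ring
        _ = (e k * P m) * x * e l := by rw [h.xP m]; noncomm_ring
        _ = P m * (e k * x * e l) := by rw [h.eP k m]; noncomm_ring
    · refine mul_le_mul_of_nonneg_left ?_ (by positivity)
      rw [h.norm_sum_e (P k ζ), Finset.mul_sum]
      refine Finset.sum_le_sum (fun l _ => ?_)
      have b1 : (e k * x * e l) (P l (P k ζ)) = (e k * x * e l) (e l (P l (P k ζ))) := by
        have : e k * x * e l = e k * x * e l * e l := by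
          rw [mul_assoc (e k * x), (h.esp l).isIdempotentElem.eq]
        calc (e k * x * e l) (P l (P k ζ)) = (e k * x * e l * e l) (P l (P k ζ)) := by rw [← this]
          _ = _ := rfl
      have b2 : ‖e l (P l (P k ζ))‖ ≤ ‖e l (P k ζ)‖ := by
        have : e l (P l (P k ζ)) = P l (e l (P k ζ)) := by
          calc e l (P l (P k ζ)) = (e l * P l) (P k ζ) := rfl
            _ = (P l * e l) (P k ζ) := by rw [h.eP l l]
            _ = _ := rfl
        rw [this]
        exact sp_norm_le (h.cp.proj l) _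
      have b3 : ‖(e k * x * e l) (P l (P k ζ))‖ ≤ ε₁ * ‖e l (P k ζ)‖ := by
        rw [b1]
        refine ((e k * x * e l).le_opNorm _).trans ?_
        exact mul_le_mul (hx k l) b2 (norm_nonneg _) hε₁
      calc ‖(e k * x * e l) (P l (P k ζ))‖ ^ 2 ≤ (ε₁ * ‖e l (P k ζ)‖) ^ 2 :=
            pow_le_pow_left₀ (norm_nonneg _) b3 2
        _ = ε₁ ^ 2 * ‖e l (P k ζ)‖ ^ 2 := by ring
  have h4 : ‖RR P e (x (RR P e ζ))‖ ^ 2 ≤ (D * ε₁ * ‖ζ‖) ^ 2 := by
    rw [h2]
    calc ∑ k, ‖∑ l, (e k * x * e l) (P l (P k ζ))‖ ^ 2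
        ≤ ∑ k, D * (ε₁ ^ 2 * ‖P k ζ‖ ^ 2) := Finset.sum_le_sum (fun k _ => h3 k)
      _ = D * ε₁ ^ 2 * ∑ k, ‖P k ζ‖ ^ 2 := by
          rw [Finset.mul_sum]; refine Finset.sum_congr rfl (fun k _ => ?_); ring
      _ ≤ D * ε₁ ^ 2 * (D * ‖ζ‖ ^ 2) :=
          mul_le_mul_of_nonneg_left (hζ.bound h.cp) (by positivity)
      _ = _ := by ring
  exact (pow_le_pow_iff_left₀ (norm_nonneg _) (by positivity) two_ne_zero).mp h4

/-- one step of Lemma B -/
theorem step (h : Sys P e x p g N d) {ε₁ s C : ℝ} (hε₁ : 0 ≤ ε₁) (hs : 0 ≤ s)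
    (hx : ∀ k l, ‖e k * x * e l‖ ≤ ε₁) (hC : ‖x‖ ≤ C) (hQ : ∀ ζ, ‖p (QQ P e ζ)‖ ≤ s * ‖ζ‖)
    {D : ℕ} {ζ : K} (hζ : Deg P D Finset.univ ζ) (hp : p ζ = ζ) :
    ‖p (x ζ)‖ ≤ (2 * s * C + D * ε₁) * ‖ζ‖ := by
  have hC0 : 0 ≤ C := (norm_nonneg _).trans hC
  -- ‖Q ζ‖ ≤ s ‖ζ‖
  have hQζ : ‖QQ P e ζ‖ ≤ s * ‖ζ‖ := by
    have a1 : ‖QQ P e ζ‖ ^ 2 = (⟪ζ, p (QQ P e (QQ P e ζ))⟫_ℂ).re := by
      rw [sp_idem h.Q_sp, sp_norm_sq h.Q_sp, ← sp_sa h.psp, hp]
      rfl
    have a2 : ‖QQ P e ζ‖ ^ 2 ≤ ‖ζ‖ * (s * ‖QQ P e ζ‖) := by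
      rw [a1]
      refine (Complex.re_le_norm _).trans ((norm_inner_le_norm _ _).trans ?_)
      exact mul_le_mul_of_nonneg_left (hQ _) (norm_nonneg _)
    by_contra hcon
    push Not at hcon
    have h0 : 0 < ‖QQ P e ζ‖ := lt_of_le_of_lt (by positivity) hcon
    nlinarith
  have hdec : p (x ζ) = p (QQ P e (x ζ)) + (p (RR P e (x (QQ P e ζ))) +
      p (RR P e (x (RR P e ζ)))) := by
    have e1 : ∀ χ : K, QQ P e χ + RR P e χ = χ := by
      intro χ
      calc QQ P e χ + RR P e χ = (QQ P e + RR P e) χ := rfl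
        _ = χ := by rw [h.QR]; rfl
    have e2 : QQ P e (x ζ) + (RR P e (x (QQ P e ζ)) + RR P e (x (RR P e ζ))) = x ζ := by
      rw [← map_add (RR P e), ← map_add x, e1, e1]
    rw [← map_add, ← map_add, e2]
  have b1 : ‖p (QQ P e (x ζ))‖ ≤ s * (C * ‖ζ‖) := by
    refine (hQ _).trans (mul_le_mul_of_nonneg_left ?_ hs)
    exact (x.le_opNorm ζ).trans (mul_le_mul_of_nonneg_right hC (norm_nonneg _))
  have b2 : ‖p (RR P e (x (QQ P e ζ)))‖ ≤ C * (s * ‖ζ‖) := by
    refine (sp_norm_le h.psp _).trans ((sp_norm_le h.R_sp _).trans ?_)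
    refine (x.le_opNorm _).trans ?_
    exact mul_le_mul hC hQζ (norm_nonneg _) hC0
  have b3 : ‖p (RR P e (x (RR P e ζ)))‖ ≤ D * ε₁ * ‖ζ‖ :=
    (sp_norm_le h.psp _).trans (h.RxR_le hε₁ hx hζ)
  rw [hdec]
  refine (norm_add_le _ _).trans ?_
  have := norm_add_le (p (RR P e (x (QQ P e ζ)))) (p (RR P e (x (RR P e ζ))))
  linarith

/-- **Lemma B**, iterated -/
theorem iter (h : Sys P e x p g N d) {ε₁ s C : ℝ} (hε₁ : 0 ≤ ε₁) (hs : 0 ≤ s)
    (hx : ∀ k l, ‖e k * x * e l‖ ≤ ε₁) (hC : ‖x‖ ≤ C) (hQ : ∀ ζ, ‖p (QQ P e ζ)‖ ≤ s * ‖ζ‖)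
    {Ξ : K} (hΞ : ∀ k, P k Ξ = 0) (m : ℕ) :
    ∀ i ≤ m, ‖psi x p Ξ i‖ ≤ (2 * s * C + m * d * ε₁) ^ i * ‖p Ξ‖ := by
  have hC0 : 0 ≤ C := (norm_nonneg _).trans hC
  have hpos : 0 ≤ 2 * s * C + m * d * ε₁ := by positivity
  intro i
  induction i with
  | zero => intro _; simp [psi]
  | succ i ih =>
    intro hi
    have hpp : p (psi x p Ξ i) = psi x p Ξ i := by
      cases i with
      | zero => exact sp_idem h.psp _
      | succ j => exact sp_idem h.psp _
    have h1 := h.step hε₁ hs hx hC hQ (h.deg_psi hΞ i) hpp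
    have h2 : (2 * s * C + ((((i + 1) * d : ℕ)) : ℝ) * ε₁) ≤ 2 * s * C + m * d * ε₁ := by
      have : ((((i + 1) * d : ℕ)) : ℝ) ≤ m * d := by
        have : (i + 1) * d ≤ m * d := Nat.mul_le_mul_right d hi
        exact_mod_cast this
      nlinarith
    calc ‖psi x p Ξ (i + 1)‖ ≤ (2 * s * C + ((((i + 1) * d : ℕ)) : ℝ) * ε₁) * ‖psi x p Ξ i‖ := h1
      _ ≤ (2 * s * C + m * d * ε₁) * ((2 * s * C + m * d * ε₁) ^ i * ‖p Ξ‖) :=
          mul_le_mul h2 (ih (by omega)) (norm_nonneg _) hpos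
      _ = _ := by ring

end Sys

end Crest.Agent.R109.X2
private theorem rz_7d51a56aae : type_of% @_root_.Crest.Agent.R109.X2.psi.eq_def := @_root_.Crest.Agent.R109.X2.psi.eq_def -- L20
private theorem rz_d6149d3e5c : type_of% @_root_.Crest.Agent.R109.X2.psi.eq_1 := @_root_.Crest.Agent.R109.X2.psi.eq_1 -- L20
end

-- ▼ part R109/X2F
section

/-!
# Row 109, module T2: the space of `H`-valued functions of finitely many independent labels
-/

set_option autoImplicit false
set_option linter.unusedSectionVars false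

namespace Crest.Agent.R109.X2

open scoped InnerProductSpace ComplexOrder
open ContinuousLinearMap

universe u v w

variable {H : Type u} [NormedAddCommGroup H] [InnerProductSpace ℂ H] [CompleteSpace H]
variable {Λ : Type v} [DecidableEq Λ] [Fintype Λ] {L : Type w} [Fintype L] [DecidableEq L]

/-- `H`-valued fields over the label space -/
abbrev Fld (H : Type u) [NormedAddCommGroup H] (Λ : Type v) [Fintype Λ] (L : Type w) [Fintype L]
    [DecidableEq Λ] [DecidableEq L] :=
  PiLp 2 (fun _ : Λ → L => H)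

/-- operators given by a family of component maps -/
noncomputable def opOf (T : (Λ → L) → ((Λ → L) → H) →L[ℂ] H) : Fld H Λ L →L[ℂ] Fld H Λ L :=
  ((PiLp.continuousLinearEquiv 2 ℂ (fun _ : Λ → L => H)).symm :
      ((Λ → L) → H) →L[ℂ] Fld H Λ L) ∘L (ContinuousLinearMap.pi T) ∘L
    ((PiLp.continuousLinearEquiv 2 ℂ (fun _ : Λ → L => H)) : Fld H Λ L →L[ℂ] ((Λ → L) → H))

theorem opOf_apply (T : (Λ → L) → ((Λ → L) → H) →L[ℂ] H) (ψ : Fld H Λ L) (ω : Λ → L) :
    opOf T ψ ω = T ω (fun ω' => ψ ω') := rfl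

/-- diagonal operators -/
noncomputable def Dg (y : (Λ → L) → H →L[ℂ] H) : Fld H Λ L →L[ℂ] Fld H Λ L :=
  opOf (fun ω => y ω ∘L ContinuousLinearMap.proj ω)

theorem Dg_apply (y : (Λ → L) → H →L[ℂ] H) (ψ : Fld H Λ L) (ω : Λ → L) :
    Dg y ψ ω = y ω (ψ ω) := rfl

/-- conditional expectation in the label `k` (weights `v²`, unweighted inner product) -/
noncomputable def Ek (v : L → ℝ) (k : Λ) : Fld H Λ L →L[ℂ] Fld H Λ L :=
  opOf (fun ω => (v (ω k) : ℂ) •
    ∑ s, (v s : ℂ) • ContinuousLinearMap.proj (Function.update ω k s))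

theorem Ek_apply (v : L → ℝ) (k : Λ) (ψ : Fld H Λ L) (ω : Λ → L) :
    Ek v k ψ ω = (v (ω k) : ℂ) • ∑ s, (v s : ℂ) • ψ (Function.update ω k s) := by
  unfold Ek
  rw [opOf_apply]
  simp [_root_.sum_apply]

theorem fld_ext {ψ χ : Fld H Λ L} (h : ∀ ω, ψ ω = χ ω) : ψ = χ := by
  ext ω
  exact h ω

theorem fld_op_ext {T S : Fld H Λ L →L[ℂ] Fld H Λ L} (h : ∀ ψ ω, T ψ ω = S ψ ω) : T = S :=
  ContinuousLinearMap.ext (fun ψ => fld_ext (h ψ))

theorem fld_norm_sq (ψ : Fld H Λ L) : ‖ψ‖ ^ 2 = ∑ ω, ‖ψ ω‖ ^ 2 :=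
  PiLp.norm_sq_eq_of_L2 _ ψ

/-- the swap of a label with a fresh label -/
def swp (k : Λ) : ((Λ → L) × L) ≃ ((Λ → L) × L) where
  toFun q := (Function.update q.1 k q.2, q.1 k)
  invFun q := (Function.update q.1 k q.2, q.1 k)
  left_inv q := by
    ext j
    · simp
    · simp
  right_inv q := by
    ext j
    · simp
    · simp

theorem sum_swp {M : Type*} [AddCommMonoid M] (k : Λ) (F : (Λ → L) → L → M) :
    ∑ ω, ∑ s, F (Function.update ω k s) (ω k) = ∑ ω, ∑ s, F ω s := by
  rw [← Fintype.sum_prod_type' (f := fun ω s => F (Function.update ω k s) (ω k)),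
    ← Fintype.sum_prod_type' (f := fun ω s => F ω s)]
  exact Equiv.sum_comp (swp k) (fun q : (Λ → L) × L => F q.1 q.2)

/-- fibre integration -/
theorem sum_fibre (w : L → ℝ) (hw : ∑ s, w s = 1) (k : Λ) (F : (Λ → L) → ℝ) :
    ∑ ω, F ω = ∑ ω, w (ω k) * ∑ s, F (Function.update ω k s) := by
  have h1 := sum_swp k (fun (ω : Λ → L) (s : L) => w s * F ω)
  have h2 : ∑ ω : Λ → L, ∑ s, w s * F ω = ∑ ω, F ω := by
    refine Finset.sum_congr rfl (fun ω _ => ?_)
    rw [← Finset.sum_mul, hw, one_mul]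
  rw [← h2, ← h1]
  refine Finset.sum_congr rfl (fun ω _ => ?_)
  rw [Finset.mul_sum]

section EkProps

variable {v : L → ℝ}

theorem Ek_idem (hv : ∑ s, v s ^ 2 = 1) (k : Λ) :
    (Ek v k : Fld H Λ L →L[ℂ] Fld H Λ L) * Ek v k = Ek v k := by
  refine fld_op_ext (fun ψ ω => ?_)
  show Ek v k (Ek v k ψ) ω = Ek v k ψ ω
  rw [Ek_apply, Ek_apply]
  congr 1
  have : ∀ s, Ek v k ψ (Function.update ω k s) =
      (v s : ℂ) • ∑ t, (v t : ℂ) • ψ (Function.update ω k t) := by
    intro s
    rw [Ek_apply]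
    simp
  simp_rw [this, smul_smul]
  rw [← Finset.sum_smul]
  have h2 : ∑ s, (v s : ℂ) * (v s : ℂ) = 1 := by
    have : ((∑ s, v s ^ 2 : ℝ) : ℂ) = 1 := by rw [hv]; simp
    rw [← this]; push_cast
    exact Finset.sum_congr rfl (fun s _ => by ring)
  rw [h2, one_smul]

theorem Ek_symm (k : Λ) (ψ χ : Fld H Λ L) : ⟪Ek v k ψ, χ⟫_ℂ = ⟪ψ, Ek v k χ⟫_ℂ := by
  rw [PiLp.inner_apply, PiLp.inner_apply]
  have h1 : ∀ ω, ⟪Ek v k ψ ω, χ ω⟫_ℂ =
      ∑ s, ((v (ω k) : ℂ) * (v s : ℂ)) * ⟪ψ (Function.update ω k s), χ ω⟫_ℂ := by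
    intro ω
    rw [Ek_apply, inner_smul_left, sum_inner, Finset.mul_sum]
    refine Finset.sum_congr rfl (fun s _ => ?_)
    rw [inner_smul_left, Complex.conj_ofReal, Complex.conj_ofReal]
    ring
  have h2 : ∀ ω, ⟪ψ ω, Ek v k χ ω⟫_ℂ =
      ∑ s, ((v (ω k) : ℂ) * (v s : ℂ)) * ⟪ψ ω, χ (Function.update ω k s)⟫_ℂ := by
    intro ω
    rw [Ek_apply, inner_smul_right, inner_sum, Finset.mul_sum]
    refine Finset.sum_congr rfl (fun s _ => ?_)
    rw [inner_smul_right]
    ring
  rw [Finset.sum_congr rfl (fun ω _ => h1 ω), Finset.sum_congr rfl (fun ω _ => h2 ω)]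
  rw [← sum_swp k (fun (ω : Λ → L) (s : L) =>
    ((v (ω k) : ℂ) * (v s : ℂ)) * ⟪ψ ω, χ (Function.update ω k s)⟫_ℂ)]
  refine Finset.sum_congr rfl (fun ω _ => Finset.sum_congr rfl (fun s _ => ?_))
  simp only [Function.update_self, Function.update_idem, Function.update_eq_self]
  ring

theorem Ek_sp (hv : ∑ s, v s ^ 2 = 1) (k : Λ) :
    IsStarProjection (Ek v k : Fld H Λ L →L[ℂ] Fld H Λ L) :=
  ⟨Ek_idem hv k, (ContinuousLinearMap.isSelfAdjoint_iff_isSymmetric).mpr
    (fun ψ χ => Ek_symm k ψ χ)⟩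

theorem Ek_comm (k l : Λ) :
    (Ek v k : Fld H Λ L →L[ℂ] Fld H Λ L) * Ek v l = Ek v l * Ek v k := by
  by_cases hkl : k = l
  · rw [hkl]
  have key : ∀ (k l : Λ), k ≠ l → ∀ (ψ : Fld H Λ L) (ω : Λ → L), Ek v k (Ek v l ψ) ω =
      ((v (ω k) : ℂ) * (v (ω l) : ℂ)) •
        ∑ s, ∑ t, ((v s : ℂ) * (v t : ℂ)) •
          ψ (Function.update (Function.update ω k s) l t) := by
    intro k l hkl ψ ω
    rw [Ek_apply, mul_smul, Finset.smul_sum, Finset.smul_sum, Finset.smul_sum]
    refine Finset.sum_congr rfl (fun s _ => ?_)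
    rw [Ek_apply, Function.update_of_ne (Ne.symm hkl), smul_comm (v s : ℂ) (v (ω l) : ℂ)]
    congr 2
    rw [Finset.smul_sum]
    refine Finset.sum_congr rfl (fun t _ => ?_)
    rw [smul_smul]
  refine fld_op_ext (fun ψ ω => ?_)
  show Ek v k (Ek v l ψ) ω = Ek v l (Ek v k ψ) ω
  rw [key k l hkl, key l k (Ne.symm hkl), mul_comm (v (ω k) : ℂ), Finset.sum_comm]
  congr 1
  refine Finset.sum_congr rfl (fun t _ => Finset.sum_congr rfl (fun s _ => ?_))
  rw [mul_comm (v s : ℂ), Function.update_comm (Ne.symm hkl)]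

theorem Dg_comm_Ek (k : Λ) {y : (Λ → L) → H →L[ℂ] H}
    (hy : ∀ ω s, y (Function.update ω k s) = y ω) : Dg y * Ek v k = Ek v k * Dg y := by
  refine fld_op_ext (fun ψ ω => ?_)
  show Dg y (Ek v k ψ) ω = Ek v k (Dg y ψ) ω
  rw [Dg_apply, Ek_apply, Ek_apply, map_smul, map_sum]
  congr 1
  refine Finset.sum_congr rfl (fun s _ => ?_)
  rw [map_smul, Dg_apply, hy]

end EkProps

section DgProps

theorem Dg_mul (y z : (Λ → L) → H →L[ℂ] H) : Dg (fun ω => y ω * z ω) = Dg y * Dg z :=
  fld_op_ext (fun _ _ => rfl)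

theorem Dg_one : Dg (fun _ : Λ → L => (1 : H →L[ℂ] H)) = 1 :=
  fld_op_ext (fun _ _ => rfl)

theorem Dg_zero : Dg (fun _ : Λ → L => (0 : H →L[ℂ] H)) = 0 :=
  fld_op_ext (fun _ _ => rfl)

theorem Dg_sum {ι : Type*} (s : Finset ι) (y : ι → (Λ → L) → H →L[ℂ] H) :
    Dg (fun ω => ∑ i ∈ s, y i ω) = ∑ i ∈ s, Dg (y i) := by
  classical
  induction s using Finset.induction_on with
  | empty => simp only [Finset.sum_empty]; exact Dg_zero
  | insert a s ha ih =>
    rw [Finset.sum_insert ha, ← ih]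
    refine fld_op_ext (fun ψ ω => ?_)
    rw [Dg_apply, Finset.sum_insert ha]
    rfl

theorem Dg_norm_le {y : (Λ → L) → H →L[ℂ] H} {C : ℝ} (hC : 0 ≤ C) (h : ∀ ω, ‖y ω‖ ≤ C) :
    ‖Dg y‖ ≤ C := by
  refine ContinuousLinearMap.opNorm_le_bound _ hC (fun ψ => ?_)
  have h1 : ‖Dg y ψ‖ ^ 2 ≤ (C * ‖ψ‖) ^ 2 := by
    rw [fld_norm_sq, mul_pow, fld_norm_sq, Finset.mul_sum]
    refine Finset.sum_le_sum (fun ω _ => ?_)
    rw [Dg_apply, ← mul_pow]
    exact pow_le_pow_left₀ (norm_nonneg _)
      (((y ω).le_opNorm _).trans (mul_le_mul_of_nonneg_right (h ω) (norm_nonneg _))) 2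
  exact (pow_le_pow_iff_left₀ (norm_nonneg _) (by positivity) two_ne_zero).mp h1

theorem Dg_sp {y : (Λ → L) → H →L[ℂ] H} (h : ∀ ω, IsStarProjection (y ω)) :
    IsStarProjection (Dg y) := by
  refine ⟨?_, (ContinuousLinearMap.isSelfAdjoint_iff_isSymmetric).mpr (fun ψ χ => ?_)⟩
  · show Dg y * Dg y = Dg y
    rw [← Dg_mul]
    congr 1
    funext ω
    exact (h ω).isIdempotentElem.eq
  · show ⟪Dg y ψ, χ⟫_ℂ = ⟪ψ, Dg y χ⟫_ℂ
    rw [PiLp.inner_apply, PiLp.inner_apply]
    refine Finset.sum_congr rfl (fun ω _ => ?_)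
    rw [Dg_apply, Dg_apply]
    exact sp_sa (h ω) _ _

end DgProps

end Crest.Agent.R109.X2
end

-- ▼ part R109/X2Main
section

/-!
# Row 109, module T2: Lemma B for functions of independent labels (concrete form)
-/

set_option autoImplicit false
set_option linter.unusedSectionVars false

namespace Crest.Agent.R109.X2

open scoped InnerProductSpace ComplexOrder
open ContinuousLinearMap

universe u v w t

variable {H : Type u} [NormedAddCommGroup H] [InnerProductSpace ℂ H] [CompleteSpace H]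
variable {Λ : Type v} [DecidableEq Λ] [Fintype Λ] {L : Type w} [Fintype L] [DecidableEq L]

theorem part_norm_sum {e : Λ → H →L[ℂ] H} (esp : ∀ k, IsStarProjection (e k))
    (eorth : ∀ k l, k ≠ l → e k * e l = 0) (ζ : Λ → H) :
    ‖∑ k, e k (ζ k)‖ ^ 2 = ∑ k, ‖e k (ζ k)‖ ^ 2 := by
  rw [nsq_re, sum_inner, Complex.re_sum]
  refine Finset.sum_congr rfl (fun k _ => ?_)
  rw [inner_sum, Complex.re_sum, Finset.sum_eq_single k]
  · rw [nsq_re]
  · intro l _ hl
    have : ⟪e k (ζ k), e l (ζ l)⟫_ℂ = 0 := by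
      rw [sp_sa (esp k)]
      have h1 : e k (e l (ζ l)) = 0 := by
        calc e k (e l (ζ l)) = (e k * e l) (ζ l) := rfl
          _ = 0 := by rw [eorth k l (Ne.symm hl)]; rfl
      rw [h1, inner_zero_right]
    rw [this]; rfl
  · intro h; exact absurd (Finset.mem_univ k) h

/-- the fluctuation operators -/
noncomputable def Pk (v : L → ℝ) (k : Λ) : Fld H Λ L →L[ℂ] Fld H Λ L := 1 - Ek v k

/-- constant operators -/
noncomputable def Cst (y : H →L[ℂ] H) : Fld H Λ L →L[ℂ] Fld H Λ L := Dg (fun _ => y)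

theorem QQ_apply (v : L → ℝ) (e : Λ → H →L[ℂ] H) (ψ : Fld H Λ L) (ω : Λ → L) :
    QQ (Pk v) (fun k => Cst (e k)) ψ ω = ∑ k, e k (Ek v k ψ ω) := by
  unfold QQ Pk
  have : ∀ k : Λ, (1 : Fld H Λ L →L[ℂ] Fld H Λ L) - (1 - Ek v k) = Ek v k := fun k => by abel
  simp_rw [this]
  rw [_root_.sum_apply]
  have h2 : ∀ (s : Finset Λ) (f : Λ → Fld H Λ L), (∑ k ∈ s, f k) ω = ∑ k ∈ s, f k ω := by
    intro s f
    induction s using Finset.induction_on with
    | empty => simp
    | insert a s ha ih => rw [Finset.sum_insert ha, Finset.sum_insert ha, ← ih]; rfl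
  rw [h2]
  rfl

/-- `‖p Q‖ ≤ √ρ` -/
theorem pQ_le {v : L → ℝ} (hv : ∑ s, v s ^ 2 = 1) {e : Λ → H →L[ℂ] H}
    (esp : ∀ k, IsStarProjection (e k)) (eorth : ∀ k l, k ≠ l → e k * e l = 0)
    {p : (Λ → L) → H →L[ℂ] H} (pe : ∀ ω k, p ω * e k = e k * p ω)
    {ρ : ℝ} (hρ0 : 0 ≤ ρ)
    (hρ : ∀ k ω ζ, ∑ s, v s ^ 2 * ‖p (Function.update ω k s) (e k ζ)‖ ^ 2 ≤ ρ * ‖e k ζ‖ ^ 2)
    (hQ : IsStarProjection (QQ (Pk v) (fun k => Cst (e k)) : Fld H Λ L →L[ℂ] Fld H Λ L))
    (ψ : Fld H Λ L) :
    ‖Dg p (QQ (Pk v) (fun k => Cst (e k)) ψ)‖ ≤ √ρ * ‖ψ‖ := by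
  have key : ‖Dg p (QQ (Pk v) (fun k => Cst (e k)) ψ)‖ ^ 2 ≤
      ρ * ‖QQ (Pk v) (fun k => Cst (e k)) ψ‖ ^ 2 := by
    rw [fld_norm_sq, fld_norm_sq]
    have h1 : ∀ ω, ‖Dg p (QQ (Pk v) (fun k => Cst (e k)) ψ) ω‖ ^ 2 =
        ∑ k, ‖p ω (e k (Ek v k ψ ω))‖ ^ 2 := by
      intro ω
      rw [Dg_apply, QQ_apply, map_sum]
      have h2 : ∀ k, p ω (e k (Ek v k ψ ω)) = e k (p ω (Ek v k ψ ω)) := by
        intro k
        calc p ω (e k (Ek v k ψ ω)) = (p ω * e k) (Ek v k ψ ω) := rfl
          _ = (e k * p ω) (Ek v k ψ ω) := by rw [pe]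
          _ = _ := rfl
      rw [Finset.sum_congr rfl (fun k _ => h2 k), part_norm_sum esp eorth]
      exact Finset.sum_congr rfl (fun k _ => by rw [h2 k])
    have h1' : ∀ ω, ‖QQ (Pk v) (fun k => Cst (e k)) ψ ω‖ ^ 2 =
        ∑ k, ‖e k (Ek v k ψ ω)‖ ^ 2 := by
      intro ω
      rw [QQ_apply, part_norm_sum esp eorth]
    have c1 : ∑ ω : Λ → L, ∑ k, ‖p ω (e k (Ek v k ψ ω))‖ ^ 2 =
        ∑ k, ∑ ω : Λ → L, ‖p ω (e k (Ek v k ψ ω))‖ ^ 2 := Finset.sum_comm
    have c2 : ∑ ω : Λ → L, ∑ k, ‖e k (Ek v k ψ ω)‖ ^ 2 =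
        ∑ k, ∑ ω : Λ → L, ‖e k (Ek v k ψ ω)‖ ^ 2 := Finset.sum_comm
    rw [Finset.sum_congr rfl (fun ω _ => h1 ω), Finset.sum_congr rfl (fun ω _ => h1' ω),
      c1, c2, Finset.mul_sum]
    refine Finset.sum_le_sum (fun k _ => ?_)
    set u : (Λ → L) → H := fun ω => ∑ s, (v s : ℂ) • ψ (Function.update ω k s) with hu
    have hE : ∀ ω, Ek v k ψ ω = (v (ω k) : ℂ) • u ω := fun ω => Ek_apply v k ψ ω
    have huu : ∀ ω s, u (Function.update ω k s) = u ω := by
      intro ω s
      simp only [hu, Function.update_idem]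
    have e1 : ∀ (T : H →L[ℂ] H) (c : ℝ) (ζ : H), ‖T ((c : ℂ) • ζ)‖ ^ 2 = c ^ 2 * ‖T ζ‖ ^ 2 := by
      intro T c ζ
      rw [map_smul, norm_smul, mul_pow]
      congr 1
      rw [Complex.norm_real, Real.norm_eq_abs, sq_abs]
    have e2 : ∀ ω, ‖p ω (e k (Ek v k ψ ω))‖ ^ 2 = v (ω k) ^ 2 * ‖p ω (e k (u ω))‖ ^ 2 := by
      intro ω
      rw [hE]
      exact e1 (p ω * e k) (v (ω k)) (u ω)
    have e3 : ∀ ω, ‖e k (Ek v k ψ ω)‖ ^ 2 = v (ω k) ^ 2 * ‖e k (u ω)‖ ^ 2 := by
      intro ω
      rw [hE]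
      exact e1 (e k) (v (ω k)) (u ω)
    rw [Finset.sum_congr rfl (fun ω _ => e2 ω), Finset.sum_congr rfl (fun ω _ => e3 ω),
      sum_fibre (fun s => v s ^ 2) hv k, Finset.mul_sum]
    refine Finset.sum_le_sum (fun ω _ => ?_)
    have e4 : ∀ s, v (Function.update ω k s k) ^ 2 *
        ‖p (Function.update ω k s) (e k (u (Function.update ω k s)))‖ ^ 2 =
        v s ^ 2 * ‖p (Function.update ω k s) (e k (u ω))‖ ^ 2 := by
      intro s
      rw [huu, Function.update_self]
    rw [Finset.sum_congr rfl (fun s _ => e4 s)]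
    have := mul_le_mul_of_nonneg_left (hρ k ω (u ω)) (sq_nonneg (v (ω k)))
    linarith
  have key2 : ‖Dg p (QQ (Pk v) (fun k => Cst (e k)) ψ)‖ ^ 2 ≤ (√ρ * ‖ψ‖) ^ 2 := by
    rw [mul_pow, Real.sq_sqrt hρ0]
    refine key.trans (mul_le_mul_of_nonneg_left ?_ hρ0)
    exact pow_le_pow_left₀ (norm_nonneg _) (sp_norm_le hQ _) 2
  exact (pow_le_pow_iff_left₀ (norm_nonneg _) (by positivity) two_ne_zero).mp key2

/-- the constant field, weighted -/
noncomputable def Xi (v : L → ℝ) (ξ : H) : Fld H Λ L :=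
  WithLp.toLp 2 (fun ω => ((∏ k, v (ω k) : ℝ) : ℂ) • ξ)

theorem Xi_apply (v : L → ℝ) (ξ : H) (ω : Λ → L) :
    (Xi v ξ : Fld H Λ L) ω = ((∏ k, v (ω k) : ℝ) : ℂ) • ξ := rfl

theorem Ek_Xi {v : L → ℝ} (hv : ∑ s, v s ^ 2 = 1) (k : Λ) (ξ : H) :
    Ek v k (Xi v ξ) = (Xi v ξ : Fld H Λ L) := by
  refine fld_ext (fun ω => ?_)
  rw [Ek_apply, Xi_apply]
  have h1 : ∀ s, (v s : ℂ) • (Xi v ξ : Fld H Λ L) (Function.update ω k s) =
      ((v s ^ 2 * ∏ j ∈ Finset.univ.erase k, v (ω j) : ℝ) : ℂ) • ξ := by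
    intro s
    rw [Xi_apply, smul_smul, ← Finset.mul_prod_erase Finset.univ _ (Finset.mem_univ k)]
    congr 1
    rw [Function.update_self]
    have : ∏ j ∈ Finset.univ.erase k, v (Function.update ω k s j) =
        ∏ j ∈ Finset.univ.erase k, v (ω j) := by
      refine Finset.prod_congr rfl (fun j hj => ?_)
      rw [Function.update_of_ne (Finset.ne_of_mem_erase hj)]
    rw [this]
    push_cast
    ring
  rw [Finset.sum_congr rfl (fun s _ => h1 s), ← Finset.sum_smul, smul_smul]
  congr 1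
  rw [← Complex.ofReal_sum, ← Finset.sum_mul, hv, one_mul, ← Complex.ofReal_mul,
    Finset.mul_prod_erase Finset.univ (fun j => v (ω j)) (Finset.mem_univ k)]

theorem psi_apply (v : L → ℝ) (z : H →L[ℂ] H) (p : (Λ → L) → H →L[ℂ] H) (ξ : H) (i : ℕ)
    (ω : Λ → L) :
    psi (Cst z) (Dg p) (Xi v ξ) i ω =
      ((∏ k, v (ω k) : ℝ) : ℂ) • (((p ω * z) ^ i) (p ω ξ)) := by
  induction i with
  | zero =>
    show p ω ((Xi v ξ : Fld H Λ L) ω) = _
    rw [Xi_apply, map_smul]
    rfl
  | succ i ih =>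
    have : psi (Cst z) (Dg p) (Xi v ξ) (i + 1) ω =
        p ω (z (psi (Cst z) (Dg p) (Xi v ξ) i ω)) := rfl
    rw [this, ih, map_smul, map_smul, pow_succ']
    rfl

/-- **Lemma B** for independent labels with product weights `∏ v (ω k)^2`. -/
theorem lemB {v : L → ℝ} (hv : ∑ s, v s ^ 2 = 1) {e : Λ → H →L[ℂ] H}
    (esp : ∀ k, IsStarProjection (e k)) (eorth : ∀ k l, k ≠ l → e k * e l = 0)
    (esum : ∑ k, e k = 1) {z : H →L[ℂ] H} {C ε₁ : ℝ} (hC : ‖z‖ ≤ C) (hε₁ : 0 ≤ ε₁)
    (hz : ∀ k l, ‖e k * z * e l‖ ≤ ε₁)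
    {p : (Λ → L) → H →L[ℂ] H} (psp : ∀ ω, IsStarProjection (p ω))
    (pe : ∀ ω k, p ω * e k = e k * p ω)
    {𝔞 : Type t} [Fintype 𝔞] {g : 𝔞 → (Λ → L) → H →L[ℂ] H} (gsum : ∀ ω, ∑ a, g a ω = p ω)
    {N : 𝔞 → Finset Λ} {d : ℕ} (card : ∀ a, (N a).card ≤ d)
    (gdep : ∀ a k, k ∉ N a → ∀ ω s, g a (Function.update ω k s) = g a ω)
    {ρ : ℝ} (hρ0 : 0 ≤ ρ)
    (hρ : ∀ k ω ζ, ∑ s, v s ^ 2 * ‖p (Function.update ω k s) (e k ζ)‖ ^ 2 ≤ ρ * ‖e k ζ‖ ^ 2)
    (ξ : H) (m : ℕ) :
    ∑ ω : Λ → L, (∏ k, v (ω k) ^ 2) * ‖((p ω * z) ^ m) (p ω ξ)‖ ^ 2 ≤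
      (2 * √ρ * C + m * d * ε₁) ^ (2 * m) *
        ∑ ω : Λ → L, (∏ k, v (ω k) ^ 2) * ‖p ω ξ‖ ^ 2 := by
  have hC0 : 0 ≤ C := (norm_nonneg _).trans hC
  have hcomm : ∀ (y : H →L[ℂ] H) (k : Λ),
      (Cst y : Fld H Λ L →L[ℂ] Fld H Λ L) * Pk v k = Pk v k * Cst y := by
    intro y k
    unfold Pk Cst
    rw [mul_sub, sub_mul, mul_one, one_mul, Dg_comm_Ek k (fun _ _ => rfl)]
  have hS : Sys (K := Fld H Λ L) (Pk v) (fun k => Cst (e k)) (Cst z) (Dg p)
      (fun a => Dg (g a)) N d := by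
    refine ⟨⟨fun k => (Ek_sp hv k).one_sub, fun k l => ?_⟩, fun k => hcomm z k, Dg_sp psp,
      fun k => Dg_sp (fun _ => esp k), fun k l hkl => ?_, ?_, fun k l => hcomm (e k) l, ?_, card,
      fun a k hk => ?_⟩
    · unfold Pk
      have := Ek_comm (H := H) (v := v) (Λ := Λ) k l
      simp only [mul_sub, sub_mul, one_mul, mul_one, this]
      abel
    · show Dg (fun _ => e k) * Dg (fun _ => e l) = 0
      rw [← Dg_mul]
      have : (fun _ : Λ → L => e k * e l) = fun _ => (0 : H →L[ℂ] H) := by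
        funext _; exact eorth k l hkl
      rw [this, Dg_zero]
    · show ∑ k, Dg (fun _ : Λ → L => e k) = 1
      rw [← Dg_sum]
      have : (fun _ : Λ → L => ∑ k, e k) = fun _ => (1 : H →L[ℂ] H) := by
        funext _; exact esum
      rw [this, Dg_one]
    · rw [← Dg_sum]
      congr 1
      funext ω
      exact gsum ω
    · unfold Pk
      rw [mul_sub, sub_mul, mul_one, one_mul, Dg_comm_Ek k (gdep a k hk)]
  have hblock : ∀ k l, ‖(Cst (e k) * Cst z * Cst (e l) : Fld H Λ L →L[ℂ] Fld H Λ L)‖ ≤ ε₁ := by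
    intro k l
    have : (Cst (e k) * Cst z * Cst (e l) : Fld H Λ L →L[ℂ] Fld H Λ L) =
        Dg (fun _ => e k * z * e l) := by
      unfold Cst
      rw [← Dg_mul, ← Dg_mul]
    rw [this]
    exact Dg_norm_le hε₁ (fun _ => hz k l)
  have hP : ∀ k, Pk v k (Xi v ξ : Fld H Λ L) = 0 := by
    intro k
    unfold Pk
    show Xi v ξ - Ek v k (Xi v ξ) = 0
    rw [Ek_Xi hv, sub_self]
  have hmain := hS.iter hε₁ (Real.sqrt_nonneg ρ) hblock (Dg_norm_le hC0 (fun _ => hC))
    (pQ_le hv esp eorth pe hρ0 hρ hS.Q_sp) hP m m le_rfl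
  have h2 := pow_le_pow_left₀ (norm_nonneg _) hmain 2
  have hnorm : ∀ (c : ℝ) (ζ : H), ‖(c : ℂ) • ζ‖ ^ 2 = c ^ 2 * ‖ζ‖ ^ 2 := by
    intro c ζ
    rw [norm_smul, mul_pow, Complex.norm_real, Real.norm_eq_abs, sq_abs]
  have hl : ‖psi (Cst z) (Dg p) (Xi v ξ : Fld H Λ L) m‖ ^ 2 =
      ∑ ω : Λ → L, (∏ k, v (ω k) ^ 2) * ‖((p ω * z) ^ m) (p ω ξ)‖ ^ 2 := by
    rw [fld_norm_sq]
    refine Finset.sum_congr rfl (fun ω _ => ?_)
    rw [psi_apply, hnorm, ← Finset.prod_pow]
  have hr : ‖Dg p (Xi v ξ : Fld H Λ L)‖ ^ 2 =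
      ∑ ω : Λ → L, (∏ k, v (ω k) ^ 2) * ‖p ω ξ‖ ^ 2 := by
    rw [fld_norm_sq]
    refine Finset.sum_congr rfl (fun ω _ => ?_)
    rw [Dg_apply, Xi_apply, map_smul, hnorm, ← Finset.prod_pow]
  rw [mul_pow, hl, hr, ← pow_mul, mul_comm m 2] at h2
  exact h2

/-- the operator `∑_{k ∈ S} e_k` -/
noncomputable def blkS (e : Λ → H →L[ℂ] H) (S : Finset Λ) : H →L[ℂ] H := ∑ k ∈ S, e k

theorem blkS_sp {e : Λ → H →L[ℂ] H} (esp : ∀ k, IsStarProjection (e k))
    (eorth : ∀ k l, k ≠ l → e k * e l = 0) (S : Finset Λ) : IsStarProjection (blkS e S) := by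
  refine ⟨?_, ?_⟩
  · show blkS e S * blkS e S = blkS e S
    unfold blkS
    rw [Finset.sum_mul]
    refine Finset.sum_congr rfl (fun k hk => ?_)
    rw [Finset.mul_sum, Finset.sum_eq_single k]
    · exact (esp k).isIdempotentElem.eq
    · intro l _ hl; exact eorth k l (Ne.symm hl)
    · intro h; exact absurd hk h
  · unfold IsSelfAdjoint blkS
    rw [star_sum]
    exact Finset.sum_congr rfl (fun k _ => (esp k).isSelfAdjoint.star_eq)

/-- **Lemma B, pure form**: independent Bernoulli set of cells -/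
theorem pure_form {e : Λ → H →L[ℂ] H}
    (esp : ∀ k, IsStarProjection (e k)) (eorth : ∀ k l, k ≠ l → e k * e l = 0)
    (esum : ∑ k, e k = 1) {z : H →L[ℂ] H} {C ε₁ : ℝ} (hC : ‖z‖ ≤ C) (hε₁ : 0 ≤ ε₁)
    (hz : ∀ k l, ‖e k * z * e l‖ ≤ ε₁) {lam : ℝ} (h0 : 0 ≤ lam) (h1 : lam ≤ 1)
    (ξ : H) (m : ℕ) :
    ∑ S : Finset Λ, lam ^ S.card * (1 - lam) ^ (Fintype.card Λ - S.card) *
        ‖((blkS e S * z * blkS e S) ^ m) ξ‖ ^ 2 ≤
      ((2 * √lam * C + m * ε₁) ^ m) ^ 2 * ‖ξ‖ ^ 2 := by
  classical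
  have h1' : 0 ≤ 1 - lam := by linarith
  set v : Bool → ℝ := fun b => if b then √lam else √(1 - lam) with hv
  have hvt : v true ^ 2 = lam := by simp [hv, Real.sq_sqrt h0]
  have hvf : v false ^ 2 = 1 - lam := by simp [hv, Real.sq_sqrt h1']
  have hvs : ∑ s, v s ^ 2 = 1 := by rw [Fintype.sum_bool, hvt, hvf]; ring
  -- functions `Λ → Bool` and finsets
  let F : (Λ → Bool) ≃ Finset Λ :=
    { toFun := fun ω => Finset.univ.filter (fun k => ω k = true)
      invFun := fun S k => decide (k ∈ S)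
      left_inv := by intro ω; funext k; simp
      right_inv := by intro S; ext k; simp }
  set p : (Λ → Bool) → H →L[ℂ] H := fun ω => blkS e (F ω) with hp
  have hp2 : ∀ ω, p ω = ∑ k, if ω k = true then e k else 0 := by
    intro ω
    show blkS e (Finset.univ.filter (fun k => ω k = true)) = _
    unfold blkS
    rw [Finset.sum_filter]
  have hpe : ∀ ω k, p ω * e k = if ω k = true then e k else 0 := by
    intro ω k
    rw [hp2, Finset.sum_mul, Finset.sum_eq_single k]
    · split_ifs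
      · exact (esp k).isIdempotentElem.eq
      · simp
    · intro l _ hl
      split_ifs
      · exact eorth l k hl
      · simp
    · intro h; exact absurd (Finset.mem_univ k) h
  have hep : ∀ ω k, e k * p ω = if ω k = true then e k else 0 := by
    intro ω k
    rw [hp2, Finset.mul_sum, Finset.sum_eq_single k]
    · split_ifs
      · exact (esp k).isIdempotentElem.eq
      · simp
    · intro l _ hl
      split_ifs
      · exact eorth k l (Ne.symm hl)
      · simp
    · intro h; exact absurd (Finset.mem_univ k) h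
  have hB := lemB (L := Bool) hvs esp eorth esum hC hε₁ hz (p := p)
    (fun ω => blkS_sp esp eorth _) (fun ω k => by rw [hpe, hep])
    (g := fun k ω => if ω k = true then e k else 0) (fun ω => (hp2 ω).symm)
    (N := fun k => {k}) (d := 1) (fun k => by simp)
    (fun a k hk ω s => by
      have : a ≠ k := fun h => hk (by simp [h])
      simp only [Function.update_of_ne this])
    h0 (fun k ω ζ => by
      have e1 : ∀ s : Bool, p (Function.update ω k s) (e k ζ) = if s = true then e k ζ else 0 := by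
        intro s
        have : p (Function.update ω k s) (e k ζ) = (p (Function.update ω k s) * e k) ζ := rfl
        rw [this, hpe, Function.update_self]
        split_ifs <;> rfl
      rw [Fintype.sum_bool, e1, e1, hvt, hvf]
      simp) ξ m
  -- weights
  have hw : ∀ ω : Λ → Bool, ∏ k, v (ω k) ^ 2 =
      lam ^ (F ω).card * (1 - lam) ^ (Fintype.card Λ - (F ω).card) := by
    intro ω
    have e1 : ∀ k, v (ω k) ^ 2 = if ω k = true then lam else 1 - lam := by
      intro k
      cases ω k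
      · simpa using hvf
      · simpa using hvt
    rw [Finset.prod_congr rfl (fun k _ => e1 k), Finset.prod_ite, Finset.prod_const,
      Finset.prod_const]
    congr 2
    have : (Finset.univ.filter (fun k => ¬ ω k = true)).card =
        Fintype.card Λ - (Finset.univ.filter (fun k => ω k = true)).card := by
      rw [← Finset.card_univ, ← Finset.card_filter_add_card_filter_not (s := Finset.univ)
        (fun k => ω k = true)]
      simp
    exact this
  have hw0 : ∀ ω : Λ → Bool, 0 ≤ ∏ k, v (ω k) ^ 2 :=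
    fun ω => Finset.prod_nonneg (fun k _ => sq_nonneg _)
  have hsum1 : ∑ ω : Λ → Bool, ∏ k, v (ω k) ^ 2 = 1 := by
    rw [← Fintype.piFinset_univ, ← Finset.prod_univ_sum (fun _ : Λ => (Finset.univ : Finset Bool))
      (fun _ s => v s ^ 2), Finset.prod_eq_one (fun k _ => hvs)]
  have hR : ∑ ω : Λ → Bool, (∏ k, v (ω k) ^ 2) * ‖p ω ξ‖ ^ 2 ≤ ‖ξ‖ ^ 2 := by
    calc ∑ ω : Λ → Bool, (∏ k, v (ω k) ^ 2) * ‖p ω ξ‖ ^ 2
        ≤ ∑ ω : Λ → Bool, (∏ k, v (ω k) ^ 2) * ‖ξ‖ ^ 2 :=
          Finset.sum_le_sum (fun ω _ => mul_le_mul_of_nonneg_left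
            (pow_le_pow_left₀ (norm_nonneg _) (sp_norm_le (blkS_sp esp eorth _) ξ) 2) (hw0 ω))
      _ = ‖ξ‖ ^ 2 := by rw [← Finset.sum_mul, hsum1, one_mul]
  have hC0 : 0 ≤ C := (norm_nonneg _).trans hC
  -- rewrite the left hand side
  rw [← Equiv.sum_comp F]
  rcases Nat.eq_zero_or_pos m with hm | hm
  · subst hm
    have : ∀ ω : Λ → Bool, lam ^ (F ω).card * (1 - lam) ^ (Fintype.card Λ - (F ω).card) *
        ‖((blkS e (F ω) * z * blkS e (F ω)) ^ 0) ξ‖ ^ 2 = (∏ k, v (ω k) ^ 2) * ‖ξ‖ ^ 2 := by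
      intro ω; rw [hw, pow_zero]; rfl
    rw [Finset.sum_congr rfl (fun ω _ => this ω), ← Finset.sum_mul, hsum1]
    simp
  · have hpow : ∀ ω : Λ → Bool, (blkS e (F ω) * z * blkS e (F ω)) ^ m =
        (p ω * z) ^ m * p ω := by
      intro ω
      have hi : p ω * p ω = p ω := (blkS_sp esp eorth _).isIdempotentElem.eq
      show (p ω * z * p ω) ^ m = _
      obtain ⟨j, rfl⟩ : ∃ j, m = j + 1 := ⟨m - 1, by omega⟩
      clear hB hm
      induction j with
      | zero => simp
      | succ j ih =>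
        rw [pow_succ, ih, pow_succ (p ω * z) (j + 1)]
        calc (p ω * z) ^ (j + 1) * p ω * (p ω * z * p ω)
            = (p ω * z) ^ (j + 1) * (p ω * p ω) * z * p ω := by noncomm_ring
          _ = (p ω * z) ^ (j + 1) * (p ω * z) * p ω := by rw [hi]; noncomm_ring
    have hl : ∀ ω : Λ → Bool, lam ^ (F ω).card * (1 - lam) ^ (Fintype.card Λ - (F ω).card) *
        ‖((blkS e (F ω) * z * blkS e (F ω)) ^ m) ξ‖ ^ 2 =
        (∏ k, v (ω k) ^ 2) * ‖((p ω * z) ^ m) (p ω ξ)‖ ^ 2 := by
      intro ω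
      rw [hw, hpow]
      rfl
    rw [Finset.sum_congr rfl (fun ω _ => hl ω)]
    refine hB.trans ?_
    have e1 : (2 * √lam * C + (m : ℝ) * ((1 : ℕ) : ℝ) * ε₁) = 2 * √lam * C + m * ε₁ := by
      push_cast; ring
    rw [e1, ← pow_mul, mul_comm 2 m]
    exact mul_le_mul_of_nonneg_left hR (by positivity)

end Crest.Agent.R109.X2
end

-- ▼ part R109/X2Fin
section

/-!
# Row 109, module T2: `X2Prop` from the small block approximation
-/

set_option autoImplicit false
set_option linter.unusedSectionVars false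

namespace Crest.Agent.R109

open scoped InnerProductSpace

universe u

/-- small block approximation of a diffuse element (helper300, SmallBlock3) -/
def SmallBlockProp : Prop :=
  ∀ (H : Type u) [NormedAddCommGroup H] [InnerProductSpace ℂ H] [CompleteSpace H]
    (M : VonNeumannAlgebra H) (A : StarSubalgebra ℂ (H →L[ℂ] H)) (η : H), NCE M A η →
    ‖η‖ = 1 → ∀ z ∈ M, IsSelfAdjoint z → Diff A η z → ∀ κ : ℝ, 0 < κ → ∀ ε₁ : ℝ, 0 < ε₁ →
    ∃ P1 : FP A, ∀ Q : FP A, P1 ≤ Q → ∃ z2 ∈ M, IsSelfAdjoint z2 ∧ ‖z2‖ ≤ ‖z‖ ∧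
      ‖(z - z2) η‖ ≤ κ ∧ ∀ k l, ‖Q.e k * z2 * Q.e l‖ ≤ ε₁

theorem x2_of_smallBlock (hSB : SmallBlockProp.{u}) : X2Prop.{u} := by
  intro H _ _ _ M A η _ hNCE hη z hz hzsa hz3 hdiff r hr n hn κ hκ
  have hn0 : (0 : ℝ) < n := by exact_mod_cast hn
  have hr0 : (0 : ℝ) < r := by
    have : (0 : ℕ) < r := by omega
    exact_mod_cast this
  obtain ⟨P1, hP1⟩ := hSB H M A η hNCE hη z hz hzsa hdiff κ hκ (κ / n) (by positivity)
  refine ⟨P1, fun Q hQ => ?_⟩
  obtain ⟨z2, hz2M, hz2sa, hz2n, hz2η, hblk⟩ := hP1 Q hQ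
  refine ⟨z2, hz2M, hz2sa, hz2n, hz2η, ?_⟩
  have hlam0 : (0 : ℝ) ≤ 2 / r := by positivity
  have hlam1 : (2 : ℝ) / r ≤ 1 := by
    rw [div_le_one hr0]
    have : (2 : ℕ) ≤ r := by omega
    exact_mod_cast this
  have h := X2.pure_form (e := Q.e) Q.part.proj Q.part.orth Q.part.sum (hz2n.trans hz3)
    (by positivity) hblk hlam0 hlam1 η n
  rw [Fintype.card_fin, hη, one_pow, mul_one] at h
  have e1 : 2 * √(2 / (r : ℝ)) * 3 + n * (κ / n) = 6 * √(2 / (r : ℝ)) + κ := by
    field_simp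
    ring
  rw [e1] at h
  exact h

end Crest.Agent.R109
end

-- ▼ part R109/X2Final
section

/-!
# Row 109, module T2: `X2Prop`
-/

set_option autoImplicit false
set_option linter.unusedSectionVars false

namespace Crest.Agent.R109

universe u

theorem smallBlock : SmallBlockProp.{u} := by
  intro H _ _ _ M A η h _ z hz hzs hD κ hκ ε₁ hε₁
  refine SB.small_blocks h hz hzs (fun δ hδ => ?_) hε₁ hκ
  obtain ⟨P, hP⟩ := hD (δ / 2) (by positivity)
  exact ⟨P, lt_of_le_of_lt hP (by linarith)⟩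

/-- module T2 of row 109 -/
theorem x2 : X2Prop.{u} := x2_of_smallBlock smallBlock

end Crest.Agent.R109
end

-- ▼ part R109/KernM
section

/-!
# Row 109, GLUE: measurability of gauge invariant expressions of the kernel
-/

set_option autoImplicit false
set_option linter.unusedSectionVars false

namespace Crest.Agent.R109

open scoped InnerProductSpace ComplexConjugate ComplexOrder
open ContinuousLinearMap MeasureTheory

universe u

variable {H : Type u} [NormedAddCommGroup H] [InnerProductSpace ℂ H] [CompleteSpace H]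
variable {M : VonNeumannAlgebra H} {A : StarSubalgebra ℂ (H →L[ℂ] H)} {η : H}

namespace Model

variable (m : Model A) (h : NCE M A η)
include h

/-- phases of two group elements with the same image point -/
lemma ph_mul_conj {g k : UN M A η} {x : m.X} (hgk : k • x = g • x) :
    m.ph h g x * conj (m.ph h k x) = m.cE η (k⁻¹ * g).op x := by
  set b := m.base M η x with hbd
  set s := m.sec M η x with hs
  set p := (m.sec M η (g • x))⁻¹ * g * s with hp
  set q := (m.sec M η (k • x))⁻¹ * k * s with hq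
  have hpb : p • b = b := m.stab g x
  have hqb : q • b = b := m.stab k x
  have hq' : q⁻¹ • b = b := by rw [inv_smul_eq_iff, hqb]
  have hkg : (k⁻¹ * g) • x = x := by rw [mul_smul, ← hgk, inv_smul_smul]
  have e1 : q⁻¹ * p = s⁻¹ * (k⁻¹ * g) * s := by
    rw [hp, hq, hgk]; group
  have e5 : m.ph h g x = m.cE η p.op b := rfl
  have e6 : m.ph h k x = m.cE η q.op b := rfl
  have e7 : conj (m.cE η q.op b) * m.cE η p.op b = m.cE η (q⁻¹ * p).op b := by
    have h1 : (q⁻¹ * p).op = star q.op * p.op := rfl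
    rw [h1]
    exact (m.cE_star_op_mul h p.mem q hqb).symm
  rw [e5, e6, mul_comm, e7, e1]
  have e8 : (s⁻¹ * (k⁻¹ * g) * s).op = star s.op * (k⁻¹ * g).op * s.op := rfl
  rw [e8, m.cE_conj h (k⁻¹ * g).mem, hbd, hs, m.sec_smul]

/-- the product of continuous entries along a walk -/
noncomputable def wcont (_h : NCE M A η) (T : H →L[ℂ] H) : UN M A η → List (UN M A η) → C(m.X, ℂ)
  | _, [] => 1
  | g, k :: l => m.cE η (star g.op * T * k.op) * wcont _h T k l

lemma wprod_eq {T : H →L[ℂ] H} (hT : T ∈ M) (g : UN M A η) (l : List (UN M A η)) (v : m.X) :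
    Book.wprod (fun _ => m.K M η T) v g l
      = m.ph h g v * conj (m.ph h (Book.wend g l) v) * m.wcont h T g l v := by
  have hph : ∀ k : UN M A η, m.ph h k v * conj (m.ph h k v) = 1 := by
    intro k
    rw [Complex.mul_conj, Complex.normSq_eq_norm_sq, m.norm_ph h]
    simp
  induction l generalizing g with
  | nil =>
    simp only [Book.wprod, Book.wend, wcont, ContinuousMap.one_apply, mul_one]
    exact (hph g).symm
  | cons k l ih =>
    simp only [Book.wprod, Book.wend, wcont, ContinuousMap.mul_apply]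
    rw [ih k, m.K_gauge h hT]
    have := hph k
    calc m.ph h g v * conj (m.ph h k v) * m.cE η (star g.op * T * k.op) v *
          (m.ph h k v * conj (m.ph h (Book.wend k l) v) * m.wcont h T k l v)
        = (m.ph h k v * conj (m.ph h k v)) * (m.ph h g v * conj (m.ph h (Book.wend k l) v) *
          (m.cE η (star g.op * T * k.op) v * m.wcont h T k l v)) := by ring
      _ = _ := by rw [this, one_mul]

/-- closed walk products of the kernel are measurable -/
theorem K_CW [MeasurableSpace m.X] (hmeas : ∀ f : C(m.X, ℂ), Measurable f) {T : H →L[ℂ] H}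
    (hT : T ∈ M) : Book.CW (UN M A η) (fun _ => m.K M η T) := by
  classical
  intro g l
  have h1 : (fun v => if Book.wend g l • v = g • v then
        Book.wprod (fun _ => m.K M η T) v g l else 0)
      = fun v => (m.ind ⟨_, m.isClopen_eq (Book.wend g l) g h.masa⟩
          * (m.cE η ((Book.wend g l)⁻¹ * g).op * m.wcont h T g l) : C(m.X, ℂ)) v := by
    funext v
    simp only [ContinuousMap.mul_apply]
    split_ifs with hv
    · rw [m.ind_of_mem (show v ∈ (⟨_, m.isClopen_eq (Book.wend g l) g h.masa⟩ :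
        TopologicalSpace.Clopens m.X) from hv), one_mul, m.wprod_eq h hT, m.ph_mul_conj h hv]
    · rw [m.ind_of_notMem (show v ∉ (⟨_, m.isClopen_eq (Book.wend g l) g h.masa⟩ :
        TopologicalSpace.Clopens m.X) from hv), zero_mul]
  rw [h1]
  exact hmeas _

end Model

end Crest.Agent.R109
private theorem rz_4333759949 : type_of% @_root_.Crest.Agent.R109.Model.wcont.eq_def := @_root_.Crest.Agent.R109.Model.wcont.eq_def -- L50
private theorem rz_df6acd9bef : type_of% @_root_.Crest.Agent.R109.Model.wcont.eq_1 := @_root_.Crest.Agent.R109.Model.wcont.eq_1 -- L50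
end

-- ▼ part R109/KSysInst
section

/-!
# Row 109, GLUE: the kernel of a banded operator is a kernel system
-/

set_option autoImplicit false
set_option linter.unusedSectionVars false

namespace Crest.Agent.R109

open scoped InnerProductSpace ComplexConjugate ComplexOrder
open ContinuousLinearMap MeasureTheory Crest.Agent.R109.Book

universe u

variable {H : Type u} [NormedAddCommGroup H] [InnerProductSpace ℂ H] [CompleteSpace H]
variable {M : VonNeumannAlgebra H} {A : StarSubalgebra ℂ (H →L[ℂ] H)} {η : H}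

/-- `K = m.K M η y` is a kernel system -/
theorem ksys (m : Model A) (h : NCE M A η) [MeasurableSpace m.X]
    (hmeas : ∀ f : C(m.X, ℂ), Measurable f) {μ : Measure m.X} (Q : QI (UN M A η) m.X μ)
    {y : H →L[ℂ] H} (S : Finset (UN M A η)) (a : UN M A η → H →L[ℂ] H) (h1 : 1 ∈ S)
    (hS : ∀ w ∈ S, w⁻¹ ∈ S) (ha : ∀ w, a w ∈ A) (hy : y = ∑ w ∈ S, a w * w.op)
    (hsa : IsSelfAdjoint y) (hn : ‖y‖ ≤ 1) (hE : CE A η y = 0) :
    KSys Q S (m.K M η y) := by
  classical
  have hyM : y ∈ M := by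
    rw [hy]
    exact sum_mem fun w _ => mul_mem (h.masa.memM (ha w)) w.mem
  refine ⟨h1, hS, ?_, ?_, ?_, ?_, ?_, ?_, ?_, m.K_CW h hmeas hyM⟩
  · intro v w
    have := m.K_star h hyM w v
    rwa [hsa.star_eq] at this
  · intro v
    rw [m.K_diag h hyM]
    have : m.cE η y = 0 := by
      apply m.inj
      rw [m.Φ_cE h hyM, hE, map_zero]
    rw [this]
    rfl
  · intro v w hne
    have hne' : m.K M η (∑ w ∈ S, a w * w.op) v w ≠ 0 := by rwa [← hy]
    obtain ⟨g, hg, hgw⟩ := m.K_band h S a (fun w => w) (fun w _ => ha w) hne'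
    exact mem_ball.2 ⟨g⁻¹, hS g hg, by rw [hgw, inv_smul_smul]⟩
  · intro v w
    exact (m.norm_K_le h hyM v w).trans hn
  · intro W
    have := (m.K_le_one h hyM hsa hn W).1
    have e : mat (m.K M η y) W = Matrix.of fun v w : W => m.K M η y v w := rfl
    rw [e]
    convert this
  · intro W
    have := (m.K_le_one h hyM hsa hn W).2
    have e : mat (m.K M η y) W = Matrix.of fun v w : W => m.K M η y v w := rfl
    rw [e]
    convert this
  · refine ⟨fun g x => conj (m.ph h g x), fun g x => ?_, fun g k => ?_⟩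
    · rw [RCLike.norm_conj, m.norm_ph h]
    · have hph : ∀ (g : UN M A η) (x : m.X), conj (m.ph h g x) * m.ph h g x = 1 := by
        intro g x
        rw [mul_comm, Complex.mul_conj, Complex.normSq_eq_norm_sq, m.norm_ph h]
        simp
      have e : (fun x => conj (m.ph h g x) * m.K M η y (g • x) (k • x) * conj (conj (m.ph h k x)))
          = fun x => m.cE η (star g.op * y * k.op) x := by
        funext x
        rw [m.K_gauge h hyM, Complex.conj_conj]
        calc conj (m.ph h g x) * (m.ph h g x * conj (m.ph h k x) *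
              m.cE η (star g.op * y * k.op) x) * m.ph h k x
            = (conj (m.ph h g x) * m.ph h g x) * (conj (m.ph h k x) * m.ph h k x) *
              m.cE η (star g.op * y * k.op) x := by ring
          _ = _ := by rw [hph, hph, one_mul, one_mul]
      rw [e]
      exact hmeas _

/-- version with the index set chosen by `N0.exists_finset_symm` -/
theorem exists_ksys (m : Model A) (h : NCE M A η) [MeasurableSpace m.X]
    (hmeas : ∀ f : C(m.X, ℂ), Measurable f) {μ : Measure m.X} (Q : QI (UN M A η) m.X μ)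
    {y : H →L[ℂ] H} (hyN : y ∈ N0 M A η) (hsa : IsSelfAdjoint y) (hn : ‖y‖ ≤ 1)
    (hE : CE A η y = 0) :
    ∃ (S : Finset (UN M A η)) (a : UN M A η → H →L[ℂ] H), (∀ w, a w ∈ A) ∧
      y = ∑ w ∈ S, a w * w.op ∧ KSys Q S (m.K M η y) := by
  obtain ⟨S, a, h1, hS, ha, _, hy⟩ := N0.exists_finset_symm hyN
  exact ⟨S, a, ha, hy, ksys m h hmeas Q S a h1 hS ha hy hsa hn hE⟩

end Crest.Agent.R109
end

-- ▼ part R109/BallB
section

/-!
# Row 109: the orbit model on the spectrum of the masa (B)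

The Baire σ-algebra of `m.X`, the measure `m.mu η` with `∫ f dμ = ⟪η, Φ f η⟫`, the Radon-Nikodym
cocycle and the quasi-invariant structure `m.qi`.
-/

set_option autoImplicit false
set_option linter.unusedSectionVars false

namespace Crest.Agent.R109

open scoped InnerProductSpace ComplexOrder
open ContinuousLinearMap Set TopologicalSpace MeasureTheory

universe u

variable {H : Type u} [NormedAddCommGroup H] [InnerProductSpace ℂ H] [CompleteSpace H]
variable {M : VonNeumannAlgebra H} {A : StarSubalgebra ℂ (H →L[ℂ] H)} {η : H}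

/-- `BDom` in terms of right multiplication -/
lemma BDom.dom {u : H →L[ℂ] H} {C : ℝ} (hC : BDom M η u C) : Dom M η u (Real.sqrt |C|) := by
  intro y hy
  have h1 := hC (star y * y) (mul_mem (star_mem hy) hy) (star_mul_self_nonneg y)
  rw [← inner_conj_eq, inner_star_mul, inner_star_mul, Complex.ofReal_re, Complex.ofReal_re] at h1
  have h2 : ‖y (u η)‖ ^ 2 ≤ |C| * ‖y η‖ ^ 2 :=
    h1.trans (mul_le_mul_of_nonneg_right (le_abs_self C) (by positivity))
  apply le_of_sq_le_sq _ (by positivity)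
  rw [mul_pow, Real.sq_sqrt (abs_nonneg C)]
  exact h2


namespace Model

variable (m : Model A)

instance : MeasurableSpace m.X := Ball.baire m.X

lemma measurableSet_clopen {s : Set m.X} (hs : IsClopen s) : MeasurableSet s :=
  Ball.baire_measurableSet hs

lemma measurable_real (hA : Masa M A) {f : m.X → ℝ} (hf : Continuous f) : Measurable f := by
  have := m.totallySeparated hA
  exact Ball.baire_measurable_real hf

lemma measurable_complex (hA : Masa M A) {f : m.X → ℂ} (hf : Continuous f) : Measurable f := by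
  have h1 : Measurable fun x => (f x).re := m.measurable_real hA (Complex.continuous_re.comp hf)
  have h2 : Measurable fun x => (f x).im := m.measurable_real hA (Complex.continuous_im.comp hf)
  have h3 : f = fun x => ((f x).re : ℂ) + ((f x).im : ℂ) * Complex.I := by
    funext x
    exact (Complex.re_add_im (f x)).symm
  rw [h3]
  exact (Complex.measurable_ofReal.comp h1).add
    ((Complex.measurable_ofReal.comp h2).mul measurable_const)

/-- continuous maps of `m.X` into itself are measurable -/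
lemma measurable_self {f : m.X → m.X} (hf : Continuous f) : Measurable f := by
  apply measurable_generateFrom
  intro s hs
  exact m.measurableSet_clopen (IsClopen.preimage hs hf)

/-- a real function as a complex one -/
noncomputable def ofR (f : C(m.X, ℝ)) : C(m.X, ℂ) := ⟨fun x => (f x : ℂ), by fun_prop⟩

@[simp] lemma ofR_apply (f : C(m.X, ℝ)) (x : m.X) : m.ofR f x = (f x : ℂ) := rfl


/-- the functional on real functions -/
noncomputable def lam (η : H) : C(m.X, ℝ) →ₗ[ℝ] ℝ where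
  toFun f := (⟪η, m.Φ (m.ofR f) η⟫_ℂ).re
  map_add' f k := by
    have : m.ofR (f + k) = m.ofR f + m.ofR k := by ext x; simp
    rw [this, map_add, add_apply, inner_add_right, Complex.add_re]
  map_smul' c f := by
    have : m.ofR (c • f) = (c : ℂ) • m.ofR f := by ext x; simp
    rw [this, map_smul, RingHom.id_apply]
    change (⟪η, (c : ℂ) • (m.Φ (m.ofR f) η)⟫_ℂ).re = _
    rw [inner_smul_right, Complex.re_ofReal_mul, smul_eq_mul]

lemma lam_nonneg (η : H) {f : C(m.X, ℝ)} (hf : 0 ≤ f) : 0 ≤ m.lam η f := by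
  apply inner_nonneg_re
  apply m.nonneg_of_nonneg
  intro x
  change (0 : ℂ) ≤ ((f x : ℝ) : ℂ)
  exact_mod_cast hf x

/-- the measure given by the vector `η` -/
noncomputable def mu (η : H) : Measure m.X :=
  Classical.epsilon fun μ : Measure m.X => IsFiniteMeasure μ ∧
    ∀ f : C(m.X, ℝ), ∫ x, f x ∂μ = m.lam η f

section Mu

variable (hA : Masa M A)
include hA

lemma mu_spec (η : H) : IsFiniteMeasure (m.mu η) ∧
    ∀ f : C(m.X, ℝ), ∫ x, f x ∂(m.mu η) = m.lam η f := by
  have := m.totallySeparated hA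
  exact Classical.epsilon_spec (p := fun μ : Measure m.X => IsFiniteMeasure μ ∧
    ∀ f : C(m.X, ℝ), ∫ x, f x ∂μ = m.lam η f)
    (Ball.exists_measure_baire (m.lam η) fun f hf => m.lam_nonneg η hf)

lemma isFiniteMeasure_mu (η : H) : IsFiniteMeasure (m.mu η) := (m.mu_spec hA η).1

lemma integral_mu (η : H) (f : C(m.X, ℝ)) :
    ∫ x, f x ∂(m.mu η) = (⟪η, m.Φ (m.ofR f) η⟫_ℂ).re := (m.mu_spec hA η).2 f

lemma integrable_real (η : H) {f : m.X → ℝ} (hf : Continuous f) : Integrable f (m.mu η) := by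
  have := m.isFiniteMeasure_mu hA η
  obtain ⟨C, hC⟩ := (isCompact_range hf).isBounded.exists_norm_le
  exact Integrable.of_bound (m.measurable_real hA hf).aestronglyMeasurable C
    (Filter.Eventually.of_forall fun x => hC _ ⟨x, rfl⟩)

lemma mu_real_clopen (η : H) (V : Clopens m.X) :
    (m.mu η).real (V : Set m.X) = ‖m.pr V η‖ ^ 2 := by
  have := m.isFiniteMeasure_mu hA η
  let f : C(m.X, ℝ) := ⟨Set.indicator (V : Set m.X) 1, by
    have := (LocallyConstant.charFn ℝ V.isClopen).continuous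
    rwa [LocallyConstant.coe_charFn] at this⟩
  have h1 : m.ofR f = m.ind V := by
    ext x
    change ((Set.indicator (V : Set m.X) (1 : m.X → ℝ) x : ℝ) : ℂ) = m.ind V x
    by_cases hx : x ∈ V
    · rw [m.ind_of_mem hx, Set.indicator_of_mem (show x ∈ (V : Set m.X) from hx)]; simp
    · rw [m.ind_of_notMem hx, Set.indicator_of_notMem (show x ∉ (V : Set m.X) from hx)]; simp
  have h2 := m.integral_mu hA η f
  have h3 : ∫ x, f x ∂(m.mu η) = (m.mu η).real (V : Set m.X) := by
    change ∫ x, Set.indicator (V : Set m.X) (1 : m.X → ℝ) x ∂(m.mu η) = _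
    rw [integral_indicator_one (m.measurableSet_clopen V.isClopen)]
  rw [← h3, h2, h1]
  have h4 : m.Φ (m.ind V) = star (m.pr V) * m.pr V := by
    rw [m.star_pr, m.pr_idem]; rfl
  rw [h4]
  change (⟪η, star (m.pr V) (m.pr V η)⟫_ℂ).re = _
  rw [ContinuousLinearMap.star_eq_adjoint, ContinuousLinearMap.adjoint_inner_right,
    inner_self_eq_norm_sq_to_K]
  norm_cast

lemma mu_univ (η : H) : (m.mu η).real Set.univ = ‖η‖ ^ 2 := by
  have := m.mu_real_clopen hA η ⊤
  rw [m.pr_top] at this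
  simpa using this

/-- integral of complex continuous functions -/
lemma integral_mu_complex (η : H) (f : C(m.X, ℂ)) :
    ∫ x, f x ∂(m.mu η) = ⟪η, m.Φ f η⟫_ℂ := by
  let f1 : C(m.X, ℝ) := ⟨fun x => (f x).re, by fun_prop⟩
  let f2 : C(m.X, ℝ) := ⟨fun x => (f x).im, by fun_prop⟩
  have hreal : ∀ k : C(m.X, ℝ), ⟪η, m.Φ (m.ofR k) η⟫_ℂ = ((∫ x, k x ∂(m.mu η) : ℝ) : ℂ) := by
    intro k
    rw [m.integral_mu hA η k]
    apply Complex.ext
    · simp
    · rw [Complex.ofReal_im, ← Complex.conj_eq_iff_im, inner_conj_symm,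
        ← ContinuousLinearMap.adjoint_inner_right, ← ContinuousLinearMap.star_eq_adjoint,
        ← map_star]
      congr 2
      congr 1
      ext x
      simp
  have h1 : f = m.ofR f1 + Complex.I • m.ofR f2 := by
    ext x
    simp only [ContinuousMap.add_apply, ContinuousMap.smul_apply, ofR_apply, smul_eq_mul]
    change f x = ((f x).re : ℂ) + Complex.I * ((f x).im : ℂ)
    rw [mul_comm, Complex.re_add_im]
  have h2 : ⟪η, m.Φ f η⟫_ℂ = ((∫ x, f1 x ∂(m.mu η) : ℝ) : ℂ)
      + Complex.I * ((∫ x, f2 x ∂(m.mu η) : ℝ) : ℂ) := by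
    conv_lhs => rw [h1]
    rw [map_add, map_smul, add_apply, inner_add_right, hreal, ← hreal f2]
    change _ + ⟪η, Complex.I • (m.Φ (m.ofR f2) η)⟫_ℂ = _
    rw [inner_smul_right]
  have e1 : ((∫ x, f1 x ∂(m.mu η) : ℝ) : ℂ) = ∫ x, ((f1 x : ℝ) : ℂ) ∂(m.mu η) :=
    integral_ofReal.symm
  have e2 : ((∫ x, f2 x ∂(m.mu η) : ℝ) : ℂ) = ∫ x, ((f2 x : ℝ) : ℂ) ∂(m.mu η) :=
    integral_ofReal.symm
  rw [h2, e1, e2]
  have i1 : Integrable (fun x => ((f1 x : ℝ) : ℂ)) (m.mu η) :=
    (m.integrable_real hA η f1.continuous).ofReal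
  have i2 : Integrable (fun x => ((f2 x : ℝ) : ℂ)) (m.mu η) :=
    (m.integrable_real hA η f2.continuous).ofReal
  have h3 : ∫ x, f x ∂(m.mu η) = ∫ x, (((f1 x : ℝ) : ℂ) + Complex.I * ((f2 x : ℝ) : ℂ)) ∂(m.mu η) := by
    congr 1
    funext x
    change f x = ((f x).re : ℂ) + Complex.I * ((f x).im : ℂ)
    rw [mul_comm, Complex.re_add_im]
  rw [h3, integral_add i1 (i2.const_mul _), integral_const_mul]

end Mu

section RN

variable (hN : NCE M A η)
include hN

/-- an element of `A` is determined by its pairings -/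
lemma ext_inner {f k : C(m.X, ℂ)}
    (hfk : ∀ q : C(m.X, ℂ), ⟪η, m.Φ (q * f) η⟫_ℂ = ⟪η, m.Φ (q * k) η⟫_ℂ) : f = k := by
  apply m.inj
  apply hN.uniq (m.mem f) (m.mem k)
  intro a ha
  obtain ⟨q, rfl⟩ := (m.mem_iff a).1 ha
  rw [← map_mul, ← map_mul]
  exact hfk q

/-- Radon-Nikodym derivative as a continuous function -/
lemma exists_rnC (g : UN M A η) : ∃ D : C(m.X, ℝ), (∀ x, 0 ≤ D x) ∧
    ∀ x ∈ M, ⟪η, (star g.op * x * g.op) η⟫_ℂ = ⟪η, (m.Φ (m.ofR D) * x) η⟫_ℂ := by
  obtain ⟨C, hC⟩ := g.dom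
  have hg : GN M A g.op := GN.of_unitary g.mem g.star_mul_self (fun _ ha => g.conj ha)
    (fun _ ha => g.conj' ha)
  obtain ⟨D, hDA, hD0, -, hD⟩ := hN.exists_rn hg hC.dom
  obtain ⟨f, rfl⟩ := (m.mem_iff D).1 hDA
  have hf : ∀ x, 0 ≤ f x := m.nonneg_of_Φ hD0
  let D' : C(m.X, ℝ) := ⟨fun x => (f x).re, by fun_prop⟩
  have hDD : m.ofR D' = f := by
    ext x
    change ((f x).re : ℂ) = f x
    have := hf x
    rw [Complex.le_def] at this
    apply Complex.ext
    · simp
    · simpa using this.2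
  refine ⟨D', fun x => ?_, fun x hx => ?_⟩
  · have := hf x
    rw [Complex.le_def] at this
    exact this.1
  · rw [hDD, ← hD x hx, inner_conj_eq]

/-- the Radon-Nikodym cocycle `D g x = dμ(g x)/dμ(x)` -/
noncomputable def rn (g : UN M A η) : C(m.X, ℝ) := (m.exists_rnC hN g⁻¹).choose

lemma rn_nonneg (g : UN M A η) (x : m.X) : 0 ≤ m.rn hN g x := (m.exists_rnC hN g⁻¹).choose_spec.1 x

lemma rn_spec (g : UN M A η) {x : H →L[ℂ] H} (hx : x ∈ M) :
    ⟪η, (g.op * x * star g.op) η⟫_ℂ = ⟪η, (m.Φ (m.ofR (m.rn hN g)) * x) η⟫_ℂ := by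
  have h1 : ⟪η, (star (star g.op) * x * star g.op) η⟫_ℂ
      = ⟪η, (m.Φ (m.ofR (m.rn hN g)) * x) η⟫_ℂ := (m.exists_rnC hN g⁻¹).choose_spec.2 x hx
  rw [star_star] at h1
  exact h1

/-- composition with the action -/
noncomputable def cmp (g : UN M A η) (f : C(m.X, ℂ)) : C(m.X, ℂ) := f.comp ⟨_, m.continuous_smul g⟩

omit hN in
@[simp] lemma cmp_apply (g : UN M A η) (f : C(m.X, ℂ)) (x : m.X) : m.cmp g f x = f (g • x) := rfl

/-- change of variables for continuous functions -/
lemma change_cont (g : UN M A η) (f : C(m.X, ℂ)) :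
    ⟪η, m.Φ f η⟫_ℂ = ⟪η, m.Φ (m.ofR (m.rn hN g) * m.cmp g f) η⟫_ℂ := by
  have h1 := m.rn_spec hN g (x := m.Φ (m.cmp g f)) (hN.masa.le (m.mem _))
  rw [cmp, ← m.Φ_comp g f] at h1
  have h2 : g.op * (star g.op * m.Φ f * g.op) * star g.op = m.Φ f := by
    calc _ = (g.op * star g.op) * m.Φ f * (g.op * star g.op) := by simp only [mul_assoc]
      _ = _ := by rw [g.mul_star_self, one_mul, mul_one]
  rw [h2, m.Φ_comp g f, ← map_mul] at h1
  exact h1

lemma rn_key (g k : UN M A η) (F : C(m.X, ℂ)) :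
    ⟪η, m.Φ (m.ofR (m.rn hN (g * k)) * m.cmp (g * k) F) η⟫_ℂ
      = ⟪η, m.Φ (m.ofR (m.rn hN k) * m.cmp k (m.ofR (m.rn hN g) * m.cmp g F)) η⟫_ℂ := by
  rw [← m.change_cont hN (g * k) F, ← m.change_cont hN k (m.ofR (m.rn hN g) * m.cmp g F),
    ← m.change_cont hN g F]

omit hN in
lemma cmp_inv (g : UN M A η) (q : C(m.X, ℂ)) : m.cmp g (m.cmp g⁻¹ q) = q := by
  ext x
  rw [cmp_apply, cmp_apply, inv_smul_smul]

omit hN in
lemma cmp_mul (g k : UN M A η) (q : C(m.X, ℂ)) : m.cmp (g * k) q = m.cmp k (m.cmp g q) := by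
  ext x
  rw [cmp_apply, cmp_apply, cmp_apply, mul_smul]

omit hN in
lemma cmp_mul_fun (g : UN M A η) (q r : C(m.X, ℂ)) : m.cmp g (q * r) = m.cmp g q * m.cmp g r := by
  ext x
  simp

lemma ofR_rn_mul (g k : UN M A η) :
    m.ofR (m.rn hN (g * k)) = m.cmp k (m.ofR (m.rn hN g)) * m.ofR (m.rn hN k) := by
  apply m.ext_inner hN
  intro q
  have h1 := m.rn_key hN g k (m.cmp (g * k)⁻¹ q)
  rw [m.cmp_inv, m.cmp_mul_fun, ← m.cmp_mul, m.cmp_inv] at h1
  have h2 : m.ofR (m.rn hN k) * (m.cmp k (m.ofR (m.rn hN g)) * q)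
      = q * (m.cmp k (m.ofR (m.rn hN g)) * m.ofR (m.rn hN k)) := by
    ext x
    simp only [ContinuousMap.mul_apply]
    ring
  rw [mul_comm q, h1, h2]

lemma rn_mul (g k : UN M A η) (x : m.X) :
    m.rn hN (g * k) x = m.rn hN g (k • x) * m.rn hN k x := by
  have := congrArg (fun f : C(m.X, ℂ) => f x) (m.ofR_rn_mul hN g k)
  simp only [ContinuousMap.mul_apply, cmp_apply, ofR_apply] at this
  exact_mod_cast this

lemma rn_fix (g : UN M A η) {x : m.X} (hx : g • x = x) : m.rn hN g x = 1 := by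
  have key : m.ofR (m.rn hN g) * m.ind (m.fixC g hN.masa) = m.ind (m.fixC g hN.masa) := by
    apply m.ext_inner hN
    intro q
    have h1 := m.change_cont hN g (q * m.ind (m.fixC g hN.masa))
    have h2 : m.ofR (m.rn hN g) * m.cmp g (q * m.ind (m.fixC g hN.masa))
        = q * (m.ofR (m.rn hN g) * m.ind (m.fixC g hN.masa)) := by
      ext t
      simp only [ContinuousMap.mul_apply, cmp_apply]
      by_cases ht : t ∈ m.fixC g hN.masa
      · rw [(m.mem_fixC g hN.masa).1 ht]
        ring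
      · have ht' : g • t ∉ m.fixC g hN.masa := by
          intro h
          rw [m.mem_fixC g hN.masa] at h
          exact ht ((m.mem_fixC g hN.masa).2 (MulAction.injective g h))
        rw [m.ind_of_notMem ht, m.ind_of_notMem ht']
        ring
    rw [h2] at h1
    exact h1.symm
  have := congrArg (fun f : C(m.X, ℂ) => f x) key
  simp only [ContinuousMap.mul_apply, ofR_apply] at this
  rw [m.ind_of_mem ((m.mem_fixC g hN.masa).2 hx), mul_one] at this
  exact_mod_cast this

lemma rn_pos (g : UN M A η) (x : m.X) : 0 < m.rn hN g x := by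
  refine lt_of_le_of_ne (m.rn_nonneg hN g x) fun h0 => ?_
  have h1 := m.rn_mul hN g⁻¹ g x
  rw [← h0, mul_zero, inv_mul_cancel, m.rn_fix hN 1 (one_smul _ x)] at h1
  exact one_ne_zero h1

/-- change of variables for bounded Baire functions -/
lemma change_meas (g : UN M A η) (f : m.X → ℝ) (hf : Measurable f) :
    ∫ x, f (g • x) * m.rn hN g x ∂(m.mu η) = ∫ x, f x ∂(m.mu η) := by
  have hfin := m.isFiniteMeasure_mu hN.masa η
  have hmg : Measurable fun x : m.X => g • x := m.measurable_self (m.continuous_smul g)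
  have hmD : Measurable fun x : m.X => m.rn hN g x := m.measurable_real hN.masa (m.rn hN g).continuous
  set D' : m.X → NNReal := fun x => Real.toNNReal (m.rn hN g x) with hD'
  have hD'm : Measurable D' := hmD.real_toNNReal
  set ν : Measure m.X := ((m.mu η).withDensity fun x => (D' x : ENNReal)).map (fun x => g • x)
    with hν
  have hνμ : m.mu η = ν := by
    apply Ball.ext_baire hfin
    intro s hs
    have hsm : MeasurableSet s := m.measurableSet_clopen hs
    have hs' : IsClopen ((fun x : m.X => g • x) ⁻¹' s) := hs.preimage (m.continuous_smul g)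
    have hsm' : MeasurableSet ((fun x : m.X => g • x) ⁻¹' s) := m.measurableSet_clopen hs'
    rw [hν, Measure.map_apply hmg hsm, withDensity_apply _ hsm']
    -- both sides as integrals of continuous functions
    let k : C(m.X, ℝ) := ⟨Set.indicator s 1, by
      have := (LocallyConstant.charFn ℝ hs).continuous
      rwa [LocallyConstant.coe_charFn] at this⟩
    let k' : C(m.X, ℝ) := (k.comp ⟨_, m.continuous_smul g⟩) * m.rn hN g
    have hk : ∫ x, k x ∂(m.mu η) = (m.mu η).real s := by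
      change ∫ x, Set.indicator s (1 : m.X → ℝ) x ∂(m.mu η) = _
      rw [integral_indicator_one hsm]
    have hkk : ∫ x, k x ∂(m.mu η) = ∫ x, k' x ∂(m.mu η) := by
      rw [m.integral_mu hN.masa, m.integral_mu hN.masa, m.change_cont hN g (m.ofR k)]
      congr 3
      congr 1
      ext x
      simp only [ContinuousMap.mul_apply, cmp_apply, ofR_apply, k', ContinuousMap.comp_apply,
        ContinuousMap.coe_mk]
      push_cast
      ring
    have hk' : ∫⁻ x in (fun x : m.X => g • x) ⁻¹' s, (D' x : ENNReal) ∂(m.mu η)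
        = ENNReal.ofReal (∫ x, k' x ∂(m.mu η)) := by
      rw [ofReal_integral_eq_lintegral_ofReal (m.integrable_real hN.masa η k'.continuous)]
      · rw [← lintegral_indicator hsm']
        congr 1
        funext x
        by_cases hx : g • x ∈ s
        · have hx' : x ∈ (fun x : m.X => g • x) ⁻¹' s := hx
          rw [Set.indicator_of_mem hx']
          simp only [k', k, ContinuousMap.mul_apply, ContinuousMap.comp_apply,
            ContinuousMap.coe_mk, Set.indicator_of_mem hx, Pi.one_apply, one_mul, hD']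
          rfl
        · have hx' : x ∉ (fun x : m.X => g • x) ⁻¹' s := hx
          rw [Set.indicator_of_notMem hx']
          simp only [k', k, ContinuousMap.mul_apply, ContinuousMap.comp_apply,
            ContinuousMap.coe_mk, Set.indicator_of_notMem hx, zero_mul, ENNReal.ofReal_zero]
      · refine Filter.Eventually.of_forall fun x => ?_
        simp only [k', k, ContinuousMap.mul_apply, ContinuousMap.comp_apply, ContinuousMap.coe_mk,
          Pi.zero_apply]
        refine mul_nonneg ?_ (m.rn_nonneg hN g x)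
        exact Set.indicator_nonneg (fun _ _ => zero_le_one) _
    rw [hk', ← hkk, hk, measureReal_def, ENNReal.ofReal_toReal (measure_ne_top _ _)]
  have h1 : ∫ x, f x ∂(m.mu η) = ∫ x, f x ∂ν := by rw [← hνμ]
  rw [h1, hν, integral_map hmg.aemeasurable hf.aestronglyMeasurable,
    integral_withDensity_eq_integral_smul hD'm]
  refine integral_congr_ae (Filter.Eventually.of_forall fun x => ?_)
  change f (g • x) * m.rn hN g x = D' x • f (g • x)
  rw [NNReal.smul_def, hD', Real.coe_toNNReal _ (m.rn_nonneg hN g x), smul_eq_mul, mul_comm]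

/-- the quasi-invariant structure -/
noncomputable def qi : Book.QI (UN M A η) m.X (m.mu η) where
  D g x := m.rn hN g x
  meas_smul g := m.measurable_self (m.continuous_smul g)
  meas_eq g k := m.measurableSet_clopen (m.isClopen_eq g k hN.masa)
  meas_D g := m.measurable_real hN.masa (m.rn hN g).continuous
  D_pos g x := m.rn_pos hN g x
  D_mul g k x := m.rn_mul hN g k x
  D_fix g _ hx := m.rn_fix hN g hx
  D_bdd g := by
    obtain ⟨C, hC⟩ := (isCompact_range (m.rn hN g).continuous).isBounded.exists_norm_le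
    exact ⟨C, fun x => (le_abs_self _).trans (hC _ ⟨x, rfl⟩)⟩
  change g f hf _ := m.change_meas hN g f hf

@[simp] lemma qi_D (g : UN M A η) (x : m.X) : (m.qi hN).D g x = m.rn hN g x := rfl

end RN

/-- Frolik data for `BookSep` -/
lemma frolikAt (hA : Masa M A) (g : UN M A η) : Book.FrolikAt (X := m.X) IsClopen g := by
  have := m.extremallyDisconnected hA
  obtain ⟨U, hU, hdis, hcov⟩ := Ball.frolik (m.homeo g)
  refine ⟨U, hU, hU.preimage (m.continuous_smul g), hU.preimage (m.continuous_smul g⁻¹), ?_, ?_⟩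
  · intro x hx hgx
    exact Set.disjoint_left.1 hdis hgx ⟨x, hx, rfl⟩
  · intro x hx
    have h1 : x ∈ {x | m.homeo g x ≠ x} := hx
    rw [hcov] at h1
    rcases h1 with (h1 | h1) | h1
    · exact Or.inl h1
    · obtain ⟨y, hy, rfl⟩ := h1
      refine Or.inr (Or.inr ?_)
      rw [homeo_apply, inv_smul_smul]
      exact hy
    · exact Or.inr (Or.inl h1)

end Model

end Crest.Agent.R109
namespace Crest.Agent.R109.Dom
end Crest.Agent.R109.Dom
end

-- ▼ part R109/ClopApprox
section

/-!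
# Row 109: clopen approximation of measurable colourings, continuity of the kernel moments

* `approx`: a measurable map with finitely many values is approximated in measure by a map with
  clopen fibres which stays inside the given clopen cells.
* `kp_pin_close`: the moment `∫ kp S (pin c K) m v v` depends continuously on the colouring `c`.
-/

set_option autoImplicit false
set_option linter.unusedSectionVars false

open MeasureTheory Set
open scoped ENNReal

namespace Crest.Agent.R109.Clop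

section Approx

variable {X : Type*} [TopologicalSpace X] [MeasurableSpace X]

theorem isSetRing_clopen : IsSetRing {s : Set X | IsClopen s} where
  empty_mem := isClopen_empty
  union_mem := fun s t hs ht => IsClopen.union (s := s) (t := t) hs ht
  sdiff_mem := fun s t hs ht => IsClopen.diff (s := s) (t := t) hs ht

/-- approximation of one measurable set -/
theorem approx_set (hgen : ‹MeasurableSpace X› = MeasurableSpace.generateFrom {s | IsClopen s})
    (μ : Measure X) [IsFiniteMeasure μ] {s : Set X} (hs : MeasurableSet s) {ε : ℝ≥0∞}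
    (hε : 0 < ε) : ∃ t : Set X, IsClopen t ∧ μ (symmDiff t s) < ε := by
  obtain ⟨t, ht, h⟩ := exists_measure_symmDiff_lt_of_generateFrom_isSetRing (μ := μ)
    isSetRing_clopen
    ⟨{univ}, countable_singleton _, by
      rw [singleton_subset_iff]; exact isClopen_univ, by simp⟩ hgen hs hε
  exact ⟨t, ht, h⟩

theorem measurableSet_of_isClopen
    (hgen : ‹MeasurableSpace X› = MeasurableSpace.generateFrom {s | IsClopen s}) {s : Set X}
    (hs : IsClopen s) : MeasurableSet s := by
  rw [hgen]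
  exact MeasurableSpace.measurableSet_generateFrom hs

/-- approximation of a finite valued measurable map, inside the given cells -/
theorem approx (hgen : ‹MeasurableSpace X› = MeasurableSpace.generateFrom {s | IsClopen s})
    (μ : Measure X) [IsFiniteMeasure μ] {N m : ℕ} (R : X → Fin N)
    (hR : ∀ j, MeasurableSet {x | R x = j}) (cell : X → Fin m)
    (hcell : ∀ i, IsClopen {x | cell x = i}) (f : Fin N → Fin m) (hf : ∀ x, f (R x) = cell x)
    {ε : ℝ} (hε : 0 < ε) :
    ∃ R' : X → Fin N, (∀ j, IsClopen {x | R' x = j}) ∧ (∀ x, f (R' x) = cell x) ∧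
      μ.real {x | R' x ≠ R x} ≤ ε := by
  classical
  rcases Nat.eq_zero_or_pos N with rfl | hN
  · refine ⟨R, fun j => j.elim0, hf, ?_⟩
    simp only [ne_eq, not_true_eq_false, ofPred_false, measureReal_empty]
    exact hε.le
  have hN' : (0 : ℝ) < N := by exact_mod_cast hN
  have hpos : 0 < ENNReal.ofReal (ε / N) := ENNReal.ofReal_pos.2 (div_pos hε hN')
  choose V hV hVs using fun j => approx_set hgen μ (hR j) hpos
  -- the rule
  let G : Fin m → (Fin N → Prop) → Fin N := fun i P =>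
    if h : ∃ j, P j ∧ f j = i then h.choose
    else if h : ∃ j, f j = i then h.choose else ⟨0, hN⟩
  let R' : X → Fin N := fun x => G (cell x) (fun j => x ∈ V j)
  have hG : ∀ i P, (∃ j, f j = i) → f (G i P) = i := by
    intro i P hi
    by_cases h : ∃ j, P j ∧ f j = i
    · simp only [G, dif_pos h]
      exact h.choose_spec.2
    · simp only [G, dif_neg h, dif_pos hi]
      exact hi.choose_spec
  have hopen : ∀ x, ∃ U : Set X, IsOpen U ∧ x ∈ U ∧ ∀ y ∈ U, R' y = R' x := by
    intro x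
    refine ⟨{y | cell y = cell x} ∩ ⋂ j, {y | y ∈ V j ↔ x ∈ V j}, ?_, ?_, ?_⟩
    · refine (hcell _).isOpen.inter (isOpen_iInter_of_finite fun j => ?_)
      by_cases hx : x ∈ V j
      · have : {y | y ∈ V j ↔ x ∈ V j} = V j := by ext y; simp [hx]
        rw [this]; exact (hV j).isOpen
      · have : {y | y ∈ V j ↔ x ∈ V j} = (V j)ᶜ := by ext y; simp [hx]
        rw [this]; exact (hV j).compl.isOpen
    · simp
    · rintro y ⟨h1, h2⟩
      simp only [mem_iInter, mem_ofPred_eq] at h1 h2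
      have : (fun j => y ∈ V j) = fun j => x ∈ V j := funext fun j => propext (h2 j)
      change G (cell y) (fun j => y ∈ V j) = G (cell x) (fun j => x ∈ V j)
      rw [this, h1]
  have hfib : ∀ j, IsOpen {x | R' x = j} := by
    intro j
    rw [isOpen_iff_forall_mem_open]
    intro x hx
    obtain ⟨U, hU, hxU, hc⟩ := hopen x
    exact ⟨U, fun y hy => (hc y hy).trans hx, hU, hxU⟩
  refine ⟨R', fun j => ⟨?_, hfib j⟩, fun x => ?_, ?_⟩
  · rw [← isOpen_compl_iff]
    have : {x | R' x = j}ᶜ = ⋃ i ∈ {i | i ≠ j}, {x | R' x = i} := by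
      ext x
      simp
    rw [this]
    exact isOpen_biUnion fun i _ => hfib i
  · exact hG _ _ ⟨R x, hf x⟩
  · have hsub : {x | R' x ≠ R x} ⊆ ⋃ j, symmDiff (V j) {x | R x = j} := by
      intro x hx
      by_contra hno
      apply hx
      simp only [mem_iUnion, not_exists] at hno
      have hiff : ∀ j, x ∈ V j ↔ R x = j := by
        intro j
        have := hno j
        rw [mem_symmDiff] at this
        push Not at this
        exact ⟨fun h => this.1 h, fun h => this.2 h⟩
      have hex : ∃ j, (x ∈ V j) ∧ f j = cell x := ⟨R x, (hiff _).2 rfl, hf x⟩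
      have h1 : R' x = hex.choose := by
        change G (cell x) (fun j => x ∈ V j) = _
        simp only [G]
        rw [dif_pos hex]
      rw [h1]
      exact ((hiff _).1 hex.choose_spec.1).symm
    have h1 : μ {x | R' x ≠ R x} ≤ ENNReal.ofReal ε := by
      calc μ {x | R' x ≠ R x} ≤ μ (⋃ j, symmDiff (V j) {x | R x = j}) := measure_mono hsub
        _ ≤ ∑ j, μ (symmDiff (V j) {x | R x = j}) := measure_iUnion_fintype_le _ _
        _ ≤ ∑ _j : Fin N, ENNReal.ofReal (ε / N) := Finset.sum_le_sum fun j _ => (hVs j).le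
        _ = ENNReal.ofReal ε := by
            rw [Finset.sum_const, Finset.card_univ, Fintype.card_fin, nsmul_eq_mul]
            rw [← ENNReal.ofReal_natCast, ← ENNReal.ofReal_mul hN'.le]
            congr 1
            field_simp
    rw [Measure.real]
    exact ENNReal.toReal_le_of_le_ofReal hε.le h1

end Approx

section Continuity

open Book

variable {Gam X : Type*} [Group Gam] [MulAction Gam X] [MeasurableSpace X] {μ : Measure X}

/-- translates of small sets are small -/
theorem exists_translate_bound (Q : QI Gam X μ) [IsFiniteMeasure μ] (g : Gam) :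
    ∃ C : ℝ, 0 ≤ C ∧ ∀ s : Set X, MeasurableSet s → μ.real {x | g • x ∈ s} ≤ C * μ.real s := by
  classical
  obtain ⟨C, hC⟩ := Q.D_bdd g⁻¹
  have hlow : ∀ x, 1 ≤ |C| * Q.D g x := by
    intro x
    have h1 : Q.D g⁻¹ (g • x) * Q.D g x = 1 := by
      rw [← Q.D_mul, inv_mul_cancel, Q.D_one]
    calc (1 : ℝ) = Q.D g⁻¹ (g • x) * Q.D g x := h1.symm
      _ ≤ |C| * Q.D g x := by
        exact mul_le_mul_of_nonneg_right ((hC _).trans (le_abs_self C)) (Q.D_pos _ _).le
  refine ⟨|C|, abs_nonneg _, fun s hs => ?_⟩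
  have hpre : MeasurableSet {x | g • x ∈ s} := Q.meas_smul g hs
  obtain ⟨C', hC'⟩ := Q.D_bdd g
  have hint : Integrable (fun x => s.indicator (fun _ => (1 : ℝ)) (g • x) * Q.D g x) μ := by
    refine Integrable.of_bound (C := |C'|) ?_ ?_
    · exact (((measurable_const.indicator hs).comp (Q.meas_smul g)).mul
        (Q.meas_D g)).aestronglyMeasurable
    · refine Filter.Eventually.of_forall fun x => ?_
      rw [norm_mul]
      have h1 : ‖s.indicator (fun _ => (1 : ℝ)) (g • x)‖ ≤ 1 := by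
        by_cases h : g • x ∈ s <;> simp [h]
      have h2 : ‖Q.D g x‖ ≤ |C'| := by
        rw [Real.norm_eq_abs, abs_of_pos (Q.D_pos _ _)]
        exact (hC' x).trans (le_abs_self _)
      calc _ ≤ 1 * |C'| := mul_le_mul h1 h2 (norm_nonneg _) zero_le_one
        _ = _ := one_mul _
  have h2 := Q.change g (s.indicator fun _ => (1 : ℝ)) (measurable_const.indicator hs)
    ⟨1, fun x => by by_cases h : x ∈ s <;> simp [h]⟩
  have h3 : ∫ x, s.indicator (fun _ => (1 : ℝ)) x ∂μ = μ.real s := by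
    rw [integral_indicator hs]; simp
  have h4 : ∫ x, {x | g • x ∈ s}.indicator (fun _ => (1 : ℝ)) x ∂μ = μ.real {x | g • x ∈ s} := by
    rw [integral_indicator hpre]; simp
  rw [← h4, ← h3, ← h2, ← integral_const_mul]
  refine integral_mono ?_ (hint.const_mul _) ?_
  · exact (integrable_const (1 : ℝ)).indicator hpre
  · intro x
    by_cases h : g • x ∈ s
    · have h5 : ({x | g • x ∈ s} : Set X).indicator (fun _ => (1 : ℝ)) x = 1 :=
        indicator_of_mem (show x ∈ {x | g • x ∈ s} from h) _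
      simp only [h5, indicator_of_mem h, one_mul]
      exact hlow x
    · have h5 : ({x | g • x ∈ s} : Set X).indicator (fun _ => (1 : ℝ)) x = 0 :=
        indicator_of_notMem (show x ∉ {x | g • x ∈ s} from h) _
      simp only [h5, indicator_of_notMem h, zero_mul, mul_zero]
      exact le_refl _

/-- products of at most `m` elements of `S` -/
def Near' (S : Finset Gam) (P : X → Prop) : ℕ → X → Prop
  | 0, y => P y
  | (j + 1), y => P y ∧ ∀ w ∈ ball S y, Near' S P j w

theorem Near'.self {S : Finset Gam} {P : X → Prop} {j : ℕ} {y : X} (h : Near' S P j y) : P y := by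
  cases j with
  | zero => exact h
  | succ j => exact h.1

/-- equal colours nearby give equal kernel powers -/
theorem kp_pin_congr (S : Finset Gam) (K : X → X → X → ℂ) {r : ℕ} (c c' : X → Fin r) (j : ℕ) (v : X) :
    ∀ y z, Near' S (fun w => c w = c' w) j y →
      kp S (pin c K v) j y z = kp S (pin c' K v) j y z := by
  induction j with
  | zero => intro y z _; rfl
  | succ j ih =>
    intro y z hy
    simp only [kp]
    refine Finset.sum_congr rfl fun w hw => ?_
    rw [ih w z (hy.2 w hw)]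
    have h1 : pin c K v y w = pin c' K v y w := by
      unfold pin
      rw [show c y = c' y from hy.1, show c w = c' w from (hy.2 w hw).self]
    rw [h1]

theorem norm_kp_le (S : Finset Gam) (K : X → X → ℂ) (hK : ∀ y w, ‖K y w‖ ≤ 1) (j : ℕ) :
    ∀ y z, ‖kp S K j y z‖ ≤ (S.card : ℝ) ^ j := by
  classical
  induction j with
  | zero =>
    intro y z
    simp only [kp, pow_zero]
    split_ifs <;> simp
  | succ j ih =>
    intro y z
    simp only [kp]
    calc ‖∑ w ∈ ball S y, K y w * kp S K j w z‖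
        ≤ ∑ w ∈ ball S y, ‖K y w * kp S K j w z‖ := norm_sum_le _ _
      _ ≤ ∑ _w ∈ ball S y, (S.card : ℝ) ^ j := by
          refine Finset.sum_le_sum fun w _ => ?_
          rw [norm_mul]
          calc _ ≤ 1 * (S.card : ℝ) ^ j := mul_le_mul (hK _ _) (ih _ _) (norm_nonneg _) zero_le_one
            _ = _ := one_mul _
      _ = ((ball S y).card : ℝ) * (S.card : ℝ) ^ j := by rw [Finset.sum_const, nsmul_eq_mul]
      _ ≤ (S.card : ℝ) * (S.card : ℝ) ^ j := by
          gcongr
          exact card_ball_le S y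
      _ = (S.card : ℝ) ^ (j + 1) := by ring

/-- the set of roots near which a small set is met is small -/
theorem exists_near_bound (Q : QI Gam X μ) [IsFiniteMeasure μ] (S : Finset Gam) (m : ℕ) :
    ∃ C : ℝ, 0 ≤ C ∧ ∀ P : X → Prop, MeasurableSet {x | P x} →
      MeasurableSet {x | Near' S P m x} ∧ μ.real {x | ¬ Near' S P m x} ≤ C * μ.real {x | ¬ P x} := by
  classical
  induction m with
  | zero =>
    refine ⟨1, zero_le_one, fun P hP => ⟨hP, ?_⟩⟩
    rw [one_mul]
    exact le_refl _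
  | succ m ih =>
    obtain ⟨C, hC0, hC⟩ := ih
    choose D hD0 hD using fun g => exists_translate_bound Q (μ := μ) g
    refine ⟨1 + ∑ g ∈ S, D g * C, ?_, fun P hP => ?_⟩
    · have : 0 ≤ ∑ g ∈ S, D g * C := Finset.sum_nonneg fun g _ => mul_nonneg (hD0 g) hC0
      linarith
    obtain ⟨hm, hb⟩ := hC P hP
    have heq : {x | Near' S P (m + 1) x} = {x | P x} ∩ ⋂ g ∈ S, {x | Near' S P m (g • x)} := by
      ext x
      simp only [mem_ofPred_eq, mem_inter_iff, mem_iInter, Near', mem_ball]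
      constructor
      · rintro ⟨h1, h2⟩
        exact ⟨h1, fun g hg => h2 _ ⟨g, hg, rfl⟩⟩
      · rintro ⟨h1, h2⟩
        refine ⟨h1, ?_⟩
        rintro w ⟨g, hg, rfl⟩
        exact h2 g hg
    have hmeas : ∀ g : Gam, MeasurableSet {x | Near' S P m (g • x)} := fun g => Q.meas_smul g hm
    refine ⟨?_, ?_⟩
    · rw [heq]
      exact hP.inter (Finset.measurableSet_biInter _ fun g _ => hmeas g)
    · have hsub : {x | ¬ Near' S P (m + 1) x} ⊆
          {x | ¬ P x} ∪ ⋃ g ∈ S, {x | g • x ∈ {y | ¬ Near' S P m y}} := by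
        intro x hx
        by_cases h1 : P x
        · right
          simp only [mem_iUnion, mem_ofPred_eq]
          by_contra hno
          push Not at hno
          apply hx
          have : x ∈ {x | Near' S P (m + 1) x} := by
            rw [heq]
            exact ⟨h1, by simpa using hno⟩
          exact this
        · left; exact h1
      calc μ.real {x | ¬ Near' S P (m + 1) x}
          ≤ μ.real ({x | ¬ P x} ∪ ⋃ g ∈ S, {x | g • x ∈ {y | ¬ Near' S P m y}}) :=
            measureReal_mono hsub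
        _ ≤ μ.real {x | ¬ P x} + μ.real (⋃ g ∈ S, {x | g • x ∈ {y | ¬ Near' S P m y}}) :=
            measureReal_union_le _ _
        _ ≤ μ.real {x | ¬ P x} + ∑ g ∈ S, μ.real {x | g • x ∈ {y | ¬ Near' S P m y}} := by
            gcongr
            exact measureReal_biUnion_finset_le _ _
        _ ≤ μ.real {x | ¬ P x} + ∑ g ∈ S, D g * (C * μ.real {x | ¬ P x}) := by
            gcongr with g hg
            refine (hD g _ hm.compl).trans ?_
            exact mul_le_mul_of_nonneg_left hb (hD0 g)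
        _ = (1 + ∑ g ∈ S, D g * C) * μ.real {x | ¬ P x} := by
            rw [add_mul, one_mul, Finset.sum_mul]
            simp only [mul_assoc]

/-- continuity of the kernel moments in the colouring -/
theorem kp_pin_close (Q : QI Gam X μ) [IsFiniteMeasure μ] (S : Finset Gam)
    (K : X → X → X → ℂ) (hK : ∀ v y w, ‖K v y w‖ ≤ 1) (cw : CW Gam K) (r m : ℕ) {κ : ℝ}
    (hκ : 0 < κ) :
    ∃ δ : ℝ, 0 < δ ∧ ∀ c c' : X → Fin r, Measurable c → Measurable c' →
      μ.real {x | c x ≠ c' x} ≤ δ →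
      |∫ v, (kp S (pin c K v) m v v).re ∂μ - ∫ v, (kp S (pin c' K v) m v v).re ∂μ| ≤ κ := by
  classical
  obtain ⟨C, hC0, hC⟩ := exists_near_bound Q (μ := μ) S m
  set B : ℝ := 2 * (S.card : ℝ) ^ m with hB
  have hB0 : 0 ≤ B := by positivity
  refine ⟨κ / (B * C + 1), by positivity, fun c c' hc hc' hd => ?_⟩
  have hPm : MeasurableSet {x | c x = c' x} := measurableSet_eq_fun hc hc'
  obtain ⟨hm, hb⟩ := hC (fun x => c x = c' x) hPm
  have hbound : ∀ (d : X → Fin r) (v : X), |(kp S (pin d K v) m v v).re| ≤ (S.card : ℝ) ^ m := by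
    intro d v
    refine (Complex.abs_re_le_norm _).trans (norm_kp_le S _ ?_ m v v)
    exact pin_norm d K hK v
  have hint : ∀ d : X → Fin r, Measurable d →
      Integrable (fun v => (kp S (pin d K v) m v v).re) μ := by
    intro d hd
    refine Integrable.of_bound (C := (S.card : ℝ) ^ m) ?_ ?_
    · exact (Complex.measurable_re.comp
        (measurable_kp Q.meas_eq S _ (CW_pin Q d hd K cw) m)).aestronglyMeasurable
    · exact Filter.Eventually.of_forall fun v => by
        rw [Real.norm_eq_abs]; exact hbound d v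
  rw [← integral_sub (hint c hc) (hint c' hc')]
  have hpt : ∀ v, |(kp S (pin c K v) m v v).re - (kp S (pin c' K v) m v v).re|
      ≤ {x | ¬ Near' S (fun x => c x = c' x) m x}.indicator (fun _ => B) v := by
    intro v
    by_cases h : Near' S (fun x => c x = c' x) m v
    · rw [kp_pin_congr S K c c' m v v v h, sub_self, abs_zero]
      exact indicator_nonneg (fun _ _ => hB0) _
    · rw [indicator_of_mem (show v ∈ {x | ¬ Near' S (fun x => c x = c' x) m x} from h)]
      calc _ ≤ |(kp S (pin c K v) m v v).re| + |(kp S (pin c' K v) m v v).re| := abs_sub _ _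
        _ ≤ (S.card : ℝ) ^ m + (S.card : ℝ) ^ m := add_le_add (hbound c v) (hbound c' v)
        _ = B := by rw [hB]; ring
  calc |∫ v, ((kp S (pin c K v) m v v).re - (kp S (pin c' K v) m v v).re) ∂μ|
      ≤ ∫ v, |(kp S (pin c K v) m v v).re - (kp S (pin c' K v) m v v).re| ∂μ :=
        abs_integral_le_integral_abs
    _ ≤ ∫ v, {x | ¬ Near' S (fun x => c x = c' x) m x}.indicator (fun _ => B) v ∂μ := by
        refine integral_mono ((hint c hc).sub (hint c' hc')).abs ?_ hpt
        exact (integrable_const B).indicator hm.compl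
    _ = B * μ.real {x | ¬ Near' S (fun x => c x = c' x) m x} := by
        have hm' : MeasurableSet {x | ¬ Near' S (fun x => c x = c' x) m x} := hm.compl
        rw [integral_indicator hm']
        simp [mul_comm]
    _ ≤ B * (C * μ.real {x | ¬ (c x = c' x)}) := mul_le_mul_of_nonneg_left hb hB0
    _ ≤ B * (C * (κ / (B * C + 1))) := by
        have : μ.real {x | ¬ (c x = c' x)} ≤ κ / (B * C + 1) := hd
        gcongr
    _ = (B * C) / (B * C + 1) * κ := by ring
    _ ≤ 1 * κ := by
        refine mul_le_mul_of_nonneg_right ?_ hκ.le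
        rw [div_le_one (by positivity)]
        linarith
    _ = κ := one_mul κ

end Continuity

end Crest.Agent.R109.Clop
private theorem rz_9c998958a9 : type_of% @_root_.Crest.Agent.R109.Clop.Near'.eq_def := @_root_.Crest.Agent.R109.Clop.Near'.eq_def -- L190
private theorem rz_564fcc53ce : type_of% @_root_.Crest.Agent.R109.Clop.Near'.eq_1 := @_root_.Crest.Agent.R109.Clop.Near'.eq_1 -- L190
end

-- ▼ part R109/ClopMom
section

/-!
# Row 109: clopen colourings of the spectrum, moment identity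

For a colouring `c` of `m.X` with clopen fibres the operator `∑ i, p i * y * p i` has kernel
`pin c (K y)` and its moments at `η` are integrals of kernel powers.
-/

set_option autoImplicit false
set_option linter.unusedSectionVars false

namespace Crest.Agent.R109

open scoped InnerProductSpace ComplexConjugate
open ContinuousLinearMap MeasureTheory TopologicalSpace Set

universe u

variable {H : Type u} [NormedAddCommGroup H] [InnerProductSpace ℂ H] [CompleteSpace H]
variable {M : VonNeumannAlgebra H} {A : StarSubalgebra ℂ (H →L[ℂ] H)} {η : H}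

namespace Model

variable (m : Model A)

section Fib

variable {N : ℕ} (R : m.X → Fin N) (hR : ∀ j, IsClopen {x | R x = j})

/-- the projections of a map with clopen fibres -/
noncomputable def fib (j : Fin N) : H →L[ℂ] H := m.pr ⟨{x | R x = j}, hR j⟩

lemma fib_mem (j : Fin N) : m.fib R hR j ∈ A := m.pr_mem _

lemma fib_ind_apply (j : Fin N) (x : m.X) :
    m.ind ⟨{x | R x = j}, hR j⟩ x = if R x = j then 1 else 0 := by
  split_ifs with h
  · exact m.ind_of_mem h
  · exact m.ind_of_notMem h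

lemma inv_fib (j : Fin N) (x : m.X) : m.inv (m.fib R hR j) x = if R x = j then 1 else 0 := by
  rw [fib, pr, m.inv_Φ, fib_ind_apply]

/-- functions of a partition -/
lemma sum_fib (P : Fin N → Prop) [DecidablePred P] (V : Clopens m.X)
    (hV : ∀ x, x ∈ V ↔ P (R x)) :
    ∑ j, (if P j then m.fib R hR j else 0) = m.pr V := by
  classical
  have h1 : ∀ j, (if P j then m.fib R hR j else 0)
      = m.Φ (if P j then m.ind ⟨{x | R x = j}, hR j⟩ else 0) := by
    intro j
    split_ifs
    · rfl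
    · rw [map_zero]
  rw [Finset.sum_congr rfl fun j _ => h1 j, ← map_sum, pr]
  congr 1
  ext x
  rw [ContinuousMap.sum_apply]
  have h2 : ∀ j, (if P j then m.ind ⟨{x | R x = j}, hR j⟩ else 0 : C(m.X, ℂ)) x
      = if R x = j then (if P j then 1 else 0) else 0 := by
    intro j
    split_ifs with h1 h2 h3
    · rw [m.fib_ind_apply, if_pos h2]
    · rw [m.fib_ind_apply, if_neg h2]
    · rfl
    · rfl
  rw [Finset.sum_congr rfl fun j _ => h2 j, Finset.sum_ite_eq Finset.univ (R x)]
  simp only [Finset.mem_univ, if_true]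
  rw [m.ind_apply]
  simp only [hV]

lemma fib_part : Part A 1 (m.fib R hR) where
  mem := m.fib_mem R hR
  proj := fun j => m.pr_proj _
  orth := by
    intro i j hij
    apply m.pr_mul_of_disjoint
    rw [disjoint_iff]
    ext x
    constructor
    · rintro ⟨h1, h2⟩
      exact hij ((show R x = i from h1).symm.trans h2)
    · intro h
      exact absurd h (fun hh => hh)
  sum := by
    classical
    have := m.sum_fib R hR (fun _ => True) ⊤ (fun x => ⟨fun _ => trivial, fun _ => trivial⟩)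
    simp only [if_true] at this
    rw [this, m.pr_top]

/-- the finite partition given by a map with clopen fibres -/
noncomputable def fibFP : FP A := ⟨N, m.fib R hR, m.fib_part R hR⟩

/-- colour projections of `c ∘ R` -/
lemma pcol_fibFP {r : ℕ} (c : Fin N → Fin r) (hc : ∀ i, IsClopen {x | c (R x) = i}) :
    pcol (m.fibFP R hR) (c : Fin (m.fibFP R hR).n → Fin r) = m.fib (fun x => c (R x)) hc := by
  classical
  funext i
  exact m.sum_fib R hR (fun j => c j = i) ⟨{x | c (R x) = i}, hc i⟩ (fun x => Iff.rfl)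

end Fib

/-- every finite partition of the masa is given by a map with clopen fibres -/
lemma exists_cell (P : FP A) : ∃ (cell : m.X → Fin P.n) (hc : ∀ i, IsClopen {x | cell x = i}),
    ∀ i, m.fib cell hc i = P.e i := by
  classical
  choose V hV using fun i => m.exists_pr (P.part.mem i) (P.part.proj i)
  have hsum : ∑ i, m.ind (V i) = 1 := by
    apply m.inj
    rw [map_sum, map_one, ← P.part.sum]
    exact Finset.sum_congr rfl fun i _ => hV i
  have hex : ∀ x, ∃ i, x ∈ V i := by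
    intro x
    by_contra hno
    push Not at hno
    have h1 := congrArg (fun f : C(m.X, ℂ) => f x) hsum
    simp only [ContinuousMap.sum_apply, ContinuousMap.one_apply] at h1
    rw [Finset.sum_eq_zero fun i _ => m.ind_of_notMem (hno i)] at h1
    exact zero_ne_one h1
  have hdisj : ∀ i j, i ≠ j → ∀ x, x ∈ V i → x ∉ V j := by
    intro i j hij x hi hj
    have h1 : m.pr (V i ⊓ V j) = 0 := by rw [m.pr_inf, hV, hV, P.part.orth i j hij]
    rw [← m.pr_bot] at h1
    have h2 := m.pr_injective h1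
    have h3 : x ∈ V i ⊓ V j := ⟨hi, hj⟩
    rw [h2] at h3
    exact h3
  choose cell hcell using hex
  have hset : ∀ i, {x | cell x = i} = (V i : Set m.X) := by
    intro i
    ext x
    constructor
    · rintro rfl; exact hcell x
    · intro hx
      by_contra hne
      exact hdisj (cell x) i hne x (hcell x) hx
  refine ⟨cell, fun i => by rw [hset]; exact (V i).isClopen, fun i => ?_⟩
  rw [fib, ← hV i]
  congr 1
  ext x
  change x ∈ {x | cell x = i} ↔ x ∈ (V i : Set m.X)
  rw [hset]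

/-- `P ≤ Q` from a map of cells -/
lemma le_fibFP (P : FP A) (cell : m.X → Fin P.n) (hc : ∀ i, IsClopen {x | cell x = i})
    (hP : ∀ i, m.fib cell hc i = P.e i) {N : ℕ} (R : m.X → Fin N)
    (hR : ∀ j, IsClopen {x | R x = j}) (f : Fin N → Fin P.n) (hf : ∀ x, f (R x) = cell x) :
    P ≤ m.fibFP R hR := by
  classical
  refine FP.le_def.2 ⟨f, fun i => ?_⟩
  rw [← hP i]
  symm
  exact m.sum_fib R hR (fun j => f j = i) ⟨{x | cell x = i}, hc i⟩ (fun x => by
    change cell x = i ↔ _
    rw [hf])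

section Mom

variable (h : NCE M A η)
include h

open Book

/-- left multiplication by a banded self-adjoint operator -/
lemma K_mul_left {y : H →L[ℂ] H} (hsa : IsSelfAdjoint y)
    (S : Finset (UN M A η)) (a : UN M A η → H →L[ℂ] H) (ha : ∀ g ∈ S, a g ∈ A)
    (hya : y = ∑ g ∈ S, a g * g.op) {T : H →L[ℂ] H} (hT : T ∈ M) (v w : m.X) :
    m.K M η (y * T) v w = ∑ x ∈ ball S v, m.K M η y v x * m.K M η T x w := by
  classical
  have hy : y ∈ M := by
    rw [hya]
    exact sum_mem fun g hg => mul_mem (h.masa.memM (ha g hg)) g.mem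
  have h1 : y * T = star (star T * y) := by rw [star_mul, star_star, hsa.star_eq]
  have h2 := m.K_mul h S a (fun g => g) ha (star_mem hT) w v (ball S v)
    (fun g hg => by unfold ball; exact Finset.mem_image_of_mem (fun k : UN M A η => k • v) hg)
  rw [← hya] at h2
  rw [h1, m.K_star h (mul_mem (star_mem hT) hy), h2, map_sum]
  refine Finset.sum_congr rfl fun x _ => ?_
  have h3 : m.K M η y x v = conj (m.K M η y v x) := by
    have := m.K_star h hy x v
    rwa [hsa.star_eq] at this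
  rw [m.K_star h hT, map_mul, Complex.conj_conj, h3, Complex.conj_conj, mul_comm]

/-- the kernel of the pinched operator times `T` -/
lemma K_pav_mul {y : H →L[ℂ] H} (hsa : IsSelfAdjoint y)
    (S : Finset (UN M A η)) (a : UN M A η → H →L[ℂ] H) (ha : ∀ g ∈ S, a g ∈ A)
    (hya : y = ∑ g ∈ S, a g * g.op) {r : ℕ} (c : m.X → Fin r)
    (hc : ∀ i, IsClopen {x | c x = i}) {T : H →L[ℂ] H} (hT : T ∈ M) (v w : m.X) :
    m.K M η (pav (m.fib c hc) y * T) v w
      = ∑ x ∈ ball S v, pin c (fun _ => m.K M η y) v v x * m.K M η T x w := by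
  classical
  have hy : y ∈ M := by
    rw [hya]
    exact sum_mem fun g hg => mul_mem (h.masa.memM (ha g hg)) g.mem
  have hpM : ∀ i, m.fib c hc i ∈ M := fun i => h.masa.memM (m.fib_mem c hc i)
  have h0 : pav (m.fib c hc) y * T
      = ∑ i, m.fib c hc i * (y * (m.fib c hc i * T)) := by
    rw [pav, Finset.sum_mul]
    exact Finset.sum_congr rfl fun i _ => by simp only [mul_assoc]
  rw [h0, m.K_sum h _ _ fun i _ => mul_mem (hpM i) (mul_mem hy (mul_mem (hpM i) hT))]
  have h1 : ∀ i, m.K M η (m.fib c hc i * (y * (m.fib c hc i * T))) v w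
      = ∑ x ∈ ball S v, (if c v = i then 1 else 0) * (if c x = i then 1 else 0)
          * (m.K M η y v x * m.K M η T x w) := by
    intro i
    rw [m.K_left h (m.fib_mem c hc i) (mul_mem hy (mul_mem (hpM i) hT)), m.inv_fib,
      m.K_mul_left h hsa S a ha hya (mul_mem (hpM i) hT), Finset.mul_sum]
    refine Finset.sum_congr rfl fun x _ => ?_
    rw [m.K_left h (m.fib_mem c hc i) hT, m.inv_fib]
    ring
  rw [Finset.sum_congr rfl fun i _ => h1 i, Finset.sum_comm]
  refine Finset.sum_congr rfl fun x _ => ?_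
  rw [← Finset.sum_mul]
  have h2 : ∑ i, ((if c v = i then 1 else 0) * (if c x = i then 1 else 0) : ℂ)
      = if c v = c x then 1 else 0 := by
    rw [Finset.sum_eq_single (c v)]
    · simp only [if_true, one_mul, eq_comm]
    · intro i _ hi
      rw [if_neg (Ne.symm hi), zero_mul]
    · intro hi
      exact absurd (Finset.mem_univ _) hi
  rw [h2, pin]
  split_ifs
  · rw [one_mul]
  · rw [zero_mul, zero_mul]

lemma pav_mem {y : H →L[ℂ] H} (hy : y ∈ M) {r : ℕ} (c : m.X → Fin r)
    (hc : ∀ i, IsClopen {x | c x = i}) : pav (m.fib c hc) y ∈ M :=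
  sum_mem fun i _ => mul_mem (mul_mem (h.masa.memM (m.fib_mem c hc i)) hy)
    (h.masa.memM (m.fib_mem c hc i))

/-- powers of the pinched operator -/
lemma K_pav_pow {y : H →L[ℂ] H} (hsa : IsSelfAdjoint y)
    (S : Finset (UN M A η)) (a : UN M A η → H →L[ℂ] H) (ha : ∀ g ∈ S, a g ∈ A)
    (hya : y = ∑ g ∈ S, a g * g.op) {r : ℕ} (c : m.X → Fin r)
    (hc : ∀ i, IsClopen {x | c x = i}) (j : ℕ) (u : m.X) : ∀ v w : m.X,
    m.K M η (pav (m.fib c hc) y ^ j) v w = kp S (pin c (fun _ => m.K M η y) u) j v w := by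
  classical
  have hy : y ∈ M := by
    rw [hya]
    exact sum_mem fun g hg => mul_mem (h.masa.memM (ha g hg)) g.mem
  induction j with
  | zero =>
    intro v w
    rw [pow_zero, m.K_one h]
    simp only [kp]
  | succ j ih =>
    intro v w
    rw [pow_succ', m.K_pav_mul h hsa S a ha hya c hc (pow_mem (m.pav_mem h hy c hc) j)]
    simp only [kp]
    refine Finset.sum_congr rfl fun x _ => ?_
    rw [ih x w]
    rfl

/-- **the moment identity** -/
theorem mom_eq [MeasurableSpace m.X] (μ : Measure m.X)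
    (hint : ∀ f : C(m.X, ℂ), ∫ x, (f x).re ∂μ = (⟪η, m.Φ f η⟫_ℂ).re)
    {y : H →L[ℂ] H} (hsa : IsSelfAdjoint y)
    (S : Finset (UN M A η)) (a : UN M A η → H →L[ℂ] H) (ha : ∀ g ∈ S, a g ∈ A)
    (hya : y = ∑ g ∈ S, a g * g.op) {r : ℕ} (c : m.X → Fin r)
    (hc : ∀ i, IsClopen {x | c x = i}) (j : ℕ) :
    (⟪η, (pav (m.fib c hc) y ^ j) η⟫_ℂ).re
      = ∫ v, (kp S (pin c (fun _ => m.K M η y) v) j v v).re ∂μ := by
  have hy : y ∈ M := by
    rw [hya]
    exact sum_mem fun g hg => mul_mem (h.masa.memM (ha g hg)) g.mem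
  have hT : pav (m.fib c hc) y ^ j ∈ M := pow_mem (m.pav_mem h hy c hc) j
  rw [← h.inner_CE' hT, ← m.Φ_cE h hT, ← hint]
  congr 1
  funext v
  rw [← m.K_diag h hT, m.K_pav_pow h hsa S a ha hya c hc j v]

end Mom

end Model

end Crest.Agent.R109
end

-- ▼ part R109/ClopList
section

/-!
# Row 109: from the measured list theorem to clopen cells and operators

`list_clopen` turns the output of `MeasListProp` (measurable cells, integrals of kernel powers) into
the conclusion of `CartanProp` (finite partitions of the masa, moments of the pinched operator).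
-/

set_option autoImplicit false
set_option linter.unusedSectionVars false

namespace Crest.Agent.R109

open scoped InnerProductSpace ComplexConjugate
open ContinuousLinearMap MeasureTheory TopologicalSpace Set

universe u

variable {H : Type u} [NormedAddCommGroup H] [InnerProductSpace ℂ H] [CompleteSpace H]
variable {M : VonNeumannAlgebra H} {A : StarSubalgebra ℂ (H →L[ℂ] H)} {η : H}

open Book

/-- **clopen cells and the moment identity**.  `m.X` carries the σ-algebra generated by the clopen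
sets, `μ` represents the vector state of `η` on the masa, `Q` is the quasi-invariant action of the
unitary normalisers; `y = ∑ g ∈ S, a g * g.op` is a self-adjoint contraction.  If for the cells of
every partition the measured list theorem holds with bound `B`, then there are clopen cells refining
`P₁` with admissible lists and moments at most `B + κ`. -/
theorem list_clopen (h : NCE M A η) (m : Model A) [MeasurableSpace m.X]
    (hgen : ‹MeasurableSpace m.X› = MeasurableSpace.generateFrom {s : Set m.X | IsClopen s})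
    (μ : Measure m.X) [IsFiniteMeasure μ] (Q : QI (UN M A η) m.X μ)
    (hint : ∀ f : C(m.X, ℂ), ∫ x, (f x).re ∂μ = (⟪η, m.Φ f η⟫_ℂ).re)
    {y : H →L[ℂ] H} (hsa : IsSelfAdjoint y) (hn : ‖y‖ ≤ 1)
    (S : Finset (UN M A η)) (a : UN M A η → H →L[ℂ] H) (ha : ∀ g ∈ S, a g ∈ A)
    (hya : y = ∑ g ∈ S, a g * g.op)
    (cw : CW (UN M A η) (fun _ : m.X => m.K M η y))
    (r k : ℕ) (B κ : ℝ) (hκ : 0 < κ) (P₁ : FP A)
    (hlist : ∀ (N₁ : ℕ) (cell₁ : m.X → Fin N₁), Measurable cell₁ →
      ∃ (N : ℕ) (cell : m.X → Fin N) (f : Fin N → Fin N₁), Measurable cell ∧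
        (∀ x, f (cell x) = cell₁ x) ∧
        ∃ L : Lists N r, ∀ c : Fin N → Fin r, (∀ j, c j ∈ L.Adm j c) →
          ∫ x, (kp S (pin (fun x => c (cell x)) (fun _ => m.K M η y) x) k x x).re ∂μ ≤ B) :
    ∃ P : FP A, P₁ ≤ P ∧ ∃ L : Lists P.n r, ∀ c : Fin P.n → Fin r, (∀ j, c j ∈ L.Adm j c) →
      (⟪η, (pav (pcol P c) y ^ k) η⟫_ℂ).re ≤ B + κ := by
  classical
  have hy : y ∈ M := by
    rw [hya]
    exact sum_mem fun g hg => mul_mem (h.masa.memM (ha g hg)) g.mem
  -- the cells of `P₁`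
  obtain ⟨cell₁, hc₁, hP₁⟩ := m.exists_cell P₁
  have hmc₁ : Measurable cell₁ :=
    measurable_to_countable' fun i => Clop.measurableSet_of_isClopen hgen (hc₁ i)
  obtain ⟨N, cell, f, hcell, hf, L, hL⟩ := hlist P₁.n cell₁ hmc₁
  -- continuity
  obtain ⟨δ, hδ, hclose⟩ := Clop.kp_pin_close Q S (fun _ => m.K M η y)
    (fun _ v w => (m.norm_K_le h hy v w).trans hn) cw r k hκ
  -- clopen cells
  obtain ⟨R, hR, hfR, hRδ⟩ := Clop.approx hgen μ cell
    (fun j => hcell (measurableSet_singleton j)) cell₁ hc₁ f hf hδ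
  have hmR : Measurable R :=
    measurable_to_countable' fun i => Clop.measurableSet_of_isClopen hgen (hR i)
  refine ⟨m.fibFP R hR, m.le_fibFP P₁ cell₁ hc₁ hP₁ R hR f hfR, L, ?_⟩
  intro c hc
  change Fin N → Fin r at c
  have hclop : ∀ i, IsClopen {x | c (R x) = i} := by
    intro i
    have : {x | c (R x) = i} = ⋃ j ∈ Finset.univ.filter (fun j => c j = i), {x | R x = j} := by
      ext x
      simp
    rw [this]
    exact (Finset.univ.filter (fun j => c j = i)).finite_toSet.isClopen_biUnion fun j _ => hR j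
  have h1 : (⟪η, (pav (pcol (m.fibFP R hR) c) y ^ k) η⟫_ℂ).re
      = ∫ v, (kp S (pin (fun x => c (R x)) (fun _ => m.K M η y) v) k v v).re ∂μ := by
    rw [m.pcol_fibFP R hR c hclop]
    exact m.mom_eq h μ hint hsa S a ha hya _ hclop k
  have h2 := hclose (fun x => c (R x)) (fun x => c (cell x))
    ((measurable_from_top (f := c)).comp hmR) ((measurable_from_top (f := c)).comp hcell) (by
      refine (measureReal_mono ?_).trans hRδ
      intro x hx hRx
      apply hx
      rw [hRx])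
  have h3 := hL c hc
  have h4 := (abs_le.1 h2).2
  rw [h1]
  linarith

end Crest.Agent.R109
end

-- ▼ part R109/CartanOf

/-!
# Row 109: the Cartan colouring theorem from the measured list theorem
-/

set_option autoImplicit false
set_option linter.unusedSectionVars false

namespace Crest.Agent.R109

open scoped InnerProductSpace ComplexOrder
open ContinuousLinearMap Set TopologicalSpace MeasureTheory Crest.Agent.R109.Book

universe u

/-- the Cartan colouring theorem -/
theorem cartan_of (hML : MeasListProp.{u}) :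
    CartanProp.{u} (fun _H _ _ _ M A η y => y ∈ N0 M A η) := by
  intro H _ _ _ M A η _hamp hN hη y hyM hyN hsa hn hE r hr n hn1 κ hκ P1
  classical
  obtain ⟨m⟩ := hN.masa.exists_model
  have hfin : IsFiniteMeasure (m.mu η) := m.isFiniteMeasure_mu hN.masa η
  have hprob : IsProbabilityMeasure (m.mu η) := by
    refine ⟨?_⟩
    have h1 := m.mu_univ hN.masa η
    rw [hη, one_pow, measureReal_def] at h1
    rw [← ENNReal.ofReal_toReal (measure_ne_top (m.mu η) Set.univ), h1, ENNReal.ofReal_one]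
  obtain ⟨S, a, ha, hy, hK⟩ := exists_ksys m hN
    (fun f => m.measurable_complex hN.masa f.continuous) (m.qi hN) hyN hsa hn hE
  have hfro : ∀ g : UN M A η, FrolikAt (fun s : Set m.X => MeasurableSet s) g := by
    intro g
    obtain ⟨E, h1, h2, h3, h4, h5⟩ := m.frolikAt hN.masa g
    exact ⟨E, m.measurableSet_clopen h1, m.measurableSet_clopen h2, m.measurableSet_clopen h3,
      h4, h5⟩
  have hint : ∀ f : C(m.X, ℂ), ∫ x, (f x).re ∂(m.mu η) = (⟪η, m.Φ f η⟫_ℂ).re := by
    intro f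
    have hI : Integrable (fun x => f x) (m.mu η) := by
      obtain ⟨C, hC⟩ := (isCompact_range f.continuous).isBounded.exists_norm_le
      exact Integrable.of_bound
        (m.measurable_complex hN.masa f.continuous).aestronglyMeasurable C
        (Filter.Eventually.of_forall fun x => hC _ ⟨x, rfl⟩)
    have h1 := integral_re hI
    rw [m.integral_mu_complex hN.masa] at h1
    exact h1
  obtain ⟨Q, hQ, L', hL'⟩ := list_clopen hN m rfl (m.mu η) (m.qi hN) hint hsa hn S a
    (fun g _ => ha g) hy hK.cw r (2 * n) ((500 / Real.sqrt r) ^ (2 * n) + κ / 2) (κ / 2)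
    (by positivity) P1
    (hML (UN M A η) m.X (m.mu η) (m.qi hN) S (m.K M η y) hK hfro r hr n hn1 (κ / 2)
      (by positivity))
  refine ⟨Q, hQ, L', fun c hc => (hL' c hc).trans ?_⟩
  linarith

end Crest.Agent.R109
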