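import Crest.Agent.R109.AsmIface
import Crest.Agent.R109.Cut

-- ▼ part R109/Asm1
section

/-!
# Row 109, module ASM, part 1: elementary facts on pinchings
-/

set_option autoImplicit false
set_option linter.unusedSectionVars false

namespace Crest.Agent.R109

open Crest.Agent.R124 Crest.Agent.R121
open scoped InnerProductSpace

universe u

variable {H : Type u} [NormedAddCommGroup H] [InnerProductSpace ℂ H] [CompleteSpace H]
variable {M : VonNeumannAlgebra H} {A : StarSubalgebra ℂ (H →L[ℂ] H)} {η : H}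

lemma norm_sq_eq_re {v : H} : ‖v‖ ^ 2 = (⟪v, v⟫_ℂ).re := by
  have := inner_self_eq_norm_sq (𝕜 := ℂ) v
  exact this.symm

lemma inner_star_left (K : H →L[ℂ] H) (v w : H) : ⟪(star K) v, w⟫_ℂ = ⟪v, K w⟫_ℂ :=
  ContinuousLinearMap.adjoint_inner_left K w v

lemma inner_star_right (K : H →L[ℂ] H) (v w : H) : ⟪v, (star K) w⟫_ℂ = ⟪K v, w⟫_ℂ :=
  ContinuousLinearMap.adjoint_inner_right K v w

/-- `‖K p η‖² = re ⟪η, K* K p η⟫` for a projection `p ∈ A` and an `A`-central vector `η` -/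
lemma CVec.norm_sq_mul_proj (hM : Masa M A) (hc : CVec M A η) {K p : H →L[ℂ] H} (hK : K ∈ M)
    (hp : p ∈ A) (hpp : IsStarProjection p) :
    ‖K (p η)‖ ^ 2 = (⟪η, (star K * K * p) η⟫_ℂ).re := by
  have hX : star K * K * p ∈ M := mul_mem (mul_mem (star_mem hK) hK) (hM.le hp)
  have h1 := hc p hp _ hX
  have h2 : star K * K * p * p = star K * K * p := by
    rw [mul_assoc, hpp.isIdempotentElem.eq]
  rw [h2] at h1
  rw [← h1, norm_sq_eq_re]
  congr 1
  change ⟪K (p η), K (p η)⟫_ℂ = ⟪η, p ((star K) (K (p η)))⟫_ℂ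
  have h3 : star p = p := hpp.isSelfAdjoint
  calc ⟪K (p η), K (p η)⟫_ℂ = ⟪p η, (star K) (K (p η))⟫_ℂ := (inner_star_right _ _ _).symm
    _ = ⟪(star p) η, (star K) (K (p η))⟫_ℂ := by rw [h3]
    _ = _ := inner_star_left _ _ _

lemma CVec.sum_norm_sq (hM : Masa M A) (hc : CVec M A η) {K : H →L[ℂ] H} (hK : K ∈ M)
    {ι : Type*} [Fintype ι] {p : ι → H →L[ℂ] H} (hp : Part A 1 p) :
    ∑ i, ‖K (p i η)‖ ^ 2 = ‖K η‖ ^ 2 := by
  have h1 : ∀ i, ‖K (p i η)‖ ^ 2 = (⟪η, (star K * K * p i) η⟫_ℂ).re := fun i =>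
    hc.norm_sq_mul_proj hM hK (hp.mem i) (hp.proj i)
  simp only [h1]
  rw [← Complex.re_sum, ← inner_sum]
  have h2 : ∑ i, (star K * K * p i) η = (star K * K) η := by
    rw [← ContinuousLinearMap.sum_apply, ← Finset.mul_sum, hp.sum, mul_one]
  rw [h2, norm_sq_eq_re]
  congr 1
  change ⟪η, (star K) (K η)⟫_ℂ = _
  exact inner_star_right _ _ _

lemma CVec.norm_mul_proj_le (hM : Masa M A) (hc : CVec M A η) {K p : H →L[ℂ] H} (hK : K ∈ M)
    (hp : p ∈ A) (hpp : IsStarProjection p) : ‖K (p η)‖ ^ 2 ≤ ‖K η‖ ^ 2 := by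
  have h1 := hc.norm_sq_mul_proj hM hK hp hpp
  have h2 := hc.norm_sq_mul_proj hM hK (sub_mem (one_mem A) hp) hpp.one_sub
  have h3 : ‖K η‖ ^ 2 = (⟪η, (star K * K) η⟫_ℂ).re := by
    rw [norm_sq_eq_re]
    congr 1
    exact (inner_star_right _ _ _).symm
  have h4 : (star K * K * p) η + (star K * K * (1 - p)) η = (star K * K) η := by
    rw [← ContinuousLinearMap.add_apply, ← mul_add, add_sub_cancel, mul_one]
  have h5 : ‖K (p η)‖ ^ 2 + ‖K ((1 - p) η)‖ ^ 2 = ‖K η‖ ^ 2 := by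
    rw [h1, h2, h3, ← h4, inner_add_right, Complex.add_re]
  nlinarith [sq_nonneg ‖K ((1 - p) η)‖]

section Pav

variable {r : ℕ} {p : Fin r → H →L[ℂ] H}

lemma pav_add (x y : H →L[ℂ] H) : pav p (x + y) = pav p x + pav p y := by
  simp [pav, mul_add, add_mul, Finset.sum_add_distrib]


lemma pav_smul (a : ℂ) (x : H →L[ℂ] H) : pav p (a • x) = a • pav p x := by
  simp [pav, Finset.smul_sum]

lemma pav_mem (hM : Masa M A) (hp : Part A 1 p) {x : H →L[ℂ] H} (hx : x ∈ M) : pav p x ∈ M :=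
  sum_mem fun i _ => mul_mem (mul_mem (hM.le (hp.mem i)) hx) (hM.le (hp.mem i))

lemma pav_sa (hp : Part A 1 p) {x : H →L[ℂ] H} (hx : IsSelfAdjoint x) :
    IsSelfAdjoint (pav p x) := by
  rw [isSelfAdjoint_iff]
  simp only [pav, star_sum, star_mul]
  refine Finset.sum_congr rfl fun i _ => ?_
  rw [(hp.proj i).isSelfAdjoint.star_eq, hx.star_eq, mul_assoc]

/-- Pythagoras for a partition of `1` -/
lemma Part.sum_sq (hp : Part A 1 p) (v : H) : ∑ i, ‖p i v‖ ^ 2 = ‖v‖ ^ 2 := by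
  have h1 : ∀ i, ‖p i v‖ ^ 2 = (⟪v, p i v⟫_ℂ).re := by
    intro i
    rw [norm_sq_eq_re]
    congr 1
    have h3 : star (p i) = p i := (hp.proj i).isSelfAdjoint
    calc ⟪p i v, p i v⟫_ℂ = ⟪(star (p i)) v, p i v⟫_ℂ := by rw [h3]
      _ = ⟪v, p i (p i v)⟫_ℂ := inner_star_left _ _ _
      _ = ⟪v, (p i * p i) v⟫_ℂ := rfl
      _ = _ := by rw [(hp.proj i).isIdempotentElem.eq]
  simp only [h1]
  rw [← Complex.re_sum, ← inner_sum, ← ContinuousLinearMap.sum_apply, hp.sum, norm_sq_eq_re]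
  rfl

lemma proj_pav (hp : Part A 1 p) (x : H →L[ℂ] H) (i : Fin r) :
    p i * pav p x = p i * x * p i := by
  rw [pav, Finset.mul_sum, Finset.sum_eq_single i]
  · rw [← mul_assoc, ← mul_assoc, (hp.proj i).isIdempotentElem.eq]
  · intro j _ hj
    rw [← mul_assoc, ← mul_assoc, hp.orth i j (Ne.symm hj), zero_mul, zero_mul]
  · intro h; exact absurd (Finset.mem_univ i) h

/-- pinching is a contraction at an `A`-central vector -/
lemma norm_pav_le (hM : Masa M A) (hc : CVec M A η) (hp : Part A 1 p) {t : H →L[ℂ] H}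
    (ht : t ∈ M) : ‖pav p t η‖ ≤ ‖t η‖ := by
  have h1 : ‖pav p t η‖ ^ 2 ≤ ‖t η‖ ^ 2 := by
    rw [← hp.sum_sq, ← hc.sum_norm_sq hM ht hp]
    refine Finset.sum_le_sum fun i _ => ?_
    have h2 : p i (pav p t η) = p i (t (p i η)) := by
      change (p i * pav p t) η = _
      rw [proj_pav hp]
      rfl
    rw [h2]
    have h3 : ‖p i (t (p i η))‖ ≤ ‖t (p i η)‖ := by
      refine (ContinuousLinearMap.le_opNorm _ _).trans ?_
      have := (hp.proj i).norm_le
      nlinarith [norm_nonneg (t (p i η))]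
    exact pow_le_pow_left₀ (norm_nonneg _) h3 2
  exact le_of_sq_le_sq h1 (norm_nonneg _)

/-- the quadratic form of a pinching -/
lemma re_inner_pav (hp : Part A 1 p) (x : H →L[ℂ] H) (v : H) :
    (⟪pav p x v, v⟫_ℂ).re = ∑ i, (⟪x (p i v), p i v⟫_ℂ).re := by
  rw [pav, ContinuousLinearMap.sum_apply, sum_inner, Complex.re_sum]
  refine Finset.sum_congr rfl fun i _ => ?_
  congr 1
  have h3 : star (p i) = p i := (hp.proj i).isSelfAdjoint
  calc ⟪(p i * x * p i) v, v⟫_ℂ = ⟪p i (x (p i v)), v⟫_ℂ := rfl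
    _ = ⟪(star (p i)) (x (p i v)), v⟫_ℂ := by rw [h3]
    _ = _ := inner_star_left _ _ _

end Pav

/-! ### colourings of the cells of a finite partition -/

section Cells

variable (Q : FP A) {r : ℕ} (c : Fin Q.n → Fin r)

lemma pcol_eq_blk (i : Fin r) : pcol Q c i = blk Q (Finset.univ.filter fun j => c j = i) := by
  rw [pcol, blk, Finset.sum_filter]

lemma e_mul_blk (S : Finset (Fin Q.n)) (j : Fin Q.n) :
    Q.e j * blk Q S = if j ∈ S then Q.e j else 0 := by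
  rw [blk, Finset.mul_sum]
  simp only [FP.e_mul]
  rw [Finset.sum_ite_eq]

lemma blk_mul_blk (S T : Finset (Fin Q.n)) : blk Q S * blk Q T = blk Q (S ∩ T) := by
  rw [blk, Finset.sum_mul]
  simp only [e_mul_blk]
  rw [blk, ← Finset.sum_filter, Finset.filter_mem_eq_inter]

lemma blk_mem (S : Finset (Fin Q.n)) : blk Q S ∈ A := sum_mem fun j _ => Q.part.mem j

lemma blk_proj (S : Finset (Fin Q.n)) : IsStarProjection (blk Q S) := by
  refine ⟨?_, ?_⟩
  · change _ * _ = _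
    rw [blk_mul_blk, Finset.inter_self]
  · rw [isSelfAdjoint_iff, blk, star_sum]
    exact Finset.sum_congr rfl fun j _ => Q.star_e j

lemma part_pcol : Part A 1 (pcol Q c) := by
  refine ⟨fun i => ?_, fun i => ?_, fun i j hij => ?_, ?_⟩
  · rw [pcol_eq_blk]; exact blk_mem Q _
  · rw [pcol_eq_blk]; exact blk_proj Q _
  · rw [pcol_eq_blk, pcol_eq_blk, blk_mul_blk]
    have : (Finset.univ.filter fun l => c l = i) ∩ (Finset.univ.filter fun l => c l = j) = ∅ := by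
      ext l
      simp only [Finset.mem_inter, Finset.mem_filter, Finset.mem_univ, true_and,
        Finset.notMem_empty, iff_false, not_and]
      rintro rfl h
      exact hij h
    rw [this, blk, Finset.sum_empty]
  · simp only [pcol]
    rw [Finset.sum_comm]
    simp only [Finset.sum_ite_eq, Finset.mem_univ, if_true]
    exact Q.part.sum


lemma blk_mul_pcol {S : Finset (Fin Q.n)} {i : Fin r} (h : ∀ j, c j = i → j ∈ S) :
    blk Q S * pcol Q c i = pcol Q c i := by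
  rw [pcol_eq_blk, blk_mul_blk]
  congr 1
  ext l
  simp only [Finset.mem_inter, Finset.mem_filter, Finset.mem_univ, true_and]
  exact ⟨fun hl => hl.2, fun hl => ⟨h l hl, hl⟩⟩

end Cells

end Crest.Agent.R109
end

-- ▼ part R109/Asm2
section

/-!
# Row 109, module ASM, part 2: spectral cut of a majorant and the moment lemma
-/

set_option autoImplicit false
set_option linter.unusedSectionVars false

namespace Crest.Agent.R109

open Crest.Agent.R124 Crest.Agent.R121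
open scoped InnerProductSpace

universe u

variable {H : Type u} [NormedAddCommGroup H] [InnerProductSpace ℂ H] [CompleteSpace H]

/-- norm of a self-adjoint operator from its quadratic form -/
lemma norm_le_of_quad {S : H →L[ℂ] H} (hS : IsSelfAdjoint S) {c : ℝ} (hc : 0 ≤ c)
    (h : ∀ v, |(⟪S v, v⟫_ℂ).re| ≤ c * ‖v‖ ^ 2) : ‖S‖ ≤ c := by
  have key : ∀ u v : H, (⟪S u, v⟫_ℂ).re ≤ c / 2 * (‖u‖ ^ 2 + ‖v‖ ^ 2) := by
    intro u v
    have h1 := (abs_le.1 (h (u + v))).2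
    have h2 := (abs_le.1 (h (u - v))).1
    have h3 : (⟪S v, u⟫_ℂ).re = (⟪S u, v⟫_ℂ).re := by
      have h4 : ⟪S v, u⟫_ℂ = ⟪v, S u⟫_ℂ := by
        have h5 := inner_star_left S v u
        rwa [hS.star_eq] at h5
      rw [h4, ← inner_conj_symm, Complex.conj_re]
    rw [map_add, inner_add_left, inner_add_right, inner_add_right] at h1
    rw [map_sub, inner_sub_left, inner_sub_right, inner_sub_right] at h2
    simp only [Complex.add_re, Complex.sub_re] at h1 h2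
    have h7 : ‖u + v‖ ^ 2 + ‖u - v‖ ^ 2 = 2 * (‖u‖ ^ 2 + ‖v‖ ^ 2) := by
      have h8 := parallelogram_law_with_norm ℂ u v
      nlinarith [h8]
    nlinarith
  refine ContinuousLinearMap.opNorm_le_bound _ hc fun u => ?_
  by_cases hu : u = 0
  · simp [hu]
  by_cases hSu : S u = 0
  · rw [hSu, norm_zero]; positivity
  have hu' : 0 < ‖u‖ := norm_pos_iff.2 hu
  have hs' : 0 < ‖S u‖ := norm_pos_iff.2 hSu
  have h1 := key u (((‖u‖ / ‖S u‖ : ℝ) : ℂ) • S u)
  have h2 : (⟪S u, ((‖u‖ / ‖S u‖ : ℝ) : ℂ) • S u⟫_ℂ).re = ‖u‖ * ‖S u‖ := by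
    rw [inner_smul_right, Complex.re_ofReal_mul, ← norm_sq_eq_re]
    field_simp
  have h3 : ‖((‖u‖ / ‖S u‖ : ℝ) : ℂ) • S u‖ = ‖u‖ := by
    rw [norm_smul, Complex.norm_real, Real.norm_of_nonneg (by positivity)]
    field_simp
  rw [h2, h3] at h1
  have h4 : ‖u‖ * ‖S u‖ ≤ ‖u‖ * (c * ‖u‖) := by nlinarith
  exact le_of_mul_le_mul_left h4 hu'

/-- the moment lemma: `|t| ≤ s + s (t/s)^(2n)` -/
lemma moment_le {T : H →L[ℂ] H} (hT : IsSelfAdjoint T) {s : ℝ} (hs : 0 < s) {n : ℕ}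
    (hn : 1 ≤ n) (v : H) :
    |(⟪T v, v⟫_ℂ).re| ≤ s * ‖v‖ ^ 2 + s * (s⁻¹) ^ (2 * n) * ‖(T ^ n) v‖ ^ 2 := by
  have hreal : ∀ t : ℝ, |t| ≤ s + s * (s⁻¹) ^ (2 * n) * t ^ (2 * n) := by
    intro t
    rw [mul_assoc, ← mul_pow]
    have h0 : (s⁻¹ * t) ^ (2 * n) = (|t| / s) ^ (2 * n) := by
      rw [pow_mul, pow_mul, div_pow, sq_abs, mul_pow, inv_pow]
      congr 1
      field_simp
    rw [h0]
    rcases le_total |t| s with h | h
    · have : 0 ≤ s * (|t| / s) ^ (2 * n) := by positivity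
      linarith
    · have h1 : 1 ≤ |t| / s := by rwa [one_le_div hs]
      have h2 : |t| / s ≤ (|t| / s) ^ (2 * n) := le_self_pow₀ h1 (by omega)
      have h3 : |t| = s * (|t| / s) := by field_simp
      nlinarith
  have hpow : ‖(T ^ n) v‖ ^ 2 = (⟪(T ^ (2 * n)) v, v⟫_ℂ).re := by
    rw [norm_sq_eq_re]
    congr 1
    have h1 : star (T ^ n) = T ^ n := (hT.pow n).star_eq
    calc ⟪(T ^ n) v, (T ^ n) v⟫_ℂ = ⟪(star (T ^ n)) ((T ^ n) v), v⟫_ℂ :=
          (inner_star_left _ _ _).symm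
      _ = _ := by
        rw [h1]
        congr 1
        change (T ^ n * T ^ n) v = _
        rw [← pow_add, two_mul]
  have hpos : ∀ σ : ℝ, (σ = 1 ∨ σ = -1) →
      0 ≤ (s : ℝ) • (1 : H →L[ℂ] H) + (s * (s⁻¹) ^ (2 * n)) • T ^ (2 * n) - σ • T := by
    intro σ hσ
    have h1 : cfc (fun t : ℝ => s + s * (s⁻¹) ^ (2 * n) * t ^ (2 * n) - σ * t) T
        = (s : ℝ) • (1 : H →L[ℂ] H) + (s * (s⁻¹) ^ (2 * n)) • T ^ (2 * n) - σ • T := by
      rw [cfc_sub (fun t : ℝ => s + s * (s⁻¹) ^ (2 * n) * t ^ (2 * n)) (fun t : ℝ => σ * t) T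
        (by fun_prop) (by fun_prop),
        cfc_add (a := T) (fun _ : ℝ => s) (fun t : ℝ => s * (s⁻¹) ^ (2 * n) * t ^ (2 * n))
        (by fun_prop) (by fun_prop), cfc_const s T, Algebra.algebraMap_eq_smul_one,
        cfc_const_mul _ (fun t : ℝ => t ^ (2 * n)) T (by fun_prop), cfc_pow_id T (2 * n),
        cfc_const_mul _ (fun t : ℝ => t) T (by fun_prop), cfc_id' ℝ T]
    rw [← h1]
    refine cfc_nonneg fun t _ => ?_
    have h2 := hreal t
    have h3 := abs_le.1 h2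
    rcases hσ with rfl | rfl
    · linarith [h3.2]
    · linarith [h3.1]
  have hq : ∀ σ : ℝ, (σ = 1 ∨ σ = -1) → σ * (⟪T v, v⟫_ℂ).re ≤
      s * ‖v‖ ^ 2 + s * (s⁻¹) ^ (2 * n) * ‖(T ^ n) v‖ ^ 2 := by
    intro σ hσ
    have h1 := re_inner_nonneg (hpos σ hσ) v
    have h2 : ((s : ℝ) • (1 : H →L[ℂ] H) + (s * (s⁻¹) ^ (2 * n)) • T ^ (2 * n) - σ • T) v
        = (s : ℂ) • v + ((s * (s⁻¹) ^ (2 * n) : ℝ) : ℂ) • (T ^ (2 * n)) v - (σ : ℂ) • T v := by
      simp only [ContinuousLinearMap.sub_apply, ContinuousLinearMap.add_apply,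
        ContinuousLinearMap.smul_apply, ContinuousLinearMap.one_apply]
      simp only [RCLike.real_smul_eq_coe_smul (K := ℂ)]
      rfl
    rw [h2, inner_sub_left, inner_add_left, inner_smul_left, inner_smul_left, inner_smul_left,
      Complex.conj_ofReal, Complex.conj_ofReal, Complex.conj_ofReal, Complex.sub_re,
      Complex.add_re, Complex.re_ofReal_mul, Complex.re_ofReal_mul, Complex.re_ofReal_mul,
      ← norm_sq_eq_re, ← hpow] at h1
    linarith
  rw [abs_le]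
  have h1 := hq 1 (Or.inl rfl)
  have h2 := hq (-1) (Or.inr rfl)
  constructor <;> linarith

/-- spectral cut of a majorant -/
theorem gamma_cut (M : VonNeumannAlgebra H) {T : H →L[ℂ] H} (hTs : IsSelfAdjoint T)
    {ι : Type*} [Fintype ι] {B : ι → H →L[ℂ] H} (hB : ∀ j, B j ∈ M) {e : ℝ} (he : 0 < e)
    (h : ∀ v, |(⟪T v, v⟫_ℂ).re| ≤ e * ‖v‖ ^ 2 + ∑ j, ‖B j v‖ ^ 2) (η : H) :
    ∃ q ∈ M, IsStarProjection q ∧ e * ‖(1 - q) η‖ ^ 2 ≤ ∑ j, ‖B j η‖ ^ 2 ∧
      ‖q * T * q‖ ≤ 2 * e := by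
  set Γ : H →L[ℂ] H := ∑ j, star (B j) * B j with hΓ
  have hΓ0 : 0 ≤ Γ := Finset.sum_nonneg fun j _ => star_mul_self_nonneg _
  have hΓM : Γ ∈ M := sum_mem fun j _ => mul_mem (star_mem (hB j)) (hB j)
  have hquad : ∀ v, (⟪Γ v, v⟫_ℂ).re = ∑ j, ‖B j v‖ ^ 2 := by
    intro v
    rw [hΓ, ContinuousLinearMap.sum_apply, sum_inner, Complex.re_sum]
    refine Finset.sum_congr rfl fun j _ => ?_
    rw [norm_sq_eq_re]
    congr 1
    exact inner_star_left _ _ _
  have htrM : tr Γ e ∈ M := R124.cfc_mem M hΓM _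
  set p : H →L[ℂ] H := rp (tr Γ e) with hp
  have hpp : IsStarProjection p := rp_proj _
  have hpM : p ∈ M := R121.rp_mem M htrM
  refine ⟨1 - p, sub_mem (one_mem M) hpM, hpp.one_sub, ?_, ?_⟩
  · rw [sub_sub_cancel, ← hquad]
    exact rp_tr_lower hΓ0 e η
  · have hqs : star (1 - p) = 1 - p := hpp.one_sub.isSelfAdjoint.star_eq
    have hS : IsSelfAdjoint ((1 - p) * T * (1 - p)) := by
      rw [isSelfAdjoint_iff, star_mul, star_mul, hqs, hTs.star_eq, mul_assoc]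
    refine norm_le_of_quad hS (by positivity) fun v => ?_
    have h1 : ⟪((1 - p) * T * (1 - p)) v, v⟫_ℂ = ⟪T ((1 - p) v), (1 - p) v⟫_ℂ := by
      calc ⟪((1 - p) * T * (1 - p)) v, v⟫_ℂ = ⟪(star (1 - p)) (T ((1 - p) v)), v⟫_ℂ := by
            rw [hqs]; rfl
        _ = _ := inner_star_left _ _ _
    rw [h1]
    refine (h _).trans ?_
    rw [← hquad]
    have h2 := rp_tr_upper hΓ0 e v
    rw [← hp] at h2
    have h3 : ‖(1 - p) v‖ ^ 2 ≤ ‖v‖ ^ 2 := norm_proj_le hpp.one_sub v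
    nlinarith
end Crest.Agent.R109
end

-- ▼ part R109/Asm
section

/-!
# Row 109, module ASM: final assembly of `NCE_q`
-/

set_option autoImplicit false
set_option linter.unusedSectionVars false

namespace Crest.Agent.R109

open Crest.Agent.R124 Crest.Agent.R121
open scoped InnerProductSpace

universe u

variable {H : Type u} [NormedAddCommGroup H] [InnerProductSpace ℂ H] [CompleteSpace H]
variable {M : VonNeumannAlgebra H} {A : StarSubalgebra ℂ (H →L[ℂ] H)} {η : H}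

/-- quadratic majorant of the diffuse part -/
lemma quad_T2 (Q : FP A) {r : ℕ} (c : Fin Q.n → Fin r)
    (S : Fin r → Finset (Fin Q.n)) (hS : ∀ j, j ∈ S (c j)) {z : H →L[ℂ] H} (hz : IsSelfAdjoint z)
    {s : ℝ} (hs : 0 < s) {m : ℕ} (hm : 1 ≤ m) (v : H) :
    |(⟪pav (pcol Q c) z v, v⟫_ℂ).re| ≤ s * ‖v‖ ^ 2 + ∑ i, s * (s⁻¹) ^ (2 * m) *
      ‖((blk Q (S i) * z * blk Q (S i)) ^ m) (pcol Q c i v)‖ ^ 2 := by
  have hp := part_pcol Q c
  rw [re_inner_pav hp, ← hp.sum_sq v, Finset.mul_sum, ← Finset.sum_add_distrib]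
  refine (Finset.abs_sum_le_sum_abs _ _).trans (Finset.sum_le_sum fun i _ => ?_)
  have hi : ∀ j, c j = i → j ∈ S i := fun j hj => hj ▸ hS j
  have h1 : blk Q (S i) (pcol Q c i v) = pcol Q c i v := by
    change (blk Q (S i) * pcol Q c i) v = _
    rw [blk_mul_pcol Q c hi]
  have hb : star (blk Q (S i)) = blk Q (S i) := (blk_proj Q (S i)).isSelfAdjoint.star_eq
  have h2 : ⟪z (pcol Q c i v), pcol Q c i v⟫_ℂ
      = ⟪(blk Q (S i) * z * blk Q (S i)) (pcol Q c i v), pcol Q c i v⟫_ℂ := by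
    calc ⟪z (pcol Q c i v), pcol Q c i v⟫_ℂ
        = ⟪z (pcol Q c i v), blk Q (S i) (pcol Q c i v)⟫_ℂ := by rw [h1]
      _ = ⟪(star (blk Q (S i))) (z (pcol Q c i v)), pcol Q c i v⟫_ℂ :=
          (inner_star_left _ _ _).symm
      _ = ⟪(blk Q (S i)) (z (blk Q (S i) (pcol Q c i v))), pcol Q c i v⟫_ℂ := by
          rw [hb, h1]
      _ = _ := rfl
  rw [h2]
  have hsa : IsSelfAdjoint (blk Q (S i) * z * blk Q (S i)) := by
    rw [isSelfAdjoint_iff, star_mul, star_mul, hb, hz.star_eq, mul_assoc]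
  exact moment_le hsa hs hm _

/-- existence of exponents -/
lemma exists_pow_half {C τ : ℝ} (hτ : 0 < τ) : ∃ k : ℕ, 1 ≤ k ∧ C * (1 / 2) ^ (2 * k) < τ := by
  have h1 : Filter.Tendsto (fun k : ℕ => C * ((1 / 2 : ℝ) ^ 2) ^ k) Filter.atTop (nhds (C * 0)) :=
    (tendsto_pow_atTop_nhds_zero_of_lt_one (by norm_num) (by norm_num)).const_mul C
  rw [mul_zero] at h1
  obtain ⟨k, hk1, hk2⟩ := ((h1.eventually_lt_const hτ).and
    (Filter.eventually_ge_atTop 1)).exists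
  exact ⟨k, hk2, by rw [pow_mul]; exact hk1⟩

/-! ### numbers -/

lemma num1 {s τ N b κ : ℝ} (hs0 : 0 < s) {k : ℕ} (hτ : 2 * s * (1 / 2) ^ (2 * k) < τ)
    (hκ : 2 * (s * (s⁻¹) ^ (2 * k)) * κ = τ) (hb0 : 0 ≤ b) (hb : b ≤ s / 2)
    (hN : N ≤ b ^ (2 * k) + κ) : 2 * (s * (s⁻¹) ^ (2 * k)) * N ≤ τ + τ := by
  have h3 : b ^ (2 * k) ≤ (s / 2) ^ (2 * k) := pow_le_pow_left₀ hb0 hb _
  have h4 : 2 * (s * (s⁻¹) ^ (2 * k)) * N
      ≤ 2 * (s * (s⁻¹) ^ (2 * k)) * ((s / 2) ^ (2 * k) + κ) :=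
    mul_le_mul_of_nonneg_left (hN.trans (by linarith)) (by positivity)
  have h5 : (s⁻¹) ^ (2 * k) * (s / 2) ^ (2 * k) = (1 / 2) ^ (2 * k) := by
    rw [← mul_pow]; congr 1; field_simp
  have h7 : 2 * (s * (s⁻¹) ^ (2 * k)) * ((s / 2) ^ (2 * k) + κ)
      = 2 * s * (1 / 2) ^ (2 * k) + τ := by
    rw [mul_add, hκ, ← h5]; ring
  rw [h7] at h4
  linarith

lemma num2 {s τ r N : ℝ} (hs0 : 0 < s) {m : ℕ} (hτ : s * r * (1 / 2) ^ (2 * m) < τ)
    (hN : N ≤ r * (((s / 2) ^ m) ^ 2)) : s * (s⁻¹) ^ (2 * m) * N ≤ τ := by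
  have h3 : s * (s⁻¹) ^ (2 * m) * N ≤ s * (s⁻¹) ^ (2 * m) * (r * (((s / 2) ^ m) ^ 2)) :=
    mul_le_mul_of_nonneg_left hN (by positivity)
  have h4 : (s⁻¹) ^ (2 * m) * ((s / 2) ^ m) ^ 2 = (1 / 2) ^ (2 * m) := by
    rw [← pow_mul, mul_comm m 2, ← mul_pow]; congr 1; field_simp
  have h5 : s * (s⁻¹) ^ (2 * m) * (r * (((s / 2) ^ m) ^ 2)) = s * r * (1 / 2) ^ (2 * m) := by
    rw [← h4]; ring
  rw [h5] at h3
  linarith

lemma num3 {s τ a κ : ℝ} (hs0 : 0 < s) (hτ : 0 < τ) (ha0 : 0 ≤ a) (ha : a ≤ κ + κ)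
    (hκ : κ ≤ Real.sqrt (τ * s) / 2) : s * (s⁻¹) ^ (2 * 1) * a ^ 2 ≤ τ := by
  have h2 : κ + κ ≤ Real.sqrt (τ * s) := by linarith
  have h3 : a ^ 2 ≤ τ * s := by
    rw [← Real.sq_sqrt (show 0 ≤ τ * s by positivity)]
    exact pow_le_pow_left₀ ha0 (ha.trans h2) 2
  have h4 : s * (s⁻¹) ^ (2 * 1) * a ^ 2 ≤ s * (s⁻¹) ^ (2 * 1) * (τ * s) :=
    mul_le_mul_of_nonneg_left h3 (by positivity)
  have h5 : s * (s⁻¹) ^ (2 * 1) * (τ * s) = τ := by
    rw [mul_one]; field_simp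
  linarith

lemma norm_sq_smul_sqrt (a : ℝ) (X : H →L[ℂ] H) (v : H) (ha : 0 ≤ a) :
    ‖((Real.sqrt a : ℂ) • X) v‖ ^ 2 = a * ‖X v‖ ^ 2 := by
  have h1 : ((Real.sqrt a : ℂ) • X) v = (Real.sqrt a : ℂ) • X v := rfl
  rw [h1, norm_smul, Complex.norm_real, Real.norm_of_nonneg (Real.sqrt_nonneg _), mul_pow,
    Real.sq_sqrt ha]

/-- the cut for a sum of three parts -/
lemma three_parts (hM : Masa M A) (hc : CVec M A η) (Q : FP A) {r : ℕ} (c : Fin Q.n → Fin r)
    (S : Fin r → Finset (Fin Q.n)) (hS : ∀ j, j ∈ S (c j)) {y z t : H →L[ℂ] H}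
    (hy : y ∈ M) (hz : z ∈ M) (ht : t ∈ M) (hys : IsSelfAdjoint y) (hzs : IsSelfAdjoint z)
    (hts : IsSelfAdjoint t) {s : ℝ} (hs0 : 0 < s) {k m : ℕ} (hk1 : 1 ≤ k) (hm1 : 1 ≤ m) :
    ∃ q ∈ M, IsStarProjection q ∧
      4 * s * ‖(1 - q) η‖ ^ 2 ≤
        2 * (s * (s⁻¹) ^ (2 * k)) * ‖(pav (pcol Q c) y ^ k) η‖ ^ 2 +
        (s * (s⁻¹) ^ (2 * 1) * ‖pav (pcol Q c) t η‖ ^ 2 +
        s * (s⁻¹) ^ (2 * m) * ∑ i, ‖((blk Q (S i) * z * blk Q (S i)) ^ m) η‖ ^ 2) ∧
      ‖q * ((2 : ℂ) • pav (pcol Q c) y + pav (pcol Q c) z + pav (pcol Q c) t) * q‖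
        ≤ 2 * (4 * s) := by
  have hp := part_pcol Q c
  have hT1s : IsSelfAdjoint (pav (pcol Q c) y) := pav_sa hp hys
  have hT2s : IsSelfAdjoint (pav (pcol Q c) z) := pav_sa hp hzs
  have hT3s : IsSelfAdjoint (pav (pcol Q c) t) := pav_sa hp hts
  have hTs : IsSelfAdjoint ((2 : ℂ) • pav (pcol Q c) y + pav (pcol Q c) z
      + pav (pcol Q c) t) := by
    refine (IsSelfAdjoint.add ?_ hT2s).add hT3s
    rw [isSelfAdjoint_iff, star_smul, hT1s.star_eq]
    congr 1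
    simp
  let B : Option (Option (Fin r)) → H →L[ℂ] H := fun j => match j with
    | none => (Real.sqrt (2 * (s * (s⁻¹) ^ (2 * k))) : ℂ) • pav (pcol Q c) y ^ k
    | some none => (Real.sqrt (s * (s⁻¹) ^ (2 * 1)) : ℂ) • pav (pcol Q c) t
    | some (some i) => (Real.sqrt (s * (s⁻¹) ^ (2 * m)) : ℂ) •
        ((blk Q (S i) * z * blk Q (S i)) ^ m * pcol Q c i)
  have hbM : ∀ B : Finset (Fin Q.n), blk Q B ∈ M := fun B => hM.le (blk_mem Q B)
  have hBM : ∀ j, B j ∈ M := by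
    rintro (_ | _ | i)
    · exact M.toStarSubalgebra.smul_mem (pow_mem (pav_mem hM hp hy) k) _
    · exact M.toStarSubalgebra.smul_mem (pav_mem hM hp ht) _
    · exact M.toStarSubalgebra.smul_mem (mul_mem (pow_mem (mul_mem (mul_mem (hbM _) hz)
        (hbM _)) m) (hM.le (hp.mem i))) _
  have hBsum : ∀ v, ∑ j, ‖B j v‖ ^ 2
      = 2 * (s * (s⁻¹) ^ (2 * k)) * ‖(pav (pcol Q c) y ^ k) v‖ ^ 2 +
      (s * (s⁻¹) ^ (2 * 1) * ‖pav (pcol Q c) t v‖ ^ 2 +
      ∑ i, s * (s⁻¹) ^ (2 * m) *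
        ‖((blk Q (S i) * z * blk Q (S i)) ^ m) (pcol Q c i v)‖ ^ 2) := by
    intro v
    rw [Fintype.sum_option, Fintype.sum_option]
    congr 1
    · exact norm_sq_smul_sqrt _ _ v (by positivity)
    congr 1
    · exact norm_sq_smul_sqrt _ _ v (by positivity)
    · refine Finset.sum_congr rfl fun i _ => ?_
      exact norm_sq_smul_sqrt _ _ v (by positivity)
  have hquad : ∀ v, |(⟪((2 : ℂ) • pav (pcol Q c) y + pav (pcol Q c) z
      + pav (pcol Q c) t) v, v⟫_ℂ).re| ≤ (4 * s) * ‖v‖ ^ 2 + ∑ j, ‖B j v‖ ^ 2 := by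
    intro v
    rw [hBsum]
    have h1 := moment_le hT1s hs0 hk1 v
    have h2 := quad_T2 Q c S hS hzs hs0 hm1 v
    have h3 := moment_le hT3s hs0 (le_refl 1) v
    rw [pow_one] at h3
    have h4 : (⟪((2 : ℂ) • pav (pcol Q c) y + pav (pcol Q c) z + pav (pcol Q c) t) v, v⟫_ℂ).re
        = 2 * (⟪pav (pcol Q c) y v, v⟫_ℂ).re + (⟪pav (pcol Q c) z v, v⟫_ℂ).re
          + (⟪pav (pcol Q c) t v, v⟫_ℂ).re := by
      have e1 : ((2 : ℂ) • pav (pcol Q c) y + pav (pcol Q c) z + pav (pcol Q c) t) v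
        = (2 : ℂ) • pav (pcol Q c) y v + pav (pcol Q c) z v + pav (pcol Q c) t v := rfl
      rw [e1, inner_add_left, inner_add_left, inner_smul_left, Complex.add_re, Complex.add_re]
      simp
    rw [h4]
    rw [abs_le] at h1 h2 h3 ⊢
    constructor <;> linarith [h1.1, h1.2, h2.1, h2.2, h3.1, h3.2]
  obtain ⟨q, hqM, hqp, hqη, hqT⟩ := gamma_cut M hTs hBM (by positivity : 0 < 4 * s) hquad η
  refine ⟨q, hqM, hqp, ?_, hqT⟩
  rw [hBsum] at hqη
  have h1 : ∑ i, s * (s⁻¹) ^ (2 * m) *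
      ‖((blk Q (S i) * z * blk Q (S i)) ^ m) (pcol Q c i η)‖ ^ 2
      ≤ s * (s⁻¹) ^ (2 * m) * ∑ i, ‖((blk Q (S i) * z * blk Q (S i)) ^ m) η‖ ^ 2 := by
    rw [Finset.mul_sum]
    refine Finset.sum_le_sum fun i _ => mul_le_mul_of_nonneg_left ?_ (by positivity)
    exact hc.norm_mul_proj_le hM (pow_mem (mul_mem (mul_mem (hbM _) hz) (hbM _)) m)
      (hp.mem i) (hp.proj i)
  linarith

set_option maxHeartbeats 1000000 in
/-- the unit vector version -/
theorem nce_unit {Bd : BandPred.{u}} (hB : BdHalf Bd) (hD : DecompProp Bd) (hC : CartanProp Bd)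
    (hX : X2Prop.{u}) (hCh : ChoiceProp) (hA : Amp M) (h : NCE M A η) (hη : ‖η‖ = 1)
    {x : H →L[ℂ] H} (hx : x ∈ M) (hxs : IsSelfAdjoint x) (hx1 : ‖x‖ ≤ 1) (hx0 : CE A η x = 0)
    {ε : ℝ} (hε : 0 < ε) (hε1 : ε < 1) {r : ℕ} (hr : 10 ^ 8 / ε ^ 2 ≤ (r : ℝ)) {δ : ℝ}
    (hδ : 0 < δ) :
    ∃ p : Fin r → H →L[ℂ] H, Part A 1 p ∧ ∃ q ∈ M, IsStarProjection q ∧ ‖(1 - q) η‖ < δ ∧
      ‖q * (∑ i, p i * x * p i) * q‖ ≤ ε := by
  have hM := h.masa
  have hc := h.cvec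
  -- numbers
  have hr8 : (10 : ℝ) ^ 8 ≤ r := by
    refine le_trans ?_ hr
    rw [le_div_iff₀ (by positivity)]
    nlinarith
  have hr100 : 100 ≤ r := by
    have : (100 : ℝ) ≤ r := by linarith
    exact_mod_cast this
  have hr0 : (0 : ℝ) < r := by linarith
  have hsqrt : 10 ^ 4 / ε ≤ Real.sqrt r := by
    apply Real.le_sqrt_of_sq_le
    rw [div_pow]
    norm_num at hr ⊢
    linarith
  have hsq0 : 0 < Real.sqrt r := Real.sqrt_pos.2 hr0
  set s : ℝ := ε / 8 with hs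
  have hs0 : 0 < s := by positivity
  have hb1 : 500 / Real.sqrt r ≤ s / 2 := by
    rw [div_le_iff₀ hsq0]
    have h1 : s / 2 * (10 ^ 4 / ε) ≤ s / 2 * Real.sqrt r :=
      mul_le_mul_of_nonneg_left hsqrt (by positivity)
    have h2 : s / 2 * (10 ^ 4 / ε) = 625 := by
      rw [hs]; field_simp; norm_num
    linarith
  have hb2 : 6 * Real.sqrt (2 / r) ≤ s / 4 := by
    have h1 : Real.sqrt (2 / r) ≤ s / 24 := by
      apply Real.sqrt_le_iff.2
      refine ⟨by positivity, ?_⟩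
      rw [div_le_iff₀ hr0]
      have h2 : (s / 24) ^ 2 * (10 ^ 8 / ε ^ 2) ≤ (s / 24) ^ 2 * r :=
        mul_le_mul_of_nonneg_left hr (by positivity)
      have h3 : (s / 24) ^ 2 * (10 ^ 8 / ε ^ 2) = 10 ^ 8 / 36864 := by
        rw [hs]; field_simp; norm_num
      rw [h3] at h2
      have h4 : (2 : ℝ) ≤ 10 ^ 8 / 36864 := by norm_num
      linarith
    linarith
  -- total budget
  set τ : ℝ := s * δ ^ 2 / 2 with hτ
  have hτ0 : 0 < τ := by positivity
  obtain ⟨k, hk1, hk⟩ := exists_pow_half (C := 2 * s) hτ0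
  obtain ⟨m, hm1, hm⟩ := exists_pow_half (C := s * r) hτ0
  set κ₁ : ℝ := τ / (2 * s * (s⁻¹) ^ (2 * k)) with hκ₁
  have hκ₁0 : 0 < κ₁ := by positivity
  set κ₃ : ℝ := min (s / 4) (Real.sqrt (τ * s) / 2) with hκ₃
  have hκ₃0 : 0 < κ₃ := lt_min (by positivity) (by positivity)
  -- the decomposition
  obtain ⟨y, hyM, hyB, hys, hy2, hy0, z, hzM, hzs, hz3, hzD, hxyz⟩ :=
    hD H M A η hA h hη x hx hxs hx1 hx0 κ₃ hκ₃0
  obtain ⟨P1, hP1⟩ := hX H M A η hA h hη z hzM hzs hz3 hzD r hr100 m hm1 κ₃ hκ₃0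
  set y' : H →L[ℂ] H := (1 / 2 : ℂ) • y with hy'
  have hhalf : ‖(1 / 2 : ℂ)‖ = 1 / 2 := by norm_num
  have hy'M : y' ∈ M := by
    have := M.toStarSubalgebra.smul_mem hyM (1 / 2 : ℂ)
    exact this
  have hy's : IsSelfAdjoint y' := by
    rw [isSelfAdjoint_iff, hy', star_smul, hys.star_eq]
    congr 1
    simp
  have hy'1 : ‖y'‖ ≤ 1 := by
    rw [hy', norm_smul, hhalf]; linarith
  have hy'0 : CE A η y' = 0 := by
    rw [hy', h.CE_smul hyM, hy0, smul_zero]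
  obtain ⟨Q, hQ, L, hL⟩ := hC H M A η hA h hη y' hy'M (hB H M A η y hyB) hy's hy'1 hy'0 r hr100
    k hk1 κ₁ hκ₁0 P1
  obtain ⟨z2, hz2M, hz2s, hz2n, hz2, hsum⟩ := hP1 Q hQ
  obtain ⟨c, S, hcL, hcS, hW⟩ := hCh Q.n r (by omega) L
    (fun _ B => ‖((blk Q B * z2 * blk Q B) ^ m) η‖ ^ 2) (fun _ _ => by positivity)
  have hcart := hL c hcL
  have hp := part_pcol Q c
  refine ⟨pcol Q c, hp, ?_⟩
  -- the three parts
  set t : H →L[ℂ] H := x - y - z2 with ht
  have htM : t ∈ M := sub_mem (sub_mem hx hyM) hz2M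
  have hts : IsSelfAdjoint t := (hxs.sub hys).sub hz2s
  have hT : ∑ i, pcol Q c i * x * pcol Q c i = (2 : ℂ) • pav (pcol Q c) y'
      + pav (pcol Q c) z2 + pav (pcol Q c) t := by
    have h1 : x = (2 : ℂ) • y' + z2 + t := by
      rw [ht, hy', smul_smul]; norm_num
    change pav (pcol Q c) x = _
    conv_lhs => rw [h1]
    rw [pav_add, pav_add, pav_smul]
  rw [hT]
  obtain ⟨q, hqM, hqp, hqη, hqT⟩ := three_parts hM hc Q c S hcS hy'M hz2M htM hy's hz2s hts hs0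
    hk1 hm1 (s := s) (k := k) (m := m)
  refine ⟨q, hqM, hqp, ?_, ?_⟩
  · -- the bound at `η`
    have hE1 : 2 * (s * (s⁻¹) ^ (2 * k)) * ‖(pav (pcol Q c) y' ^ k) η‖ ^ 2 ≤ τ + τ := by
      refine num1 hs0 hk ?_ (by positivity) hb1 ?_ (κ := κ₁) (b := 500 / Real.sqrt r)
      · rw [hκ₁]; field_simp
      · refine le_trans (le_of_eq ?_) hcart
        rw [norm_sq_eq_re]
        congr 1
        have h2 : star (pav (pcol Q c) y' ^ k) = pav (pcol Q c) y' ^ k :=
          ((pav_sa hp hy's).pow k).star_eq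
        calc ⟪(pav (pcol Q c) y' ^ k) η, (pav (pcol Q c) y' ^ k) η⟫_ℂ
            = ⟪(star (pav (pcol Q c) y' ^ k)) η, (pav (pcol Q c) y' ^ k) η⟫_ℂ := by rw [h2]
          _ = ⟪η, (pav (pcol Q c) y' ^ k) ((pav (pcol Q c) y' ^ k) η)⟫_ℂ :=
            inner_star_left _ _ _
          _ = ⟪η, (pav (pcol Q c) y' ^ (2 * k)) η⟫_ℂ := by
            rw [two_mul, pow_add]; rfl
    have hE3 : s * (s⁻¹) ^ (2 * 1) * ‖pav (pcol Q c) t η‖ ^ 2 ≤ τ := by
      refine num3 hs0 hτ0 (norm_nonneg _) ?_ (min_le_right _ _) (κ := κ₃)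
      refine (norm_pav_le hM hc hp htM).trans ?_
      have h2 : t η = (x - y - z) η + (z - z2) η := by
        rw [ht]
        change _ = (x - y - z + (z - z2)) η
        congr 1; abel
      rw [h2]
      exact (norm_add_le _ _).trans (add_le_add hxyz hz2)
    have hE2 : s * (s⁻¹) ^ (2 * m) *
        ∑ i, ‖((blk Q (S i) * z2 * blk Q (S i)) ^ m) η‖ ^ 2 ≤ τ := by
      refine num2 hs0 hm (hW.trans ?_)
      rw [Finset.sum_const, Finset.card_univ, Fintype.card_fin, nsmul_eq_mul]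
      refine mul_le_mul_of_nonneg_left (hsum.trans ?_) hr0.le
      refine pow_le_pow_left₀ (by positivity) (pow_le_pow_left₀ (by positivity) ?_ m) 2
      have := min_le_left (s / 4) (Real.sqrt (τ * s) / 2)
      linarith
    have h7 : ‖(1 - q) η‖ ^ 2 ≤ τ / s := by
      rw [le_div_iff₀ hs0]; linarith
    have h8 : τ / s = δ ^ 2 / 2 := by rw [hτ]; field_simp
    rw [h8] at h7
    exact lt_of_pow_lt_pow_left₀ 2 hδ.le (by nlinarith)
  · refine hqT.trans ?_
    rw [hs]; linarith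

/-- the final assembly -/
theorem nce_q_of {Bd : BandPred.{u}} (hB : BdHalf Bd) (hD : DecompProp Bd) (hC : CartanProp Bd)
    (hX : X2Prop.{u}) (hCh : ChoiceProp) : NCE_q.{u} := by
  intro H _ _ _ M A hM hA η hc hsep x hx hxs hx1 hx0 ε hε hε1 r hr δ hδ
  by_cases hη : η = 0
  · -- everything is zero
    have h1 : (1 : H →L[ℂ] H) = 0 := hsep 1 (one_mem M) (by rw [hη, map_zero])
    have h2 : ∀ T : H →L[ℂ] H, T = 0 := fun T => by rw [← mul_one T, h1, mul_zero]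
    refine ⟨fun _ => 0, ⟨fun _ => zero_mem A, fun _ => ⟨by simp [IsIdempotentElem], by simp⟩,
      fun _ _ _ => by simp, by rw [h2 (∑ i : Fin r, (0 : H →L[ℂ] H)), h1]⟩, 0, zero_mem M,
      ⟨by simp [IsIdempotentElem], by simp⟩, ?_, ?_⟩
    · rw [hη, map_zero, norm_zero]; exact hδ
    · rw [h2 (_ * _), norm_zero]; exact hε.le
  · have hn : 0 < ‖η‖ := norm_pos_iff.2 hη
    set ζ : H := ((‖η‖⁻¹ : ℝ) : ℂ) • η with hζ
    have hζn : ‖ζ‖ = 1 := by
      rw [hζ, norm_smul, Complex.norm_real, Real.norm_of_nonneg (by positivity)]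
      field_simp
    have hηζ : η = ((‖η‖ : ℝ) : ℂ) • ζ := by
      rw [hζ, smul_smul, ← Complex.ofReal_mul, mul_inv_cancel₀ hn.ne', Complex.ofReal_one,
        one_smul]
    have hinner : ∀ T : H →L[ℂ] H, ⟪ζ, T ζ⟫_ℂ
        = ((‖η‖⁻¹ : ℝ) : ℂ) * (((‖η‖⁻¹ : ℝ) : ℂ) * ⟪η, T η⟫_ℂ) := by
      intro T
      rw [hζ, map_smul, inner_smul_left, inner_smul_right, Complex.conj_ofReal]
    have h : NCE M A ζ := by
      refine ⟨hM, ?_, ?_⟩
      · intro a ha y hy
        rw [hinner, hinner, hc a ha y hy]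
      · intro y hy hy0
        refine hsep y hy ?_
        rw [hηζ, map_smul, hy0, smul_zero]
    have hx0' : CE A ζ x = 0 := by
      refine h.CE_unique hx (zero_mem A) fun a ha => ?_
      rw [hinner, hinner, hx0 a ha]
      simp
    obtain ⟨p, hp, q, hqM, hqp, hq1, hq2⟩ := nce_unit hB hD hC hX hCh hA h hζn hx hxs hx1 hx0'
      hε hε1 hr (δ := δ / ‖η‖) (by positivity)
    refine ⟨p, hp, q, hqM, hqp, ?_, hq2⟩
    rw [hηζ, map_smul, norm_smul, Complex.norm_real, Real.norm_of_nonneg hn.le]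
    rw [lt_div_iff₀ hn] at hq1
    linarith

end Crest.Agent.R109
end

-- ▼ part R109/Choice

/-!
# Row 109: the choice lemma (domination trick)
-/

set_option autoImplicit false

namespace Crest.Agent.R109

namespace Choice

open Finset

/-- partial Bernoulli expectation -/
noncomputable def F {N : ℕ} (lam : ℝ) (W : Finset (Fin N) → ℝ) (s T : Finset (Fin N)) : ℝ :=
  ∑ B ∈ s.powerset, lam ^ B.card * (1 - lam) ^ (s.card - B.card) * W (T ∪ B)

theorem F_insert {N : ℕ} (lam : ℝ) (W : Finset (Fin N) → ℝ) (s T : Finset (Fin N)) {a : Fin N}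
    (ha : a ∉ s) : F lam W (insert a s) T = (1 - lam) * F lam W s T + lam * F lam W s (insert a T) := by
  unfold F
  rw [Finset.sum_powerset_insert ha, Finset.mul_sum, Finset.mul_sum]
  congr 1
  · refine Finset.sum_congr rfl fun B hB => ?_
    have hB' : B ⊆ s := Finset.mem_powerset.1 hB
    have h1 : B.card ≤ s.card := Finset.card_le_card hB'
    rw [Finset.card_insert_of_notMem ha, Nat.sub_add_comm h1, pow_succ]
    ring
  · refine Finset.sum_congr rfl fun B hB => ?_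
    have hB' : B ⊆ s := Finset.mem_powerset.1 hB
    have haB : a ∉ B := fun h => ha (hB' h)
    rw [Finset.card_insert_of_notMem ha, Finset.card_insert_of_notMem haB, Nat.add_sub_add_right,
      pow_succ, Finset.union_insert, Finset.insert_union]
    ring

/-- one step: a colour `a` of the list and a set `U` of further colours -/
theorem step {r : ℕ} (hr : 2 ≤ r) (A : Finset (Fin r)) (hA : r ≤ 2 * A.card) (x y : Fin r → ℝ) :
    ∃ a ∈ A, x a + ∑ i ∈ univ.erase a, min (x i) (y i)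
      ≤ ∑ i, (2 / (r : ℝ) * x i + (1 - 2 / (r : ℝ)) * y i) := by
  have hr0 : (0 : ℝ) < r := by positivity
  have hAc : 0 < A.card := by omega
  have hA0 : (0 : ℝ) < A.card := by exact_mod_cast hAc
  have hAne : A.Nonempty := Finset.card_pos.1 hAc
  by_contra hcon
  push Not at hcon
  have h1 : (A.card : ℝ) * ∑ i, (2 / (r : ℝ) * x i + (1 - 2 / (r : ℝ)) * y i)
      < ∑ a ∈ A, (x a + ∑ i ∈ univ.erase a, min (x i) (y i)) := by
    rw [← nsmul_eq_mul, ← Finset.sum_const]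
    exact Finset.sum_lt_sum_of_nonempty hAne fun a ha => hcon a ha
  have h2 : ∀ a : Fin r, ∑ i ∈ univ.erase a, min (x i) (y i)
      = (∑ i, min (x i) (y i)) - min (x a) (y a) := fun a => by
    rw [← Finset.sum_erase_add _ _ (Finset.mem_univ a)]; ring
  have h3 : ∑ a ∈ A, (x a + ∑ i ∈ univ.erase a, min (x i) (y i))
      = ∑ i, ((if i ∈ A then (x i - min (x i) (y i)) else 0) + A.card * min (x i) (y i)) := by
    have e1 : ∑ a ∈ A, (x a + ∑ i ∈ univ.erase a, min (x i) (y i))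
        = ∑ a ∈ A, (x a - min (x a) (y a)) + A.card * ∑ i, min (x i) (y i) := by
      rw [← nsmul_eq_mul, ← Finset.sum_const, ← Finset.sum_add_distrib]
      refine Finset.sum_congr rfl fun a _ => ?_
      rw [h2 a]; ring
    have e2 : ∑ i, (if i ∈ A then (x i - min (x i) (y i)) else 0)
        = ∑ a ∈ A, (x a - min (x a) (y a)) := by
      rw [← Finset.sum_filter, Finset.filter_mem_eq_inter, Finset.univ_inter]
    rw [e1, Finset.sum_add_distrib, e2, Finset.mul_sum]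
  rw [h3, Finset.mul_sum] at h1
  refine absurd h1 (not_lt.2 (Finset.sum_le_sum fun i _ => ?_))
  have h4 : (1 : ℝ) ≤ A.card * (2 / r) := by
    rw [mul_div_assoc', le_div_iff₀ hr0, one_mul]
    have : (r : ℝ) ≤ 2 * A.card := by exact_mod_cast hA
    linarith
  have h5 : 2 / (r : ℝ) ≤ 1 := by
    rw [div_le_one hr0]; exact_mod_cast hr
  have hmx : min (x i) (y i) ≤ x i := min_le_left _ _
  have hmy : min (x i) (y i) ≤ y i := min_le_right _ _
  have h6 : A.card * ((1 - 2 / (r : ℝ)) * min (x i) (y i)) ≤ A.card * ((1 - 2 / (r : ℝ)) * y i) :=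
    mul_le_mul_of_nonneg_left (mul_le_mul_of_nonneg_left hmy (by linarith)) hA0.le
  have h7 : (if i ∈ A then (x i - min (x i) (y i)) else 0)
      ≤ A.card * (2 / r) * (x i - min (x i) (y i)) := by
    split_ifs
    · nlinarith [mul_le_mul_of_nonneg_right h4 (sub_nonneg.2 hmx)]
    · exact mul_nonneg (by positivity) (sub_nonneg.2 hmx)
  calc (if i ∈ A then (x i - min (x i) (y i)) else 0) + A.card * min (x i) (y i)
      ≤ A.card * (2 / r) * (x i - min (x i) (y i)) + A.card * min (x i) (y i) := by linarith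
    _ = A.card * (2 / r) * x i + A.card * ((1 - 2 / (r : ℝ)) * min (x i) (y i)) := by ring
    _ ≤ A.card * (2 / r) * x i + A.card * ((1 - 2 / (r : ℝ)) * y i) := by linarith
    _ = A.card * (2 / (r : ℝ) * x i + (1 - 2 / (r : ℝ)) * y i) := by ring

/-- the cells from `k` on -/
def tail (N k : ℕ) : Finset (Fin N) := univ.filter fun j => k ≤ j.val

theorem tail_zero (N : ℕ) : tail N 0 = univ := by ext; simp [tail]
theorem tail_self (N : ℕ) : tail N N = ∅ := by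
  ext j; simp [tail, Nat.not_le.2 j.isLt]
theorem tail_step {N k : ℕ} (hk : k < N) : tail N k = insert ⟨k, hk⟩ (tail N (k + 1)) := by
  ext j
  simp only [tail, mem_filter, mem_univ, true_and, mem_insert, Fin.ext_iff]
  omega
theorem notMem_tail {N k : ℕ} (hk : k < N) : (⟨k, hk⟩ : Fin N) ∉ tail N (k + 1) := by
  simp [tail]

theorem main {N r : ℕ} (hr : 2 ≤ r) (L : Lists N r) (W : Fin r → Finset (Fin N) → ℝ) (k : ℕ)
    (hk : k ≤ N) : ∃ (c : Fin N → Fin r) (S : Fin r → Finset (Fin N)),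
      (∀ j : Fin N, j.val < k → c j ∈ L.Adm j c) ∧ (∀ j : Fin N, j.val < k → j ∈ S (c j)) ∧
      ∑ i, F (2 / (r : ℝ)) (W i) (tail N k) (S i) ≤ ∑ i, F (2 / (r : ℝ)) (W i) (tail N 0) ∅ := by
  classical
  induction k with
  | zero =>
    exact ⟨fun _ => ⟨0, by omega⟩, fun _ => ∅, fun j hj => absurd hj (Nat.not_lt_zero _),
      fun j hj => absurd hj (Nat.not_lt_zero _), le_rfl⟩
  | succ k ih =>
    obtain ⟨c, S, h1, h2, h3⟩ := ih (Nat.le_of_succ_le hk)
    have hk' : k < N := hk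
    set v : Fin N := ⟨k, hk'⟩ with hv
    obtain ⟨a, haA, ha⟩ := step hr (L.Adm v c) (L.card v c)
      (fun i => F (2 / (r : ℝ)) (W i) (tail N (k + 1)) (insert v (S i)))
      (fun i => F (2 / (r : ℝ)) (W i) (tail N (k + 1)) (S i))
    refine ⟨Function.update c v a, fun i => if i = a ∨
      F (2 / (r : ℝ)) (W i) (tail N (k + 1)) (insert v (S i))
        ≤ F (2 / (r : ℝ)) (W i) (tail N (k + 1)) (S i) then insert v (S i) else S i, ?_, ?_, ?_⟩
    · intro j hj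
      have hpast : L.Adm j (Function.update c v a) = L.Adm j c := by
        refine L.past j _ _ fun l hl => ?_
        have hlv : l ≠ v := by
          rintro rfl
          have : k < j.val := hl
          omega
        exact Function.update_of_ne hlv _ _
      rw [hpast]
      rcases Nat.lt_succ_iff_lt_or_eq.1 hj with hj' | hj'
      · have hjv : j ≠ v := by rintro rfl; exact lt_irrefl _ hj'
        rw [Function.update_of_ne hjv]
        exact h1 j hj'
      · have hjv : j = v := Fin.ext hj'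
        subst hjv
        rw [Function.update_self]
        exact haA
    · intro j hj
      rcases Nat.lt_succ_iff_lt_or_eq.1 hj with hj' | hj'
      · have hjv : j ≠ v := by rintro rfl; exact lt_irrefl _ hj'
        rw [Function.update_of_ne hjv]
        show j ∈ if _ then _ else _
        split_ifs
        · exact Finset.mem_insert_of_mem (h2 j hj')
        · exact h2 j hj'
      · have hjv : j = v := Fin.ext hj'
        subst hjv
        rw [Function.update_self]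
        simp
    · refine le_trans ?_ (le_trans ha ?_)
      · rw [← Finset.add_sum_erase _ _ (Finset.mem_univ a)]
        refine add_le_add (le_of_eq (by simp)) (Finset.sum_le_sum fun i hi => ?_)
        have hia : i ≠ a := Finset.ne_of_mem_erase hi
        simp only [hia, false_or]
        split_ifs with h
        · exact le_min le_rfl h
        · exact le_min (not_le.1 h).le le_rfl
      · refine le_trans (le_of_eq (Finset.sum_congr rfl fun i _ => ?_)) h3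
        rw [tail_step hk', F_insert _ _ _ _ (notMem_tail hk')]
        ring

end Choice

/-- the choice lemma -/
theorem choice : ChoiceProp := by
  intro N r hr L W hW
  obtain ⟨c, S, h1, h2, h3⟩ := Choice.main hr L W N le_rfl
  refine ⟨c, S, fun j => h1 j j.isLt, fun j => h2 j j.isLt, ?_⟩
  rw [Choice.tail_self, Choice.tail_zero] at h3
  simpa [Choice.F] using h3

end Crest.Agent.R109
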