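import Crest.Agent.R109.Spec

/-!
# Row 109: selection of dominant points (Gleason's theorem)
-/

set_option autoImplicit false
set_option linter.unusedSectionVars false

namespace Crest.Agent.R109

open Set TopologicalSpace

universe u

section Sel

variable {X : Type u} [TopologicalSpace X] [CompactSpace X] [T2Space X]

/-- `W` is subordinate to the finite family `s` of clopen sets -/
def Sub (s : Finset (Clopens X)) (W : Clopens X) : Prop := ∀ V ∈ s, W ≤ V ∨ Disjoint W V

lemma Sub.mono {s : Finset (Clopens X)} {W W' : Clopens X} (h : Sub s W) (hW : W' ≤ W) : Sub s W' :=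
  fun V hV => (h V hV).imp (fun h1 => hW.trans h1) fun h1 => h1.mono_left hW


/-- Selection: either there is a continuous choice of points of mass `≥ c` on a nonempty clopen set,
or there is an open dense set locally on which all small sets have mass `< c`. -/
theorem select [ExtremallyDisconnected X] (h : Clopens X → X → ℝ)
    (hcont : ∀ V, Continuous (h V)) (hmono : ∀ V W, V ≤ W → ∀ t, h V t ≤ h W t)
    (hbot : ∀ t, h ⊥ t = 0) {c : ℝ} (hc : 0 < c) :
    (∃ F : Clopens X, F ≠ ⊥ ∧ ∃ σ : X → X, Continuous σ ∧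
        ∀ t ∈ F, ∀ V : Clopens X, σ t ∈ V → c ≤ h V t) ∨
    (∃ U : Set X, IsOpen U ∧ Dense U ∧ ∀ V : Clopens X, (V : Set X) ⊆ U →
        ∃ s : Finset (Clopens X), ∀ W, Sub s W → ∀ t ∈ V, h W t < c) := by
  classical
  have hts : TotallySeparatedSpace X := inferInstance
  set Z : Set (X × X) := {p | ∀ V : Clopens X, p.2 ∈ V → c ≤ h V p.1} with hZ
  have hZcl : IsClosed Z := by
    have : Z = ⋂ V : Clopens X, {p : X × X | p.2 ∉ V} ∪ {p : X × X | c ≤ h V p.1} := by
      ext p
      simp only [hZ, mem_iInter, mem_union]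
      exact forall_congr' fun V => imp_iff_not_or
    rw [this]
    refine isClosed_iInter fun V => IsClosed.union ?_ ?_
    · exact (V.isClopen.2.preimage continuous_snd).isClosed_compl
    · exact isClosed_le continuous_const ((hcont V).comp continuous_fst)
  have hπ : IsClosed (Prod.fst '' Z) := (hZcl.isCompact.image continuous_fst).isClosed
  by_cases hint : (interior (Prod.fst '' Z)).Nonempty
  · left
    obtain ⟨t₀, ht₀⟩ := hint
    obtain ⟨F, hF, htF, hFU⟩ := compact_exists_isClopen_in_isOpen isOpen_interior ht₀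
    have hFZ : F ⊆ Prod.fst '' Z := hFU.trans interior_subset
    -- the compact space `Y`
    let Y : Set (X × X) := {p | p.1 ∈ F → p ∈ Z}
    have hY : IsClosed Y := by
      have : Y = {p : X × X | p.1 ∉ F} ∪ Z := by
        ext p; exact imp_iff_not_or
      rw [this]
      exact (hF.2.preimage continuous_fst).isClosed_compl.union hZcl
    have : CompactSpace Y := isCompact_iff_compactSpace.1 hY.isCompact
    let g : Y → X := fun p => p.1.1
    have hg : Continuous g := continuous_fst.comp continuous_subtype_val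
    have hsurj : Function.Surjective g := by
      intro t
      by_cases ht : t ∈ F
      · obtain ⟨p, hp, hpt⟩ := hFZ ht
        exact ⟨⟨p, fun _ => hp⟩, hpt⟩
      · exact ⟨⟨(t, t), fun h => absurd h ht⟩, rfl⟩
    obtain ⟨k, hk, hkg⟩ := CompactT2.ExtremallyDisconnected.projective (A := X) continuous_id hg hsurj
    refine ⟨⟨F, hF⟩, ?_, fun t => (k t).1.2, continuous_snd.comp (continuous_subtype_val.comp hk), ?_⟩
    · intro h0
      have : t₀ ∈ (⟨F, hF⟩ : Clopens X) := htF
      rw [h0] at this
      exact this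
    · intro t ht V hV
      have h1 : (k t).1.1 = t := congrFun hkg t
      have h2 : (k t).1 ∈ Z := (k t).2 (by rw [h1]; exact ht)
      have h3 := h2 V hV
      rwa [h1] at h3
  · right
    refine ⟨(Prod.fst '' Z)ᶜ, hπ.isOpen_compl, ?_, ?_⟩
    · exact interior_eq_empty_iff_dense_compl.1 (not_nonempty_iff_eq_empty.1 hint)
    · intro V hV
      -- rectangles
      have hrect : ∀ p : X × X, p.1 ∈ V → ∃ W V' : Clopens X, p.1 ∈ W ∧ p.2 ∈ V' ∧
          ∀ t ∈ W, h V' t < c := by
        intro p hp
        have hpZ : p ∉ Z := fun hpz => hV hp ⟨p, hpz, rfl⟩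
        have hpZ' : ¬ ∀ V : Clopens X, p.2 ∈ V → c ≤ h V p.1 := hpZ
        simp only [not_forall, not_le] at hpZ'
        obtain ⟨V', hpV', hlt⟩ := hpZ'
        obtain ⟨W, hW, hpW, hWU⟩ := compact_exists_isClopen_in_isOpen
          (isOpen_lt (hcont V') continuous_const) (show p.1 ∈ {t | h V' t < c} from hlt)
        exact ⟨⟨W, hW⟩, V', hpW, hpV', fun t ht => hWU ht⟩
      choose! W V' hW hV' hlt using hrect
      have hK : IsCompact ((V : Set X) ×ˢ (univ : Set X)) :=
        V.isClopen.1.isCompact.prod isCompact_univ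
      obtain ⟨τ, hτ, hcov⟩ := hK.elim_nhds_subcover (fun p => (W p : Set X) ×ˢ (V' p : Set X))
        fun p hp => prod_mem_nhds ((W p).isClopen.2.mem_nhds (hW p hp.1))
          ((V' p).isClopen.2.mem_nhds (hV' p hp.1))
      refine ⟨τ.image V', fun W₀ hW₀ t ht => ?_⟩
      by_cases hne : ∃ s, s ∈ W₀
      · obtain ⟨s, hs⟩ := hne
        have : (t, s) ∈ (V : Set X) ×ˢ (univ : Set X) := ⟨ht, mem_univ _⟩
        obtain ⟨p, hp, hpt⟩ := mem_iUnion₂.1 (hcov this)
        have h1 : W₀ ≤ V' p := by
          rcases hW₀ (V' p) (Finset.mem_image_of_mem _ hp) with h1 | h1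
          · exact h1
          · exfalso
            have : s ∈ W₀ ⊓ V' p := ⟨hs, hpt.2⟩
            rw [disjoint_iff.1 h1] at this
            exact this
        exact (hmono _ _ h1 t).trans_lt (hlt p (hτ p hp).1 t hpt.1)
      · have : W₀ = ⊥ := by
          ext s
          exact ⟨fun hs => absurd ⟨s, hs⟩ hne, fun hs => absurd hs (by simp)⟩
        rw [this, hbot]
        exact hc

end Sel

end Crest.Agent.R109
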