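import Crest.Agent.R109.CE
import Crest.Agent.R109.Select
import Crest.Agent.R109.Spec
import Crest.Agent.R109.Simple
import Crest.Agent.R109.GN

-- ▼ part R109/DiffLim
section

/-!
# Row 109, diffuse lemma, part 1: the intertwining limit
-/

set_option autoImplicit false
set_option linter.unusedSectionVars false
set_option linter.style.haveILetI false

namespace Crest.Agent.R109

open Crest.Agent.R124 Crest.Agent.R121
open scoped InnerProductSpace ComplexOrder Topology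
open ContinuousLinearMap Set TopologicalSpace Filter

universe u

variable {H : Type u} [NormedAddCommGroup H] [InnerProductSpace ℂ H] [CompleteSpace H]
variable {M : VonNeumannAlgebra H} {A : StarSubalgebra ℂ (H →L[ℂ] H)} {η : H}

lemma inner_mul_star' (x y : H →L[ℂ] H) (u v : H) : ⟪x u, y v⟫_ℂ = ⟪u, (star x * y) v⟫_ℂ := by
  rw [ContinuousLinearMap.star_eq_adjoint]
  exact (ContinuousLinearMap.adjoint_inner_right _ _ _).symm

/-- right multiplication by a projection of `A`: Pythagoras -/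
lemma CVec.pythagoras (hc : CVec M A η) {x p : H →L[ℂ] H} (hx : x ∈ M) (hpM : p ∈ M) (hp : p ∈ A)
    (hpp : IsStarProjection p) : ‖x η‖ ^ 2 = ‖x (p η)‖ ^ 2 + ‖x ((1 - p) η)‖ ^ 2 := by
  have h1 : ⟪x (p η), x ((1 - p) η)⟫_ℂ = 0 := by
    change ⟪(x * p) η, (x * (1 - p)) η⟫_ℂ = 0
    rw [inner_mul_star', star_mul, hpp.isSelfAdjoint.star_eq, mul_assoc,
      hc p hp _ (mul_mem (star_mem hx) (mul_mem hx (sub_mem (one_mem _) hpM)))]
    have : star x * (x * (1 - p)) * p = 0 := by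
      rw [mul_assoc, mul_assoc, sub_mul, one_mul, hpp.isIdempotentElem.eq, sub_self, mul_zero,
        mul_zero]
    rw [this]; simp
  have h2 : x η = x (p η) + x ((1 - p) η) := by
    rw [← map_add]
    congr 1
    change η = p η + (η - p η)
    abel
  rw [h2, sq, sq, sq]
  exact norm_add_sq_eq_norm_sq_add_norm_sq_of_inner_eq_zero _ _ h1

lemma CVec.norm_right (hc : CVec M A η) {x p : H →L[ℂ] H} (hx : x ∈ M) (hpM : p ∈ M) (hp : p ∈ A)
    (hpp : IsStarProjection p) : ‖x (p η)‖ ≤ ‖x η‖ := by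
  have h := hc.pythagoras hx hpM hp hpp
  apply le_of_sq_le_sq _ (norm_nonneg _)
  nlinarith [sq_nonneg ‖x ((1 - p) η)‖]

/-- a Boolean homomorphism from clopen sets to projections of `A` -/
structure BHom (A : StarSubalgebra ℂ (H →L[ℂ] H)) {X : Type u} [TopologicalSpace X]
    (θ : Clopens X → H →L[ℂ] H) : Prop where
  mem : ∀ V, θ V ∈ A
  proj : ∀ V, IsStarProjection (θ V)
  inf : ∀ V W, θ (V ⊓ W) = θ V * θ W
  compl : ∀ V, θ Vᶜ = θ ⊤ - θ V

namespace Diff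

variable (m : Model A) (θ : Clopens m.X → H →L[ℂ] H)

/-- elementary averaging -/
noncomputable def T (V : Clopens m.X) (z : H →L[ℂ] H) : H →L[ℂ] H :=
  m.pr V * z * θ V + m.pr Vᶜ * z * θ Vᶜ

/-- the convex set -/
structure S (M : VonNeumannAlgebra H) (η : H) (y : H →L[ℂ] H) (c : ℝ) (z : H →L[ℂ] H) : Prop where
  mem : z ∈ M
  norm : ‖z‖ ≤ ‖y‖
  low : ∀ V W : Clopens m.X, c * ‖(θ V * m.pr W) η‖ ^ 2 ≤
    (⟪y (m.pr W η), m.pr V (z η)⟫_ℂ).re
  left : ∀ g ∈ M, (∀ V, m.pr V * g = g * θ V) → ⟪g η, z η⟫_ℂ = ⟪g η, y η⟫_ℂ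
  right : ∀ g ∈ M, (∀ V, m.pr V * g = g * θ V) → ⟪star g η, star z η⟫_ℂ = ⟪star g η, star y η⟫_ℂ
  rel : ∀ a ∈ A, ∀ b ∈ A, a * y = y * b → a * z = z * b

variable {m θ}

lemma T_mem (hA : Masa M A) (hθ : BHom A θ) {z : H →L[ℂ] H} (hz : z ∈ M) (V : Clopens m.X) :
    T m θ V z ∈ M :=
  add_mem (mul_mem (mul_mem (hA.memM (m.pr_mem _)) hz) (hA.memM (hθ.mem _)))
    (mul_mem (mul_mem (hA.memM (m.pr_mem _)) hz) (hA.memM (hθ.mem _)))

lemma pr_orth (V : Clopens m.X) : m.pr V * m.pr Vᶜ = 0 := by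
  rw [m.pr_compl, mul_sub, mul_one, m.pr_idem, sub_self]

lemma BHom.orth (hθ : BHom A θ) (V : Clopens m.X) : θ V * θ Vᶜ = 0 := by
  rw [hθ.compl, mul_sub, ← hθ.inf, inf_top_eq, (hθ.proj V).isIdempotentElem.eq, sub_self]

lemma norm_sq_add_of_orth {u v : H} (V : Clopens m.X) :
    ‖m.pr V u + m.pr Vᶜ v‖ ^ 2 = ‖m.pr V u‖ ^ 2 + ‖m.pr Vᶜ v‖ ^ 2 := by
  have h1 : ⟪m.pr V u, m.pr Vᶜ v⟫_ℂ = 0 := by
    rw [inner_mul_star', m.star_pr, pr_orth]; simp
  rw [sq, sq, sq]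
  exact norm_add_sq_eq_norm_sq_add_norm_sq_of_inner_eq_zero _ _ h1

lemma norm_sq_pr (V : Clopens m.X) (u : H) : ‖u‖ ^ 2 = ‖m.pr V u‖ ^ 2 + ‖m.pr Vᶜ u‖ ^ 2 := by
  rw [← norm_sq_add_of_orth, m.pr_compl]
  congr 2
  change u = m.pr V u + (u - m.pr V u)
  abel

lemma norm_sq_theta (hθ : BHom A θ) (V : Clopens m.X) (u : H) :
    ‖θ V u‖ ^ 2 + ‖θ Vᶜ u‖ ^ 2 ≤ ‖u‖ ^ 2 := by
  have h1 : ⟪θ V u, θ Vᶜ u⟫_ℂ = 0 := by
    rw [inner_mul_star', (hθ.proj V).isSelfAdjoint.star_eq, BHom.orth hθ]; simp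
  have h2 : ‖θ V u + θ Vᶜ u‖ ^ 2 = ‖θ V u‖ ^ 2 + ‖θ Vᶜ u‖ ^ 2 := by
    rw [sq, sq, sq]
    exact norm_add_sq_eq_norm_sq_add_norm_sq_of_inner_eq_zero _ _ h1
  rw [← h2]
  have h3 : θ V u + θ Vᶜ u = θ ⊤ u := by
    rw [hθ.compl]
    change θ V u + (θ ⊤ u - θ V u) = _
    abel
  rw [h3]
  exact norm_proj_le (hθ.proj ⊤) u

lemma T_apply (V : Clopens m.X) (z : H →L[ℂ] H) (u : H) :
    T m θ V z u = m.pr V (z (θ V u)) + m.pr Vᶜ (z (θ Vᶜ u)) := rfl

lemma norm_T_le (hθ : BHom A θ) (V : Clopens m.X) (z : H →L[ℂ] H) : ‖T m θ V z‖ ≤ ‖z‖ := by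
  refine ContinuousLinearMap.opNorm_le_bound _ (norm_nonneg _) fun u => ?_
  apply le_of_sq_le_sq _ (by positivity)
  rw [T_apply, norm_sq_add_of_orth]
  have h1 : ∀ W (v : H), ‖m.pr W (z v)‖ ^ 2 ≤ ‖z‖ ^ 2 * ‖v‖ ^ 2 := by
    intro W v
    calc ‖m.pr W (z v)‖ ^ 2 ≤ ‖z v‖ ^ 2 := norm_proj_le (m.pr_proj W) _
      _ ≤ (‖z‖ * ‖v‖) ^ 2 := by gcongr; exact z.le_opNorm v
      _ = _ := by ring
  calc _ ≤ ‖z‖ ^ 2 * ‖θ V u‖ ^ 2 + ‖z‖ ^ 2 * ‖θ Vᶜ u‖ ^ 2 := add_le_add (h1 _ _) (h1 _ _)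
    _ = ‖z‖ ^ 2 * (‖θ V u‖ ^ 2 + ‖θ Vᶜ u‖ ^ 2) := by ring
    _ ≤ ‖z‖ ^ 2 * ‖u‖ ^ 2 := by gcongr; exact norm_sq_theta hθ V u
    _ = _ := by ring

lemma norm_T_apply_le (h : NCE M A η) (hθ : BHom A θ) (V : Clopens m.X) {z : H →L[ℂ] H}
    (hz : z ∈ M) : ‖T m θ V z η‖ ≤ ‖z η‖ := by
  apply le_of_sq_le_sq _ (norm_nonneg _)
  rw [T_apply, norm_sq_add_of_orth, norm_sq_pr V (z η)]
  have h1 : ∀ W V', ‖m.pr W (z (θ V' η))‖ ^ 2 ≤ ‖m.pr W (z η)‖ ^ 2 := by
    intro W V'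
    have := h.cvec.norm_right (x := m.pr W * z) (p := θ V') (mul_mem (h.masa.memM (m.pr_mem W)) hz)
      (h.masa.memM (hθ.mem V')) (hθ.mem V') (hθ.proj V')
    exact pow_le_pow_left₀ (norm_nonneg _) this 2
  exact add_le_add (h1 _ _) (h1 _ _)

lemma S_self (h : NCE M A η) (hθ : BHom A θ) {y : H →L[ℂ] H} (hy : y ∈ M) {c : ℝ}
    (hlow : ∀ V, (c : ℂ) • θ V ≤ CE A η (star y * m.pr V * y)) : S m θ M η y c y where
  mem := hy
  norm := le_rfl
  left := fun _ _ _ => rfl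
  right := fun _ _ _ => rfl
  rel := fun _ _ _ _ h => h
  low := by
    intro V W
    have hA := h.masa
    have hWM := hA.memM (m.pr_mem W)
    have hVM := hA.memM (m.pr_mem V)
    have hX : star y * m.pr V * y ∈ M := mul_mem (mul_mem (star_mem hy) hVM) hy
    -- both sides as `φ(W ·)`
    have h1 : ⟪y (m.pr W η), m.pr V (y η)⟫_ℂ = ⟪η, (m.pr W * (star y * m.pr V * y)) η⟫_ℂ := by
      change ⟪(y * m.pr W) η, (m.pr V * y) η⟫_ℂ = _
      rw [inner_mul_star', star_mul, m.star_pr]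
      simp only [mul_assoc]
    rw [h1, ← h.inner_CE hX (m.pr_mem W)]
    set K := CE A η (star y * m.pr V * y) with hK
    have hKA : K ∈ A := h.CE_mem hX
    have h2 : ⟪η, (m.pr W * K) η⟫_ℂ = ⟪m.pr W η, K (m.pr W η)⟫_ℂ := by
      change _ = ⟪m.pr W η, (K * m.pr W) η⟫_ℂ
      rw [inner_mul_star', m.star_pr, ← mul_assoc, hA.comm _ (m.pr_mem W) _ hKA, mul_assoc,
        m.pr_idem, hA.comm _ hKA _ (m.pr_mem W)]
    rw [h2]
    have h3 : 0 ≤ K - (c : ℂ) • θ V := sub_nonneg.2 (hlow V)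
    have h4 := ((ContinuousLinearMap.nonneg_iff_isPositive _).1 h3).re_inner_nonneg_right
      (m.pr W η)
    rw [sub_apply, inner_sub_right, smul_apply, inner_smul_right] at h4
    have h5 : ⟪m.pr W η, θ V (m.pr W η)⟫_ℂ = ((‖(θ V * m.pr W) η‖ ^ 2 : ℝ) : ℂ) := by
      have : ⟪(θ V * m.pr W) η, (θ V * m.pr W) η⟫_ℂ = ⟪m.pr W η, θ V (m.pr W η)⟫_ℂ := by
        change ⟪θ V (m.pr W η), θ V (m.pr W η)⟫_ℂ = _
        rw [inner_mul_star', (hθ.proj V).isSelfAdjoint.star_eq, (hθ.proj V).isIdempotentElem.eq]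
      rw [← this, inner_self_eq_norm_sq_to_K]
      norm_cast
    rw [h5] at h4
    have h6 : (RCLike.re (⟪m.pr W η, K (m.pr W η)⟫_ℂ - (c : ℂ) * ((‖(θ V * m.pr W) η‖ ^ 2 : ℝ) : ℂ))
        : ℝ) = (⟪m.pr W η, K (m.pr W η)⟫_ℂ).re - c * ‖(θ V * m.pr W) η‖ ^ 2 := by
      rw [← Complex.ofReal_mul]
      change (⟪m.pr W η, K (m.pr W η)⟫_ℂ - ((c * ‖(θ V * m.pr W) η‖ ^ 2 : ℝ) : ℂ)).re = _
      rw [Complex.sub_re, Complex.ofReal_re]
    rw [h6] at h4
    linarith

lemma S_convex {y : H →L[ℂ] H} {c : ℝ} {z w : H →L[ℂ] H} (hz : S m θ M η y c z)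
    (hw : S m θ M η y c w) : S m θ M η y c ((1 / 2 : ℂ) • (z + w)) where
  mem := by
    exact M.toStarSubalgebra.smul_mem (add_mem hz.mem hw.mem) _
  norm := by
    rw [norm_smul]
    have h1 : ‖(1 / 2 : ℂ)‖ = 1 / 2 := by norm_num
    rw [h1]
    have := norm_add_le z w
    linarith [hz.norm, hw.norm]
  low := by
    intro V W
    have h1 : ⟪y (m.pr W η), m.pr V (((1 / 2 : ℂ) • (z + w)) η)⟫_ℂ =
        (1 / 2 : ℂ) * (⟪y (m.pr W η), m.pr V (z η)⟫_ℂ + ⟪y (m.pr W η), m.pr V (w η)⟫_ℂ) := by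
      rw [smul_apply, add_apply, map_smul, map_add, inner_smul_right, inner_add_right]
    rw [h1]
    have h2 := hz.low V W
    have h3 := hw.low V W
    have h4 : ((1 / 2 : ℂ) * (⟪y (m.pr W η), m.pr V (z η)⟫_ℂ
        + ⟪y (m.pr W η), m.pr V (w η)⟫_ℂ)).re =
        1 / 2 * ((⟪y (m.pr W η), m.pr V (z η)⟫_ℂ).re + (⟪y (m.pr W η), m.pr V (w η)⟫_ℂ).re) := by
      have : (1 / 2 : ℂ) = ((1 / 2 : ℝ) : ℂ) := by norm_num
      rw [this, Complex.re_ofReal_mul, Complex.add_re]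
    rw [h4]
    linarith
  left := by
    intro g hg hg2
    rw [smul_apply, add_apply, inner_smul_right, inner_add_right, hz.left g hg hg2,
      hw.left g hg hg2]
    ring
  right := by
    intro g hg hg2
    have : star ((1 / 2 : ℂ) • (z + w)) = (1 / 2 : ℂ) • (star z + star w) := by
      rw [star_smul, star_add]
      congr 1
      norm_num
    rw [this, smul_apply, add_apply, inner_smul_right, inner_add_right, hz.right g hg hg2,
      hw.right g hg hg2]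
    ring
  rel := by
    intro a ha b hb hab
    rw [mul_smul_comm, smul_mul_assoc, mul_add, add_mul, hz.rel a ha b hb hab,
      hw.rel a ha b hb hab]

lemma S_T (h : NCE M A η) (hθ : BHom A θ) {y : H →L[ℂ] H} (hy : y ∈ M) {c : ℝ}
    {z : H →L[ℂ] H} (hz : S m θ M η y c z) (V : Clopens m.X) : S m θ M η y c (T m θ V z) where
  mem := T_mem h.masa hθ hz.mem V
  norm := (norm_T_le hθ V z).trans hz.norm
  low := by
    intro V₁ W
    have hA := h.masa
    -- the inner product splits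
    have key : ∀ V' : Clopens m.X, ⟪y (m.pr W η), m.pr V₁ (m.pr V' (z (θ V' η)))⟫_ℂ =
        ⟪y (m.pr W (θ V' η)), (m.pr (V₁ ⊓ V')) (z η)⟫_ℂ := by
      intro V'
      change ⟪(y * m.pr W) η, ((m.pr V₁ * m.pr V') * z * θ V') η⟫_ℂ =
        ⟪(y * (m.pr W * θ V')) η, (m.pr (V₁ ⊓ V') * z) η⟫_ℂ
      rw [inner_mul_star', inner_mul_star', m.pr_inf, ← mul_assoc (star (y * m.pr W)),
        ← h.cvec _ (hθ.mem V') _ (mul_mem (star_mem (mul_mem hy (hA.memM (m.pr_mem W))))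
          (mul_mem (mul_mem (hA.memM (m.pr_mem _)) (hA.memM (m.pr_mem _))) hz.mem))]
      congr 2
      simp only [star_mul, m.star_pr, (hθ.proj V').isSelfAdjoint.star_eq, mul_assoc]
    have key2 : ∀ V' : Clopens m.X, c * ‖(θ V' * (θ V₁ * m.pr W)) η‖ ^ 2 ≤
        (⟪y (m.pr W η), m.pr V₁ (m.pr V' (z (θ V' η)))⟫_ℂ).re := by
      intro V'
      obtain ⟨W', hW'⟩ := m.exists_pr (hθ.mem V') (hθ.proj V')
      have h1 := hz.low (V₁ ⊓ V') (W ⊓ W')
      have h2 : m.pr (W ⊓ W') η = m.pr W (θ V' η) := by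
        rw [m.pr_inf, hW']; rfl
      rw [h2, ← key] at h1
      have h3 : θ (V₁ ⊓ V') * m.pr (W ⊓ W') = θ V' * (θ V₁ * m.pr W) := by
        rw [hθ.inf, m.pr_inf, hW', hA.comm _ (m.pr_mem W) _ (hθ.mem V'), mul_assoc,
          ← mul_assoc (θ V') (θ V'), (hθ.proj V').isIdempotentElem.eq, ← mul_assoc, ← mul_assoc,
          hA.comm _ (hθ.mem V₁) _ (hθ.mem V')]
      rwa [h3] at h1
    have h1 : m.pr V₁ (T m θ V z η) = m.pr V₁ (m.pr V (z (θ V η)))
        + m.pr V₁ (m.pr Vᶜ (z (θ Vᶜ η))) := by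
      rw [T_apply, map_add]
    rw [h1, inner_add_right, Complex.add_re]
    have h2 := key2 V
    have h3 := key2 Vᶜ
    have h4 : ‖(θ V₁ * m.pr W) η‖ ^ 2 =
        ‖(θ V * (θ V₁ * m.pr W)) η‖ ^ 2 + ‖(θ Vᶜ * (θ V₁ * m.pr W)) η‖ ^ 2 := by
      have h5 : (θ V₁ * m.pr W) η = θ V ((θ V₁ * m.pr W) η) + θ Vᶜ ((θ V₁ * m.pr W) η) := by
        have h6 : θ V₁ = θ ⊤ * θ V₁ := by rw [← hθ.inf, top_inf_eq]
        have h7 : θ V ((θ V₁ * m.pr W) η) + θ Vᶜ ((θ V₁ * m.pr W) η)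
            = (θ ⊤ * θ V₁ * m.pr W) η := by
          rw [hθ.compl]
          change θ V ((θ V₁ * m.pr W) η) + (θ ⊤ ((θ V₁ * m.pr W) η) - θ V ((θ V₁ * m.pr W) η))
            = θ ⊤ ((θ V₁ * m.pr W) η)
          abel
        rw [h7, ← h6]
      have h8 : ⟪θ V ((θ V₁ * m.pr W) η), θ Vᶜ ((θ V₁ * m.pr W) η)⟫_ℂ = 0 := by
        rw [inner_mul_star', (hθ.proj V).isSelfAdjoint.star_eq, BHom.orth hθ]; simp
      conv_lhs => rw [h5]
      rw [sq, sq, sq]
      exact norm_add_sq_eq_norm_sq_add_norm_sq_of_inner_eq_zero _ _ h8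
    rw [h4]
    linarith
  left := by
    intro g hg hg2
    have hA := h.masa
    have key : ∀ V' : Clopens m.X, ⟪g η, m.pr V' (z (θ V' η))⟫_ℂ = ⟪g η, m.pr V' (z η)⟫_ℂ := by
      intro V'
      have h1 : ⟪g η, m.pr V' (z (θ V' η))⟫_ℂ = ⟪η, (star g * m.pr V' * z * θ V') η⟫_ℂ := by
        change ⟪g η, (m.pr V' * z * θ V') η⟫_ℂ = _
        rw [inner_mul_star']; simp only [mul_assoc]
      have h2 : star g * m.pr V' = θ V' * star g := by
        have := congrArg star (hg2 V')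
        rwa [star_mul, star_mul, m.star_pr, (hθ.proj V').isSelfAdjoint.star_eq] at this
      rw [h1, h2]
      have h3 : θ V' * star g * z * θ V' = θ V' * (star g * z * θ V') := by
        simp only [mul_assoc]
      rw [h3, h.cvec _ (hθ.mem V') _ (mul_mem (mul_mem (star_mem hg) hz.mem)
        (hA.memM (hθ.mem V'))), mul_assoc (star g * z), (hθ.proj V').isIdempotentElem.eq,
        ← h.cvec _ (hθ.mem V') _ (mul_mem (star_mem hg) hz.mem), ← mul_assoc, ← h2]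
      change _ = ⟪g η, (m.pr V' * z) η⟫_ℂ
      rw [inner_mul_star', mul_assoc]
    rw [T_apply, inner_add_right, key, key, ← inner_add_right, m.pr_compl]
    have : m.pr V (z η) + (1 - m.pr V) (z η) = z η := by
      change m.pr V (z η) + (z η - m.pr V (z η)) = z η
      abel
    rw [this, hz.left g hg hg2]
  right := by
    intro g hg hg2
    have hA := h.masa
    have hst : star (T m θ V z) = θ V * star z * m.pr V + θ Vᶜ * star z * m.pr Vᶜ := by
      rw [T, star_add, star_mul, star_mul, star_mul, star_mul, m.star_pr, m.star_pr,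
        (hθ.proj V).isSelfAdjoint.star_eq, (hθ.proj Vᶜ).isSelfAdjoint.star_eq, ← mul_assoc,
        ← mul_assoc]
    have key : ∀ V' : Clopens m.X, ⟪star g η, (θ V' * star z * m.pr V') η⟫_ℂ
        = ⟪star g η, (star z * m.pr V') η⟫_ℂ := by
      intro V'
      rw [inner_mul_star', inner_mul_star', star_star]
      have h1 : g * (θ V' * star z * m.pr V') = m.pr V' * (g * (star z * m.pr V')) := by
        rw [← mul_assoc, ← mul_assoc, ← hg2]; simp only [mul_assoc]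
      rw [h1, h.cvec _ (m.pr_mem V') _ (mul_mem hg (mul_mem (star_mem hz.mem)
        (hA.memM (m.pr_mem V')))), mul_assoc, mul_assoc, m.pr_idem]
    rw [hst, add_apply, inner_add_right, key, key, ← inner_add_right, m.pr_compl]
    have : (star z * m.pr V) η + (star z * (1 - m.pr V)) η = star z η := by
      rw [← add_apply, ← mul_add]
      have : m.pr V + (1 - m.pr V) = 1 := by abel
      rw [this, mul_one]
    rw [this, hz.right g hg hg2]
  rel := by
    intro a ha b hb hab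
    have h1 := hz.rel a ha b hb hab
    have hA := h.masa
    rw [T, mul_add, add_mul]
    have key : ∀ V', a * (m.pr V' * z * θ V') = m.pr V' * z * θ V' * b := by
      intro V'
      rw [← mul_assoc, ← mul_assoc, hA.comm a ha _ (m.pr_mem V'), mul_assoc (m.pr V') a z, h1,
        mul_assoc _ (θ V') b, hA.comm _ (hθ.mem V') b hb]
      simp only [mul_assoc]
    rw [key, key]

/-- The intertwining limit: the element of minimal `η`-norm of the convex set `S`. -/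
theorem exists_Y (h : NCE M A η) (hθ : BHom A θ) {y : H →L[ℂ] H} (hy : y ∈ M) {c : ℝ}
    (hlow : ∀ V, (c : ℂ) • θ V ≤ CE A η (star y * m.pr V * y)) :
    ∃ Y, S m θ M η y c Y ∧ ∀ V, m.pr V * Y = Y * θ V := by
  classical
  have hA := h.masa
  have hne : ∃ z, S m θ M η y c z := ⟨y, S_self h hθ hy hlow⟩
  set I : ℝ := sInf {r | ∃ z, S m θ M η y c z ∧ r = ‖z η‖ ^ 2} with hI
  have hbdd : BddBelow {r | ∃ z, S m θ M η y c z ∧ r = ‖z η‖ ^ 2} :=
    ⟨0, by rintro _ ⟨z, -, rfl⟩; positivity⟩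
  have hnon : {r | ∃ z, S m θ M η y c z ∧ r = ‖z η‖ ^ 2}.Nonempty :=
    ⟨_, y, S_self h hθ hy hlow, rfl⟩
  have hIle : ∀ z, S m θ M η y c z → I ≤ ‖z η‖ ^ 2 := fun z hz => csInf_le hbdd ⟨z, hz, rfl⟩
  have hex : ∀ n : ℕ, ∃ z, S m θ M η y c z ∧ ‖z η‖ ^ 2 < I + 1 / ((n : ℝ) + 1) := by
    intro n
    obtain ⟨_, ⟨z, hz, rfl⟩, hlt⟩ := exists_lt_of_csInf_lt hnon
      (show sInf {r | ∃ z, S m θ M η y c z ∧ r = ‖z η‖ ^ 2} < I + 1 / ((n : ℝ) + 1) by
        rw [← hI]; linarith [show (0 : ℝ) < 1 / ((n : ℝ) + 1) by positivity])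
    exact ⟨z, hz, hlt⟩
  choose z hz hzlt using hex
  -- two almost minimal elements are close
  have hclose : ∀ z w : H →L[ℂ] H, S m θ M η y c z → S m θ M η y c w → ∀ a b : ℝ,
      ‖z η‖ ^ 2 ≤ I + a → ‖w η‖ ^ 2 ≤ I + b → ‖z η - w η‖ ^ 2 ≤ 2 * a + 2 * b := by
    intro z w hz hw a b ha hb
    have h1 := hIle _ (S_convex hz hw)
    have h2 : ‖((1 / 2 : ℂ) • (z + w)) η‖ ^ 2 = 1 / 4 * ‖z η + w η‖ ^ 2 := by
      rw [smul_apply, add_apply, norm_smul, mul_pow]
      have : ‖(1 / 2 : ℂ)‖ = 1 / 2 := by norm_num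
      rw [this]; norm_num
    rw [h2] at h1
    have h3 := parallelogram_law_with_norm ℂ (z η) (w η)
    nlinarith [sq_nonneg ‖z η - w η‖]
  have hcauchy : CauchySeq (fun n => z n η) := by
    rw [Metric.cauchySeq_iff']
    intro ε hε
    obtain ⟨N, hN⟩ := exists_nat_one_div_lt (show (0 : ℝ) < ε ^ 2 / 4 by positivity)
    refine ⟨N, fun n hn => ?_⟩
    rw [dist_eq_norm]
    have h1 := hclose _ _ (hz n) (hz N) _ _ (hzlt n).le (hzlt N).le
    have h2 : (1 : ℝ) / (n + 1) ≤ 1 / (N + 1) := by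
      apply one_div_le_one_div_of_le (by positivity)
      have : (N : ℝ) ≤ n := by exact_mod_cast hn
      linarith
    have h3 : ‖z n η - z N η‖ ^ 2 < ε ^ 2 := by linarith
    exact lt_of_pow_lt_pow_left₀ 2 hε.le h3
  obtain ⟨L, hLM, hLn, hL⟩ := strong_lim M h.sep (l := atTop) (F := z) (fun n => (hz n).mem)
    (fun n => (hz n).norm) hcauchy
  have hSL : S m θ M η y c L :=
    { mem := hLM
      norm := hLn
      low := by
        intro V W
        have h1 : Tendsto (fun n => (⟪y (m.pr W η), m.pr V (z n η)⟫_ℂ).re) atTop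
            (𝓝 (⟪y (m.pr W η), m.pr V (L η)⟫_ℂ).re) := by
          refine (Complex.continuous_re.tendsto _).comp ?_
          exact (tendsto_const_nhds).inner (((m.pr V).continuous.tendsto _).comp (hL η))
        exact ge_of_tendsto' h1 fun n => (hz n).low V W
      left := by
        intro g hg hg2
        have h1 : Tendsto (fun n => ⟪g η, z n η⟫_ℂ) atTop (𝓝 ⟪g η, L η⟫_ℂ) :=
          tendsto_const_nhds.inner (hL η)
        have h2 : Tendsto (fun n => ⟪g η, z n η⟫_ℂ) atTop (𝓝 ⟪g η, y η⟫_ℂ) :=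
          tendsto_const_nhds.congr fun n => ((hz n).left g hg hg2).symm
        exact tendsto_nhds_unique h1 h2
      right := by
        intro g hg hg2
        have e : ∀ x : H →L[ℂ] H, ⟪star g η, star x η⟫_ℂ = ⟪x (star g η), η⟫_ℂ := by
          intro x
          rw [ContinuousLinearMap.star_eq_adjoint x, ContinuousLinearMap.adjoint_inner_right]
        have h1 : Tendsto (fun n => ⟪star g η, star (z n) η⟫_ℂ) atTop
            (𝓝 ⟪star g η, star L η⟫_ℂ) := by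
          simp only [e]
          exact (hL (star g η)).inner tendsto_const_nhds
        have h2 : Tendsto (fun n => ⟪star g η, star (z n) η⟫_ℂ) atTop
            (𝓝 ⟪star g η, star y η⟫_ℂ) :=
          tendsto_const_nhds.congr fun n => ((hz n).right g hg hg2).symm
        exact tendsto_nhds_unique h1 h2
      rel := by
        intro a ha b hb hab
        ext ζ
        have h1 : Tendsto (fun n => a (z n ζ)) atTop (𝓝 (a (L ζ))) :=
          (a.continuous.tendsto _).comp (hL ζ)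
        have h2 : Tendsto (fun n => a (z n ζ)) atTop (𝓝 (L (b ζ))) := by
          refine (hL (b ζ)).congr fun n => ?_
          have := congrArg (fun R : H →L[ℂ] H => R ζ) ((hz n).rel a ha b hb hab)
          exact this.symm
        exact tendsto_nhds_unique h1 h2 }
  refine ⟨L, hSL, ?_⟩
  have hTL : ∀ V, T m θ V L = L := by
    intro V
    apply eq_of_apply_eq M h.sep (T_mem hA hθ hLM V) hLM
    have h1 : Tendsto (fun n => z n η - T m θ V (z n) η) atTop (𝓝 (L η - T m θ V L η)) := by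
      refine (hL η).sub ?_
      simp only [T_apply]
      exact (((m.pr V).continuous.tendsto _).comp (hL _)).add
        (((m.pr Vᶜ).continuous.tendsto _).comp (hL _))
    have h2 : Tendsto (fun n => z n η - T m θ V (z n) η) atTop (𝓝 0) := by
      rw [tendsto_zero_iff_norm_tendsto_zero]
      have h3 : Tendsto (fun n : ℕ => Real.sqrt (4 * (1 / ((n : ℝ) + 1)))) atTop (𝓝 0) := by
        have h4 : Tendsto (fun n : ℕ => 4 * (1 / ((n : ℝ) + 1))) atTop (𝓝 0) := by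
          have := (tendsto_one_div_add_atTop_nhds_zero_nat (𝕜 := ℝ)).const_mul 4
          simpa using this
        have h5 := (Real.continuous_sqrt.tendsto 0).comp h4
        rwa [Real.sqrt_zero] at h5
      refine squeeze_zero (fun n => norm_nonneg _) (fun n => ?_) h3
      apply Real.le_sqrt_of_sq_le
      have h6 : ‖T m θ V (z n) η‖ ^ 2 ≤ I + 1 / ((n : ℝ) + 1) :=
        (pow_le_pow_left₀ (norm_nonneg _) (norm_T_apply_le h hθ V (hz n).mem) 2).trans
          (hzlt n).le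
      have := hclose _ _ (hz n) (S_T h hθ hy (hz n) V) _ _ (hzlt n).le h6
      linarith
    have h3 := tendsto_nhds_unique h1 h2
    exact (sub_eq_zero.1 h3).symm
  intro V
  have h1 : m.pr V * L = m.pr V * L * θ V := by
    conv_lhs => rw [← hTL V]
    rw [T, mul_add, ← mul_assoc, ← mul_assoc, m.pr_idem, ← mul_assoc, ← mul_assoc, pr_orth,
      zero_mul, zero_mul, add_zero]
  have h2 : L * θ V = m.pr V * L * θ V := by
    conv_lhs => rw [← hTL V]
    rw [T, add_mul, mul_assoc _ (θ V) (θ V), (hθ.proj V).isIdempotentElem.eq,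
      mul_assoc _ (θ Vᶜ) (θ V)]
    have : θ Vᶜ * θ V = 0 := by
      have := BHom.orth hθ Vᶜ
      rwa [compl_compl] at this
    rw [this, mul_zero, add_zero]
  rw [h1, h2]

end Diff

end Crest.Agent.R109
end

-- ▼ part R109/Spec2
section

/-!
# Row 109: order reflection in the spectral model
-/

set_option autoImplicit false
set_option linter.unusedSectionVars false

namespace Crest.Agent.R109

open scoped InnerProductSpace ComplexOrder
open ContinuousLinearMap Set TopologicalSpace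

universe u

variable {H : Type u} [NormedAddCommGroup H] [InnerProductSpace ℂ H] [CompleteSpace H]
variable {M : VonNeumannAlgebra H} {A : StarSubalgebra ℂ (H →L[ℂ] H)}

namespace Model

variable (m : Model A)

lemma pr_eq_zero_iff {V : Clopens m.X} : m.pr V = 0 ↔ V = ⊥ := by
  rw [← m.pr_bot]; exact m.pr_injective.eq_iff

lemma real_of_isSelfAdjoint {f : C(m.X, ℂ)} (hf : IsSelfAdjoint (m.Φ f)) (t : m.X) :
    f t = ((f t).re : ℂ) := by
  have h1 : star f = f := m.inj (by rw [map_star]; exact hf.star_eq)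
  have h2 := congrArg (fun g : C(m.X, ℂ) => g t) h1
  simp only [ContinuousMap.star_apply] at h2
  exact (Complex.conj_eq_iff_re.1 h2).symm

/-- positivity is pointwise -/
theorem nonneg_iff (hA : Masa M A) {f : C(m.X, ℂ)} : 0 ≤ m.Φ f ↔ ∀ t, 0 ≤ f t := by
  constructor
  · intro h t
    have hsa : IsSelfAdjoint (m.Φ f) := IsSelfAdjoint.of_nonneg h
    rw [m.real_of_isSelfAdjoint hsa t]
    by_contra hneg
    have hlt : (f t).re < 0 := by
      by_contra h2
      exact hneg (by exact_mod_cast not_lt.1 h2)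
    -- clopen neighbourhood
    have hopen : IsOpen {s : m.X | (f s).re < (f t).re / 2} :=
      isOpen_lt (Complex.continuous_re.comp f.continuous) continuous_const
    obtain ⟨V, htV, hV⟩ := m.exists_clopen_between hA hopen (show (f t).re < (f t).re / 2 by linarith)
    have hV0 : m.pr V ≠ 0 := by
      rw [Ne, m.pr_eq_zero_iff]
      rintro rfl
      exact htV
    obtain ⟨ζ, hζ⟩ : ∃ ζ, m.pr V ζ ≠ 0 := by
      by_contra hc
      push Not at hc
      exact hV0 (ContinuousLinearMap.ext hc)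
    set ξ := m.pr V ζ with hξ
    have hfix : m.pr V ξ = ξ := by
      change (m.pr V * m.pr V) ζ = _
      rw [m.pr_idem]
    set δ : ℝ := -((f t).re / 2) with hδ
    have hδ0 : 0 < δ := by rw [hδ]; linarith
    have h1 : 0 ≤ m.Φ (m.ind V * (-f - algebraMap ℂ C(m.X, ℂ) (δ : ℂ))) := by
      apply m.nonneg_of_nonneg
      intro s
      classical
      change (0 : ℂ) ≤ m.ind V s * (-(f s) - (algebraMap ℂ C(m.X, ℂ) (δ : ℂ)) s)
      rw [m.real_of_isSelfAdjoint hsa s]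
      by_cases hs : s ∈ V
      · rw [m.ind_of_mem hs, one_mul]
        have h2 : (f s).re < (f t).re / 2 := hV hs
        have h3 : (algebraMap ℂ C(m.X, ℂ) (δ : ℂ)) s = (δ : ℂ) := rfl
        rw [h3]
        have : (0 : ℝ) ≤ -(f s).re - δ := by rw [hδ]; linarith
        exact_mod_cast this
      · rw [m.ind_of_notMem hs, zero_mul]
    have h2 := ((ContinuousLinearMap.nonneg_iff_isPositive _).1 h1).re_inner_nonneg_right ξ
    have h3 := ((ContinuousLinearMap.nonneg_iff_isPositive _).1 h).re_inner_nonneg_right ξ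
    have h4 : m.Φ (m.ind V * (-f - algebraMap ℂ C(m.X, ℂ) (δ : ℂ))) ξ =
        m.pr V (-(m.Φ f ξ) - (δ : ℂ) • ξ) := by
      rw [map_mul, map_sub, map_neg, AlgHomClass.commutes]
      rfl
    have h5 : ⟪ξ, m.pr V (-(m.Φ f ξ) - (δ : ℂ) • ξ)⟫_ℂ = ⟪ξ, -(m.Φ f ξ) - (δ : ℂ) • ξ⟫_ℂ := by
      have hs : ContinuousLinearMap.adjoint (m.pr V) = m.pr V := m.star_pr V
      conv_lhs => rw [← hs, ContinuousLinearMap.adjoint_inner_right, hfix]
    rw [h4, h5, inner_sub_right, inner_neg_right, inner_smul_right, inner_self_eq_norm_sq_to_K]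
      at h2
    have h6 : (RCLike.re (-⟪ξ, m.Φ f ξ⟫_ℂ - (δ : ℂ) * ((‖ξ‖ : ℂ)) ^ 2) : ℝ) =
        -(⟪ξ, m.Φ f ξ⟫_ℂ).re - δ * ‖ξ‖ ^ 2 := by
      change (-⟪ξ, m.Φ f ξ⟫_ℂ - (δ : ℂ) * ((‖ξ‖ : ℂ)) ^ 2).re = _
      rw [Complex.sub_re, Complex.neg_re, ← Complex.ofReal_pow, ← Complex.ofReal_mul,
        Complex.ofReal_re]
    have h7 : (0 : ℝ) ≤ -(⟪ξ, m.Φ f ξ⟫_ℂ).re - δ * ‖ξ‖ ^ 2 := by
      rw [← h6]; exact h2
    have h8 : (0 : ℝ) ≤ (⟪ξ, m.Φ f ξ⟫_ℂ).re := h3
    have h9 : 0 < ‖ξ‖ := norm_pos_iff.2 hζ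
    nlinarith [pow_pos h9 2]
  · intro h
    exact m.nonneg_of_nonneg h

theorem le_iff (hA : Masa M A) {f g : C(m.X, ℂ)} : m.Φ f ≤ m.Φ g ↔ ∀ t, f t ≤ g t := by
  rw [← sub_nonneg, ← map_sub, m.nonneg_iff hA]
  exact forall_congr' fun t => by
    change 0 ≤ g t - f t ↔ _
    exact sub_nonneg

/-- an element of `M` commuting with all `m.pr V` is in `A` -/
theorem mem_of_pr_comm (hA : Masa M A) {z : H →L[ℂ] H} (hz : z ∈ M)
    (h : ∀ V : Clopens m.X, m.pr V * z = z * m.pr V) : z ∈ A := by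
  refine hA.max z hz fun a ha => hA.comm_of_proj (fun p hp hpp => ?_) ha
  obtain ⟨V, rfl⟩ := m.exists_pr hp hpp
  exact h V

end Model

end Crest.Agent.R109
end

-- ▼ part R109/Diffuse

/-!
# Row 109, diffuse lemma: an element of `M` which is orthogonal to all normalisers is diffuse
-/

set_option autoImplicit false
set_option linter.unusedSectionVars false
set_option linter.style.haveILetI false

namespace Crest.Agent.R109

open Crest.Agent.R124 Crest.Agent.R121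
open scoped InnerProductSpace ComplexOrder Topology
open ContinuousLinearMap Set TopologicalSpace Filter

universe u

variable {H : Type u} [NormedAddCommGroup H] [InnerProductSpace ℂ H] [CompleteSpace H]
variable {M : VonNeumannAlgebra H} {A : StarSubalgebra ℂ (H →L[ℂ] H)} {η : H}

namespace Diff

variable (m : Model A)

/-- representing functions of the kernel -/
structure Rep (A : StarSubalgebra ℂ (H →L[ℂ] H)) (m : Model A) (η : H) (y : H →L[ℂ] H)
    (f : Clopens m.X → C(m.X, ℂ)) : Prop where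
  rep : ∀ V, m.Φ (f V) = CE A η (star y * m.pr V * y)

variable {m}

lemma exists_rep (h : NCE M A η) {y : H →L[ℂ] H} (hy : y ∈ M) : ∃ f, Rep A m η y f := by
  have : ∀ V : Clopens m.X, ∃ f, m.Φ f = CE A η (star y * m.pr V * y) := fun V =>
    (m.mem_iff _).1 (h.CE_mem (mul_mem (mul_mem (star_mem hy) (h.masa.memM (m.pr_mem V))) hy))
  choose f hf using this
  exact ⟨f, ⟨hf⟩⟩

lemma kernel_mem (h : NCE M A η) {y : H →L[ℂ] H} (hy : y ∈ M) (V : Clopens m.X) :
    star y * m.pr V * y ∈ M := mul_mem (mul_mem (star_mem hy) (h.masa.memM (m.pr_mem V))) hy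

lemma conj_le {a b : H →L[ℂ] H} (hab : a ≤ b) (y : H →L[ℂ] H) : star y * a * y ≤ star y * b * y := by
  rw [← sub_nonneg]
  have : star y * b * y - star y * a * y = star y * (b - a) * y := by
    rw [mul_sub, sub_mul]
  rw [this]
  exact star_left_conjugate_nonneg (sub_nonneg.2 hab) y

lemma pr_mono {V W : Clopens m.X} (hVW : V ≤ W) : m.pr V ≤ m.pr W := by
  classical
  apply m.mono
  intro x
  change m.ind V x ≤ m.ind W x
  by_cases h1 : x ∈ V
  · rw [m.ind_of_mem h1, m.ind_of_mem (hVW h1)]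
  · rw [m.ind_of_notMem h1]
    by_cases h2 : x ∈ W
    · rw [m.ind_of_mem h2]; exact zero_le_one
    · rw [m.ind_of_notMem h2]

lemma Rep.mono {y : H →L[ℂ] H} {f : Clopens m.X → C(m.X, ℂ)} (hf : Rep A m η y f) (h : NCE M A η)
    (hy : y ∈ M) {V W : Clopens m.X} (hVW : V ≤ W) (t : m.X) : f V t ≤ f W t := by
  revert t
  rw [← m.le_iff h.masa, hf.rep, hf.rep]
  exact h.CE_mono (kernel_mem h hy V) (kernel_mem h hy W) (conj_le (pr_mono hVW) y)

lemma Rep.nonneg {y : H →L[ℂ] H} {f : Clopens m.X → C(m.X, ℂ)} (hf : Rep A m η y f)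
    (h : NCE M A η) (hy : y ∈ M) (V : Clopens m.X) (t : m.X) : 0 ≤ f V t := by
  revert t
  rw [← m.nonneg_iff h.masa, hf.rep]
  exact h.CE_nonneg (kernel_mem h hy V) (star_left_conjugate_nonneg (m.pr_proj V).nonneg y)

lemma Rep.bot {y : H →L[ℂ] H} {f : Clopens m.X → C(m.X, ℂ)} (hf : Rep A m η y f)
    (h : NCE M A η) : f ⊥ = 0 := by
  apply m.inj
  rw [hf.rep, m.pr_bot, mul_zero, zero_mul, h.CE_zero, map_zero]

lemma Rep.top_le {y : H →L[ℂ] H} {f : Clopens m.X → C(m.X, ℂ)} (hf : Rep A m η y f)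
    (h : NCE M A η) (hy : y ∈ M) (V : Clopens m.X) (t : m.X) :
    f V t ≤ ((‖y‖ ^ 2 : ℝ) : ℂ) := by
  have h0 : m.Φ (f V) ≤ m.Φ (algebraMap ℂ _ ((‖y‖ ^ 2 : ℝ) : ℂ)) := by
    rw [hf.rep, AlgHomClass.commutes, ← h.CE_of_mem (algebraMap_mem A ((‖y‖ ^ 2 : ℝ) : ℂ))]
    refine h.CE_mono (kernel_mem h hy V) (h.masa.memM (algebraMap_mem A _)) ?_
    have h1 : star y * m.pr V * y ≤ star y * 1 * y := by
      rw [← m.pr_top]
      exact conj_le (pr_mono le_top) y
    rw [mul_one] at h1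
    refine h1.trans ?_
    have h2 : star y * y ≤ algebraMap ℝ _ (‖y‖ ^ 2) := CStarAlgebra.star_mul_le_algebraMap_norm_sq
    exact h2
  exact (m.le_iff h.masa).1 h0 t

/-- real part of an inequality between real functions -/
lemma re_mono {a b : ℂ} (hab : a ≤ b) : a.re ≤ b.re := (Complex.le_def.1 hab).1

lemma eq_re_of_nonneg {a : ℂ} (ha : 0 ≤ a) : a = (a.re : ℂ) := by
  have := (Complex.le_def.1 ha).2
  exact Complex.ext rfl (by simpa using this.symm)

/-- the preimage of a clopen set under the selection, inside `F` -/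
def pre (F : Clopens m.X) (σ : m.X → m.X) (hσ : Continuous σ) (V : Clopens m.X) : Clopens m.X :=
  ⟨(F : Set m.X) ∩ σ ⁻¹' (V : Set m.X), F.isClopen.inter (V.isClopen.preimage hσ)⟩

lemma mem_pre {F : Clopens m.X} {σ : m.X → m.X} {hσ : Continuous σ} {V : Clopens m.X} {t : m.X} :
    t ∈ pre F σ hσ V ↔ t ∈ F ∧ σ t ∈ V := Iff.rfl

lemma bhom_pre (F : Clopens m.X) (σ : m.X → m.X) (hσ : Continuous σ) :
    BHom A (fun V => m.pr (pre F σ hσ V)) where
  mem := fun V => m.pr_mem _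
  proj := fun V => m.pr_proj _
  inf := fun V W => by
    rw [← m.pr_inf]
    congr 1
    ext t
    change t ∈ pre F σ hσ (V ⊓ W) ↔ t ∈ pre F σ hσ V ∧ t ∈ pre F σ hσ W
    rw [mem_pre, mem_pre, mem_pre]
    change t ∈ F ∧ (σ t ∈ V ∧ σ t ∈ W) ↔ _
    tauto
  compl := fun V => by
    have h1 : pre F σ hσ ⊤ = pre F σ hσ V ⊔ pre F σ hσ Vᶜ := by
      ext t
      change t ∈ pre F σ hσ ⊤ ↔ t ∈ pre F σ hσ V ∨ t ∈ pre F σ hσ Vᶜ
      rw [mem_pre, mem_pre, mem_pre]
      change t ∈ F ∧ True ↔ (t ∈ F ∧ σ t ∈ V) ∨ (t ∈ F ∧ ¬ σ t ∈ V)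
      tauto
    have h2 : Disjoint (pre F σ hσ V) (pre F σ hσ Vᶜ) := by
      rw [disjoint_iff]
      ext t
      change (t ∈ pre F σ hσ V ∧ t ∈ pre F σ hσ Vᶜ) ↔ False
      rw [mem_pre, mem_pre]
      change (t ∈ F ∧ σ t ∈ V) ∧ (t ∈ F ∧ ¬ σ t ∈ V) ↔ False
      tauto
    rw [h1, m.pr_sup _ _ h2, add_sub_cancel_left]

/-- either a continuous selection of heavy points, or smallness on a dense open set -/
lemma dich (h : NCE M A η) {y : H →L[ℂ] H} (hy : y ∈ M) {f : Clopens m.X → C(m.X, ℂ)}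
    (hf : Rep A m η y f) {c : ℝ} (hc : 0 < c) :
    (∃ F : Clopens m.X, F ≠ ⊥ ∧ ∃ θ : Clopens m.X → H →L[ℂ] H, BHom A θ ∧ θ ⊤ = m.pr F ∧
      ∀ V, (c : ℂ) • θ V ≤ CE A η (star y * m.pr V * y)) ∨
    (∃ U : Set m.X, IsOpen U ∧ Dense U ∧ ∀ V : Clopens m.X, (V : Set m.X) ⊆ U →
        ∃ s : Finset (Clopens m.X), ∀ W, Sub s W → ∀ t ∈ V, (f W t).re < c) := by
  have hED := m.extremallyDisconnected h.masa
  rcases select (fun V t => (f V t).re) (fun V => Complex.continuous_re.comp (f V).continuous)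
    (fun V W hVW t => re_mono (hf.mono h hy hVW t)) (fun t => by
      rw [hf.bot h]; simp) hc with ⟨F, hF, σ, hσ, hsel⟩ | hU
  · left
    refine ⟨F, hF, fun V => m.pr (pre F σ hσ V), bhom_pre F σ hσ, ?_, fun V => ?_⟩
    · change m.pr _ = _
      congr 1
      ext t
      change t ∈ pre F σ hσ ⊤ ↔ t ∈ F
      rw [mem_pre]
      exact and_iff_left trivial
    · rw [← hf.rep]
      have h1 : (c : ℂ) • m.pr (pre F σ hσ V) = m.Φ ((c : ℂ) • m.ind (pre F σ hσ V)) := by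
        rw [map_smul]; rfl
      change (c : ℂ) • m.pr (pre F σ hσ V) ≤ _
      rw [h1, m.le_iff h.masa]
      intro t
      change (c : ℂ) * m.ind (pre F σ hσ V) t ≤ f V t
      by_cases ht : t ∈ pre F σ hσ V
      · rw [m.ind_of_mem ht, mul_one, eq_re_of_nonneg (hf.nonneg h hy V t)]
        exact_mod_cast hsel t ht.1 V ht.2
      · rw [m.ind_of_notMem ht, mul_zero]
        exact hf.nonneg h hy V t
  · right; exact hU

/-- a partition all of whose refinements are subordinate to a finite family of clopen sets -/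
lemma exists_FP_sub (hA : Masa M A) (s : Finset (Clopens m.X)) :
    ∃ P : FP A, ∀ Q, P ≤ Q → ∀ i, ∃ W, Q.e i = m.pr W ∧ Sub s W := by
  classical
  have hdir := FP.directed (A := A) hA.comm
  haveI := hdir
  obtain ⟨P, hP⟩ := (s.image fun V => FP.two (m.pr_mem V) (m.pr_proj V)).exists_le
  refine ⟨P, fun Q hPQ i => ?_⟩
  obtain ⟨W, hW⟩ := m.exists_pr (Q.part.mem i) (Q.part.proj i)
  refine ⟨W, hW.symm, fun V hV => ?_⟩
  have h1 : FP.two (m.pr_mem V) (m.pr_proj V) ≤ Q :=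
    (hP _ (Finset.mem_image_of_mem _ hV)).trans hPQ
  obtain ⟨g, hg⟩ := h1
  have h2 := FP.le_mul g hg (0 : Fin 2) i
  have h3 : (FP.two (m.pr_mem V) (m.pr_proj V)).e (0 : Fin 2) = m.pr V := rfl
  rw [h3, ← hW] at h2
  by_cases h4 : g i = (0 : Fin 2)
  · left
    rw [if_pos h4, ← m.pr_inf] at h2
    exact inf_eq_right.1 (m.pr_injective h2)
  · right
    rw [if_neg h4, ← m.pr_inf, m.pr_eq_zero_iff] at h2
    rw [disjoint_comm, disjoint_iff]
    exact h2

lemma inner_re_mono {a b : H →L[ℂ] H} (hab : a ≤ b) (ξ : H) :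
    (⟪ξ, a ξ⟫_ℂ).re ≤ (⟪ξ, b ξ⟫_ℂ).re := by
  have h1 := ((ContinuousLinearMap.nonneg_iff_isPositive _).1
    (sub_nonneg.2 hab)).re_inner_nonneg_right ξ
  rw [sub_apply, inner_sub_right] at h1
  have h2 : (0 : ℝ) ≤ (⟪ξ, b ξ⟫_ℂ - ⟪ξ, a ξ⟫_ℂ).re := h1
  rw [Complex.sub_re] at h2
  linarith

/-- the basic estimate -/
lemma sum_sq_le (h : NCE M A η) {y : H →L[ℂ] H} (hy : y ∈ M) {f : Clopens m.X → C(m.X, ℂ)}
    (hf : Rep A m η y f) {c : ℝ} (hc : 0 < c) (V : Clopens m.X) (Q : FP A)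
    (W : Fin Q.n → Clopens m.X) (hW : ∀ i, Q.e i = m.pr (W i))
    (hlt : ∀ i, ∀ t ∈ V, (f (W i) t).re < c) :
    ∑ i, ‖CE A η (star y * Q.e i * y) η‖ ^ 2 ≤
      ‖y‖ ^ 2 * (c * ‖η‖ ^ 2 + ‖y‖ ^ 2 * ‖m.pr Vᶜ η‖ ^ 2) := by
  classical
  set K : Fin Q.n → H →L[ℂ] H := fun i => CE A η (star y * Q.e i * y) with hK
  have hKf : ∀ i, K i = m.Φ (f (W i)) := fun i => by rw [hf.rep, hK]; simp only [hW]
  have hKs : ∀ i, star (K i) = K i := fun i => by
    have : 0 ≤ K i := by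
      rw [hKf, m.nonneg_iff h.masa]; exact hf.nonneg h hy _
    exact (IsSelfAdjoint.of_nonneg this).star_eq
  set b : C(m.X, ℂ) := (c : ℂ) • 1 + ((‖y‖ ^ 2 : ℝ) : ℂ) • m.ind Vᶜ with hb
  have hbt : ∀ t, b t = if t ∈ V then (c : ℂ) else (c : ℂ) + ((‖y‖ ^ 2 : ℝ) : ℂ) := by
    intro t
    have h1 : b t = (c : ℂ) * 1 + ((‖y‖ ^ 2 : ℝ) : ℂ) * m.ind Vᶜ t := rfl
    rw [h1]
    by_cases ht : t ∈ V
    · rw [if_pos ht, m.ind_of_notMem (show t ∉ Vᶜ from fun h => h ht)]; ring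
    · rw [if_neg ht, m.ind_of_mem (show t ∈ Vᶜ from ht)]; ring
  have hfb : ∀ i t, f (W i) t ≤ b t := by
    intro i t
    rw [hbt]
    by_cases ht : t ∈ V
    · rw [if_pos ht, eq_re_of_nonneg (hf.nonneg h hy _ t)]
      exact_mod_cast (hlt i t ht).le
    · rw [if_neg ht]
      refine (hf.top_le h hy (W i) t).trans ?_
      have : (0 : ℝ) ≤ c := hc.le
      exact_mod_cast (by linarith : ‖y‖ ^ 2 ≤ c + ‖y‖ ^ 2)
  have h1 : ∀ i, K i * K i ≤ m.Φ b * K i := by
    intro i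
    rw [hKf, ← map_mul, ← map_mul, m.le_iff h.masa]
    intro t
    exact mul_le_mul_of_nonneg_right (hfb i t) (hf.nonneg h hy _ t)
  have h2 : ∑ i, K i = m.Φ (f ⊤) := by
    rw [hf.rep, m.pr_top, mul_one, hK]
    simp only
    rw [← h.CE_sum (s := Finset.univ) (F := fun i => star y * Q.e i * y)
      fun i _ => mul_mem (mul_mem (star_mem hy) (h.masa.memM (Q.part.mem i))) hy]
    rw [← Finset.sum_mul, ← Finset.mul_sum, Q.part.sum, mul_one]
  have h3 : ∑ i, K i * K i ≤ ((‖y‖ ^ 2 : ℝ) : ℂ) • m.Φ b := by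
    calc ∑ i, K i * K i ≤ ∑ i, m.Φ b * K i := Finset.sum_le_sum fun i _ => h1 i
      _ = m.Φ (b * f ⊤) := by rw [← Finset.mul_sum, h2, map_mul]
      _ ≤ m.Φ (((‖y‖ ^ 2 : ℝ) : ℂ) • b) := by
        rw [m.le_iff h.masa]
        intro t
        change b t * f ⊤ t ≤ ((‖y‖ ^ 2 : ℝ) : ℂ) * b t
        rw [mul_comm]
        refine mul_le_mul_of_nonneg_right (hf.top_le h hy ⊤ t) ?_
        rw [hbt]
        split_ifs
        · exact_mod_cast hc.le
        · exact_mod_cast (by positivity : (0 : ℝ) ≤ c + ‖y‖ ^ 2)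
      _ = _ := by rw [map_smul]
  have h4 := inner_re_mono h3 η
  have h5 : (⟪η, (∑ i, K i * K i) η⟫_ℂ).re = ∑ i, ‖K i η‖ ^ 2 := by
    rw [sum_apply, inner_sum, Complex.re_sum]
    refine Finset.sum_congr rfl fun i _ => ?_
    have : ⟪η, (K i * K i) η⟫_ℂ = ⟪K i η, K i η⟫_ℂ := by
      rw [inner_mul_star', hKs]
    rw [this, inner_self_eq_norm_sq_to_K]
    norm_cast
  rw [h5] at h4
  refine h4.trans (le_of_eq ?_)
  have h6 : m.Φ b = (c : ℂ) • 1 + ((‖y‖ ^ 2 : ℝ) : ℂ) • m.pr Vᶜ := by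
    rw [hb, map_add, map_smul, map_smul, map_one]; rfl
  have h7 : ⟪η, m.pr Vᶜ η⟫_ℂ = ((‖m.pr Vᶜ η‖ ^ 2 : ℝ) : ℂ) := by
    have : ⟪m.pr Vᶜ η, m.pr Vᶜ η⟫_ℂ = ⟪η, m.pr Vᶜ η⟫_ℂ := by
      rw [inner_mul_star', m.star_pr, m.pr_idem]
    rw [← this, inner_self_eq_norm_sq_to_K]
    norm_cast
  have h8 : ⟪η, (((‖y‖ ^ 2 : ℝ) : ℂ) • m.Φ b) η⟫_ℂ =
      ((‖y‖ ^ 2 * (c * ‖η‖ ^ 2 + ‖y‖ ^ 2 * ‖m.pr Vᶜ η‖ ^ 2) : ℝ) : ℂ) := by
    have e1 : (1 : H →L[ℂ] H) η = η := rfl
    rw [h6, smul_apply, add_apply, smul_apply, smul_apply, e1, inner_smul_right,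
      inner_add_right, inner_smul_right, inner_smul_right, h7, inner_self_eq_norm_sq_to_K]
    push_cast
    rfl
  rw [h8, Complex.ofReal_re]

/-- diffuseness in terms of partitions -/
def Dif (A : StarSubalgebra ℂ (H →L[ℂ] H)) (η : H) (y : H →L[ℂ] H) : Prop :=
  ∀ κ : ℝ, 0 < κ → ∃ P : FP A, ∀ Q, P ≤ Q → ∑ i, ‖CE A η (star y * Q.e i * y) η‖ ^ 2 ≤ κ

lemma dif_of_small (h : NCE M A η) {y : H →L[ℂ] H} (hy : y ∈ M) {f : Clopens m.X → C(m.X, ℂ)}
    (hf : Rep A m η y f)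
    (hB : ∀ c : ℝ, 0 < c → ∃ U : Set m.X, IsOpen U ∧ Dense U ∧ ∀ V : Clopens m.X,
      (V : Set m.X) ⊆ U → ∃ s : Finset (Clopens m.X), ∀ W, Sub s W → ∀ t ∈ V, (f W t).re < c) :
    Dif A η y := by
  intro κ hκ
  obtain ⟨U, hU, hUd, hUV⟩ := hB (κ / (2 * (‖y‖ ^ 2 * ‖η‖ ^ 2 + 1))) (by positivity)
  obtain ⟨V, hVU, -, hVη⟩ := m.exists_clopen_inside h.masa U hU ⊤
    (by rw [hUd.closure_eq]; exact subset_univ _) η
    (show (0 : ℝ) < Real.sqrt (κ / 2) / (‖y‖ ^ 2 + 1) by positivity)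
  obtain ⟨s, hs⟩ := hUV V hVU
  obtain ⟨P, hP⟩ := exists_FP_sub h.masa s
  refine ⟨P, fun Q hPQ => ?_⟩
  choose W hW hWs using hP Q hPQ
  refine (sum_sq_le h hy hf (by positivity) V Q W hW fun i t ht => hs (W i) (hWs i) t ht).trans ?_
  rw [m.pr_top, ← m.pr_compl] at hVη
  rw [mul_add]
  have h1 : ‖y‖ ^ 2 * (κ / (2 * (‖y‖ ^ 2 * ‖η‖ ^ 2 + 1)) * ‖η‖ ^ 2) ≤ κ / 2 := by
    have : ‖y‖ ^ 2 * (κ / (2 * (‖y‖ ^ 2 * ‖η‖ ^ 2 + 1)) * ‖η‖ ^ 2) =
        κ / 2 * ((‖y‖ ^ 2 * ‖η‖ ^ 2) / (‖y‖ ^ 2 * ‖η‖ ^ 2 + 1)) := by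
      field_simp
    rw [this]
    have h2 : (‖y‖ ^ 2 * ‖η‖ ^ 2) / (‖y‖ ^ 2 * ‖η‖ ^ 2 + 1) ≤ 1 := by
      rw [div_le_one (by positivity)]; linarith
    calc κ / 2 * ((‖y‖ ^ 2 * ‖η‖ ^ 2) / (‖y‖ ^ 2 * ‖η‖ ^ 2 + 1)) ≤ κ / 2 * 1 := by gcongr
      _ = κ / 2 := mul_one _
  have h2 : ‖y‖ ^ 2 * (‖y‖ ^ 2 * ‖m.pr Vᶜ η‖ ^ 2) ≤ κ / 2 := by
    have h3 : ‖y‖ ^ 2 * ‖m.pr Vᶜ η‖ ≤ Real.sqrt (κ / 2) := by
      have h4 : ‖m.pr Vᶜ η‖ * (‖y‖ ^ 2 + 1) < Real.sqrt (κ / 2) := by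
        rwa [lt_div_iff₀ (by positivity)] at hVη
      nlinarith [norm_nonneg (m.pr Vᶜ η)]
    calc ‖y‖ ^ 2 * (‖y‖ ^ 2 * ‖m.pr Vᶜ η‖ ^ 2) = (‖y‖ ^ 2 * ‖m.pr Vᶜ η‖) ^ 2 := by ring
      _ ≤ Real.sqrt (κ / 2) ^ 2 := pow_le_pow_left₀ (by positivity) h3 2
      _ = κ / 2 := Real.sq_sqrt (by positivity)
  linarith

/-- the positive function of a positive element, cut to be invertible -/
lemma exists_cut (hA : Masa M A) {k : H →L[ℂ] H} (hk : k ∈ A) (h0 : 0 ≤ k) (hne : k ≠ 0) :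
    ∃ G : Clopens m.X, G ≠ ⊥ ∧ ∃ b ∈ A, star b = b ∧ b * k * b = m.pr G ∧ m.pr G * b = b ∧
      b * k ≠ 0 := by
  classical
  obtain ⟨f, rfl⟩ := (m.mem_iff k).1 hk
  have hf := (m.nonneg_iff hA).1 h0
  have hne' : f ≠ 0 := fun h => hne (by rw [h, map_zero])
  obtain ⟨t₀, ht₀⟩ : ∃ t, f t ≠ 0 := by
    by_contra hc
    push Not at hc
    exact hne' (ContinuousMap.ext hc)
  have hpos : 0 < (f t₀).re := by
    rcases lt_or_eq_of_le (re_mono (hf t₀)) with h | h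
    · simpa using h
    · exfalso
      apply ht₀
      rw [eq_re_of_nonneg (hf t₀), ← h]; simp
  obtain ⟨G, ht₀G, hG⟩ := m.exists_clopen_between hA
    (isOpen_lt continuous_const (Complex.continuous_re.comp f.continuous))
    (show t₀ ∈ {t : m.X | (f t₀).re / 2 < (f t).re} by
      change (f t₀).re / 2 < (f t₀).re
      linarith)
  have hG' : ∀ t ∈ G, (f t₀).re / 2 < (f t).re := fun t ht => hG ht
  -- the function `f^{-1/2}` on `G`
  let g : C(m.X, ℂ) :=
    ⟨fun t => ((Real.sqrt (max ((f t).re) ((f t₀).re / 2)))⁻¹ : ℝ), by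
      refine Complex.continuous_ofReal.comp (Continuous.inv₀ ?_ ?_)
      · exact Real.continuous_sqrt.comp ((Complex.continuous_re.comp f.continuous).max
          continuous_const)
      · intro t
        have : 0 < max ((f t).re) ((f t₀).re / 2) := lt_max_of_lt_right (by linarith)
        exact (Real.sqrt_pos.2 this).ne'⟩
  have hgt : ∀ t ∈ G, g t * f t * g t = 1 := by
    intro t ht
    have h1 : max ((f t).re) ((f t₀).re / 2) = (f t).re := max_eq_left (hG' t ht).le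
    have h2 : g t = ((Real.sqrt ((f t).re))⁻¹ : ℝ) := by
      change (((Real.sqrt (max ((f t).re) ((f t₀).re / 2)))⁻¹ : ℝ) : ℂ) = _
      rw [h1]
    have h3 : 0 < (f t).re := by linarith [hG' t ht]
    rw [h2, eq_re_of_nonneg (hf t)]
    rw [Complex.ofReal_re, ← Complex.ofReal_mul, ← Complex.ofReal_mul]
    have h4 : (Real.sqrt (f t).re)⁻¹ * (f t).re * (Real.sqrt (f t).re)⁻¹ = 1 := by
      have h5 := Real.mul_self_sqrt h3.le
      have h6 : Real.sqrt (f t).re ≠ 0 := (Real.sqrt_pos.2 h3).ne'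
      field_simp
      nlinarith
    rw [h4]; simp
  refine ⟨G, ?_, m.Φ (m.ind G * g), m.mem _, ?_, ?_, ?_, ?_⟩
  · rintro rfl; exact ht₀G
  · rw [← map_star, star_mul, m.star_ind]
    congr 1
    rw [mul_comm]
    congr 1
    ext t
    rw [ContinuousMap.star_apply]
    exact Complex.conj_ofReal _
  · rw [← map_mul, ← map_mul]
    change _ = m.Φ (m.ind G)
    congr 1
    ext t
    change (m.ind G t * g t) * f t * (m.ind G t * g t) = m.ind G t
    by_cases ht : t ∈ G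
    · rw [m.ind_of_mem ht, one_mul, hgt t ht]
    · rw [m.ind_of_notMem ht]; ring
  · change m.Φ (m.ind G) * _ = _
    rw [← map_mul, ← mul_assoc, ← m.ind_inf, inf_idem]
  · rw [← map_mul]
    intro h1
    have h2 := m.eq_zero_iff.1 h1
    have h3 : (m.ind G t₀ * g t₀) * f t₀ = 0 := congrArg (fun F : C(m.X, ℂ) => F t₀) h2
    rw [m.ind_of_mem ht₀G, one_mul] at h3
    have h4 := hgt t₀ ht₀G
    rw [h3, zero_mul] at h4
    exact zero_ne_one h4

lemma apply_eq_zero_of_re {T : H →L[ℂ] H} (hT : 0 ≤ T) {ζ : H} (h0 : (⟪ζ, T ζ⟫_ℂ).re = 0) :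
    T ζ = 0 := by
  have h1 : CFC.sqrt T * CFC.sqrt T = T := CFC.sqrt_mul_sqrt_self T hT
  have h2 : star (CFC.sqrt T) = CFC.sqrt T := (IsSelfAdjoint.of_nonneg (CFC.sqrt_nonneg T)).star_eq
  have h3 : ⟪CFC.sqrt T ζ, CFC.sqrt T ζ⟫_ℂ = ⟪ζ, T ζ⟫_ℂ := by
    rw [inner_mul_star', h2, h1]
  have h4 : ‖CFC.sqrt T ζ‖ ^ 2 = 0 := by
    rw [← h0, ← h3, inner_self_eq_norm_sq_to_K]
    norm_cast
  have h5 : CFC.sqrt T ζ = 0 := norm_eq_zero.1 (pow_eq_zero_iff two_ne_zero |>.1 h4)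
  calc T ζ = (CFC.sqrt T * CFC.sqrt T) ζ := by rw [h1]
    _ = CFC.sqrt T (CFC.sqrt T ζ) := rfl
    _ = 0 := by rw [h5, map_zero]

/-- Main step: if `y` is not diffuse it has a component along a normaliser. -/
theorem exists_GN_of_not_dif (h : NCE M A η) (m : Model A) {y : H →L[ℂ] H} (hy : y ∈ M)
    (hnd : ¬ Dif A η y) : ∃ u, GN M A u ∧ CE A η (star u * y) ≠ 0 := by
  classical
  have hA := h.masa
  -- first selection
  obtain ⟨f, hf⟩ := exists_rep (m := m) h hy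
  obtain ⟨c, hc, F, hF, θ, hθ, hθF, hlow⟩ : ∃ c : ℝ, 0 < c ∧ ∃ F : Clopens m.X, F ≠ ⊥ ∧
      ∃ θ : Clopens m.X → H →L[ℂ] H, BHom A θ ∧ θ ⊤ = m.pr F ∧
      ∀ V, (c : ℂ) • θ V ≤ CE A η (star y * m.pr V * y) := by
    by_contra hcon
    refine hnd (dif_of_small h hy hf fun c hc => ?_)
    rcases dich h hy hf hc with h1 | h1
    · exact absurd ⟨c, hc, h1⟩ hcon
    · exact h1
  obtain ⟨Y, hYS, hY⟩ := exists_Y h hθ hy hlow
  have hYM := hYS.mem
  have hYstar : ∀ V, star Y * m.pr V = θ V * star Y := fun V => by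
    have := congrArg star (hY V)
    rwa [star_mul, star_mul, m.star_pr, (hθ.proj V).isSelfAdjoint.star_eq] at this
  have hYne : Y ≠ 0 := by
    rintro rfl
    have h1 := hYS.low ⊤ ⊤
    rw [m.pr_top, mul_one, hθF] at h1
    have h2 : (⟪y ((1 : H →L[ℂ] H) η), (1 : H →L[ℂ] H) ((0 : H →L[ℂ] H) η)⟫_ℂ).re = 0 := by
      simp
    rw [h2] at h1
    have h3 : m.pr F η = 0 := by
      have : ‖m.pr F η‖ ^ 2 ≤ 0 := by
        by_contra hcon
        push Not at hcon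
        nlinarith
      have h4 : ‖m.pr F η‖ = 0 := by
        have := le_antisymm this (sq_nonneg _)
        exact pow_eq_zero_iff (two_ne_zero) |>.1 this
      exact norm_eq_zero.1 h4
    exact hF (m.pr_eq_zero_iff.1 (h.sep _ (hA.memM (m.pr_mem F)) h3))
  -- `Y a Y* ∈ A`
  have hYA : ∀ a ∈ A, Y * a * star Y ∈ A := by
    intro a ha
    apply m.mem_of_pr_comm hA (mul_mem (mul_mem hYM (hA.memM ha)) (star_mem hYM))
    intro V
    calc m.pr V * (Y * a * star Y) = (m.pr V * Y) * a * star Y := by simp only [mul_assoc]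
      _ = Y * (θ V * a) * star Y := by rw [hY]; simp only [mul_assoc]
      _ = Y * a * (θ V * star Y) := by rw [hA.comm _ (hθ.mem V) _ ha]; simp only [mul_assoc]
      _ = Y * a * star Y * m.pr V := by rw [← hYstar]; simp only [mul_assoc]
  -- second selection, for `star Y`
  have hYsM : star Y ∈ M := star_mem hYM
  obtain ⟨f', hf'⟩ := exists_rep (m := m) h hYsM
  have hnd' : ¬ Dif A η (star Y) := by
    intro hD
    -- `⟨D_Q(Y*Y) Y*η, Y*η⟩ = ∑ ‖Y Q_i Y* η‖²`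
    have hq : star Y * Y ∈ M := mul_mem hYsM hYM
    have hlim := h.tendsto_D hq (star Y η)
    have hlim2 : Tendsto (fun P : FP A => (⟪star Y η, D P (star Y * Y) (star Y η)⟫_ℂ).re) atTop
        (𝓝 (⟪star Y η, CE A η (star Y * Y) (star Y η)⟫_ℂ).re) :=
      (Complex.continuous_re.tendsto _).comp (tendsto_const_nhds.inner hlim)
    have hval : ∀ P : FP A, (⟪star Y η, D P (star Y * Y) (star Y η)⟫_ℂ).re =
        ∑ i, ‖CE A η (star (star Y) * P.e i * star Y) η‖ ^ 2 := by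
      intro P
      rw [D, sum_apply, inner_sum, Complex.re_sum]
      refine Finset.sum_congr rfl fun i _ => ?_
      rw [star_star, h.CE_of_mem (hYA _ (P.part.mem i))]
      have h1 : ⟪star Y η, (P.e i * (star Y * Y) * P.e i) (star Y η)⟫_ℂ =
          ⟪(Y * P.e i * star Y) η, (Y * P.e i * star Y) η⟫_ℂ := by
        change ⟪star Y η, ((P.e i * (star Y * Y) * P.e i) * star Y) η⟫_ℂ = _
        rw [inner_mul_star', inner_mul_star', star_star]
        simp only [star_mul, star_star, P.star_e, mul_assoc]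
      rw [h1, inner_self_eq_norm_sq_to_K]
      norm_cast
    have h0 : (⟪star Y η, CE A η (star Y * Y) (star Y η)⟫_ℂ).re ≤ 0 := by
      haveI := FP.atTop_neBot hA
      refine le_of_forall_pos_le_add fun κ hκ => ?_
      rw [zero_add]
      obtain ⟨P, hP⟩ := hD κ hκ
      refine le_of_tendsto hlim2 ?_
      filter_upwards [eventually_ge_atTop P] with Q hQ
      rw [hval]
      exact hP Q hQ
    have hE0 : 0 ≤ CE A η (star Y * Y) := h.CE_nonneg hq (star_mul_self_nonneg _)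
    have h1 : CE A η (star Y * Y) (star Y η) = 0 := by
      have h2 := ((ContinuousLinearMap.nonneg_iff_isPositive _).1 hE0)
      have h3 : (⟪star Y η, CE A η (star Y * Y) (star Y η)⟫_ℂ).re = 0 :=
        le_antisymm h0 (h2.re_inner_nonneg_right _)
      exact apply_eq_zero_of_re hE0 h3
    have h2 : CE A η (star Y * Y) * star Y = 0 :=
      h.sep _ (mul_mem (h.CE_memM hq) hYsM) h1
    have h3 : star Y * Y * CE A η (star Y * Y) = 0 := by
      have h4 := congrArg star h2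
      rw [star_mul, star_star, star_zero, (IsSelfAdjoint.of_nonneg hE0).star_eq] at h4
      rw [mul_assoc, h4, mul_zero]
    have h4 : CE A η (star Y * Y) * CE A η (star Y * Y) = 0 := by
      rw [← h.CE_mul_right (h.CE_mem hq) hq, h3, h.CE_zero]
    have h5 : CE A η (star Y * Y) = 0 := by
      have h6 : star (CE A η (star Y * Y)) * CE A η (star Y * Y) = 0 := by
        rw [(IsSelfAdjoint.of_nonneg hE0).star_eq]; exact h4
      exact CStarRing.star_mul_self_eq_zero_iff _ |>.1 h6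
    exact hYne (h.eq_zero_of_CE hYM h5)
  obtain ⟨c', hc', F', hF', θ', hθ', hθF', hlow'⟩ : ∃ c : ℝ, 0 < c ∧ ∃ F : Clopens m.X, F ≠ ⊥ ∧
      ∃ θ : Clopens m.X → H →L[ℂ] H, BHom A θ ∧ θ ⊤ = m.pr F ∧
      ∀ V, (c : ℂ) • θ V ≤ CE A η (star (star Y) * m.pr V * star Y) := by
    by_contra hcon
    refine hnd' (dif_of_small h hYsM hf' fun c hc => ?_)
    rcases dich h hYsM hf' hc with h1 | h1
    · exact absurd ⟨c, hc, h1⟩ hcon
    · exact h1
  obtain ⟨w, hwS, hw⟩ := exists_Y h hθ' hYsM hlow'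
  have hwM := hwS.mem
  have hwrel : ∀ V, θ V * w = w * m.pr V := fun V =>
    hwS.rel _ (hθ.mem V) _ (m.pr_mem V) (hYstar V).symm
  have hwstar : ∀ V, star w * m.pr V = θ' V * star w := fun V => by
    have := congrArg star (hw V)
    rwa [star_mul, star_mul, m.star_pr, (hθ'.proj V).isSelfAdjoint.star_eq] at this
  have hwstar' : ∀ V, star w * θ V = m.pr V * star w := fun V => by
    have := congrArg star (hwrel V)
    rwa [star_mul, star_mul, m.star_pr, (hθ.proj V).isSelfAdjoint.star_eq] at this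
  have hwne : w ≠ 0 := by
    rintro rfl
    have h1 := hwS.low ⊤ ⊤
    rw [m.pr_top, mul_one, hθF'] at h1
    have h2 : (⟪star Y ((1 : H →L[ℂ] H) η), (1 : H →L[ℂ] H) ((0 : H →L[ℂ] H) η)⟫_ℂ).re = 0 := by
      simp
    rw [h2] at h1
    have h3 : m.pr F' η = 0 := by
      have : ‖m.pr F' η‖ ^ 2 ≤ 0 := by
        by_contra hcon
        push Not at hcon
        nlinarith
      have h4 : ‖m.pr F' η‖ = 0 := by
        have := le_antisymm this (sq_nonneg _)
        exact pow_eq_zero_iff (two_ne_zero) |>.1 this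
      exact norm_eq_zero.1 h4
    exact hF' (m.pr_eq_zero_iff.1 (h.sep _ (hA.memM (m.pr_mem F')) h3))
  have hwA : ∀ a ∈ A, w * a * star w ∈ A := by
    intro a ha
    apply m.mem_of_pr_comm hA (mul_mem (mul_mem hwM (hA.memM ha)) (star_mem hwM))
    intro V
    calc m.pr V * (w * a * star w) = (m.pr V * w) * a * star w := by simp only [mul_assoc]
      _ = w * (θ' V * a) * star w := by rw [hw]; simp only [mul_assoc]
      _ = w * a * (θ' V * star w) := by rw [hA.comm _ (hθ'.mem V) _ ha]; simp only [mul_assoc]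
      _ = w * a * star w * m.pr V := by rw [← hwstar]; simp only [mul_assoc]
  have hwA' : ∀ a ∈ A, star w * a * w ∈ A := by
    intro a ha
    apply m.mem_of_pr_comm hA (mul_mem (mul_mem (star_mem hwM) (hA.memM ha)) hwM)
    intro V
    calc m.pr V * (star w * a * w) = (m.pr V * star w) * a * w := by simp only [mul_assoc]
      _ = star w * (θ V * a) * w := by rw [← hwstar']; simp only [mul_assoc]
      _ = star w * a * (θ V * w) := by rw [hA.comm _ (hθ.mem V) _ ha]; simp only [mul_assoc]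
      _ = star w * a * w * m.pr V := by rw [hwrel]; simp only [mul_assoc]
  set k := w * star w with hk
  have hkA : k ∈ A := by
    have := hwA 1 (one_mem A)
    rwa [mul_one] at this
  have hk0 : 0 ≤ k := mul_star_self_nonneg w
  have hkne : k ≠ 0 := fun h1 => hwne (CStarRing.mul_star_self_eq_zero_iff _ |>.1 h1)
  obtain ⟨G, -, b, hbA, hbs, hbkb, hGb, hbk⟩ := exists_cut (m := m) hA hkA hk0 hkne
  have hstar : star (b * w) = star w * b := by rw [star_mul, hbs]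
  have hv : GN M A (b * w) := by
    apply GN.mk' (mul_mem (hA.memM hbA) hwM)
    · have h1 : b * w * star (b * w) = m.pr G := by
        rw [hstar, ← hbkb, hk]; simp only [mul_assoc]
      rw [h1, ← mul_assoc, hGb]
    · intro a ha
      have h1 : b * w * a * star (b * w) = b * (w * a * star w) * b := by
        rw [hstar]; simp only [mul_assoc]
      rw [h1]
      exact mul_mem (mul_mem hbA (hwA a ha)) hbA
    · intro a ha
      have h1 : star (b * w) * a * (b * w) = star w * (b * a * b) * w := by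
        rw [hstar]; simp only [mul_assoc]
      rw [h1]
      exact hwA' _ (mul_mem (mul_mem hbA ha) hbA)
  refine ⟨star (b * w), hv.star, ?_⟩
  rw [star_star, mul_assoc, h.CE_mul_left hbA (mul_mem hwM hy)]
  have hCE : CE A η (w * y) = k := by
    refine h.CE_unique (mul_mem hwM hy) hkA fun a ha => ?_
    have h1 := hYS.left (star w * star a) (mul_mem (star_mem hwM) (star_mem (hA.memM ha)))
      fun V => by
        rw [← mul_assoc, ← hwstar', mul_assoc, mul_assoc, hA.comm _ (hθ.mem V) _ (star_mem ha)]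
    have h2 := hwS.right (a * w) (mul_mem (hA.memM ha) hwM) fun V => by
      rw [← mul_assoc, hA.comm _ (m.pr_mem V) _ ha, mul_assoc, hw, mul_assoc]
    rw [inner_mul_star', inner_mul_star', star_mul, star_star, star_star] at h1
    rw [inner_mul_star', inner_mul_star', star_star, star_star] at h2
    rw [← mul_assoc a w y, ← h1, ← h2, hk, mul_assoc]
  rw [hCE]
  exact hbk

end Diff

/-- DIFF: an element orthogonal to all normalisers is diffuse (all refinements of a partition). -/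
theorem diffuse_all (h : NCE M A η) {y : H →L[ℂ] H} (hy : y ∈ M)
    (horth : ∀ u, GN M A u → CE A η (star u * y) = 0) (κ : ℝ) (hκ : 0 < κ) :
    ∃ P : FP A, ∀ Q, P ≤ Q → ∑ i, ‖CE A η (star y * Q.e i * y) η‖ ^ 2 ≤ κ := by
  obtain ⟨m⟩ := h.masa.exists_model
  by_contra hcon
  have hnd : ¬ Diff.Dif A η y := fun hD => hcon (hD κ hκ)
  obtain ⟨u, hu, hne⟩ := Diff.exists_GN_of_not_dif h m hy hnd
  exact hne (horth u hu)

/-- DIFF for self-adjoint elements -/
theorem diffuse (h : NCE M A η) {z : H →L[ℂ] H} (hz : z ∈ M) (hsa : IsSelfAdjoint z)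
    (horth : ∀ u, GN M A u → CE A η (star u * z) = 0) :
    ∀ κ : ℝ, 0 < κ → ∃ P : FP A, ∑ i, ‖CE A η (z * P.e i * z) η‖ ^ 2 ≤ κ := by
  intro κ hκ
  obtain ⟨P, hP⟩ := diffuse_all h hz horth κ hκ
  refine ⟨P, ?_⟩
  have := hP P le_rfl
  rwa [hsa.star_eq] at this

end Crest.Agent.R109
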