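import Mathlib.Analysis.CStarAlgebra.ContinuousFunctionalCalculus.Order
import Mathlib.Analysis.CStarAlgebra.ContinuousFunctionalCalculus.Commute
import Crest.Agent.R109.GN
import Crest.Agent.R109.Supp

-- ▼ part R109/EN1
section

/-!
# Row 109: the normaliser part `x₁ = E_N(x)` of a self-adjoint element, elementary construction
(part 1: algebra of finite range elements, orthogonalisation)
-/

set_option autoImplicit false
set_option linter.unusedSectionVars false
set_option linter.style.haveILetI false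
set_option linter.unusedVariables false

namespace Crest.Agent.R109

open scoped InnerProductSpace
open ContinuousLinearMap Crest.Agent.R121 Crest.Agent.R124

universe u

variable {H : Type u} [NormedAddCommGroup H] [InnerProductSpace ℂ H] [CompleteSpace H]

/-- normalising partial isometries with bounded right multiplications -/
def ENG (M : VonNeumannAlgebra H) (A : StarSubalgebra ℂ (H →L[ℂ] H)) (η : H)
    (u : H →L[ℂ] H) : Prop :=
  GN M A u ∧ ∃ C : ℝ, 0 ≤ C ∧ (∀ y ∈ M, ‖(y * u) η‖ ≤ C * ‖y η‖) ∧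
    (∀ y ∈ M, ‖(y * star u) η‖ ≤ C * ‖y η‖)

/-- left `A`-span of a set of operators -/
def ENspan (A : StarSubalgebra ℂ (H →L[ℂ] H)) (S : Set (H →L[ℂ] H)) : Submodule ℂ (H →L[ℂ] H) :=
  Submodule.span ℂ {x | ∃ a ∈ A, ∃ u ∈ S, x = a * u}

/-- finite range elements -/
def ENalg0 (M : VonNeumannAlgebra H) (A : StarSubalgebra ℂ (H →L[ℂ] H)) (η : H) :
    Submodule ℂ (H →L[ℂ] H) := ENspan A {u | ENG M A η u}

lemma en_inner_star_mul (y w : H →L[ℂ] H) (η : H) : ⟪η, (star y * w) η⟫_ℂ = ⟪y η, w η⟫_ℂ := by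
  change ⟪η, (star y) (w η)⟫_ℂ = _
  rw [star_eq_adjoint, adjoint_inner_right]

lemma en_norm_sq_eq_inner (y : H →L[ℂ] H) (η : H) :
    ‖y η‖ ^ 2 = (⟪η, (star y * y) η⟫_ℂ).re := by
  rw [en_inner_star_mul]
  exact (inner_self_eq_norm_sq (𝕜 := ℂ) _).symm

section
variable {M : VonNeumannAlgebra H} {A : StarSubalgebra ℂ (H →L[ℂ] H)} {η : H}

lemma en_cfc_mem (hM : Masa M A) {a : H →L[ℂ] H} (ha : a ∈ A) (f : ℝ → ℝ) :
    cfc f a ∈ A := by
  by_cases hsa : IsSelfAdjoint a
  · apply hM.max _ (R124.cfc_mem M (hM.le ha) f)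
    intro b hb
    have h1 : Commute a b := hM.comm a ha b hb
    exact ((h1.cfc_real f).eq).symm
  · rw [cfc_apply_of_not_predicate a hsa]
    exact zero_mem _

/-- right multiplication by elements of `A` -/
theorem NCE.en_right_le (h : NCE M A η) {a : H →L[ℂ] H} (ha : a ∈ A) {y : H →L[ℂ] H} (hy : y ∈ M) :
    ‖(y * a) η‖ ≤ ‖a‖ * ‖y η‖ := by
  set b : H →L[ℂ] H := algebraMap ℝ (H →L[ℂ] H) (‖a‖ ^ 2) - a * star a with hb
  have hb0 : 0 ≤ b := sub_nonneg.2 CStarAlgebra.mul_star_le_algebraMap_norm_sq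
  have hbA : b ∈ A := by
    refine sub_mem ?_ (mul_mem ha (star_mem ha))
    have : algebraMap ℝ (H →L[ℂ] H) (‖a‖ ^ 2) = algebraMap ℂ (H →L[ℂ] H) ((‖a‖ ^ 2 : ℝ) : ℂ) := rfl
    rw [this]
    exact A.algebraMap_mem _
  set s : H →L[ℂ] H := cfc Real.sqrt b with hs
  have hbsa : IsSelfAdjoint b := hb0.isSelfAdjoint
  have hsA : s ∈ A := en_cfc_mem h.masa hbA _
  have hss : star s = s := (cfc_predicate Real.sqrt b : IsSelfAdjoint s)
  have hs2 : s * s = b := by
    rw [hs, ← cfc_mul Real.sqrt Real.sqrt b (by fun_prop) (by fun_prop)]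
    conv_rhs => rw [← cfc_id' ℝ b]
    apply cfc_congr
    intro t ht
    exact Real.mul_self_sqrt (spectrum_nonneg_of_nonneg hb0 ht)
  have haM : a ∈ M := h.masa.le ha
  have hsM : s ∈ M := h.masa.le hsA
  have hzM : star y * y ∈ M := mul_mem (star_mem hy) hy
  have e1 : ⟪η, (star (y * a) * (y * a)) η⟫_ℂ = ⟪η, ((star y * y) * (a * star a)) η⟫_ℂ := by
    have h1 := h.cvec (star a) (star_mem ha) ((star y * y) * a) (mul_mem hzM haM)
    have h2 : star (y * a) * (y * a) = star a * ((star y * y) * a) := by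
      rw [star_mul]; simp only [mul_assoc]
    rw [h2, h1]
    simp only [mul_assoc]
  have e2 : ⟪η, ((star y * y) * b) η⟫_ℂ = ⟪η, (star (y * s) * (y * s)) η⟫_ℂ := by
    have h1 := h.cvec s hsA ((star y * y) * s) (mul_mem hzM hsM)
    have h2 : star (y * s) * (y * s) = s * ((star y * y) * s) := by
      rw [star_mul, hss]; simp only [mul_assoc]
    rw [h2, h1, ← hs2]
    simp only [mul_assoc]
  have e3 : (⟪η, ((star y * y) * b) η⟫_ℂ).re
      = ‖a‖ ^ 2 * ‖y η‖ ^ 2 - ‖(y * a) η‖ ^ 2 := by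
    have h1 : (star y * y) * b = ((‖a‖ ^ 2 : ℝ) : ℂ) • (star y * y)
        - (star y * y) * (a * star a) := by
      rw [hb, mul_sub]
      congr 1
      have : algebraMap ℝ (H →L[ℂ] H) (‖a‖ ^ 2) = ((‖a‖ ^ 2 : ℝ) : ℂ) • (1 : H →L[ℂ] H) := by
        rw [Algebra.algebraMap_eq_smul_one]; rfl
      rw [this, mul_smul_comm, mul_one]
    rw [h1, sub_apply, inner_sub_right, Complex.sub_re, ← e1, ← en_norm_sq_eq_inner,
      smul_apply, inner_smul_right, Complex.re_ofReal_mul, ← en_norm_sq_eq_inner]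
  rw [e2, ← en_norm_sq_eq_inner] at e3
  have h5 : ‖(y * a) η‖ ^ 2 ≤ (‖a‖ * ‖y η‖) ^ 2 := by
    rw [mul_pow]; nlinarith [sq_nonneg ‖(y * s) η‖]
  exact (sq_le_sq₀ (norm_nonneg _) (by positivity)).1 h5


/-! ### bounded normalisers -/

lemma en_gn_part' {u : H →L[ℂ] H} (hu : GN M A u) : star u * u * star u = star u := by
  have := congrArg star hu.part
  simpa [mul_assoc] using this

lemma en_gn_comm_src (hM : Masa M A) {u a : H →L[ℂ] H} (hu : GN M A u) (ha : a ∈ A) :
    u * a = (u * a * star u) * u := by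
  have h1 : a * (star u * u) = (star u * u) * a := hM.comm a ha _ hu.src
  calc u * a = (u * star u * u) * a := by rw [hu.part]
    _ = u * ((star u * u) * a) := by simp only [mul_assoc]
    _ = u * (a * (star u * u)) := by rw [h1]
    _ = (u * a * star u) * u := by simp only [mul_assoc]

lemma en_gn_of_proj (hM : Masa M A) {e : H →L[ℂ] H} (he : e ∈ A) (hp : IsStarProjection e) :
    GN M A e := by
  have h1 : star e = e := hp.isSelfAdjoint
  have h2 : e * e = e := hp.isIdempotentElem
  refine ⟨hM.le he, by rw [h1, h2, h2], by rw [h1, h2]; exact he, by rw [h1, h2]; exact he,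
    fun a ha => by rw [h1]; exact mul_mem (mul_mem he ha) he,
    fun a ha => by rw [h1]; exact mul_mem (mul_mem he ha) he⟩


lemma en_gnb_star {u : H →L[ℂ] H} (hu : ENG M A η u) : ENG M A η (star u) := by
  obtain ⟨h1, C, hC, h2, h3⟩ := hu
  exact ⟨h1.star, C, hC, h3, by rwa [star_star]⟩

lemma en_gnb_mul (hM : Masa M A) {u v : H →L[ℂ] H} (hu : ENG M A η u) (hv : ENG M A η v) : ENG M A η (u * v) := by
  obtain ⟨h1, C, hC, h2, h3⟩ := hu
  obtain ⟨g1, D, hD, g2, g3⟩ := hv
  refine ⟨h1.mul hM g1, C * D, by positivity, fun y hy => ?_, fun y hy => ?_⟩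
  · calc ‖(y * (u * v)) η‖ = ‖((y * u) * v) η‖ := by rw [mul_assoc]
      _ ≤ D * ‖(y * u) η‖ := g2 _ (mul_mem hy h1.mem)
      _ ≤ D * (C * ‖y η‖) := mul_le_mul_of_nonneg_left (h2 y hy) hD
      _ = C * D * ‖y η‖ := by ring
  · calc ‖(y * star (u * v)) η‖ = ‖((y * star v) * star u) η‖ := by
          rw [star_mul, mul_assoc]
      _ ≤ C * ‖(y * star v) η‖ := h3 _ (mul_mem hy (star_mem g1.mem))
      _ ≤ C * (D * ‖y η‖) := mul_le_mul_of_nonneg_left (g3 y hy) hC
      _ = C * D * ‖y η‖ := by ring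

lemma NCE.en_gnb_proj (h : NCE M A η) {e : H →L[ℂ] H} (he : e ∈ A) (hp : IsStarProjection e) :
    ENG M A η e := by
  refine ⟨en_gn_of_proj h.masa he hp, ‖e‖, norm_nonneg _, fun y hy => h.en_right_le he hy,
    fun y hy => ?_⟩
  rw [hp.isSelfAdjoint.star_eq]
  exact h.en_right_le he hy

/-! ### `A`-spans -/

lemma ENspan_mul_mem {S : Set (H →L[ℂ] H)} {a : H →L[ℂ] H} (ha : a ∈ A) {m : H →L[ℂ] H}
    (hm : m ∈ ENspan A S) : a * m ∈ ENspan A S := by
  unfold ENspan at hm ⊢
  induction hm using Submodule.span_induction with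
  | mem x hx =>
    obtain ⟨b, hb, u, hu, rfl⟩ := hx
    exact Submodule.subset_span ⟨a * b, mul_mem ha hb, u, hu, by rw [mul_assoc]⟩
  | zero => rw [mul_zero]; exact zero_mem _
  | add x y _ _ hx hy => rw [mul_add]; exact add_mem hx hy
  | smul c x _ hx => rw [mul_smul_comm]; exact Submodule.smul_mem _ _ hx

lemma ENspan_le {S T : Set (H →L[ℂ] H)} (hST : ∀ u ∈ S, u ∈ ENspan A T) : ENspan A S ≤ ENspan A T := by
  unfold ENspan
  rw [Submodule.span_le]
  rintro _ ⟨a, ha, u, hu, rfl⟩
  exact ENspan_mul_mem ha (hST u hu)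

lemma ENspan_of_mem {S : Set (H →L[ℂ] H)} {u : H →L[ℂ] H} (hu : u ∈ S) : u ∈ ENspan A S :=
  Submodule.subset_span ⟨1, one_mem _, u, hu, by rw [one_mul]⟩

lemma ENspan_mul_mem' {S : Set (H →L[ℂ] H)} {a : H →L[ℂ] H} (ha : a ∈ A) {u : H →L[ℂ] H}
    (hu : u ∈ S) : a * u ∈ ENspan A S :=
  Submodule.subset_span ⟨a, ha, u, hu, rfl⟩

/-- elements of a span are in a finite sub-span -/
lemma ENspan_finite {S : Set (H →L[ℂ] H)} {m : H →L[ℂ] H} (hm : m ∈ ENspan A S) :
    ∃ F : Finset (H →L[ℂ] H), (↑F : Set (H →L[ℂ] H)) ⊆ S ∧ m ∈ ENspan A (↑F : Set (H →L[ℂ] H)) := by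
  classical
  unfold ENspan at hm
  induction hm using Submodule.span_induction with
  | mem x hx =>
    obtain ⟨b, hb, u, hu, rfl⟩ := hx
    exact ⟨{u}, by simpa using hu, ENspan_mul_mem' hb (by simp)⟩
  | zero => exact ⟨∅, by simp, zero_mem _⟩
  | add x y _ _ hx hy =>
    obtain ⟨F, hF, h1⟩ := hx
    obtain ⟨G, hG, h2⟩ := hy
    refine ⟨F ∪ G, by rw [Finset.coe_union]; exact Set.union_subset hF hG, add_mem ?_ ?_⟩
    · exact ENspan_le (fun u hu => ENspan_of_mem (by simp at hu ⊢; exact Or.inl hu)) h1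
    · exact ENspan_le (fun u hu => ENspan_of_mem (by simp at hu ⊢; exact Or.inr hu)) h2
  | smul c x _ hx =>
    obtain ⟨F, hF, h1⟩ := hx
    exact ⟨F, hF, Submodule.smul_mem _ _ h1⟩

lemma ENspan_star (hM : Masa M A) {S T : Set (H →L[ℂ] H)} (hS : ∀ u ∈ S, GN M A u ∧ star u ∈ ENspan A T)
    {m : H →L[ℂ] H} (hm : m ∈ ENspan A S) : star m ∈ ENspan A T := by
  unfold ENspan at hm
  induction hm using Submodule.span_induction with
  | mem x hx =>
    obtain ⟨b, hb, u, hu, rfl⟩ := hx
    obtain ⟨h1, h2⟩ := hS u hu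
    have h3 := en_gn_comm_src hM (h1.star) (star_mem hb)
    rw [star_mul, h3]
    refine ENspan_mul_mem ?_ h2
    rw [star_star]
    exact h1.conj' _ (star_mem hb)
  | zero => rw [star_zero]; exact zero_mem _
  | add x y _ _ hx hy => rw [star_add]; exact add_mem hx hy
  | smul c x _ hx => rw [star_smul]; exact Submodule.smul_mem _ _ hx

lemma ENalg0_star (hM : Masa M A) {m : H →L[ℂ] H} (hm : m ∈ ENalg0 M A η) : star m ∈ ENalg0 M A η :=
  ENspan_star hM (fun _ hu => ⟨hu.1, ENspan_of_mem (en_gnb_star hu)⟩) hm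

lemma ENalg0_mul (hM : Masa M A) {m n : H →L[ℂ] H} (hm : m ∈ ENalg0 M A η) (hn : n ∈ ENalg0 M A η) :
    m * n ∈ ENalg0 M A η := by
  unfold ENalg0 ENspan at hm
  induction hm using Submodule.span_induction with
  | mem x hx =>
    obtain ⟨a, ha, u, hu, rfl⟩ := hx
    unfold ENalg0 ENspan at hn
    induction hn using Submodule.span_induction with
    | mem y hy =>
      obtain ⟨b, hb, v, hv, rfl⟩ := hy
      have h1 : (a * u) * (b * v) = (a * (u * b * star u)) * (u * v) := by
        calc (a * u) * (b * v) = a * (u * b) * v := by simp only [mul_assoc]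
          _ = a * ((u * b * star u) * u) * v := by rw [← en_gn_comm_src hM hu.1 hb]
          _ = _ := by simp only [mul_assoc]
      rw [h1]
      exact ENspan_mul_mem' (mul_mem ha (hu.1.conj b hb)) (en_gnb_mul hM hu hv)
    | zero => rw [mul_zero]; exact zero_mem _
    | add x y _ _ hx hy => rw [mul_add]; exact add_mem hx hy
    | smul c x _ hx => rw [mul_smul_comm]; exact Submodule.smul_mem _ _ hx
  | zero => rw [zero_mul]; exact zero_mem _
  | add x y _ _ hx hy => rw [add_mul]; exact add_mem hx hy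
  | smul c x _ hx => rw [smul_mul_assoc]; exact Submodule.smul_mem _ _ hx

lemma NCE.en_A_le_alg (h : NCE M A η) {a : H →L[ℂ] H} (ha : a ∈ A) : a ∈ ENalg0 M A η := by
  have h1 : ENG M A η (1 : H →L[ℂ] H) := h.en_gnb_proj (one_mem _) (IsStarProjection.one _)
  have := ENspan_mul_mem' (S := {u | ENG M A η u}) ha h1
  rwa [mul_one] at this

lemma ENalg0_le (hM : Masa M A) {m : H →L[ℂ] H} (hm : m ∈ ENalg0 M A η) : m ∈ M := by
  unfold ENalg0 ENspan at hm
  induction hm using Submodule.span_induction with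
  | mem x hx =>
    obtain ⟨a, ha, u, hu, rfl⟩ := hx
    exact mul_mem (hM.le ha) hu.1.mem
  | zero => exact zero_mem _
  | add x y _ _ hx hy => exact add_mem hx hy
  | smul c x _ hx => exact M.toStarSubalgebra.smul_mem hx c

/-- right multiplication by finite range elements is bounded -/
lemma NCE.en_right_alg (h : NCE M A η) {m : H →L[ℂ] H} (hm : m ∈ ENalg0 M A η) :
    ∃ C : ℝ, 0 ≤ C ∧ ∀ y ∈ M, ‖(y * m) η‖ ≤ C * ‖y η‖ := by
  unfold ENalg0 ENspan at hm
  induction hm using Submodule.span_induction with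
  | mem x hx =>
    obtain ⟨a, ha, u, ⟨hu, C, hC, h1, h2⟩, rfl⟩ := hx
    refine ⟨C * ‖a‖, by positivity, fun y hy => ?_⟩
    calc ‖(y * (a * u)) η‖ = ‖((y * a) * u) η‖ := by rw [mul_assoc]
      _ ≤ C * ‖(y * a) η‖ := h1 _ (mul_mem hy (h.masa.le ha))
      _ ≤ C * (‖a‖ * ‖y η‖) := mul_le_mul_of_nonneg_left (h.en_right_le ha hy) hC
      _ = C * ‖a‖ * ‖y η‖ := by ring
  | zero => exact ⟨0, le_rfl, fun y _ => by simp⟩
  | add x y _ _ hx hy =>
    obtain ⟨C, hC, h1⟩ := hx
    obtain ⟨D, hD, h2⟩ := hy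
    refine ⟨C + D, by positivity, fun z hz => ?_⟩
    rw [mul_add, add_mul]
    exact (norm_add_le _ _).trans (add_le_add (h1 z hz) (h2 z hz))
  | smul c x _ hx =>
    obtain ⟨C, hC, h1⟩ := hx
    refine ⟨‖c‖ * C, by positivity, fun z hz => ?_⟩
    rw [mul_smul_comm, smul_apply, norm_smul, mul_assoc]
    exact mul_le_mul_of_nonneg_left (h1 z hz) (norm_nonneg _)

end

end Crest.Agent.R109
end

-- ▼ part R109/EN2

/-!
# Row 109: the normaliser part `x₁ = E_N(x)` of a self-adjoint element, elementary construction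
(part 2: orthogonalisation, finite range approximation of `P x η`)
-/

set_option autoImplicit false
set_option linter.unusedSectionVars false
set_option linter.style.haveILetI false
set_option linter.unusedVariables false

namespace Crest.Agent.R109

open scoped InnerProductSpace
open ContinuousLinearMap Crest.Agent.R121 Crest.Agent.R124

universe u

variable {H : Type u} [NormedAddCommGroup H] [InnerProductSpace ℂ H] [CompleteSpace H]

section
variable {M : VonNeumannAlgebra H} {A : StarSubalgebra ℂ (H →L[ℂ] H)} {η : H}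

/-- the `A`-component along `v` -/
noncomputable def ENQ (A : StarSubalgebra ℂ (H →L[ℂ] H)) (η : H) (v y : H →L[ℂ] H) : H →L[ℂ] H :=
  CE A η (y * star v) * v

lemma NCE.en_ENQ_mem (h : NCE M A η) {v y : H →L[ℂ] H} (hv : GN M A v) (hy : y ∈ M) :
    ENQ A η v y ∈ M :=
  mul_mem (h.masa.le (h.CE_mem (mul_mem hy (star_mem hv.mem)))) hv.mem

lemma NCE.en_ENQ_span (h : NCE M A η) {S : Set (H →L[ℂ] H)} {v y : H →L[ℂ] H} (hv : GN M A v)
    (hS : v ∈ S) (hy : y ∈ M) : ENQ A η v y ∈ ENspan A S :=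
  ENspan_mul_mem' (h.CE_mem (mul_mem hy (star_mem hv.mem))) hS


/-- `φ(X v) ` helper: `⟪η, (X * (star v * v)) η⟫ = ⟪η, (star v * (v * X) ) η⟫` -/
lemma NCE.en_move (h : NCE M A η) {v X : H →L[ℂ] H} (hv : GN M A v) (hX : X ∈ M) :
    ⟪η, (X * (star v * v)) η⟫_ℂ = ⟪η, (star v * (v * X)) η⟫_ℂ := by
  rw [← h.cvec _ hv.src X hX, mul_assoc]

/-- symmetry of the component map -/
theorem NCE.en_ENQ_symm (h : NCE M A η) {v y z : H →L[ℂ] H} (hv : GN M A v) (hy : y ∈ M)
    (hz : z ∈ M) : ⟪(ENQ A η v z) η, y η⟫_ℂ = ⟪z η, (ENQ A η v y) η⟫_ℂ := by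
  have hvM : v ∈ M := hv.mem
  have hv' : star v ∈ M := star_mem hv.mem
  set b := CE A η (y * star v) with hb
  set c := CE A η (v * star z) with hc
  have hbA : b ∈ A := h.CE_mem (mul_mem hy hv')
  have hbM : b ∈ M := h.masa.le hbA
  have hcA : c ∈ A := h.CE_mem (mul_mem hvM (star_mem hz))
  have hcM : c ∈ M := h.masa.le hcA
  have hcs : CE A η (z * star v) = star c := by
    rw [hc, ← h.CE_star (mul_mem hvM (star_mem hz)), star_mul, star_star]
  -- right side
  have r1 : ⟪z η, (ENQ A η v y) η⟫_ℂ = ⟪η, (star v * (c * b) * v) η⟫_ℂ := by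
    rw [← en_inner_star_mul]
    change ⟪η, (star z * (b * v)) η⟫_ℂ = _
    have e1 : star z * (b * v) = (star z * (b * v)) * (star v * v) := by
      have := hv.part
      calc star z * (b * v) = star z * (b * (v * star v * v)) := by rw [this]
        _ = _ := by simp only [mul_assoc]
    rw [e1, h.en_move hv (mul_mem (star_mem hz) (mul_mem hbM hvM))]
    have e2 : star v * (v * (star z * (b * v))) = star v * (v * star z * b) * v := by
      simp only [mul_assoc]
    have hm : v * star z * b ∈ M := mul_mem (mul_mem hvM (star_mem hz)) hbM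
    rw [e2, ← h.inner_CE' (mul_mem (mul_mem hv' hm) hvM), h.CE_conj' hv hm,
      h.CE_mul_right hbA (mul_mem hvM (star_mem hz))]
  have l1 : ⟪(ENQ A η v z) η, y η⟫_ℂ = ⟪η, (star v * (c * b) * v) η⟫_ℂ := by
    rw [← en_inner_star_mul]
    have e0 : star (ENQ A η v z) = star v * c := by
      unfold ENQ
      rw [hcs, star_mul, star_star]
    rw [e0]
    have e1 : star v * c * y = (star v * v) * (star v * c * y) := by
      have := en_gn_part' hv
      calc star v * c * y = (star v * v * star v) * c * y := by rw [this]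
        _ = _ := by simp only [mul_assoc]
    have hXM : star v * c * y ∈ M := mul_mem (mul_mem hv' hcM) hy
    rw [e1, h.cvec _ hv.src _ hXM]
    have e2 : star v * c * y * (star v * v) = star v * (c * (y * star v)) * v := by
      simp only [mul_assoc]
    have hm : c * (y * star v) ∈ M := mul_mem hcM (mul_mem hy hv')
    rw [e2, ← h.inner_CE' (mul_mem (mul_mem hv' hm) hvM), h.CE_conj' hv hm,
      h.CE_mul_left hcA (mul_mem hy hv')]
  rw [l1, r1]

lemma NCE.en_CE_right_proj (h : NCE M A η) {v y : H →L[ℂ] H} (hv : GN M A v) (hy : y ∈ M) :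
    CE A η (y * star v) * (v * star v) = CE A η (y * star v) := by
  rw [← h.CE_mul_right hv.rng (mul_mem hy (star_mem hv.mem))]
  congr 1
  have := en_gn_part' hv
  calc y * star v * (v * star v) = y * (star v * v * star v) := by simp only [mul_assoc]
    _ = _ := by rw [this]

lemma NCE.en_ENQ_self (h : NCE M A η) {v a : H →L[ℂ] H} (hv : GN M A v) (ha : a ∈ A) :
    ENQ A η v (a * v) = a * v := by
  unfold ENQ
  rw [mul_assoc, h.CE_mul_left ha (mul_mem hv.mem (star_mem hv.mem)), h.CE_of_mem hv.rng,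
    mul_assoc, hv.part]

lemma NCE.en_ENQ_idem (h : NCE M A η) {v y : H →L[ℂ] H} (hv : GN M A v) (hy : y ∈ M) :
    ENQ A η v (ENQ A η v y) = ENQ A η v y :=
  h.en_ENQ_self hv (h.CE_mem (mul_mem hy (star_mem hv.mem)))

lemma NCE.en_ENQ_orth (h : NCE M A η) {v w a : H →L[ℂ] H} (hv : GN M A v) (hw : GN M A w) (ha : a ∈ A)
    (h0 : CE A η (v * star w) = 0) : ENQ A η w (a * v) = 0 := by
  unfold ENQ
  rw [mul_assoc, h.CE_mul_left ha (mul_mem hv.mem (star_mem hw.mem)), h0, mul_zero, zero_mul]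

/-- finite orthogonal families -/
structure ENOF (M : VonNeumannAlgebra H) (A : StarSubalgebra ℂ (H →L[ℂ] H)) (η : H)
    (F : Finset (H →L[ℂ] H)) : Prop where
  gnb : ∀ v ∈ F, ENG M A η v
  orth : ∀ v ∈ F, ∀ w ∈ F, v ≠ w → CE A η (v * star w) = 0

/-- component along a finite family -/
noncomputable def ENQF (A : StarSubalgebra ℂ (H →L[ℂ] H)) (η : H) (F : Finset (H →L[ℂ] H))
    (y : H →L[ℂ] H) : H →L[ℂ] H := ∑ v ∈ F, ENQ A η v y

lemma NCE.en_ENQF_mem (h : NCE M A η) {F : Finset (H →L[ℂ] H)} (hF : ENOF M A η F) {y : H →L[ℂ] H}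
    (hy : y ∈ M) : ENQF A η F y ∈ ENspan A (↑F : Set (H →L[ℂ] H)) :=
  Submodule.sum_mem _ fun v hv => h.en_ENQ_span (hF.gnb v hv).1 (by simpa using hv) hy

lemma NCE.en_span_le_alg {F : Finset (H →L[ℂ] H)} (hF : ∀ v ∈ F, ENG M A η v) {m : H →L[ℂ] H}
    (hm : m ∈ ENspan A (↑F : Set (H →L[ℂ] H))) : m ∈ ENalg0 M A η :=
  ENspan_le (fun u hu => ENspan_of_mem (hF u (by simpa using hu))) hm

lemma NCE.en_ENQ_add (h : NCE M A η) {v y z : H →L[ℂ] H} (hv : GN M A v) (hy : y ∈ M) (hz : z ∈ M) :
    ENQ A η v (y + z) = ENQ A η v y + ENQ A η v z := by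
  have hv' : star v ∈ M := star_mem hv.mem
  unfold ENQ
  rw [add_mul, h.CE_add (mul_mem hy hv') (mul_mem hz hv'), add_mul]

lemma NCE.en_ENQ_smul (h : NCE M A η) {v y : H →L[ℂ] H} (hv : GN M A v) (hy : y ∈ M) (c : ℂ) :
    ENQ A η v (c • y) = c • ENQ A η v y := by
  have hv' : star v ∈ M := star_mem hv.mem
  have h1 : (c • y) * star v = (algebraMap ℂ (H →L[ℂ] H) c) * (y * star v) := by
    rw [Algebra.algebraMap_eq_smul_one, smul_mul_assoc, smul_mul_assoc, one_mul]
  unfold ENQ
  rw [h1, h.CE_mul_left (A.algebraMap_mem c) (mul_mem hy hv'), Algebra.algebraMap_eq_smul_one,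
    smul_mul_assoc, one_mul, smul_mul_assoc]

lemma NCE.en_ENQF_self (h : NCE M A η) {F : Finset (H →L[ℂ] H)} (hF : ENOF M A η F) {m : H →L[ℂ] H}
    (hm : m ∈ ENspan A (↑F : Set (H →L[ℂ] H))) : ENQF A η F m = m := by
  have key : m ∈ M ∧ ENQF A η F m = m := by
    unfold ENspan at hm
    induction hm using Submodule.span_induction with
    | mem x hx =>
      obtain ⟨a, ha, v, hv, rfl⟩ := hx
      have hvF : v ∈ F := by simpa using hv
      refine ⟨mul_mem (h.masa.le ha) (hF.gnb v hvF).1.mem, ?_⟩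
      unfold ENQF
      rw [Finset.sum_eq_single v]
      · exact h.en_ENQ_self (hF.gnb v hvF).1 ha
      · intro w hw hwv
        exact h.en_ENQ_orth (hF.gnb v hvF).1 (hF.gnb w hw).1 ha (hF.orth v hvF w hw (Ne.symm hwv))
      · intro hn; exact absurd hvF hn
    | zero =>
      refine ⟨zero_mem _, ?_⟩
      unfold ENQF
      apply Finset.sum_eq_zero
      intro v hv
      have := h.en_ENQ_smul (hF.gnb v hv).1 (zero_mem M) 0
      simpa using this
    | add x y _ _ hx hy =>
      refine ⟨add_mem hx.1 hy.1, ?_⟩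
      have : ENQF A η F (x + y) = ENQF A η F x + ENQF A η F y := by
        unfold ENQF
        rw [← Finset.sum_add_distrib]
        exact Finset.sum_congr rfl fun v hv => h.en_ENQ_add (hF.gnb v hv).1 hx.1 hy.1
      rw [this, hx.2, hy.2]
    | smul c x _ hx =>
      refine ⟨M.toStarSubalgebra.smul_mem hx.1 c, ?_⟩
      have : ENQF A η F (c • x) = c • ENQF A η F x := by
        unfold ENQF
        rw [Finset.smul_sum]
        exact Finset.sum_congr rfl fun v hv => h.en_ENQ_smul (hF.gnb v hv).1 hx.1 c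
      rw [this, hx.2]
  exact key.2

lemma en_sum_op_apply {ι : Type*} (s : Finset ι) (f : ι → H →L[ℂ] H) (ξ : H) :
    (∑ i ∈ s, f i) ξ = ∑ i ∈ s, f i ξ := by
  rw [_root_.sum_apply]

lemma NCE.en_ENQF_symm (h : NCE M A η) {F : Finset (H →L[ℂ] H)} (hF : ENOF M A η F) {y z : H →L[ℂ] H}
    (hy : y ∈ M) (hz : z ∈ M) : ⟪(ENQF A η F z) η, y η⟫_ℂ = ⟪z η, (ENQF A η F y) η⟫_ℂ := by
  unfold ENQF
  rw [en_sum_op_apply, en_sum_op_apply, sum_inner, inner_sum]
  exact Finset.sum_congr rfl fun v hv => h.en_ENQ_symm (hF.gnb v hv).1 hy hz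


/-- `u` agrees with an `A`-multiple of `v` on a projection `g ∈ A` -/
lemma NCE.en_agree (h : NCE M A η) {u v : H →L[ℂ] H} (hu : GN M A u) (hv : GN M A v) :
    IsStarProjection (CE A η (u * star v) * star (CE A η (u * star v))) ∧
    (CE A η (u * star v) * star (CE A η (u * star v))) * u = CE A η (u * star v) * v ∧
    (CE A η (u * star v) * star (CE A η (u * star v))) * (u * star u)
      = CE A η (u * star v) * star (CE A η (u * star v)) ∧
    (CE A η (u * star v) * star (CE A η (u * star v))) * CE A η (u * star v)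
      = CE A η (u * star v) := by
  have hw : GN M A (u * star v) := hu.mul h.masa hv.star
  set w := u * star v with hwdef
  obtain ⟨p, hpA, hp, h1, h2⟩ := h.CE_GN hw
  have hps : star p = p := hp.isSelfAdjoint
  have hpp : p * p = p := hp.isIdempotentElem
  have h2' : (star w * w) * p = p := by
    rw [h.masa.comm _ hw.src p hpA, h2]
  have hg : (w * p) * star (w * p) = w * p * star w := by
    rw [star_mul, hps]
    calc w * p * (p * star w) = w * (p * p) * star w := by simp only [mul_assoc]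
      _ = _ := by rw [hpp]
  have hstar : star (w * p * star w) = w * p * star w := by
    rw [star_mul (w * p) (star w), star_mul w p, star_star w, hps]
    exact (mul_assoc w p (star w)).symm
  have hidem : (w * p * star w) * (w * p * star w) = w * p * star w := by
    calc (w * p * star w) * (w * p * star w) = w * p * ((star w * w) * p) * star w := by
          simp only [mul_assoc]
      _ = w * (p * p) * star w := by rw [h2']; simp only [mul_assoc]
      _ = _ := by rw [hpp]
  have hwg : (w * p * star w) * (w * p) = w * p := by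
    calc (w * p * star w) * (w * p) = w * p * ((star w * w) * p) := by simp only [mul_assoc]
      _ = w * (p * p) := by rw [h2']; simp only [mul_assoc]
      _ = _ := by rw [hpp]
  have hsvw : star v * p * v ∈ A := hv.conj' p hpA
  rw [h1, hg]
  refine ⟨⟨hidem, hstar⟩, ?_, ?_, hwg⟩
  · -- g u = w p v
    have e1 : w * p * star w * u = u * ((star v * p * v) * (star u * u)) := by
      rw [hwdef, star_mul, star_star]; simp only [mul_assoc]
    have e2 : (star v * p * v) * (star u * u) = (star u * u) * (star v * p * v) :=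
      h.masa.comm _ hsvw _ hu.src
    rw [e1, e2]
    have e3 : u * ((star u * u) * (star v * p * v)) = (u * star u * u) * (star v * p * v) := by
      simp only [mul_assoc]
    rw [e3, hu.part, hwdef]
    simp only [mul_assoc]
  · have e1 : star w * (u * star u) = star w := by
      rw [hwdef, star_mul, star_star]
      calc v * star u * (u * star u) = v * (star u * u * star u) := by simp only [mul_assoc]
        _ = _ := by rw [en_gn_part' hu]
    rw [mul_assoc, e1]

/-- Gram–Schmidt step -/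
lemma NCE.en_gs_step (h : NCE M A η) {F : Finset (H →L[ℂ] H)} (hF : ENOF M A η F) {u : H →L[ℂ] H}
    (hu : ENG M A η u) : ∃ F' : Finset (H →L[ℂ] H), ENOF M A η F' ∧
      (∀ v ∈ F, v ∈ F') ∧ u ∈ ENspan A (↑F' : Set (H →L[ℂ] H)) := by
  classical
  set b : (H →L[ℂ] H) → (H →L[ℂ] H) := fun v => CE A η (u * star v) with hb
  set g : (H →L[ℂ] H) → (H →L[ℂ] H) := fun v => b v * star (b v) with hg
  have hbA : ∀ v ∈ F, b v ∈ A := fun v hv =>
    h.CE_mem (mul_mem hu.1.mem (star_mem (hF.gnb v hv).1.mem))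
  have hgA : ∀ v ∈ F, g v ∈ A := fun v hv => mul_mem (hbA v hv) (star_mem (hbA v hv))
  have hag := fun v (hv : v ∈ F) => h.en_agree hu.1 (hF.gnb v hv).1
  have horth : ∀ v ∈ F, ∀ w ∈ F, v ≠ w → g v * g w = 0 := by
    intro v hv w hw hvw
    obtain ⟨p1, q1, r1, s1⟩ := hag v hv
    obtain ⟨p2, q2, r2, s2⟩ := hag w hw
    change g v * u = b v * v at q1
    change g v * (u * star u) = g v at r1
    change g w * u = b w * w at q2
    have hgw : star (g w) = g w := p2.isSelfAdjoint
    have e1 : g v * g w = b v * (v * star w) * star (b w) := by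
      calc g v * g w = (g v * (u * star u)) * g w := by rw [r1]
        _ = (g v * u) * star (g w * u) := by rw [star_mul, hgw]; simp only [mul_assoc]
        _ = (b v * v) * star (b w * w) := by rw [q1, q2]
        _ = _ := by rw [star_mul]; simp only [mul_assoc]
    have hvw' : v * star w ∈ M := mul_mem (hF.gnb v hv).1.mem (star_mem (hF.gnb w hw).1.mem)
    have e2 : CE A η (g v * g w) = g v * g w := h.CE_of_mem (mul_mem (hgA v hv) (hgA w hw))
    rw [← e2, e1, h.CE_mul_right (star_mem (hbA w hw)) (mul_mem (h.masa.le (hbA v hv)) hvw'),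
      h.CE_mul_left (hbA v hv) hvw', hF.orth v hv w hw hvw, mul_zero, zero_mul]
  set e : H →L[ℂ] H := 1 - ∑ v ∈ F, g v with he
  have heA : e ∈ A := sub_mem (one_mem _) (sum_mem fun v hv => hgA v hv)
  have hsumsq : (∑ v ∈ F, g v) * (∑ v ∈ F, g v) = ∑ v ∈ F, g v := by
    rw [Finset.sum_mul]
    refine Finset.sum_congr rfl fun v hv => ?_
    rw [Finset.mul_sum, Finset.sum_eq_single v]
    · exact (hag v hv).1.isIdempotentElem
    · intro w hw hwv; exact horth v hv w hw (Ne.symm hwv)
    · intro hn; exact absurd hv hn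
  have hep : IsStarProjection e := by
    constructor
    · change e * e = e
      rw [he, sub_mul, one_mul, mul_sub, mul_one, hsumsq]; abel
    · change star e = e
      rw [he, star_sub, star_one, star_sum]
      congr 1
      exact Finset.sum_congr rfl fun v hv => (hag v hv).1.isSelfAdjoint
  have hu' : ENG M A η (e * u) := en_gnb_mul h.masa (h.en_gnb_proj heA hep) hu
  have hdec : u = e * u + ∑ v ∈ F, b v * v := by
    have : ∑ v ∈ F, b v * v = (∑ v ∈ F, g v) * u := by
      rw [Finset.sum_mul]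
      exact Finset.sum_congr rfl fun v hv => ((hag v hv).2.1).symm
    rw [this, he, ← add_mul]; simp
  have hzero : ∀ v ∈ F, CE A η ((e * u) * star v) = 0 := by
    intro v hv
    rw [mul_assoc, h.CE_mul_left heA (mul_mem hu.1.mem (star_mem (hF.gnb v hv).1.mem))]
    change e * b v = 0
    have s1 : g v * b v = b v := (hag v hv).2.2.2
    rw [he, sub_mul, one_mul, Finset.sum_mul, Finset.sum_eq_single v, s1, sub_self]
    · intro w hw hwv
      rw [← s1, ← mul_assoc, horth w hw v hv hwv, zero_mul]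
    · intro hn; exact absurd hv hn
  refine ⟨insert (e * u) F, ⟨?_, ?_⟩, ?_, ?_⟩
  · intro v hv
    rcases Finset.mem_insert.1 hv with rfl | hv
    · exact hu'
    · exact hF.gnb v hv
  · intro v hv w hw hvw
    rcases Finset.mem_insert.1 hv with hv | hv
    · rcases Finset.mem_insert.1 hw with hw | hw
      · exact absurd (hv.trans hw.symm) hvw
      · rw [hv]; exact hzero w hw
    · rcases Finset.mem_insert.1 hw with hw | hw
      · have h1 : v * star w = star ((e * u) * star v) := by
          rw [star_mul (e * u) (star v), star_star, hw]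
        rw [h1, h.CE_star (mul_mem hu'.1.mem (star_mem (hF.gnb v hv).1.mem)), hzero v hv,
          star_zero]
      · exact hF.orth v hv w hw hvw
  · intro v hv; exact Finset.mem_insert_of_mem hv
  · have hmem : e * u + ∑ v ∈ F, b v * v ∈
        ENspan A (↑(insert (e * u) F) : Set (H →L[ℂ] H)) := by
      refine add_mem (ENspan_of_mem (by simp)) (Submodule.sum_mem _ fun v hv => ?_)
      exact ENspan_mul_mem' (hbA v hv) (by simp [hv])
    rwa [← hdec] at hmem

lemma NCE.en_gs (h : NCE M A η) (G : Finset (H →L[ℂ] H)) (hG : ∀ u ∈ G, ENG M A η u) :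
    ∃ F : Finset (H →L[ℂ] H), ENOF M A η F ∧ ∀ u ∈ G, u ∈ ENspan A (↑F : Set (H →L[ℂ] H)) := by
  classical
  induction G using Finset.induction_on with
  | empty => exact ⟨∅, ⟨by simp, by simp⟩, by simp⟩
  | insert u G hu ih =>
    obtain ⟨F, hF, h1⟩ := ih (fun v hv => hG v (Finset.mem_insert_of_mem hv))
    obtain ⟨F', hF', h2, h3⟩ := h.en_gs_step hF (hG u (Finset.mem_insert_self _ _))
    refine ⟨F', hF', fun v hv => ?_⟩
    rcases Finset.mem_insert.1 hv with rfl | hv
    · exact h3
    · exact ENspan_le (fun w hw => ENspan_of_mem (by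
        have : w ∈ F := by simpa using hw
        simpa using h2 w this)) (h1 v hv)

/-- the adjoint family is orthogonal -/
lemma NCE.en_orth_star (h : NCE M A η) {v w : H →L[ℂ] H} (hv : GN M A v) (hw : GN M A w)
    (h0 : CE A η (w * star v) = 0) : CE A η (star v * w) = 0 := by
  have hvM := hv.mem
  have hwM := hw.mem
  have hv' := star_mem hv.mem
  have h1 : v * CE A η (star v * w) * star v = 0 := by
    rw [← h.CE_conj hv (mul_mem hv' hwM)]
    have : v * (star v * w) * star v = (v * star v) * (w * star v) := by simp only [mul_assoc]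
    rw [this, h.CE_mul_left hv.rng (mul_mem hwM hv'), h0, mul_zero]
  have hc : CE A η (star v * w) ∈ A := h.CE_mem (mul_mem hv' hwM)
  have h2 : CE A η (star v * w) = (star v * v) * CE A η (star v * w) := by
    rw [← h.CE_mul_left hv.src (mul_mem hv' hwM)]
    congr 1
    calc star v * w = (star v * v * star v) * w := by rw [en_gn_part' hv]
      _ = _ := by simp only [mul_assoc]
  have h3 : CE A η (star v * w) = (star v * v) * CE A η (star v * w) * (star v * v) := by
    rw [← h2, ← h.masa.comm _ hv.src _ hc]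
    exact h2
  rw [h3]
  have : (star v * v) * CE A η (star v * w) * (star v * v)
      = star v * (v * CE A η (star v * w) * star v) * v := by simp only [mul_assoc]
  rw [this, h1, mul_zero, zero_mul]

end

end Crest.Agent.R109
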