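import Mathlib
import Crest.Agent.R109.FinStart1

-- ▼ part R109/FinStart2
section

/-!
# R109 / FinStart2 (helper585)

Multilinear determinants on the sites `V × Fin r`, groups processed one by one, stability.
-/

set_option autoImplicit false

namespace Crest.Agent.R109.Start

open Polynomial Finset Filter Topology Function

/-! ### one group -/

section group

variable {r : ℕ}

/-- the polynomial of a multilinear map on the line `y ↦ (y,1)` -/
noncomputable def pol (G : MultilinearMap ℂ (fun _ : Fin r => ℂ × ℂ) ℂ) : ℂ[X] :=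
  ∑ K : Finset (Fin r),
    C (G (K.piecewise (fun _ => ((1 : ℂ), (0 : ℂ))) (fun _ => ((0 : ℂ), (1 : ℂ))))) * X ^ K.card

theorem pol_eval (G : MultilinearMap ℂ (fun _ : Fin r => ℂ × ℂ) ℂ) (y : ℂ) :
    (pol G).eval y = G (fun _ => (y, 1)) := by
  have h1 : (fun _ : Fin r => ((y : ℂ), (1 : ℂ))) =
      (fun _ : Fin r => y • ((1 : ℂ), (0 : ℂ))) + (fun _ : Fin r => ((0 : ℂ), (1 : ℂ))) := by
    funext i
    simp
  rw [h1, MultilinearMap.map_add_univ, pol, eval_finsetSum]
  apply Finset.sum_congr rfl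
  intro K _
  rw [eval_mul, eval_C, eval_pow, eval_X]
  have h2 := MultilinearMap.map_piecewise_smul G (fun _ : Fin r => y)
    (K.piecewise (fun _ => ((1 : ℂ), (0 : ℂ))) (fun _ => ((0 : ℂ), (1 : ℂ)))) K
  have h3 : K.piecewise (fun i : Fin r => (fun _ : Fin r => y) i •
      (K.piecewise (fun _ => ((1 : ℂ), (0 : ℂ))) (fun _ => ((0 : ℂ), (1 : ℂ)))) i)
      (K.piecewise (fun _ => ((1 : ℂ), (0 : ℂ))) (fun _ => ((0 : ℂ), (1 : ℂ)))) =
      K.piecewise (fun _ : Fin r => y • ((1 : ℂ), (0 : ℂ))) (fun _ => ((0 : ℂ), (1 : ℂ))) := by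
    funext i
    by_cases hi : i ∈ K
    · simp [Finset.piecewise_eq_of_mem _ _ _ hi]
    · simp [Finset.piecewise_eq_of_notMem _ _ _ hi]
  rw [h3] at h2
  rw [h2]
  simp only [Finset.prod_const, smul_eq_mul]
  ring

theorem pol_natDegree_le (G : MultilinearMap ℂ (fun _ : Fin r => ℂ × ℂ) ℂ) :
    (pol G).natDegree ≤ r := by
  rw [pol]
  apply natDegree_sum_le_of_forall_le
  intro K _
  refine (natDegree_C_mul_X_pow_le _ _).trans ?_
  simpa using Finset.card_le_univ K

theorem pol_coeff_top (G : MultilinearMap ℂ (fun _ : Fin r => ℂ × ℂ) ℂ) :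
    (pol G).coeff r = G (fun _ => (1, 0)) := by
  rw [pol, finsetSum_coeff]
  rw [Finset.sum_eq_single_of_mem (Finset.univ : Finset (Fin r)) (Finset.mem_univ _)]
  · rw [coeff_C_mul_X_pow]
    simp
  · intro K _ hK
    rw [coeff_C_mul_X_pow]
    have : ¬ r = K.card := by
      intro h
      apply hK
      rw [← Finset.card_eq_iff_eq_univ]
      simp [← h]
    rw [if_neg this]

theorem pol_coeff_pred (hr : 0 < r) (G : MultilinearMap ℂ (fun _ : Fin r => ℂ × ℂ) ℂ) :
    (pol G).coeff (r - 1) = ∑ i, G (fun j => if j = i then (0, 1) else (1, 0)) := by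
  rw [pol, finsetSum_coeff]
  have h1 : ∀ K : Finset (Fin r),
      (C (G (K.piecewise (fun _ => ((1 : ℂ), (0 : ℂ))) (fun _ => ((0 : ℂ), (1 : ℂ))))) *
        X ^ K.card : ℂ[X]).coeff (r - 1) =
      if K.card = r - 1 then
        G (K.piecewise (fun _ => ((1 : ℂ), (0 : ℂ))) (fun _ => ((0 : ℂ), (1 : ℂ)))) else 0 := by
    intro K
    rw [coeff_C_mul_X_pow]
    simp only [eq_comm]
  rw [Finset.sum_congr rfl (fun K _ => h1 K)]
  rw [← Finset.sum_filter]
  refine (Finset.sum_bij (fun (i : Fin r) _ => Finset.univ.erase i) ?_ ?_ ?_ ?_).symm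
  · intro i _
    rw [Finset.mem_filter]
    refine ⟨Finset.mem_univ _, ?_⟩
    rw [Finset.card_erase_of_mem (Finset.mem_univ i)]
    simp
  · intro i _ j _ h
    by_contra hne
    have : i ∈ Finset.univ.erase j := Finset.mem_erase.mpr ⟨hne, Finset.mem_univ _⟩
    have h' : Finset.univ.erase i = Finset.univ.erase j := h
    rw [← h'] at this
    simp at this
  · intro K hK
    have hK' := (Finset.mem_filter.mp hK).2
    have hc : (Finset.univ \ K).card = 1 := by
      rw [Finset.card_sdiff_of_subset (Finset.subset_univ K)]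
      simp only [Finset.card_univ, Fintype.card_fin, hK']
      omega
    obtain ⟨i, hi⟩ := Finset.card_eq_one.mp hc
    refine ⟨i, Finset.mem_univ _, ?_⟩
    ext j
    have hj : j ∈ Finset.univ \ K ↔ j = i := by rw [hi]; simp
    simp only [Finset.mem_sdiff, Finset.mem_univ, true_and] at hj
    simp only [Finset.mem_erase, Finset.mem_univ, and_true]
    tauto
  · intro i _
    congr 1
    funext j
    by_cases hj : j = i
    · subst hj
      rw [if_pos rfl, Finset.piecewise_eq_of_notMem]
      simp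
    · rw [if_neg hj, Finset.piecewise_eq_of_mem]
      simp [hj]

/-- affine lower line -/
theorem sum_single_eval (hr : 0 < r) (G : MultilinearMap ℂ (fun _ : Fin r => ℂ × ℂ) ℂ) (y : ℂ) :
    ∑ i, G (fun j => if j = i then (y, 1) else (1, 0)) =
      r * y * (pol G).coeff r + (pol G).coeff (r - 1) := by
  rw [pol_coeff_top, pol_coeff_pred hr]
  have h : ∀ i : Fin r, G (fun j => if j = i then (y, 1) else (1, 0)) =
      y * G (fun _ => (1, 0)) + G (fun j => if j = i then (0, 1) else (1, 0)) := by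
    intro i
    have e1 : (fun j : Fin r => if j = i then ((y : ℂ), (1 : ℂ)) else (1, 0)) =
        update (fun _ : Fin r => ((1 : ℂ), (0 : ℂ))) i (y • ((1 : ℂ), (0 : ℂ)) + (0, 1)) := by
      funext j
      by_cases hj : j = i
      · subst hj; simp
      · simp [hj]
    have e2 : (fun j : Fin r => if j = i then ((0 : ℂ), (1 : ℂ)) else (1, 0)) =
        update (fun _ : Fin r => ((1 : ℂ), (0 : ℂ))) i (0, 1) := by
      funext j
      by_cases hj : j = i
      · subst hj; simp
      · simp [hj]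
    rw [e1, e2, G.map_update_add, G.map_update_smul]
    congr 2
    rw [update_eq_self_iff.mpr rfl]
  rw [Finset.sum_congr rfl (fun i _ => h i), Finset.sum_add_distrib]
  simp
  ring

/-- factorisation over `ℂ` -/
theorem exists_roots (hr : 0 < r) (G : MultilinearMap ℂ (fun _ : Fin r => ℂ × ℂ) ℂ)
    (hA : G (fun _ => (1, 0)) ≠ 0) :
    ∃ ζ : Fin r → ℂ, (∀ y : ℂ, G (fun _ => (y, 1)) = G (fun _ => (1, 0)) * ∏ k, (y - ζ k)) ∧
      (∀ y : ℂ, ∑ i, G (fun j => if j = i then (y, 1) else (1, 0)) =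
        G (fun _ => (1, 0)) * (r * y - ∑ k, ζ k)) := by
  have hdeg : (pol G).natDegree = r := by
    apply le_antisymm (pol_natDegree_le G)
    apply le_natDegree_of_ne_zero
    rw [pol_coeff_top]
    exact hA
  have hlead : (pol G).leadingCoeff = G (fun _ => (1, 0)) := by
    rw [leadingCoeff, hdeg, pol_coeff_top]
  have hsplit : (pol G).Splits := IsAlgClosed.splits _
  have hcard : (pol G).roots.card = r :=
    (splits_iff_card_roots.mp hsplit).trans hdeg
  set l := (pol G).roots.toList with hl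
  have hlen : l.length = r := by rw [hl, Multiset.length_toList, hcard]
  set ζ : Fin r → ℂ := fun k => l.get (Fin.cast hlen.symm k) with hζ
  have hmap : (Finset.univ : Finset (Fin r)).val.map ζ = (pol G).roots := by
    rw [Fin.univ_val_map]
    have : List.ofFn ζ = l := by
      apply List.ext_get
      · simp [hlen]
      · intro n h1 h2
        simp [hζ]
    rw [this, hl, Multiset.coe_toList]
  have hfac : pol G = C (G (fun _ => (1, 0))) * ∏ k, (X - C (ζ k)) := by
    have h1 := hsplit.eq_prod_roots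
    rw [hlead, ← hmap, Multiset.map_map] at h1
    exact h1
  refine ⟨ζ, ?_, ?_⟩
  · intro y
    rw [← pol_eval, hfac, eval_mul, eval_C, eval_prod]
    simp
  · intro y
    rw [sum_single_eval hr, pol_coeff_top]
    have h2 : (pol G).coeff (r - 1) = G (fun _ => (1, 0)) * (- ∑ k, ζ k) := by
      rw [hfac, coeff_C_mul]
      congr 1
      have := Polynomial.prod_X_sub_C_coeff_card_pred (Finset.univ : Finset (Fin r)) ζ
        (by simp [hr])
      simpa using this
    rw [h2]
    ring

end group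

/-! ### sites -/

section sites

set_option linter.unusedSectionVars false

variable {V : Type*} [Fintype V] [DecidableEq V] {r : ℕ}

/-- the row of the site `s` with parameters `p = (a,b)`: `a e_s - b X_s` -/
noncomputable def rowMap (X : Matrix (V × Fin r) (V × Fin r) ℂ) (s : V × Fin r) :
    ℂ × ℂ →ₗ[ℂ] (V × Fin r → ℂ) where
  toFun p := p.1 • Pi.single s 1 - p.2 • X s
  map_add' p q := by
    funext t
    simp only [Prod.fst_add, Prod.snd_add, Pi.sub_apply, Pi.smul_apply, Pi.add_apply, smul_eq_mul]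
    ring
  map_smul' c p := by
    funext t
    simp only [Prod.smul_fst, Prod.smul_snd, Pi.sub_apply, Pi.smul_apply, smul_eq_mul,
      RingHom.id_apply]
    ring

/-- the multilinear determinant -/
noncomputable def D (X : Matrix (V × Fin r) (V × Fin r) ℂ) :
    MultilinearMap ℂ (fun _ : V × Fin r => ℂ × ℂ) ℂ :=
  (Matrix.detRowAlternating (n := V × Fin r) (R := ℂ)).toMultilinearMap.compLinearMap (rowMap X)

theorem D_apply (X : Matrix (V × Fin r) (V × Fin r) ℂ) (u : V × Fin r → ℂ × ℂ) :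
    D X u = Matrix.det (Matrix.of fun s => (u s).1 • Pi.single s (1 : ℂ) - (u s).2 • X s) := by
  rfl

/-- mask of the processed groups -/
def mask (S : Finset V) (c : V → Fin r) (u : V × Fin r → ℂ × ℂ) : V × Fin r → ℂ × ℂ :=
  fun s => if s.1 ∈ S ∧ s.2 ≠ c s.1 then (1, 0) else u s

/-- the (unnormalised) averaged polynomial -/
noncomputable def F (X : Matrix (V × Fin r) (V × Fin r) ℂ) (S : Finset V)
    (u : V × Fin r → ℂ × ℂ) : ℂ :=
  ∑ c : V → Fin r, D X (mask S c u)

/-- change the data of the group `v` -/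
def setG (u : V × Fin r → ℂ × ℂ) (v : V) (w : Fin r → ℂ × ℂ) : V × Fin r → ℂ × ℂ :=
  fun s => if s.1 = v then w s.2 else u s

theorem mask_empty (c : V → Fin r) (u : V × Fin r → ℂ × ℂ) : mask ∅ c u = u := by
  funext s
  simp [mask]

theorem mask_update {S : Finset V} (c : V → Fin r) (u : V × Fin r → ℂ × ℂ) (s : V × Fin r)
    (hs : s.1 ∉ S) (x : ℂ × ℂ) : mask S c (update u s x) = update (mask S c u) s x := by
  funext t
  by_cases ht : t = s
  · subst ht
    simp [mask, hs]
  · simp only [mask, update_of_ne ht]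

theorem setG_update (u : V × Fin r → ℂ × ℂ) (v : V) (w : Fin r → ℂ × ℂ) (i : Fin r) (x : ℂ × ℂ) :
    setG u v (update w i x) = update (setG u v w) (v, i) x := by
  funext t
  rcases t with ⟨a, j⟩
  by_cases ha : a = v
  · subst ha
    by_cases hj : j = i
    · subst hj; simp [setG]
    · have : (a, j) ≠ (a, i) := fun h => hj (Prod.ext_iff.mp h).2
      simp [setG, update_of_ne hj, update_of_ne this]
  · have : (a, j) ≠ (v, i) := fun h => ha (Prod.ext_iff.mp h).1
    simp [setG, ha, update_of_ne this]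

theorem F_update_add (X : Matrix (V × Fin r) (V × Fin r) ℂ) {S : Finset V}
    (u : V × Fin r → ℂ × ℂ) (s : V × Fin r) (hs : s.1 ∉ S) (x y : ℂ × ℂ) :
    F X S (update u s (x + y)) = F X S (update u s x) + F X S (update u s y) := by
  simp only [F]
  rw [← Finset.sum_add_distrib]
  apply Finset.sum_congr rfl
  intro c _
  rw [mask_update c u s hs, mask_update c u s hs, mask_update c u s hs, (D X).map_update_add]

theorem F_update_smul (X : Matrix (V × Fin r) (V × Fin r) ℂ) {S : Finset V}
    (u : V × Fin r → ℂ × ℂ) (s : V × Fin r) (hs : s.1 ∉ S) (a : ℂ) (x : ℂ × ℂ) :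
    F X S (update u s (a • x)) = a * F X S (update u s x) := by
  simp only [F]
  rw [Finset.mul_sum]
  apply Finset.sum_congr rfl
  intro c _
  rw [mask_update c u s hs, mask_update c u s hs, (D X).map_update_smul, smul_eq_mul]

/-- the group `v` as a multilinear map -/
noncomputable def GG (X : Matrix (V × Fin r) (V × Fin r) ℂ) (S : Finset V)
    (u : V × Fin r → ℂ × ℂ) (v : V) (hv : v ∉ S) :
    MultilinearMap ℂ (fun _ : Fin r => ℂ × ℂ) ℂ where
  toFun w := F X S (setG u v w)
  map_update_add' := by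
    intro inst w i x y
    have hinst : inst = instDecidableEqFin r := Subsingleton.elim _ _
    subst hinst
    rw [setG_update, setG_update, setG_update]
    exact F_update_add X _ _ hv x y
  map_update_smul' := by
    intro inst w i a x
    have hinst : inst = instDecidableEqFin r := Subsingleton.elim _ _
    subst hinst
    rw [setG_update, setG_update]
    exact F_update_smul X _ _ hv a x

theorem GG_apply (X : Matrix (V × Fin r) (V × Fin r) ℂ) (S : Finset V)
    (u : V × Fin r → ℂ × ℂ) (v : V) (hv : v ∉ S) (w : Fin r → ℂ × ℂ) :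
    GG X S u v hv w = F X S (setG u v w) := rfl

/-- the involution `(i,c) ↦ (c v, update c v i)` -/
def swapEquiv (v : V) : (Fin r × (V → Fin r)) ≃ (Fin r × (V → Fin r)) where
  toFun p := (p.2 v, update p.2 v p.1)
  invFun p := (p.2 v, update p.2 v p.1)
  left_inv p := by simp
  right_inv p := by simp

theorem sum_update (v : V) (H : (V → Fin r) → ℂ) :
    ∑ i : Fin r, ∑ c : V → Fin r, H (update c v i) = r * ∑ c : V → Fin r, H c := by
  rw [← Fintype.sum_prod_type' (f := fun (i : Fin r) (c : V → Fin r) => H (update c v i))]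
  have h := Equiv.sum_comp (swapEquiv (r := r) v) (fun p : Fin r × (V → Fin r) => H p.2)
  have h2 : ∑ p : Fin r × (V → Fin r), H (update p.2 v p.1) =
      ∑ p : Fin r × (V → Fin r), H p.2 := by
    rw [← h]
    rfl
  rw [h2, Fintype.sum_prod_type]
  simp

theorem F_insert (X : Matrix (V × Fin r) (V × Fin r) ℂ) {S : Finset V}
    (u : V × Fin r → ℂ × ℂ) (v : V) (hv : v ∉ S) (w : ℂ × ℂ) :
    ∑ i, F X S (setG u v (fun j => if j = i then w else (1, 0))) =
      r * F X (insert v S) (setG u v (fun _ => w)) := by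
  simp only [F]
  rw [← sum_update v]
  apply Finset.sum_congr rfl
  intro i _
  apply Finset.sum_congr rfl
  intro c _
  congr 1
  funext s
  rcases s with ⟨a, j⟩
  by_cases ha : a = v
  · subst ha
    by_cases hj : j = i
    · subst hj; simp [mask, setG, hv]
    · simp [mask, setG, hv, hj]
  · by_cases haS : a ∈ S
    · simp [mask, setG, ha, haS]
    · simp [mask, setG, ha, haS]

/-- kernel argument -/
theorem D_ne_zero (X : Matrix (V × Fin r) (V × Fin r) ℂ) (hX : X.IsHermitian) (σ : ℝ)
    (u : V × Fin r → ℂ × ℂ)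
    (hu : ∀ s, u s = (1, 0) ∨ ∃ z : ℂ, 0 < σ * z.im ∧ u s = (z, 1)) : D X u ≠ 0 := by
  rw [D_apply]
  intro h0
  obtain ⟨ξ, hξ, hker⟩ := Matrix.exists_mulVec_eq_zero_iff.mpr h0
  have hrow : ∀ s, (u s).1 * ξ s = (u s).2 * (X.mulVec ξ) s := by
    intro s
    have := congrFun hker s
    simp only [Matrix.mulVec, dotProduct, Matrix.of_apply, Pi.sub_apply, Pi.smul_apply,
      smul_eq_mul, Pi.zero_apply, sub_mul, Finset.sum_sub_distrib] at this
    rw [Finset.sum_eq_single_of_mem s (Finset.mem_univ _)] at this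
    · rw [Pi.single_eq_same] at this
      have h2 : ∑ x, (u s).2 * X s x * ξ x = (u s).2 * ∑ x, X s x * ξ x := by
        rw [Finset.mul_sum]
        apply Finset.sum_congr rfl
        intro x _
        ring
      rw [h2] at this
      have h3 : (X.mulVec ξ) s = ∑ x, X s x * ξ x := rfl
      rw [h3]
      linear_combination this
    · intro t _ hts
      rw [Pi.single_eq_of_ne hts]
      ring
  have hreal : (∑ s, star (ξ s) * (X.mulVec ξ) s).im = 0 := by
    have h1 : star (∑ s, star (ξ s) * (X.mulVec ξ) s) = ∑ s, star (ξ s) * (X.mulVec ξ) s := by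
      rw [star_sum]
      have e : ∀ s, (X.mulVec ξ) s = ∑ t, X s t * ξ t := fun s => rfl
      simp only [e, Finset.mul_sum, star_sum, star_mul', star_star]
      rw [Finset.sum_comm]
      apply Finset.sum_congr rfl
      intro s _
      apply Finset.sum_congr rfl
      intro t _
      have := hX.apply s t
      rw [← this]
      ring
    generalize (∑ s, star (ξ s) * (X.mulVec ξ) s) = Q at h1 ⊢
    have h2 := congrArg Complex.im h1
    simp only [Complex.star_def, Complex.conj_im] at h2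
    linarith
  have hterm : ∀ s, 0 ≤ σ * (star (ξ s) * (X.mulVec ξ) s).im ∧
      (σ * (star (ξ s) * (X.mulVec ξ) s).im = 0 → ξ s = 0) := by
    intro s
    rcases hu s with h | ⟨z, hz, h⟩
    · have := hrow s
      rw [h] at this
      simp only [one_mul, zero_mul] at this
      rw [this]
      simp
    · have := hrow s
      rw [h] at this
      simp only [one_mul] at this
      rw [← this]
      have e : star (ξ s) * (z * ξ s) = z * ((Complex.normSq (ξ s) : ℝ) : ℂ) := by
        rw [Complex.normSq_eq_conj_mul_self, Complex.star_def]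
        ring
      rw [e, mul_comm z, Complex.im_ofReal_mul]
      constructor
      · have := Complex.normSq_nonneg (ξ s)
        have h5 : σ * (Complex.normSq (ξ s) * z.im) = (σ * z.im) * Complex.normSq (ξ s) := by ring
        rw [h5]
        positivity
      · intro h6
        have h5 : σ * (Complex.normSq (ξ s) * z.im) = (σ * z.im) * Complex.normSq (ξ s) := by ring
        rw [h5] at h6
        rcases mul_eq_zero.mp h6 with h7 | h7
        · exact absurd h7 hz.ne'
        · exact Complex.normSq_eq_zero.mp h7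
  have hsum : ∑ s, σ * (star (ξ s) * (X.mulVec ξ) s).im = 0 := by
    rw [← Finset.mul_sum, ← Complex.im_sum, hreal, mul_zero]
  have hall := (Finset.sum_eq_zero_iff_of_nonneg (fun s _ => (hterm s).1)).mp hsum
  apply hξ
  funext s
  exact (hterm s).2 (hall s (Finset.mem_univ s))

/-- admissible data in the half plane `σ Im > 0` -/
def Adm (σ : ℝ) (S : Finset V) (u : V × Fin r → ℂ × ℂ) : Prop :=
  (∀ v ∈ S, ∃ z : ℂ, 0 < σ * z.im ∧ ∀ i, u (v, i) = (z, 1)) ∧
  (∀ v, v ∉ S → ∀ i, u (v, i) = (1, 0) ∨ ∃ z : ℂ, 0 < σ * z.im ∧ u (v, i) = (z, 1))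

theorem setG_self (u : V × Fin r → ℂ × ℂ) (v : V) (w : ℂ × ℂ) (h : ∀ i, u (v, i) = w) :
    setG u v (fun _ => w) = u := by
  funext s
  rcases s with ⟨a, j⟩
  by_cases ha : a = v
  · subst ha; simp [setG, h]
  · simp [setG, ha]

theorem Adm.setG {σ : ℝ} {S : Finset V} {u : V × Fin r → ℂ × ℂ} {v : V} (hv : v ∉ S)
    (hu : Adm σ (insert v S) u) (w : Fin r → ℂ × ℂ)
    (hw : ∀ i, w i = (1, 0) ∨ ∃ z : ℂ, 0 < σ * z.im ∧ w i = (z, 1)) :
    Adm σ S (setG u v w) := by
  constructor
  · intro a ha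
    have hav : a ≠ v := fun h => hv (h ▸ ha)
    obtain ⟨z, hz, h⟩ := hu.1 a (Finset.mem_insert_of_mem ha)
    exact ⟨z, hz, fun i => by simp [Start.setG, hav, h i]⟩
  · intro a ha i
    by_cases hav : a = v
    · subst hav
      simpa [Start.setG] using hw i
    · have := hu.2 a (by simp [hav, ha]) i
      simpa [Start.setG, hav] using this

/-- the mean of the roots -/
theorem stab_aux {σ : ℝ} (hr : 0 < r) (A : ℂ) (hA : A ≠ 0) (ζ : Fin r → ℂ) (z : ℂ)
    (hz : 0 < σ * z.im) (hζ : ∀ k, σ * (ζ k).im ≤ 0) : A * (r * z - ∑ k, ζ k) ≠ 0 := by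
  apply mul_ne_zero hA
  intro h0
  have h1 := congrArg Complex.im h0
  simp only [Complex.sub_im, Complex.im_sum, Complex.zero_im] at h1
  have h2 : ((r : ℂ) * z).im = r * z.im := by
    rw [show (r : ℂ) = ((r : ℝ) : ℂ) by push_cast; rfl, Complex.im_ofReal_mul]
  rw [h2] at h1
  have h3 : ∑ k, σ * (ζ k).im ≤ 0 := Finset.sum_nonpos (fun k _ => hζ k)
  rw [← Finset.mul_sum] at h3
  have hr' : (0 : ℝ) < r := by exact_mod_cast hr
  have h4 : r * (σ * z.im) = σ * ∑ k, (ζ k).im := by
    have : (r : ℝ) * z.im = ∑ k, (ζ k).im := by linarith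
    rw [← this]; ring
  have h5 : 0 < r * (σ * z.im) := by positivity
  linarith

/-- **stability** -/
theorem F_ne_zero (hr : 0 < r) (X : Matrix (V × Fin r) (V × Fin r) ℂ) (hX : X.IsHermitian) (σ : ℝ) :
    ∀ (S : Finset V) (u : V × Fin r → ℂ × ℂ), Adm σ S u → F X S u ≠ 0 := by
  intro S
  induction S using Finset.induction_on with
  | empty =>
    intro u hu
    have h1 : F X ∅ u = (Fintype.card (V → Fin r) : ℂ) * D X u := by
      simp only [F, mask_empty, Finset.sum_const, nsmul_eq_mul, Finset.card_univ]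
    rw [h1]
    apply mul_ne_zero
    · have : Nonempty (Fin r) := ⟨⟨0, hr⟩⟩
      exact_mod_cast Fintype.card_ne_zero
    · apply D_ne_zero X hX σ
      intro s
      exact hu.2 s.1 (by simp) s.2
  | insert v S hv ih =>
    intro u hu
    obtain ⟨z, hz, hzu⟩ := hu.1 v (Finset.mem_insert_self v S)
    have hA : GG X S u v hv (fun _ => (1, 0)) ≠ 0 := by
      rw [GG_apply]
      exact ih _ (hu.setG hv _ (fun i => Or.inl rfl))
    obtain ⟨ζ, h1, h2⟩ := exists_roots hr (GG X S u v hv) hA
    have hζ : ∀ k, σ * (ζ k).im ≤ 0 := by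
      intro k
      by_contra hk
      push Not at hk
      have h3 : GG X S u v hv (fun _ => (ζ k, 1)) ≠ 0 := by
        rw [GG_apply]
        exact ih _ (hu.setG hv _ (fun i => Or.inr ⟨ζ k, hk, rfl⟩))
      apply h3
      rw [h1, Finset.prod_eq_zero (Finset.mem_univ k) (by ring), mul_zero]
    have h4 := stab_aux hr _ hA ζ z hz hζ
    rw [← h2 z] at h4
    simp only [GG_apply] at h4
    rw [F_insert X u v hv] at h4
    rw [setG_self u v _ hzu] at h4
    exact right_ne_zero_of_mul h4

end sites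

end Crest.Agent.R109.Start
end

-- ▼ part R109/FinStart3
section

/-!
# R109 / FinStart3 (helper585)

Real points: real rootedness, the Nevanlinna property, the barrier induction, the start bound.
-/

set_option autoImplicit false
set_option linter.unusedSectionVars false

namespace Crest.Agent.R109.Start

open Polynomial Finset Filter Topology Function
open scoped ComplexOrder

variable {V : Type*} [Fintype V] [DecidableEq V] {r : ℕ}

/-! ### continuity -/

theorem D_continuous (X : Matrix (V × Fin r) (V × Fin r) ℂ) :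
    Continuous (fun u : V × Fin r → ℂ × ℂ => D X u) := by
  simp only [D_apply]
  apply Continuous.matrix_det
  apply continuous_matrix
  intro s t
  simp only [Matrix.of_apply, Pi.sub_apply, Pi.smul_apply, smul_eq_mul]
  fun_prop

theorem mask_continuous (S : Finset V) (c : V → Fin r) :
    Continuous (fun u : V × Fin r → ℂ × ℂ => mask S c u) := by
  apply continuous_pi
  intro s
  by_cases h : s.1 ∈ S ∧ s.2 ≠ c s.1
  · simp only [mask, if_pos h]
    exact continuous_const
  · simp only [mask, if_neg h]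
    exact continuous_apply s

theorem F_continuous (X : Matrix (V × Fin r) (V × Fin r) ℂ) (S : Finset V) :
    Continuous (fun u : V × Fin r → ℂ × ℂ => F X S u) := by
  simp only [F]
  apply continuous_finsetSum
  intro c _
  exact (D_continuous X).comp (mask_continuous S c)

/-! ### points -/

/-- data with processed levels `Z`, unprocessed level `t`, deleted sites `Dl`, imaginary shift `e` -/
noncomputable def pt (S : Finset V) (Z : V → ℝ) (t : ℝ) (Dl : Finset (V × Fin r)) (e : ℝ) :
    V × Fin r → ℂ × ℂ :=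
  fun s => if s.1 ∈ S then ((Z s.1 : ℂ) + e * Complex.I, 1) else
    if s ∈ Dl then (1, 0) else ((t : ℂ) + e * Complex.I, 1)

theorem pt_adm {σ : ℝ} (S : Finset V) (Z : V → ℝ) (t : ℝ) (Dl : Finset (V × Fin r)) (e : ℝ)
    (he : 0 < σ * e) {v : V} (w : Fin r → ℂ × ℂ) (hv : v ∉ S)
    (hw : ∀ i, w i = (1, 0) ∨ ∃ z : ℂ, 0 < σ * z.im ∧ w i = (z, 1)) :
    Adm σ S (setG (pt S Z t Dl e) v w) := by
  constructor
  · intro a ha
    refine ⟨(Z a : ℂ) + e * Complex.I, by simpa using he, fun i => ?_⟩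
    have hav : a ≠ v := fun h => hv (h ▸ ha)
    simp [setG, pt, ha, hav]
  · intro a ha i
    by_cases hav : a = v
    · subst hav
      simpa [setG] using hw i
    · by_cases hD : (a, i) ∈ Dl
      · left; simp [setG, pt, ha, hav, hD]
      · right
        refine ⟨(t : ℂ) + e * Complex.I, by simpa using he, ?_⟩
        simp [setG, pt, ha, hav, hD]

theorem pt_continuous (S : Finset V) (Z : V → ℝ) (t : ℝ) (Dl : Finset (V × Fin r)) (v : V)
    (w : Fin r → ℂ × ℂ) :
    Continuous (fun e : ℝ => setG (pt S Z t Dl e) v w) := by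
  apply continuous_pi
  intro s
  by_cases h1 : s.1 = v
  · simp only [setG, h1, if_true]; exact continuous_const
  · simp only [setG, h1, if_false, pt]
    by_cases h2 : s.1 ∈ S
    · simp only [h2, if_true]
      fun_prop
    · simp only [h2, if_false]
      by_cases h3 : s ∈ Dl
      · simp only [h3, if_true]; exact continuous_const
      · simp only [h3, if_false]
        fun_prop

/-- value along the group line -/
theorem lower_bound (hr : 0 < r) (X : Matrix (V × Fin r) (V × Fin r) ℂ) (hX : X.IsHermitian)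
    (σ : ℝ) (hσ : σ = 1 ∨ σ = -1) (S : Finset V) (Z : V → ℝ) (t : ℝ) (Dl : Finset (V × Fin r))
    (v : V) (hv : v ∉ S) (y : ℂ) (hy : 0 < σ * y.im) :
    ‖F X S (setG (pt S Z t Dl 0) v (fun _ => (1, 0)))‖ * (σ * y.im) ^ r ≤
      ‖F X S (setG (pt S Z t Dl 0) v (fun _ => (y, 1)))‖ := by
  have hσ0 : σ ≠ 0 := by rcases hσ with h | h <;> rw [h] <;> norm_num
  have hσσ : σ * σ = 1 := by rcases hσ with h | h <;> rw [h] <;> norm_num
  have habs : |σ| = 1 := by rcases hσ with h | h <;> rw [h] <;> norm_num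
  -- inequality at `e = σ ε`
  have hineq : ∀ ε : ℝ, 0 < ε →
      ‖F X S (setG (pt S Z t Dl (σ * ε)) v (fun _ => (1, 0)))‖ * (σ * y.im) ^ r ≤
      ‖F X S (setG (pt S Z t Dl (σ * ε)) v (fun _ => (y, 1)))‖ := by
    intro ε hε
    have he : 0 < σ * (σ * ε) := by rw [← mul_assoc, hσσ, one_mul]; exact hε
    have hA : GG X S (pt S Z t Dl (σ * ε)) v hv (fun _ => (1, 0)) ≠ 0 := by
      rw [GG_apply]
      exact F_ne_zero hr X hX σ S _ (pt_adm S Z t Dl _ he _ hv (fun i => Or.inl rfl))
    obtain ⟨ζ, h1, _⟩ := exists_roots hr (GG X S (pt S Z t Dl (σ * ε)) v hv) hA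
    have hζ : ∀ k, σ * (ζ k).im ≤ 0 := by
      intro k
      by_contra hk
      push Not at hk
      have h3 : GG X S (pt S Z t Dl (σ * ε)) v hv (fun _ => (ζ k, 1)) ≠ 0 := by
        rw [GG_apply]
        exact F_ne_zero hr X hX σ S _ (pt_adm S Z t Dl _ he _ hv
          (fun i => Or.inr ⟨ζ k, hk, rfl⟩))
      apply h3
      rw [h1, Finset.prod_eq_zero (Finset.mem_univ k) (by ring), mul_zero]
    have h4 := h1 y
    rw [GG_apply, GG_apply] at h4
    rw [h4, norm_mul, norm_prod]
    apply mul_le_mul_of_nonneg_left _ (norm_nonneg _)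
    have h5 : ∀ k, σ * y.im ≤ ‖y - ζ k‖ := by
      intro k
      have h6 : σ * y.im ≤ σ * (y - ζ k).im := by
        rw [Complex.sub_im, mul_sub]; linarith [hζ k]
      refine h6.trans ((le_abs_self _).trans ?_)
      rw [abs_mul, habs, one_mul]
      exact Complex.abs_im_le_norm _
    calc (σ * y.im) ^ r = ∏ _k : Fin r, (σ * y.im) := by simp
      _ ≤ ∏ k, ‖y - ζ k‖ := Finset.prod_le_prod (fun k _ => hy.le) (fun k _ => h5 k)
  have hcont : ∀ w : Fin r → ℂ × ℂ, Tendsto
      (fun ε : ℝ => F X S (setG (pt S Z t Dl (σ * ε)) v w)) (𝓝[>] 0)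
      (𝓝 (F X S (setG (pt S Z t Dl 0) v w))) := by
    intro w
    have h1 : Continuous (fun ε : ℝ => F X S (setG (pt S Z t Dl (σ * ε)) v w)) :=
      (F_continuous X S).comp ((pt_continuous S Z t Dl v w).comp (continuous_const.mul
        continuous_id))
    have h2 := h1.tendsto 0
    simp only [mul_zero] at h2
    exact h2.mono_left nhdsWithin_le_nhds
  refine le_of_tendsto_of_tendsto ((hcont _).norm.mul_const _) (hcont _).norm ?_
  filter_upwards [self_mem_nhdsWithin] with ε hε
  exact hineq ε hε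

/-- real roots at a real point with nonzero leading coefficient -/
theorem real_group (hr : 0 < r) (X : Matrix (V × Fin r) (V × Fin r) ℂ) (hX : X.IsHermitian)
    (S : Finset V) (Z : V → ℝ) (t : ℝ) (Dl : Finset (V × Fin r))
    (v : V) (hv : v ∉ S)
    (hA : F X S (setG (pt S Z t Dl 0) v (fun _ => (1, 0))) ≠ 0) :
    ∃ ρ : Fin r → ℝ,
      (∀ y : ℂ, F X S (setG (pt S Z t Dl 0) v (fun _ => (y, 1))) =
        F X S (setG (pt S Z t Dl 0) v (fun _ => (1, 0))) * ∏ k, (y - (ρ k : ℂ))) ∧
      (∀ y : ℂ, (r : ℂ) * F X (insert v S) (setG (pt S Z t Dl 0) v (fun _ => (y, 1))) =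
        F X S (setG (pt S Z t Dl 0) v (fun _ => (1, 0))) * (r * y - ∑ k, (ρ k : ℂ))) := by
  obtain ⟨ζ, h1, h2⟩ := exists_roots hr (GG X S (pt S Z t Dl 0) v hv)
    (by rw [GG_apply]; exact hA)
  have hreal : ∀ k, ((ζ k).re : ℂ) = ζ k := by
    intro k
    have him : (ζ k).im = 0 := by
      by_contra hne
      have h3 := h1 (ζ k)
      rw [Finset.prod_eq_zero (Finset.mem_univ k) (by ring), mul_zero, GG_apply] at h3
      rcases lt_or_gt_of_ne hne with h | h
      · have := lower_bound hr X hX (-1) (Or.inr rfl) S Z t Dl v hv (ζ k) (by linarith)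
        rw [h3, norm_zero] at this
        have h5 : 0 < (-1 * (ζ k).im) ^ r := pow_pos (by linarith) r
        have h6 : 0 < ‖F X S (setG (pt S Z t Dl 0) v (fun _ => (1, 0)))‖ := norm_pos_iff.mpr hA
        have := mul_pos h6 h5
        linarith
      · have := lower_bound hr X hX 1 (Or.inl rfl) S Z t Dl v hv (ζ k) (by linarith)
        rw [h3, norm_zero] at this
        have h5 : 0 < (1 * (ζ k).im) ^ r := pow_pos (by linarith) r
        have h6 : 0 < ‖F X S (setG (pt S Z t Dl 0) v (fun _ => (1, 0)))‖ := norm_pos_iff.mpr hA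
        have := mul_pos h6 h5
        linarith
    apply Complex.ext
    · simp
    · simp [him]
  refine ⟨fun k => (ζ k).re, ?_, ?_⟩
  · intro y
    have := h1 y
    rw [GG_apply, GG_apply] at this
    rw [this]
    congr 1
    apply Finset.prod_congr rfl
    intro k _
    rw [hreal k]
  · intro y
    have := h2 y
    simp only [GG_apply] at this
    rw [F_insert X _ v hv] at this
    rw [this]
    congr 2
    apply Finset.sum_congr rfl
    intro k _
    rw [hreal k]

/-- Nevanlinna property when one more site is deleted -/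
theorem nevanlinna (hr : 0 < r) (X : Matrix (V × Fin r) (V × Fin r) ℂ) (hX : X.IsHermitian)
    (S : Finset V) (Z : V → ℝ) (t : ℝ) (Dl : Finset (V × Fin r))
    (v : V) (hv : v ∉ S) (s0 : V × Fin r) (h0S : s0.1 ∉ S) (h0v : s0.1 ≠ v) (h0D : s0 ∉ Dl)
    (hA : F X S (setG (pt S Z t Dl 0) v (fun _ => (1, 0))) ≠ 0) (y : ℂ) (hy : 0 < y.im) :
    (F X S (setG (pt S Z t (insert s0 Dl) 0) v (fun _ => (y, 1))) /
      F X S (setG (pt S Z t Dl 0) v (fun _ => (y, 1)))).im ≤ 0 := by
  have hineq : ∀ ε : ℝ, 0 < ε →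
    (F X S (setG (pt S Z t (insert s0 Dl) ε) v (fun _ => (y, 1))) /
      F X S (setG (pt S Z t Dl ε) v (fun _ => (y, 1)))).im ≤ 0 := by
    intro ε hε
    set U := setG (pt S Z t Dl ε) v (fun _ => (y, 1)) with hU
    have hU0 : U s0 = ((t : ℂ) + ε * Complex.I, 1) := by
      simp [hU, setG, pt, h0S, h0v, h0D]
    have hUq : setG (pt S Z t (insert s0 Dl) ε) v (fun _ => (y, 1)) = update U s0 (1, 0) := by
      funext s
      by_cases hs : s = s0
      · subst hs
        simp [setG, pt, h0S, h0v]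
      · simp [hU, setG, pt, hs]
    have hlin : ∀ z : ℂ, F X S (update U s0 (z, 1)) =
        z * F X S (update U s0 (1, 0)) + F X S (update U s0 (0, 1)) := by
      intro z
      rw [← F_update_smul X U s0 h0S, ← F_update_add X U s0 h0S]
      congr 2
      simp
    have hadm : Adm 1 S U := pt_adm S Z t Dl ε (by linarith) _ hv
      (fun i => Or.inr ⟨y, by linarith, rfl⟩)
    have hupd : ∀ x : ℂ × ℂ, (x = (1, 0) ∨ ∃ z : ℂ, 0 < 1 * z.im ∧ x = (z, 1)) →
        Adm 1 S (update U s0 x) := by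
      intro x hx
      constructor
      · intro a ha
        obtain ⟨z, hz, h⟩ := hadm.1 a ha
        refine ⟨z, hz, fun i => ?_⟩
        have hne : (a, i) ≠ s0 := fun h => h0S (by rw [← h]; exact ha)
        rw [update_of_ne hne, h i]
      · intro a ha i
        by_cases hne : (a, i) = s0
        · rw [hne, update_self]; exact hx
        · rw [update_of_ne hne]; exact hadm.2 a ha i
    have hq : F X S (update U s0 (1, 0)) ≠ 0 :=
      F_ne_zero hr X hX 1 S _ (hupd _ (Or.inl rfl))
    set q := F X S (update U s0 (1, 0)) with hqdef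
    set N := F X S (update U s0 (0, 1)) with hNdef
    have hNq : 0 ≤ (N / q).im := by
      by_contra hneg
      push Not at hneg
      have h1 : F X S (update U s0 (-(N / q), 1)) ≠ 0 :=
        F_ne_zero hr X hX 1 S _ (hupd _ (Or.inr ⟨-(N / q), by
          rw [Complex.neg_im]; linarith, rfl⟩))
      apply h1
      rw [hlin]
      field_simp
      ring
    have hp : F X S U = ((t : ℂ) + ε * Complex.I) * q + N := by
      rw [← hlin, ← hU0, update_eq_self]
    have hpq : F X S U / q = ((t : ℂ) + ε * Complex.I) + N / q := by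
      rw [hp]; field_simp
    have him : 0 < (F X S U / q).im := by
      rw [hpq, Complex.add_im]
      have : ((t : ℂ) + ε * Complex.I).im = ε := by simp
      rw [this]; linarith
    rw [hUq, ← hqdef]
    have : q / F X S U = (F X S U / q)⁻¹ := by rw [inv_div]
    rw [this, Complex.inv_im]
    apply div_nonpos_of_nonpos_of_nonneg
    · linarith
    · exact Complex.normSq_nonneg _
  have hcont : ∀ Dl' : Finset (V × Fin r), Tendsto
      (fun ε : ℝ => F X S (setG (pt S Z t Dl' ε) v (fun _ => (y, 1)))) (𝓝[>] 0)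
      (𝓝 (F X S (setG (pt S Z t Dl' 0) v (fun _ => (y, 1))))) := by
    intro Dl'
    have h1 : Continuous (fun ε : ℝ => F X S (setG (pt S Z t Dl' ε) v (fun _ => (y, 1)))) :=
      (F_continuous X S).comp (pt_continuous S Z t Dl' v _)
    exact (h1.tendsto 0).mono_left nhdsWithin_le_nhds
  have hne : F X S (setG (pt S Z t Dl 0) v (fun _ => (y, 1))) ≠ 0 := by
    have h1 := lower_bound hr X hX 1 (Or.inl rfl) S Z t Dl v hv y (by linarith)
    have h5 : 0 < (1 * y.im) ^ r := pow_pos (by linarith) r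
    have h6 : 0 < ‖F X S (setG (pt S Z t Dl 0) v (fun _ => (1, 0)))‖ := norm_pos_iff.mpr hA
    have h7 := mul_pos h6 h5
    exact norm_pos_iff.mp (lt_of_lt_of_le h7 h1)
  refine le_of_tendsto ((Complex.continuous_im.tendsto _).comp
    ((hcont (insert s0 Dl)).div (hcont Dl) hne)) ?_
  filter_upwards [self_mem_nhdsWithin] with ε hε
  exact hineq ε hε

/-! ### Taylor expansion along a group -/

/-- expansion of a multilinear map at `(t,1)` in the direction `(1,0)` -/
noncomputable def polT (G : MultilinearMap ℂ (fun _ : Fin r => ℂ × ℂ) ℂ) (t : ℂ) : ℂ[X] :=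
  ∑ K : Finset (Fin r),
    C (G (K.piecewise (fun _ => ((1 : ℂ), (0 : ℂ))) (fun _ => ((t : ℂ), (1 : ℂ))))) * X ^ K.card

theorem polT_eval (G : MultilinearMap ℂ (fun _ : Fin r => ℂ × ℂ) ℂ) (t y : ℂ) :
    (polT G t).eval y = G (fun _ => (t + y, 1)) := by
  have h1 : (fun _ : Fin r => ((t + y : ℂ), (1 : ℂ))) =
      (fun _ : Fin r => y • ((1 : ℂ), (0 : ℂ))) + (fun _ : Fin r => ((t : ℂ), (1 : ℂ))) := by
    funext i
    simp [add_comm]
  rw [h1, MultilinearMap.map_add_univ, polT, eval_finsetSum]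
  apply Finset.sum_congr rfl
  intro K _
  rw [eval_mul, eval_C, eval_pow, eval_X]
  have h2 := MultilinearMap.map_piecewise_smul G (fun _ : Fin r => y)
    (K.piecewise (fun _ => ((1 : ℂ), (0 : ℂ))) (fun _ => ((t : ℂ), (1 : ℂ)))) K
  have h3 : K.piecewise (fun i : Fin r => (fun _ : Fin r => y) i •
      (K.piecewise (fun _ => ((1 : ℂ), (0 : ℂ))) (fun _ => ((t : ℂ), (1 : ℂ)))) i)
      (K.piecewise (fun _ => ((1 : ℂ), (0 : ℂ))) (fun _ => ((t : ℂ), (1 : ℂ)))) =
      K.piecewise (fun _ : Fin r => y • ((1 : ℂ), (0 : ℂ))) (fun _ => ((t : ℂ), (1 : ℂ))) := by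
    funext i
    by_cases hi : i ∈ K
    · simp [Finset.piecewise_eq_of_mem _ _ _ hi]
    · simp [Finset.piecewise_eq_of_notMem _ _ _ hi]
  rw [h3] at h2
  rw [h2]
  simp only [Finset.prod_const, smul_eq_mul]
  ring

theorem polT_coeff_one (G : MultilinearMap ℂ (fun _ : Fin r => ℂ × ℂ) ℂ) (t : ℂ) :
    (polT G t).coeff 1 = ∑ i, G (fun j => if j = i then (1, 0) else (t, 1)) := by
  rw [polT, finsetSum_coeff]
  have h1 : ∀ K : Finset (Fin r),
      (C (G (K.piecewise (fun _ => ((1 : ℂ), (0 : ℂ))) (fun _ => ((t : ℂ), (1 : ℂ))))) *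
        X ^ K.card : ℂ[X]).coeff 1 =
      if K.card = 1 then
        G (K.piecewise (fun _ => ((1 : ℂ), (0 : ℂ))) (fun _ => ((t : ℂ), (1 : ℂ)))) else 0 := by
    intro K
    rw [coeff_C_mul_X_pow]
    simp only [eq_comm]
  rw [Finset.sum_congr rfl (fun K _ => h1 K)]
  rw [← Finset.sum_filter]
  refine (Finset.sum_bij (fun (i : Fin r) _ => {i}) ?_ ?_ ?_ ?_).symm
  · intro i _
    simp
  · intro i _ j _ h
    exact Finset.singleton_injective h
  · intro K hK
    have hK' := (Finset.mem_filter.mp hK).2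
    obtain ⟨i, hi⟩ := Finset.card_eq_one.mp hK'
    exact ⟨i, Finset.mem_univ _, hi.symm⟩
  · intro i _
    congr 1
    funext j
    by_cases hj : j = i
    · subst hj
      rw [if_pos rfl, Finset.piecewise_eq_of_mem]
      simp
    · rw [if_neg hj, Finset.piecewise_eq_of_notMem]
      simp [hj]

/-- positivity of the expansion -/
theorem group_pos_above (G : MultilinearMap ℂ (fun _ : Fin r => ℂ × ℂ) ℂ) (t : ℝ)
    (hpos : ∀ K : Finset (Fin r),
      0 < G (K.piecewise (fun _ => ((1 : ℂ), (0 : ℂ))) (fun _ => ((t : ℂ), (1 : ℂ)))))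
    (y : ℝ) (hy : t ≤ y) : 0 < G (fun _ => ((y : ℂ), 1)) := by
  have h1 : G (fun _ => ((y : ℂ), 1)) = (polT G t).eval ((y - t : ℝ) : ℂ) := by
    rw [polT_eval]
    congr 1
    funext _
    push_cast
    ring_nf
  rw [h1, polT, eval_finsetSum]
  have h2 : ∀ K : Finset (Fin r),
      0 ≤ (C (G (K.piecewise (fun _ => ((1 : ℂ), (0 : ℂ))) (fun _ => ((t : ℂ), (1 : ℂ))))) *
        X ^ K.card : ℂ[X]).eval ((y - t : ℝ) : ℂ) := by
    intro K
    rw [eval_mul, eval_C, eval_pow, eval_X]
    apply mul_nonneg (hpos K).le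
    apply pow_nonneg
    exact_mod_cast sub_nonneg.mpr hy
  refine Finset.sum_pos' (fun K _ => h2 K) ⟨∅, Finset.mem_univ _, ?_⟩
  rw [eval_mul, eval_C, eval_pow, eval_X]
  simpa using hpos ∅

/-- the logarithmic derivative in the group direction -/
theorem sum_inv_le (G : MultilinearMap ℂ (fun _ : Fin r => ℂ × ℂ) ℂ) (t A : ℝ) (ρ : Fin r → ℝ)
    (hA : 0 < A) (hlt : ∀ k, ρ k < t)
    (hfac : ∀ y : ℂ, G (fun _ => (y, 1)) = (A : ℂ) * ∏ k, (y - (ρ k : ℂ))) (φ : ℝ)
    (hbar : ∀ i, (G (fun j => if j = i then (1, 0) else ((t : ℂ), 1))).re ≤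
      φ * (G (fun _ => ((t : ℂ), 1))).re) :
    ∑ k, 1 / (t - ρ k) ≤ r * φ := by
  have hpoly : polT G t = C (A : ℂ) * ∏ k, (X + C ((t - ρ k : ℝ) : ℂ)) := by
    apply Polynomial.funext
    intro y
    rw [polT_eval, hfac, eval_mul, eval_C, eval_prod]
    congr 1
    apply Finset.prod_congr rfl
    intro k _
    simp only [eval_add, eval_X, eval_C]
    push_cast
    ring
  have hc1 : (polT G t).coeff 1 =
      ((A * ∑ k, ∏ j ∈ Finset.univ.erase k, (t - ρ j) : ℝ) : ℂ) := by
    have h1 : (polT G t).coeff 1 = (derivative (polT G t)).eval 0 := by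
      rw [← coeff_zero_eq_eval_zero, coeff_derivative]
      simp
    rw [h1, hpoly, derivative_C_mul, derivative_prod_finset, eval_mul, eval_C, eval_finsetSum]
    push_cast
    congr 1
    apply Finset.sum_congr rfl
    intro k _
    rw [eval_mul, eval_prod]
    simp
  have hP : 0 < ∏ k, (t - ρ k) := Finset.prod_pos (fun k _ => by linarith [hlt k])
  have hval : (G (fun _ => ((t : ℂ), 1))).re = A * ∏ k, (t - ρ k) := by
    rw [hfac]
    have : (A : ℂ) * ∏ k, ((t : ℂ) - (ρ k : ℂ)) = ((A * ∏ k, (t - ρ k) : ℝ) : ℂ) := by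
      push_cast; rfl
    rw [this, Complex.ofReal_re]
  have hsum : A * ∑ k, ∏ j ∈ Finset.univ.erase k, (t - ρ j) ≤ r * (φ * (A * ∏ k, (t - ρ k))) := by
    have h1 := congrArg Complex.re hc1
    rw [polT_coeff_one, Complex.re_sum, Complex.ofReal_re] at h1
    rw [← h1, ← hval]
    calc ∑ i, (G (fun j => if j = i then (1, 0) else ((t : ℂ), 1))).re
        ≤ ∑ _i : Fin r, φ * (G (fun _ => ((t : ℂ), 1))).re :=
          Finset.sum_le_sum (fun i _ => hbar i)
      _ = r * (φ * (G (fun _ => ((t : ℂ), 1))).re) := by simp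
  have hterm : ∀ k, ∏ j ∈ Finset.univ.erase k, (t - ρ j) = (∏ k, (t - ρ k)) * (1 / (t - ρ k)) := by
    intro k
    rw [← Finset.mul_prod_erase Finset.univ (fun j => t - ρ j) (Finset.mem_univ k)]
    have : t - ρ k ≠ 0 := by linarith [hlt k]
    field_simp
  rw [Finset.sum_congr rfl (fun k _ => hterm k), ← Finset.mul_sum] at hsum
  have h2 : (A * ∏ k, (t - ρ k)) * ∑ k, 1 / (t - ρ k) ≤ (A * ∏ k, (t - ρ k)) * (r * φ) := by
    calc _ = A * ((∏ k, (t - ρ k)) * ∑ k, 1 / (t - ρ k)) := by ring
      _ ≤ _ := hsum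
      _ = _ := by ring
  exact le_of_mul_le_mul_left h2 (by positivity)

/-! ### the induction -/

/-- the invariant -/
structure Inv (X : Matrix (V × Fin r) (V × Fin r) ℂ) (Z : V → ℝ) (t φ : ℝ) (S : Finset V) :
    Prop where
  pos : ∀ Dl : Finset (V × Fin r), 0 < F X S (pt S Z t Dl 0)
  bar : ∀ s : V × Fin r, s.1 ∉ S → (F X S (pt S Z t {s} 0)).re ≤ φ * (F X S (pt S Z t ∅ 0)).re

theorem setG_pt_piecewise (S : Finset V) (Z : V → ℝ) (t : ℝ) (Dl : Finset (V × Fin r)) (v : V)
    (hv : v ∉ S) (K : Finset (Fin r)) :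
    setG (pt S Z t Dl 0) v
      (K.piecewise (fun _ => ((1 : ℂ), (0 : ℂ))) (fun _ => ((t : ℂ), (1 : ℂ)))) =
    pt S Z t ((Dl.filter (fun s => s.1 ≠ v)) ∪ K.image (fun i => (v, i))) 0 := by
  funext s
  rcases s with ⟨a, i⟩
  by_cases ha : a = v
  · subst ha
    by_cases hi : i ∈ K
    · simp [setG, pt, hv, hi, Finset.piecewise_eq_of_mem _ _ _ hi]
    · simp [setG, pt, hv, hi, Finset.piecewise_eq_of_notMem _ _ _ hi]
  · by_cases hS : a ∈ S
    · simp [setG, pt, ha, hS]
    · by_cases hD : (a, i) ∈ Dl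
      · simp [setG, pt, ha, hS, hD]
      · have h1 : ¬ ∃ x, x ∈ K ∧ v = a ∧ x = i := by
          rintro ⟨x, _, h, _⟩; exact ha h.symm
        simp [setG, pt, ha, hS, hD, h1, Ne.symm ha]

theorem insert_pt (S : Finset V) (Z : V → ℝ) (t : ℝ) (Dl : Finset (V × Fin r)) (v : V) :
    setG (pt S Z t Dl 0) v (fun _ => ((Z v : ℂ), 1)) = pt (insert v S) Z t Dl 0 := by
  funext s
  rcases s with ⟨a, i⟩
  by_cases ha : a = v
  · subst ha
    simp [setG, pt]
  · simp [setG, pt, ha]

theorem step (hr : 0 < r) (X : Matrix (V × Fin r) (V × Fin r) ℂ) (hX : X.IsHermitian)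
    (Z : V → ℝ) (t φ : ℝ) (hφ : 0 < φ) (S : Finset V) (v : V) (hv : v ∉ S)
    (hZ : t - (1 - 1 / (r : ℝ)) ^ 2 / φ ≤ Z v) (hI : Inv X Z t φ S) :
    Inv X Z t φ (insert v S) := by
  classical
  have hr' : (0 : ℝ) < r := by exact_mod_cast hr
  -- leading coefficients
  have hApos : ∀ Dl, 0 < F X S (setG (pt S Z t Dl 0) v (fun _ => (1, 0))) := by
    intro Dl
    have h1 := setG_pt_piecewise S Z t Dl v hv Finset.univ
    rw [Finset.piecewise_univ] at h1
    rw [h1]
    exact hI.pos _
  choose ρ hρ1 hρ2 using fun Dl => real_group hr X hX S Z t Dl v hv (hApos Dl).ne'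
  set A : Finset (V × Fin r) → ℝ := fun Dl =>
    (F X S (setG (pt S Z t Dl 0) v (fun _ => (1, 0)))).re with hAdef
  have hAc : ∀ Dl, F X S (setG (pt S Z t Dl 0) v (fun _ => (1, 0))) = (A Dl : ℂ) := by
    intro Dl
    have := hApos Dl
    rw [Complex.lt_def] at this
    apply Complex.ext
    · simp [hAdef]
    · simpa using this.2.symm
  have hA0 : ∀ Dl, 0 < A Dl := by
    intro Dl
    have := hApos Dl
    rw [Complex.lt_def] at this
    exact this.1
  have hpos : ∀ Dl (K : Finset (Fin r)), 0 < GG X S (pt S Z t Dl 0) v hv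
      (K.piecewise (fun _ => ((1 : ℂ), (0 : ℂ))) (fun _ => ((t : ℂ), (1 : ℂ)))) := by
    intro Dl K
    rw [GG_apply, setG_pt_piecewise S Z t Dl v hv K]
    exact hI.pos _
  have hlt : ∀ Dl k, ρ Dl k < t := by
    intro Dl k
    by_contra hge
    push Not at hge
    have h1 := group_pos_above (GG X S (pt S Z t Dl 0) v hv) t (hpos Dl) (ρ Dl k) hge
    rw [GG_apply, hρ1 Dl, Finset.prod_eq_zero (Finset.mem_univ k) (by ring), mul_zero] at h1
    exact lt_irrefl _ h1
  -- comparison for one more deletion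
  have hpair : ∀ Dl (s0 : V × Fin r), s0.1 ∉ S → s0.1 ≠ v → s0 ∉ Dl →
      (∑ k, ρ (insert s0 Dl) k ≤ ∑ k, ρ Dl k) ∧
      ∀ t y' m0 : ℝ, (∀ k, ρ Dl k < t) → (∀ k, m0 ≤ ρ Dl k) →
        (t - m0) / r ≤ y' - (∑ k, ρ Dl k) / r →
        (A (insert s0 Dl) * (y' - (∑ k, ρ (insert s0 Dl) k) / r)) *
          (A Dl * ∏ k, (t - ρ Dl k)) ≤
          (A (insert s0 Dl) * ∏ k, (t - ρ (insert s0 Dl) k)) *
          (A Dl * (y' - (∑ k, ρ Dl k) / r)) := by
    intro Dl s0 h1 h2 h3
    apply pair_barrier hr (A Dl) (A (insert s0 Dl)) (hA0 _) (hA0 _)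
    intro y hy
    have := nevanlinna hr X hX S Z t Dl v hv s0 h1 h2 h3 (hApos Dl).ne' y hy
    rwa [hρ1, hρ1, hAc, hAc] at this
  -- monotonicity of the mean
  have hmono : ∀ Dl, ∑ k, ρ Dl k ≤ ∑ k, ρ ∅ k := by
    intro Dl
    induction Dl using Finset.induction_on with
    | empty => exact le_refl _
    | insert s0 Dl hs0 ih =>
      by_cases h1 : s0.1 ∈ S ∨ s0.1 = v
      · -- same data
        have hsame : setG (pt S Z t (insert s0 Dl) 0) v = setG (pt S Z t Dl 0) v := by
          funext w s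
          by_cases hs : s = s0
          · subst hs
            rcases h1 with h | h
            · by_cases h2 : s.1 = v
              · simp [setG, h2]
              · simp [setG, pt, h]
            · simp [setG, h]
          · simp [setG, pt, hs]
        have h2 := hρ2 (insert s0 Dl) 0
        have h3 := hρ2 Dl 0
        rw [hsame] at h2
        rw [h2] at h3
        have h4 := mul_left_cancel₀ (hApos Dl).ne' h3
        have h5 : (∑ k, ((ρ (insert s0 Dl) k : ℝ) : ℂ)) = ∑ k, ((ρ Dl k : ℝ) : ℂ) := by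
          linear_combination -h4
        have h6 : ∑ k, ρ (insert s0 Dl) k = ∑ k, ρ Dl k := by exact_mod_cast h5
        rw [h6]; exact ih
      · push Not at h1
        exact (hpair Dl s0 h1.1 h1.2 hs0).1.trans ih
  -- the level
  have hbar0 : ∀ i, (GG X S (pt S Z t ∅ 0) v hv
      (fun j => if j = i then (1, 0) else ((t : ℂ), 1))).re ≤
      φ * (GG X S (pt S Z t ∅ 0) v hv (fun _ => ((t : ℂ), 1))).re := by
    intro i
    have h1 := hI.bar (v, i) hv
    have e1 : GG X S (pt S Z t ∅ 0) v hv (fun j => if j = i then (1, 0) else ((t : ℂ), 1)) =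
        F X S (pt S Z t {(v, i)} 0) := by
      rw [GG_apply]
      congr 1
      funext s
      rcases s with ⟨a, j⟩
      by_cases ha : a = v
      · subst ha
        by_cases hj : j = i
        · subst hj; simp [setG, pt, hv]
        · simp [setG, pt, hv, hj]
      · simp [setG, pt, ha]
    have e2 : GG X S (pt S Z t ∅ 0) v hv (fun _ => ((t : ℂ), 1)) = F X S (pt S Z t ∅ 0) := by
      rw [GG_apply]
      congr 1
      funext s
      rcases s with ⟨a, j⟩
      by_cases ha : a = v
      · subst ha; simp [setG, pt, hv]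
      · simp [setG, pt, ha]
    rw [e1, e2]
    exact h1
  have hsum := sum_inv_le (GG X S (pt S Z t ∅ 0) v hv) t (A ∅) (ρ ∅) (hA0 ∅) (hlt ∅)
    (by intro y; rw [GG_apply, hρ1, hAc]) φ hbar0
  obtain ⟨m0, hm0, hlev⟩ := level_bound hr (ρ ∅) t φ hφ (hlt ∅) hsum
  have hlevel := hlev (Z v) hZ
  have hm0t : m0 < t := lt_of_le_of_lt (hm0 ⟨0, hr⟩) (hlt ∅ ⟨0, hr⟩)
  have hgap : 0 < Z v - (∑ k, ρ ∅ k) / r :=
    lt_of_lt_of_le (div_pos (by linarith) hr') hlevel
  have hval : ∀ Dl, F X (insert v S) (pt (insert v S) Z t Dl 0) =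
      ((A Dl * (Z v - (∑ k, ρ Dl k) / r) : ℝ) : ℂ) := by
    intro Dl
    have h1 := hρ2 Dl (Z v)
    rw [insert_pt, hAc] at h1
    have hrc : (r : ℂ) ≠ 0 := by exact_mod_cast hr'.ne'
    apply mul_left_cancel₀ hrc
    rw [h1]
    push_cast
    field_simp
  refine ⟨?_, ?_⟩
  · intro Dl
    rw [hval]
    have h1 : 0 < A Dl * (Z v - (∑ k, ρ Dl k) / r) := by
      apply mul_pos (hA0 Dl)
      have h2 : (∑ k, ρ Dl k) / r ≤ (∑ k, ρ ∅ k) / r :=
        div_le_div_of_nonneg_right (hmono Dl) hr'.le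
      linarith
    exact_mod_cast h1
  · intro s hs
    have hsv : s.1 ≠ v := fun h => hs (by rw [h]; exact Finset.mem_insert_self _ _)
    have hsS : s.1 ∉ S := fun h => hs (Finset.mem_insert_of_mem h)
    have h1 := (hpair ∅ s hsS hsv (by simp)).2 t (Z v) m0 (hlt ∅) hm0 hlevel
    have hins : insert s (∅ : Finset (V × Fin r)) = {s} := by simp
    rw [hins] at h1
    rw [hval, hval, Complex.ofReal_re, Complex.ofReal_re]
    have e : ∀ Dl : Finset (V × Fin r), (∀ i, (v, i) ∉ Dl) →
        A Dl * ∏ k, (t - ρ Dl k) = (F X S (pt S Z t Dl 0)).re := by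
      intro Dl hDl
      have h2 := hρ1 Dl (t : ℂ)
      have h3 : setG (pt S Z t Dl 0) v (fun _ => ((t : ℂ), 1)) = pt S Z t Dl 0 := by
        funext s
        rcases s with ⟨a, j⟩
        by_cases ha : a = v
        · subst ha; simp [setG, pt, hv, hDl j]
        · simp [setG, pt, ha]
      rw [h3, hAc] at h2
      rw [h2]
      have : (A Dl : ℂ) * ∏ k, ((t : ℂ) - (ρ Dl k : ℂ)) =
          ((A Dl * ∏ k, (t - ρ Dl k) : ℝ) : ℂ) := by push_cast; rfl
      rw [this, Complex.ofReal_re]
    rw [e ∅ (by simp), e {s} (by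
      intro i h
      apply hsv
      rw [← Finset.mem_singleton.mp h])] at h1
    have h2 := hI.bar s hsS
    have h3 : 0 < (F X S (pt S Z t ∅ 0)).re := by
      have := hI.pos ∅
      rw [Complex.lt_def] at this
      exact this.1
    have h4 : 0 < A ∅ * (Z v - (∑ k, ρ ∅ k) / r) := mul_pos (hA0 ∅) hgap
    have h5 : (A {s} * (Z v - (∑ k, ρ {s} k) / r)) * (F X S (pt S Z t ∅ 0)).re ≤
        (φ * (A ∅ * (Z v - (∑ k, ρ ∅ k) / r))) * (F X S (pt S Z t ∅ 0)).re := by
      refine h1.trans ?_
      have := mul_le_mul_of_nonneg_right h2 h4.le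
      linarith
    exact le_of_mul_le_mul_right h5 h3

end Crest.Agent.R109.Start
end

-- ▼ part R109/FinStart4

/-!
# R109 / FinStart4 (helper585)

The start of the induction and the final start bound.
-/

set_option autoImplicit false
set_option linter.unusedSectionVars false

namespace Crest.Agent.R109.Start

open Polynomial Finset Filter Topology Function Matrix
open scoped ComplexOrder

section psd

variable {n : Type*} [Fintype n] [DecidableEq n]

theorem isHermitian_of_one_sub {X : Matrix n n ℂ} (h : (1 - X).PosSemidef) : X.IsHermitian := by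
  have h1 := h.isHermitian
  have h2 : X = 1 - (1 - X) := by abel
  rw [h2]
  exact Matrix.isHermitian_one.sub h1

theorem posDef_smul_sub {X : Matrix n n ℂ} (h : (1 - X).PosSemidef) (t : ℝ) (ht : 1 < t) :
    ((t : ℂ) • (1 : Matrix n n ℂ) - X).PosDef := by
  have e : ((t : ℂ) • (1 : Matrix n n ℂ) - X) = ((t - 1 : ℝ) : ℂ) • (1 : Matrix n n ℂ) + (1 - X) := by
    push_cast
    rw [sub_smul, one_smul]
    abel
  rw [e]
  apply Matrix.PosDef.add_posSemidef _ h
  apply Matrix.PosDef.smul Matrix.PosDef.one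
  have : (0 : ℝ) < t - 1 := by linarith
  exact_mod_cast this

/-- diagonal resolvent bound -/
theorem inv_diag_le {X : Matrix n n ℂ} (h1 : (1 - X).PosSemidef) (h2 : (1 + X).PosSemidef)
    (t : ℝ) (ht : 1 < t) (s : n) (hs : X s s = 0) :
    ((((t : ℂ) • (1 : Matrix n n ℂ) - X)⁻¹) s s).re ≤ t / (t ^ 2 - 1) := by
  set M := (t : ℂ) • (1 : Matrix n n ℂ) - X with hM
  have hMpd : M.PosDef := posDef_smul_sub h1 t ht
  have hMh : M.IsHermitian := hMpd.isHermitian
  have hdet : IsUnit M.det := (hMpd.det_pos).ne'.isUnit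
  have hXh : X.IsHermitian := isHermitian_of_one_sub h1
  -- positivity of `(1 - X)(1+X)(1-X)` and of `(1 - X^2)`
  have p1 : ((1 - X) * (1 + X) * (1 - X)).PosSemidef := by
    have := h2.mul_mul_conjTranspose_same (1 - X)
    rwa [h1.isHermitian.eq] at this
  have p2 : ((1 + X) * (1 - X) * (1 + X)).PosSemidef := by
    have := h1.mul_mul_conjTranspose_same (1 + X)
    rwa [h2.isHermitian.eq] at this
  have p3 : (1 - X * X).PosSemidef := by
    have e : (1 - X * X) = ((1 / 2 : ℝ) : ℂ) • ((1 - X) * (1 + X) * (1 - X)) +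
        ((1 / 2 : ℝ) : ℂ) • ((1 + X) * (1 - X) * (1 + X)) := by
      rw [← smul_add]
      have : (1 - X) * (1 + X) * (1 - X) + (1 + X) * (1 - X) * (1 + X) = (2 : ℂ) • (1 - X * X) := by
        rw [two_smul]
        noncomm_ring
      rw [this, smul_smul]
      norm_num
    have hhalf : (0 : ℂ) ≤ ((1 / 2 : ℝ) : ℂ) := by
      exact_mod_cast (by norm_num : (0 : ℝ) ≤ 1 / 2)
    rw [e]
    apply Matrix.PosSemidef.add
    · exact p1.smul hhalf
    · exact p2.smul hhalf
  set N : Matrix n n ℂ := ((t : ℂ) • (1 : Matrix n n ℂ) + X) - ((t ^ 2 - 1 : ℝ) : ℂ) • M⁻¹ with hN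
  have hMM : M⁻¹ * M = 1 := Matrix.nonsing_inv_mul M hdet
  have hMM' : M * M⁻¹ = 1 := Matrix.mul_nonsing_inv M hdet
  clear_value N M
  have hMNM : M * N * M = ((t - 1 : ℝ) : ℂ) • (1 - X * X) + (1 - X) * (1 + X) * (1 - X) := by
    have e1 : M * N * M = M * ((t : ℂ) • (1 : Matrix n n ℂ) + X) * M -
        ((t ^ 2 - 1 : ℝ) : ℂ) • M := by
      rw [hN, Matrix.mul_sub, Matrix.sub_mul]
      congr 1
      rw [Matrix.mul_smul, Matrix.smul_mul, hMM', Matrix.one_mul]
    rw [e1, hM]
    have e2 : ((t : ℂ) • (1 : Matrix n n ℂ) - X) * ((t : ℂ) • (1 : Matrix n n ℂ) + X) =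
        ((t ^ 2 : ℝ) : ℂ) • (1 : Matrix n n ℂ) - X * X := by
      simp only [Matrix.sub_mul, Matrix.mul_add, Matrix.smul_mul, Matrix.mul_smul, Matrix.one_mul,
        Matrix.mul_one]
      push_cast
      module
    rw [e2]
    simp only [Matrix.sub_mul, Matrix.mul_sub, Matrix.smul_mul, Matrix.mul_smul, Matrix.one_mul,
      Matrix.mul_one, smul_sub, smul_smul, Matrix.mul_add, Matrix.add_mul]
    push_cast
    module
  have hpsd : (M * N * M).PosSemidef := by
    rw [hMNM]
    apply Matrix.PosSemidef.add _ p1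
    apply p3.smul
    have : (0 : ℝ) ≤ t - 1 := by linarith
    exact_mod_cast this
  have hNpsd : N.PosSemidef := by
    have h3 := hpsd.mul_mul_conjTranspose_same M⁻¹
    have h4 : (M⁻¹)ᴴ = M⁻¹ := by rw [Matrix.conjTranspose_nonsing_inv, hMh.eq]
    rw [h4] at h3
    have h5 : M⁻¹ * (M * N * M) * M⁻¹ = N := by
      calc M⁻¹ * (M * N * M) * M⁻¹ = (M⁻¹ * M) * N * (M * M⁻¹) := by
            simp only [Matrix.mul_assoc]
        _ = N := by rw [hMM, hMM', Matrix.one_mul, Matrix.mul_one]
    rwa [h5] at h3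
  have h6 : 0 ≤ N s s := hNpsd.diag_nonneg
  have h7 : 0 ≤ (N s s).re := (Complex.le_def.mp h6).1
  rw [hN] at h7
  simp only [Matrix.sub_apply, Matrix.add_apply, Matrix.smul_apply, Matrix.one_apply_eq, hs,
    smul_eq_mul, mul_one, add_zero, Complex.sub_re, Complex.ofReal_re, Complex.re_ofReal_mul] at h7
  rw [le_div_iff₀ (by nlinarith)]
  linarith

end psd

variable {V : Type*} [Fintype V] [DecidableEq V] {r : ℕ}

/-- principal minors of `t - X` -/
theorem D_pt_pos (X : Matrix (V × Fin r) (V × Fin r) ℂ) (h1 : (1 - X).PosSemidef) (Z : V → ℝ)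
    (t : ℝ) (ht : 1 < t) (Dl : Finset (V × Fin r)) : 0 < D X (pt ∅ Z t Dl 0) := by
  classical
  rw [D_apply]
  set M : Matrix (V × Fin r) (V × Fin r) ℂ :=
    Matrix.of fun s => (pt ∅ Z t Dl 0 s).1 • Pi.single s (1 : ℂ) - (pt ∅ Z t Dl 0 s).2 • X s with hM
  have hin : ∀ s ∈ Dl, ∀ u, M s u = if u = s then 1 else 0 := by
    intro s hs u
    simp [hM, pt, hs, Pi.single_apply]
  have hout : ∀ s, s ∉ Dl → ∀ u, M s u =
      ((t : ℂ) • (1 : Matrix (V × Fin r) (V × Fin r) ℂ) - X) s u := by
    intro s hs u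
    simp [hM, pt, hs, Matrix.one_apply, Pi.single_apply, eq_comm]
  rw [Matrix.twoBlockTriangular_det M (fun s => s ∉ Dl)]
  · have e1 : (toSquareBlockProp M fun i => ¬ (i ∉ Dl)) = 1 := by
      ext ⟨i, hi⟩ ⟨j, hj⟩
      simp only [Matrix.toSquareBlockProp_def, Matrix.of_apply]
      rw [hin i (by simpa using hi)]
      by_cases h : j = i
      · subst h; simp
      · rw [if_neg h, Matrix.one_apply_ne]
        intro h'
        exact h (by simpa using (congrArg Subtype.val h').symm)
    have e2 : (toSquareBlockProp M fun i => i ∉ Dl) =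
        ((t : ℂ) • (1 : Matrix (V × Fin r) (V × Fin r) ℂ) - X).submatrix
          (Subtype.val : {i // i ∉ Dl} → V × Fin r) (Subtype.val : {i // i ∉ Dl} → V × Fin r) := by
      ext ⟨i, hi⟩ ⟨j, hj⟩
      simp only [Matrix.toSquareBlockProp_def, Matrix.of_apply, Matrix.submatrix_apply]
      exact hout i hi j
    rw [e1, Matrix.det_one, mul_one, e2]
    exact ((posDef_smul_sub h1 t ht).submatrix Subtype.val_injective).det_pos
  · intro i hi j hj
    have hi' : i ∈ Dl := by simpa using hi
    rw [hin i hi']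
    have : j ≠ i := by
      intro h; rw [h] at hj; exact hj hi'
    simp [this]

/-- the invariant at the start -/
theorem inv_empty (hr : 0 < r) (X : Matrix (V × Fin r) (V × Fin r) ℂ) (h1 : (1 - X).PosSemidef)
    (h2 : (1 + X).PosSemidef) (h0 : ∀ s, X s s = 0) (Z : V → ℝ) (t : ℝ) (ht : 1 < t) :
    Inv X Z t (t / (t ^ 2 - 1)) ∅ := by
  classical
  have hF : ∀ u, F X ∅ u = (Fintype.card (V → Fin r) : ℂ) * D X u := by
    intro u
    simp only [F, mask_empty, Finset.sum_const, nsmul_eq_mul, Finset.card_univ]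
  have hne : Nonempty (Fin r) := ⟨⟨0, hr⟩⟩
  have hcard : 0 < Fintype.card (V → Fin r) := Fintype.card_pos
  refine ⟨?_, ?_⟩
  · intro Dl
    rw [hF]
    apply mul_pos _ (D_pt_pos X h1 Z t ht Dl)
    exact_mod_cast hcard
  · intro s _
    rw [hF, hF]
    set M : Matrix (V × Fin r) (V × Fin r) ℂ :=
      (t : ℂ) • (1 : Matrix (V × Fin r) (V × Fin r) ℂ) - X with hM
    have e1 : D X (pt ∅ Z t ∅ 0) = M.det := by
      rw [D_apply]
      congr 1
      ext a b
      simp [hM, pt, Matrix.one_apply, Pi.single_apply, eq_comm]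
    have e2 : D X (pt ∅ Z t {s} 0) = M.adjugate s s := by
      rw [D_apply, Matrix.adjugate_apply]
      congr 1
      ext a b
      by_cases ha : a = s
      · subst ha
        simp [pt]
      · rw [Matrix.updateRow_ne ha]
        have ha' : ¬ s = a := fun h => ha h.symm
        simp [hM, pt, ha', Matrix.one_apply, Pi.single_apply, eq_comm]
    have hMpd : M.PosDef := posDef_smul_sub h1 t ht
    have hdetpos := hMpd.det_pos
    have e3 : M.adjugate s s = M.det * (M⁻¹) s s := by
      rw [Matrix.inv_def, Ring.inverse_eq_inv', Matrix.smul_apply, smul_eq_mul, ← mul_assoc,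
        mul_inv_cancel₀ hdetpos.ne', one_mul]
    have hbound := inv_diag_le h1 h2 t ht s (h0 s)
    rw [← hM] at hbound
    rw [e1, e2, e3]
    have hdre : M.det = ((M.det.re : ℝ) : ℂ) := by
      rw [Complex.lt_def] at hdetpos
      apply Complex.ext
      · simp
      · simpa using hdetpos.2.symm
    have hd0 : 0 < M.det.re := by
      rw [Complex.lt_def] at hdetpos
      exact hdetpos.1
    have hcast : (Fintype.card (V → Fin r) : ℂ) = (((Fintype.card (V → Fin r) : ℕ) : ℝ) : ℂ) := by
      push_cast; rfl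
    rw [hcast, Complex.re_ofReal_mul, Complex.re_ofReal_mul, hdre, Complex.re_ofReal_mul,
      Complex.ofReal_re]
    have h8 : (0 : ℝ) < (Fintype.card (V → Fin r) : ℝ) := by exact_mod_cast hcard
    have h9 : M.det.re * ((M⁻¹) s s).re ≤ M.det.re * (t / (t ^ 2 - 1)) :=
      mul_le_mul_of_nonneg_left hbound hd0.le
    calc (Fintype.card (V → Fin r) : ℝ) * (M.det.re * ((M⁻¹) s s).re)
        ≤ (Fintype.card (V → Fin r) : ℝ) * (M.det.re * (t / (t ^ 2 - 1))) :=
          mul_le_mul_of_nonneg_left h9 h8.le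
      _ = t / (t ^ 2 - 1) * ((Fintype.card (V → Fin r) : ℝ) * M.det.re) := by ring

/-- all groups processed -/
theorem inv_all (hr : 0 < r) (X : Matrix (V × Fin r) (V × Fin r) ℂ) (h1 : (1 - X).PosSemidef)
    (h2 : (1 + X).PosSemidef) (h0 : ∀ s, X s s = 0) (Z : V → ℝ) (t : ℝ) (ht : 1 < t)
    (hZ : ∀ v, t - (1 - 1 / (r : ℝ)) ^ 2 / (t / (t ^ 2 - 1)) ≤ Z v) :
    ∀ S : Finset V, Inv X Z t (t / (t ^ 2 - 1)) S := by
  intro S
  have hφ : 0 < t / (t ^ 2 - 1) := by
    apply div_pos (by linarith)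
    nlinarith
  induction S using Finset.induction_on with
  | empty => exact inv_empty hr X h1 h2 h0 Z t ht
  | insert v S hv ih =>
    exact step hr X (isHermitian_of_one_sub h1) Z t _ hφ S v hv (hZ v) ih

/-- the compression of `X` to the sites `(v, c v)` -/
def comp (X : Matrix (V × Fin r) (V × Fin r) ℂ) (c : V → Fin r) : Matrix V V ℂ :=
  X.submatrix (fun v => (v, c v)) (fun v => (v, c v))

theorem D_mask_univ (X : Matrix (V × Fin r) (V × Fin r) ℂ) (c : V → Fin r) (Z : V → ℝ) (t : ℝ) :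
    D X (mask Finset.univ c (pt Finset.univ Z t ∅ 0)) =
      (Matrix.diagonal (fun v => (Z v : ℂ)) - comp X c).det := by
  classical
  rw [D_apply]
  set M : Matrix (V × Fin r) (V × Fin r) ℂ := Matrix.of fun s =>
    (mask Finset.univ c (pt Finset.univ Z t ∅ 0) s).1 • Pi.single s (1 : ℂ) -
      (mask Finset.univ c (pt Finset.univ Z t ∅ 0) s).2 • X s with hM
  have hout : ∀ s : V × Fin r, s.2 ≠ c s.1 → ∀ u, M s u = if u = s then 1 else 0 := by
    intro s hs u
    simp [hM, mask, hs, Pi.single_apply]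
  have hin : ∀ s : V × Fin r, s.2 = c s.1 → ∀ u,
      M s u = (if u = s then (Z s.1 : ℂ) else 0) - X s u := by
    intro s hs u
    simp [hM, mask, hs, pt, Pi.single_apply]
  rw [Matrix.twoBlockTriangular_det M (fun s => s.2 = c s.1)]
  · have e1 : (toSquareBlockProp M fun i => ¬ (i.2 = c i.1)) = 1 := by
      ext ⟨i, hi⟩ ⟨j, hj⟩
      simp only [Matrix.toSquareBlockProp_def, Matrix.of_apply]
      rw [hout i hi]
      by_cases h : j = i
      · subst h; simp
      · rw [if_neg h, Matrix.one_apply_ne]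
        intro h'
        exact h (by simpa using (congrArg Subtype.val h').symm)
    rw [e1, Matrix.det_one, mul_one]
    set e : V ≃ {s : V × Fin r // s.2 = c s.1} :=
      { toFun := fun v => ⟨(v, c v), rfl⟩
        invFun := fun s => s.1.1
        left_inv := fun v => rfl
        right_inv := fun s => by
          rcases s with ⟨⟨a, i⟩, h⟩
          simp only [] at h
          apply Subtype.ext
          simp only [Prod.mk.injEq, true_and]
          exact h.symm } with he
    rw [← Matrix.det_submatrix_equiv_self e]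
    congr 1
    ext v w
    simp only [Matrix.submatrix_apply, Matrix.toSquareBlockProp_def, Matrix.of_apply,
      Matrix.sub_apply, comp]
    rw [hin _ (e v).2]
    have hev : ((e v : {s : V × Fin r // s.2 = c s.1}) : V × Fin r) = (v, c v) := rfl
    have hew : ((e w : {s : V × Fin r // s.2 = c s.1}) : V × Fin r) = (w, c w) := rfl
    rw [hev, hew]
    congr 1
    by_cases hvw : v = w
    · subst hvw; simp
    · rw [Matrix.diagonal_apply_ne _ hvw, if_neg]
      intro h
      exact hvw (Prod.ext_iff.mp h).1.symm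
  · intro i hi j hj
    rw [hout i hi]
    have : j ≠ i := by
      intro h; rw [h] at hj; exact hi hj
    simp [this]

/-- **Start bound**, general form: one site is chosen in every group. -/
theorem start_general (hr : 0 < r) (X : Matrix (V × Fin r) (V × Fin r) ℂ)
    (h1 : (1 - X).PosSemidef) (h2 : (1 + X).PosSemidef) (h0 : ∀ s, X s s = 0) (Z : V → ℝ)
    (t : ℝ) (ht : 1 < t) (hZ : ∀ v, t - (1 - 1 / (r : ℝ)) ^ 2 / (t / (t ^ 2 - 1)) ≤ Z v) :
    0 < ∑ c : V → Fin r, (Matrix.diagonal (fun v => (Z v : ℂ)) - comp X c).det := by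
  have h3 := (inv_all hr X h1 h2 h0 Z t ht hZ Finset.univ).pos ∅
  rw [F] at h3
  simp only [D_mask_univ] at h3
  exact h3

/-- **Start bound**, general form, with the level `2 √2 / √r`. -/
theorem start_general' (hr : 2 < r) (X : Matrix (V × Fin r) (V × Fin r) ℂ)
    (h1 : (1 - X).PosSemidef) (h2 : (1 + X).PosSemidef) (h0 : ∀ s, X s s = 0) (Z : V → ℝ)
    (hZ : ∀ v, 2 * Real.sqrt 2 / Real.sqrt r ≤ Z v) :
    0 < ∑ c : V → Fin r, (Matrix.diagonal (fun v => (Z v : ℂ)) - comp X c).det := by
  have hr2 : (2 : ℝ) < r := by exact_mod_cast hr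
  set t : ℝ := Real.sqrt (r / 2) with htdef
  have ht2 : t ^ 2 = r / 2 := Real.sq_sqrt (by linarith)
  have ht : 1 < t := by
    rw [htdef]
    rw [Real.lt_sqrt (by norm_num)]
    linarith
  have htpos : 0 < t := by linarith
  apply start_general (by omega) X h1 h2 h0 Z t ht
  intro v
  refine le_trans ?_ (hZ v)
  have hden : 0 < t ^ 2 - 1 := by nlinarith
  have e1 : (1 - 1 / (r : ℝ)) ^ 2 / (t / (t ^ 2 - 1)) = (1 - 1 / (r : ℝ)) ^ 2 * (t - 1 / t) := by
    field_simp
  rw [e1]
  have hb : 2 * Real.sqrt 2 / Real.sqrt r = 2 / t := by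
    have h5 : Real.sqrt r = Real.sqrt 2 * t := by
      rw [htdef, ← Real.sqrt_mul (by norm_num)]
      congr 1
      ring
    rw [h5]
    have h6 : Real.sqrt 2 ≠ 0 := by positivity
    field_simp
  rw [hb]
  have hrt : (r : ℝ) = 2 * t ^ 2 := by linarith
  rw [hrt]
  have h7 : t - (1 - 1 / (2 * t ^ 2)) ^ 2 * (t - 1 / t) ≤ 2 / t := by
    have h8 : 2 / t - (t - (1 - 1 / (2 * t ^ 2)) ^ 2 * (t - 1 / t)) =
        (5 * t ^ 2 - 1) / (4 * t ^ 5) := by
      field_simp
      ring
    have h9 : 0 ≤ (5 * t ^ 2 - 1) / (4 * t ^ 5) := by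
      apply div_nonneg
      · nlinarith
      · positivity
    linarith
  exact h7


theorem posSemidef_blockDiagonal {n o : Type*} [Fintype n] [Fintype o] [DecidableEq n]
    [DecidableEq o] (M : o → Matrix n n ℂ) (hM : ∀ i, (M i).PosSemidef) :
    (Matrix.blockDiagonal M).PosSemidef := by
  apply Matrix.PosSemidef.of_dotProduct_mulVec_nonneg
  · rw [Matrix.IsHermitian, Matrix.blockDiagonal_conjTranspose]
    congr 1
    funext i
    exact (hM i).isHermitian
  · intro x
    have h1 : star x ⬝ᵥ (Matrix.blockDiagonal M).mulVec x =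
        ∑ i, star (fun v => x (v, i)) ⬝ᵥ (M i).mulVec (fun v => x (v, i)) := by
      simp only [dotProduct, Matrix.mulVec, Pi.star_apply, Finset.mul_sum,
        Fintype.sum_prod_type, Matrix.blockDiagonal_apply]
      rw [Finset.sum_comm]
      apply Finset.sum_congr rfl
      intro i _
      apply Finset.sum_congr rfl
      intro v _
      apply Finset.sum_congr rfl
      intro w _
      rw [Finset.sum_eq_single_of_mem i (Finset.mem_univ i)]
      · simp
      · intro j _ hj
        simp [Ne.symm hj]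
    rw [h1]
    exact Finset.sum_nonneg (fun i _ => (hM i).dotProduct_mulVec_nonneg _)

/-- the pinched matrix of a colouring -/
def pinch (x : Fin r → Matrix V V ℂ) (c : V → Fin r) : Matrix V V ℂ :=
  Matrix.of fun v w => if c v = c w then x (c v) v w else 0

/-- **START BOUND** (colour dependent matrices `x i`, e.g. `± x`): above the level `2√2/√r` the
uniformly averaged determinant is positive. -/
theorem start_bound (hr : 2 < r) (x : Fin r → Matrix V V ℂ)
    (h1 : ∀ i, (1 - x i).PosSemidef) (h2 : ∀ i, (1 + x i).PosSemidef) (h0 : ∀ i v, x i v v = 0)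
    (Z : V → ℝ) (hZ : ∀ v, 2 * Real.sqrt 2 / Real.sqrt r ≤ Z v) :
    0 < ∑ c : V → Fin r, (Matrix.diagonal (fun v => (Z v : ℂ)) - pinch x c).det := by
  have h3 := start_general' hr (Matrix.blockDiagonal x)
    (by
      rw [← Matrix.blockDiagonal_one, ← Matrix.blockDiagonal_sub]
      exact posSemidef_blockDiagonal _ (fun i => h1 i))
    (by
      rw [← Matrix.blockDiagonal_one, ← Matrix.blockDiagonal_add]
      exact posSemidef_blockDiagonal _ (fun i => h2 i))
    (by
      intro s
      simp [Matrix.blockDiagonal_apply, h0]) Z hZ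
  have h4 : ∀ c : V → Fin r, comp (Matrix.blockDiagonal x) c = pinch x c := by
    intro c
    ext v w
    simp [comp, pinch, Matrix.blockDiagonal_apply]
  simp only [h4] at h3
  exact h3

/-- **START BOUND** for one matrix `x`. -/
theorem start_bound_single (hr : 2 < r) (x : Matrix V V ℂ)
    (h1 : (1 - x).PosSemidef) (h2 : (1 + x).PosSemidef) (h0 : ∀ v, x v v = 0)
    (Z : V → ℝ) (hZ : ∀ v, 2 * Real.sqrt 2 / Real.sqrt r ≤ Z v) :
    0 < ∑ c : V → Fin r, (Matrix.diagonal (fun v => (Z v : ℂ)) -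
      Matrix.of fun v w => if c v = c w then x v w else 0).det :=
  start_bound hr (fun _ => x) (fun _ => h1) (fun _ => h2) (fun _ => h0) Z hZ

/-- homogeneous form: sub-volume `W` as a subtype, any level `b ≥ 2√2/√r`, any `y ∈ [-1/b, 1/b]`:
`∑_c det(1 - y · diag(1/z) T_c) > 0` in the form with real levels of both signs: the sum does not
vanish for real `Z` with `|Z v| ≥ 2√2/√r` all of the same sign. -/
theorem start_bound_neg (hr : 2 < r) (x : Matrix V V ℂ)
    (h1 : (1 - x).PosSemidef) (h2 : (1 + x).PosSemidef) (h0 : ∀ v, x v v = 0)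
    (Z : V → ℝ) (hZ : ∀ v, 2 * Real.sqrt 2 / Real.sqrt r ≤ Z v) :
    0 < ∑ c : V → Fin r, (Matrix.diagonal (fun v => (Z v : ℂ)) +
      Matrix.of fun v w => if c v = c w then x v w else 0).det := by
  have h3 := start_bound_single hr (-x) (by simpa using h2) (by simpa [sub_eq_add_neg] using h1)
    (by simpa using h0) Z hZ
  have h4 : ∀ c : V → Fin r, (Matrix.diagonal (fun v => (Z v : ℂ)) -
      Matrix.of fun v w => if c v = c w then (-x) v w else 0) =
      (Matrix.diagonal (fun v => (Z v : ℂ)) +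
      Matrix.of fun v w => if c v = c w then x v w else 0) := by
    intro c
    ext v w
    by_cases h : c v = c w <;> simp [h]
  simp only [h4] at h3
  exact h3

end Crest.Agent.R109.Start
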