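import Crest.Agent.R109.AnnealedReal
import Crest.Agent.R109.AnnFlip

/-!
# The finite-volume potential `H` (row 109, helper135; blueprint 9283, note 9394 (H0),(H1))

* `Hf k x γ` for a finite type `V`;
* `H k x g W` for a finite subset `W` of an arbitrary type `X`.
-/

set_option autoImplicit false
set_option linter.unusedSectionVars false

namespace Crest.Agent.R109.FinVol

open Finset Crest.Agent.R109.Ann

/-- root power sum of order `2k` of `t ↦ P(t d)`, `γ v i` = weight of colour `i` at `v` -/
noncomputable def Hf {V : Type*} [Fintype V] [DecidableEq V] {K : Type*} [Fintype K] [DecidableEq K]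
    (k : ℕ) (x : V → V → ℂ) (γ : V → K → ℝ) : ℝ :=
  PowerSeries.coeff (2 * k) (qS (1 - ((pol x γ : Polynomial ℝ) : PowerSeries ℝ)))

open Classical in
/-- the potential of the finite set `W ⊆ X` -/
noncomputable def H {X : Type*} {r : ℕ} (k : ℕ) (x : X → X → ℂ) (g : X → Fin r → ℝ)
    (W : Finset X) : ℝ :=
  Hf k (fun u w : W => x u w) (fun (v : W) i => g v i)

/-- level function of a state: `none` undecided (uniform, level `β`), `some c` decided (level `K₀ β`) -/
noncomputable def lev (r : ℕ) (β K₀ : ℝ) : Option (Fin r) → Fin r → ℝ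
  | none, _ => 1 / (r * β)
  | some c, i => if i = c then 1 / (K₀ * β) else 0

/-- weights of a state, `h w` = mass of `w` (relative to the root) -/
noncomputable def gam {X : Type*} (r : ℕ) (β K₀ : ℝ) (k : ℕ) (h : X → ℝ)
    (s : X → Option (Fin r)) (w : X) (i : Fin r) : ℝ :=
  h w ^ ((1 : ℝ) / (2 * k)) * lev r β K₀ (s w) i

end Crest.Agent.R109.FinVol
private theorem rz_5217ecae26 : type_of% @_root_.Crest.Agent.R109.FinVol.lev.eq_1 := @_root_.Crest.Agent.R109.FinVol.lev.eq_1 -- L30
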