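import Crest.Agent.R109.Book4
import Crest.Agent.R109.AsmIface
import Crest.Agent.R109.CartanIface
import Mathlib
import Crest.Agent.R109.AnnealedReal
import Crest.Agent.R109.FinVol
import Crest.Agent.R109.Book6
import Crest.Agent.R109.FinVolA
import Crest.Agent.R109.Book3

-- ▼ part R109/BookList
section

/-!
# Row 109, module BOOK: the list form

A sequential selection rule `Adm c x` (depending on the colours of earlier classes only) becomes,
on a fine finite measurable partition refining any given one, a family of lists indexed by the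
cells, which are ordered class by class.
-/

set_option autoImplicit false
set_option linter.unusedSectionVars false

open MeasureTheory

namespace Crest.Agent.R109.Book

section

variable {X : Type*} [MeasurableSpace X]

theorem MeasF.comp_fin {Z Z' : Type*} [Countable Z] {own : X → Z} (h : MeasF own) (c : Z → Z') :
    MeasF (fun x => c (own x)) := by
  intro b
  have : {x | c (own x) = b} = ⋃ a : {a // c a = b}, {x | own x = a.1} := by
    ext x
    simp only [Set.mem_ofPred_eq, Set.mem_iUnion, Subtype.exists, exists_prop, exists_eq_right']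
  rw [this]
  exact MeasurableSet.iUnion fun a => h _

/-- one stage of the construction of the cells -/
theorem exists_stage {r n1 : ℕ} (cls : X → ℕ) (hcm : Measurable cls) {N₀ : ℕ}
    (hN₀ : ∀ x, cls x < N₀) (own1 : X → Fin n1) (h1 : MeasF own1)
    (A : (X → Fin r) → X → Finset (Fin r))
    (hloc : ∀ x c c', (∀ y, cls y < cls x → c y = c' y) → A c x = A c' x)
    (hmeas : ∀ c, MeasF c → ∀ a, MeasurableSet {x | a ∈ A c x}) (i : ℕ) :
    ∃ (ι : Type) (_ : Fintype ι) (own : X → ι) (u : ι → ℕ) (w : ι → Fin n1)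
      (F : ι → (ι → Fin r) → Finset (Fin r)), MeasF own ∧ (∀ x, u (own x) = cls x) ∧
      (∀ x, w (own x) = own1 x) ∧
      ∀ x, cls x < i → ∀ c : ι → Fin r, A (fun y => c (own y)) x = F (own x) c := by
  classical
  induction i with
  | zero =>
    refine ⟨Fin N₀ × Fin n1, inferInstance, fun x => (⟨cls x, hN₀ x⟩, own1 x), fun a => a.1,
      fun a => a.2, fun _ _ => ∅, ?_, fun x => rfl, fun x => rfl, fun x hx => by omega⟩
    intro a
    have : {x | ((⟨cls x, hN₀ x⟩ : Fin N₀), own1 x) = a}
        = {x | cls x = a.1} ∩ {x | own1 x = a.2} := by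
      ext x
      simp only [Set.mem_ofPred_eq, Set.mem_inter_iff, Prod.ext_iff, Fin.ext_iff]
    rw [this]
    exact (measurableSet_eq_fun hcm measurable_const).inter (h1 _)
  | succ i ih =>
    obtain ⟨ι, hι, own, u, w, F, hown, hu, hw, hF⟩ := ih
    let own' : X → ι ⊕ (ι × ((ι → Fin r) → Finset (Fin r))) := fun x => if cls x = i then
      Sum.inr (own x, fun c => A (fun y => c (own y)) x) else Sum.inl (own x)
    refine ⟨ι ⊕ (ι × ((ι → Fin r) → Finset (Fin r))), inferInstance, own', Sum.elim u (fun a => u a.1), Sum.elim w (fun a => w a.1),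
      fun a c => Sum.elim (fun b => F b (fun z => c (Sum.inl z)))
        (fun b => b.2 (fun z => c (Sum.inl z))) a, ?_, ?_, ?_, ?_⟩
    · intro a
      rcases a with a | ⟨a, f⟩
      · have : {x | own' x = Sum.inl a} = {x | cls x = i}ᶜ ∩ {x | own x = a} := by
          ext x
          simp only [own', Set.mem_ofPred_eq, Set.mem_inter_iff, Set.mem_compl_iff]
          split_ifs with h <;> simp [h]
        rw [this]
        exact (measurableSet_eq_fun hcm measurable_const).compl.inter (hown a)
      · have : {x | own' x = Sum.inr (a, f)} = ({x | cls x = i} ∩ {x | own x = a}) ∩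
            ⋂ c : ι → Fin r, ⋂ b : Fin r, {x | b ∈ A (fun y => c (own y)) x ↔ b ∈ f c} := by
          ext x
          simp only [own', Set.mem_ofPred_eq, Set.mem_inter_iff, Set.mem_iInter]
          split_ifs with h
          · simp only [h, Sum.inr.injEq, Prod.mk.injEq, true_and, funext_iff, Finset.ext_iff]
          · simp [h]
        rw [this]
        refine ((measurableSet_eq_fun hcm measurable_const).inter (hown a)).inter ?_
        refine MeasurableSet.iInter fun c => MeasurableSet.iInter fun b => ?_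
        have hm := hmeas _ (hown.comp_fin c) b
        by_cases hb : b ∈ f c
        · simpa [hb] using hm
        · simp only [hb, iff_false]
          exact hm.compl
    · intro x
      simp only [own']
      split_ifs <;> simp [hu]
    · intro x
      simp only [own']
      split_ifs <;> simp [hw]
    · intro x hx c
      have hkey : A (fun y => c (own' y)) x = A (fun y => c (Sum.inl (own y))) x := by
        refine hloc x _ _ fun y hy => ?_
        have : cls y ≠ i := by omega
        simp only [own', if_neg this]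
      rw [hkey]
      rcases Nat.lt_or_ge (cls x) i with h | h
      · have h' : cls x ≠ i := by omega
        simp only [own', if_neg h', Sum.elim_inl]
        exact hF x h (fun z => c (Sum.inl z))
      · have h' : cls x = i := by omega
        simp only [own', if_pos h', Sum.elim_inr]

/-- **the list form** of a sequential selection rule -/
theorem exists_lists {r n1 : ℕ} (cls : X → ℕ) (hcm : Measurable cls) {N₀ : ℕ}
    (hN₀ : ∀ x, cls x < N₀) (own1 : X → Fin n1) (h1 : MeasF own1)
    (A : (X → Fin r) → X → Finset (Fin r))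
    (hloc : ∀ x c c', (∀ y, cls y < cls x → c y = c' y) → A c x = A c' x)
    (hmeas : ∀ c, MeasF c → ∀ a, MeasurableSet {x | a ∈ A c x})
    (hcard : ∀ c x, r ≤ 2 * (A c x).card) :
    ∃ (N : ℕ) (own : X → Fin N) (w : Fin N → Fin n1) (L : Lists N r),
      MeasF own ∧ (∀ x, w (own x) = own1 x) ∧
      ∀ (c : Fin N → Fin r) (x : X), A (fun y => c (own y)) x = L.Adm (own x) c := by
  classical
  obtain ⟨ι, hι, own, u, w, F, hown, hu, hw, hF⟩ :=
    exists_stage cls hcm hN₀ own1 h1 A hloc hmeas N₀
  let e : ι ≃ Fin (Fintype.card ι) := Fintype.equivFin ι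
  let σ : Equiv.Perm (Fin (Fintype.card ι)) := Tuple.sort (u ∘ e.symm)
  have hσ : Monotone ((u ∘ e.symm) ∘ σ) := Tuple.monotone_sort _
  let own' : X → Fin (Fintype.card ι) := fun x => σ.symm (e (own x))
  have hback : ∀ x, e.symm (σ (own' x)) = own x := by
    intro x; simp [own']
  have hu' : ∀ x, ((u ∘ e.symm) ∘ σ) (own' x) = cls x := by
    intro x
    simp only [Function.comp_apply, hback, hu]
  have hown' : MeasF own' := hown.comp_fin (fun a => σ.symm (e a))
  -- link through `F`
  have hlink : ∀ (c : Fin (Fintype.card ι) → Fin r) (x y : X), own' x = own' y →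
      A (fun z => c (own' z)) x = A (fun z => c (own' z)) y := by
    intro c x y hxy
    have hxy' : own x = own y := by
      rw [← hback x, ← hback y, hxy]
    have h2 := hF x (hN₀ x) (fun a => c (σ.symm (e a)))
    have h3 := hF y (hN₀ y) (fun a => c (σ.symm (e a)))
    rw [hxy'] at h2
    exact h2.trans h3.symm
  have hpt : ∀ j : Fin (Fintype.card ι), (∃ x, own' x = j) ∨ ¬ ∃ x, own' x = j := fun j => em _
  let Ad : Fin (Fintype.card ι) → (Fin (Fintype.card ι) → Fin r) → Finset (Fin r) := fun j c =>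
    if h : ∃ x, own' x = j then A (fun z => c (own' z)) h.choose else Finset.univ
  refine ⟨Fintype.card ι, own', fun j => w (e.symm (σ j)), ⟨Ad, ?_, ?_⟩, hown', ?_, ?_⟩
  · intro j c c' hcc
    simp only [Ad]
    split_ifs with h
    · refine hloc _ _ _ fun y hy => ?_
      apply hcc
      have hj := h.choose_spec
      by_contra hle
      have hle' : j ≤ own' y := not_lt.1 hle
      have := hσ hle'
      rw [hu' y, ← hj, hu'] at this
      exact absurd hy (not_lt.2 this)
    · rfl
  · intro j c
    simp only [Ad]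
    split_ifs with h
    · exact hcard _ _
    · rw [Finset.card_univ, Fintype.card_fin]; omega
  · intro x
    change w (e.symm (σ (own' x))) = own1 x
    rw [hback]
    exact hw x
  · intro c x
    have h : ∃ z, own' z = own' x := ⟨x, rfl⟩
    simp only [Ad, dif_pos h]
    exact hlink c x h.choose h.choose_spec.symm

end

section

variable {Gam X : Type*} [Group Gam] [MulAction Gam X] [MeasurableSpace X] {μ : Measure X}
variable {r : ℕ} {p : (X → Option (Fin r)) → X → Finset X → ℝ} {S : Finset Gam} {cls : X → ℕ}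


end

end Crest.Agent.R109.Book
end

-- ▼ part R109/MeasListOf
section

/-!
# Row 109: the measured list theorem from the core colouring theorem (`CartCoreProp`)
-/

set_option autoImplicit false
set_option linter.unusedSectionVars false

open MeasureTheory

namespace Crest.Agent.R109

open Crest.Agent.R109.Book

universe u

/-- the core colouring theorem: one sequential rule, good for all measurable classes -/
def CartCoreProp : Prop :=
  ∀ (Gam X : Type u) [Group Gam] [MulAction Gam X] [MeasurableSpace X] (μ : Measure X)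
    [IsProbabilityMeasure μ] (Q : QI Gam X μ) (S : Finset Gam) (K : X → X → ℂ), KSys Q S K →
    ∀ r : ℕ, 100 ≤ r → ∀ n : ℕ, 1 ≤ n → ∀ κ : ℝ, 0 < κ →
    ∃ (S2 : Finset Gam) (p : (X → Option (Fin r)) → X → Finset X → ℝ), (1 : Gam) ∈ S2 ∧
      (∀ g ∈ S2, g⁻¹ ∈ S2) ∧ FVS Q S2 p ∧
      (∀ (cls : X → ℕ) (c : X → Fin r) (x : X), r ≤ 2 * (Adm p S2 cls c x).card) ∧
      ∀ (cls : X → ℕ) (N : ℕ), Measurable cls → (∀ x, cls x < N) →
        (∀ x, ∀ y ∈ ball S2 x, cls y = cls x → y = x) →
        ∀ c : X → Fin r, Measurable c → (∀ x, c x ∈ Adm p S2 cls c x) →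
          ∫ x, (kp S (pin c (fun _ => K) x) (2 * n) x x).re ∂μ
            ≤ (500 / Real.sqrt r) ^ (2 * n) + κ

theorem measList_of (hcore : CartCoreProp.{u}) : MeasListProp.{u} := by
  intro Gam X _ _ _ μ _ Q S K hK hfro r hr n hn κ hκ N₁ cell₁ hcell₁
  obtain ⟨S2, p, h1, hsymm, hp, hcard, hmain⟩ := hcore Gam X μ Q S K hK r hr n hn κ hκ
  obtain ⟨N0, cl, hcl, hsep⟩ := exists_sep_classes S2 (fun g _ => hfro g)
  have hcm : Measurable fun x => (cl x : ℕ) := (measurable_of_countable _).comp hcl
  have hsep' : ∀ x, ∀ y ∈ ball S2 x, (cl y : ℕ) = cl x → y = x := by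
    intro x y hy hxy
    obtain ⟨g, hg, rfl⟩ := mem_ball.1 hy
    exact hsep g hg x (Fin.ext hxy)
  have hF1 : MeasF cell₁ := fun a => hcell₁ (measurableSet_singleton a)
  obtain ⟨N, own, w, L, hown, hw, hL⟩ := exists_lists (fun x => (cl x : ℕ)) hcm
    (fun x => (cl x).2) cell₁ hF1 (fun c x => Adm p S2 (fun x => (cl x : ℕ)) c x)
    (fun x c c' h => Adm_congr hp fun y _ hy => h y hy)
    (fun c hc a => measurableSet_Adm hp hcm hsep' hc a)
    (fun c x => hcard _ c x)
  refine ⟨N, own, w, measurable_to_countable' hown, hw, L, fun c hc => ?_⟩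
  refine hmain (fun x => (cl x : ℕ)) N0 hcm (fun x => (cl x).2) hsep' (fun x => c (own x))
    ((measurable_of_countable c).comp (measurable_to_countable' hown)) fun x => ?_
  have := hL c x
  rw [this]
  exact hc (own x)

end Crest.Agent.R109
end

-- ▼ part R109/AnnealedInv
section

/-!
# Invariances and continuity of the annealed polynomial (row 109)
-/

set_option autoImplicit false
set_option linter.unusedSectionVars false
set_option linter.unusedSimpArgs false

namespace Crest.Agent.R109.Ann

open Matrix Finset Polynomial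

variable {V W K : Type*} [Fintype V] [DecidableEq V] [Fintype W] [DecidableEq W]
  [Fintype K] [DecidableEq K]

theorem pol_apply (x : V → V → ℂ) (γ : V → K → ℝ) :
    pol x γ = ∑ c : V → Option K,
      C ((N x c).det.re * ∏ v, wt (γ v) (c v)) * X ^ (sup c).card := by
  rw [pol, annD_apply]
  refine Finset.sum_congr rfl fun c _ => ?_
  have : (∏ w, wt (fun i => (C (γ w i) : ℝ[X])) (c w)) = C (∏ w, wt (γ w) (c w)) := by
    rw [map_prod]
    refine Finset.prod_congr rfl fun w _ => ?_
    cases c w <;> simp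
  rw [this, Dp, map_mul]; ring

theorem N_reindex (e : V ≃ W) (x : W → W → ℂ) (c : W → Option K) :
    N (fun u w => x (e u) (e w)) (fun v => c (e v)) = (N x c).submatrix e e := by
  ext u w
  simp only [N, Matrix.of_apply, Matrix.submatrix_apply, EmbeddingLike.apply_eq_iff_eq]

theorem pol_reindex (e : V ≃ W) (x : W → W → ℂ) (γ : W → K → ℝ) :
    pol (fun u w => x (e u) (e w)) (fun v => γ (e v)) = pol x γ := by
  rw [pol_apply, pol_apply]
  refine (Fintype.sum_equiv (e.arrowCongr (Equiv.refl (Option K))).symm _ _ fun c => ?_).symm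
  have hc : (e.arrowCongr (Equiv.refl (Option K))).symm c = fun v => c (e v) := by
    funext v; simp [Equiv.arrowCongr]
  rw [hc, N_reindex, Matrix.det_submatrix_equiv_self]
  congr 1
  · congr 2
    exact (Equiv.prod_comp e (fun w => wt (γ w) (c w))).symm
  · congr 1
    rw [sup, sup]
    apply Finset.card_bij' (fun w _ => e.symm w) (fun v _ => e v) <;> simp

/-- gauge invariance: conjugation by a diagonal unitary -/
theorem pol_gauge (d : V → ℂ) (hd : ∀ v, (starRingEnd ℂ) (d v) * d v = 1) (x : V → V → ℂ)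
    (γ : V → K → ℝ) :
    pol (fun u w => (starRingEnd ℂ) (d u) * x u w * d w) γ = pol x γ := by
  rw [pol_apply, pol_apply]
  refine Finset.sum_congr rfl fun c _ => ?_
  congr 3
  have h1 : N (fun u w => (starRingEnd ℂ) (d u) * x u w * d w) c
      = Matrix.diagonal (fun u => (starRingEnd ℂ) (d u)) * N x c * Matrix.diagonal d := by
    ext u w
    simp only [N, Matrix.of_apply, Matrix.diagonal_mul, Matrix.mul_diagonal]
    by_cases h : u = w ∧ c u = none
    · obtain ⟨rfl, h2⟩ := h
      simp only [h2, and_self, if_true, ne_eq, not_true_eq_false, and_false, if_false, sub_zero,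
        mul_one]
      rw [hd u]
    · rw [if_neg h]
      split_ifs <;> ring
  rw [h1, Matrix.det_mul, Matrix.det_mul, Matrix.det_diagonal, Matrix.det_diagonal,
    mul_right_comm, ← Finset.prod_mul_distrib]
  simp [hd]



/-- joint continuity of the coefficients -/
theorem continuous_coeff (n : ℕ) :
    Continuous (fun p : (V → V → ℂ) × (V → K → ℝ) => (pol p.1 p.2).coeff n) := by
  have h1 : (fun p : (V → V → ℂ) × (V → K → ℝ) => (pol p.1 p.2).coeff n)
      = fun p => ∑ c : V → Option K, if n = (sup c).card then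
        (N p.1 c).det.re * ∏ v, wt (p.2 v) (c v) else 0 := by
    funext p
    rw [pol_apply, Polynomial.finsetSum_coeff]
    refine Finset.sum_congr rfl fun c _ => ?_
    rw [Polynomial.coeff_C_mul, Polynomial.coeff_X_pow]
    split_ifs <;> simp
  rw [h1]
  refine continuous_finsetSum _ fun c _ => ?_
  split_ifs
  · refine Continuous.mul ?_ ?_
    · refine Complex.continuous_re.comp ?_
      refine Continuous.matrix_det ?_
      refine continuous_matrix fun u w => ?_
      simp only [N, Matrix.of_apply]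
      refine continuous_const.sub ?_
      split_ifs
      · fun_prop
      · fun_prop
    · refine continuous_finsetProd _ fun v _ => ?_
      cases c v with
      | none => simp only [wt_none]; fun_prop
      | some i => simp only [wt_some]; fun_prop
  · fun_prop


end Crest.Agent.R109.Ann
end

-- ▼ part R109/HCont
section

/-!
# Row 109: relabelling, gauge invariance, continuity and bounds of the potential `Hf`
-/

set_option autoImplicit false
set_option linter.unusedSectionVars false
set_option linter.unusedSimpArgs false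

namespace Crest.Agent.R109.FinVol

open Matrix Finset Polynomial Crest.Agent.R109.Ann

variable {V V' K : Type*} [Fintype V] [DecidableEq V] [Fintype V'] [DecidableEq V']
  [Fintype K] [DecidableEq K]

theorem cc_one_sub_pol (x : V → V → ℂ) (γ : V → K → ℝ) :
    PowerSeries.constantCoeff (1 - ((pol x γ : ℝ[X]) : PowerSeries ℝ)) = 0 := by
  rw [map_sub, ← PowerSeries.coeff_zero_eq_constantCoeff_apply,
    ← PowerSeries.coeff_zero_eq_constantCoeff_apply, Polynomial.coeff_coe, pol_coeff_zero]
  simp

theorem continuous_coeff_pow {Z : Type*} [TopologicalSpace Z] (F : Z → PowerSeries ℝ)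
    (hF : ∀ n, Continuous fun z => PowerSeries.coeff n (F z)) (m : ℕ) :
    ∀ n, Continuous fun z => PowerSeries.coeff n (F z ^ m) := by
  induction m with
  | zero =>
    intro n
    simp only [pow_zero]
    exact continuous_const
  | succ m ih =>
    intro n
    simp only [pow_succ, PowerSeries.coeff_mul]
    exact continuous_finsetSum _ fun p _ => (ih p.1).mul (hF p.2)

/-- `Hf` is continuous in the kernel and the weights -/
theorem continuous_Hf (k : ℕ) :
    Continuous fun p : (V → V → ℂ) × (V → K → ℝ) => Hf k p.1 p.2 := by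
  have h1 : ∀ n, Continuous fun p : (V → V → ℂ) × (V → K → ℝ) =>
      PowerSeries.coeff n (1 - ((pol p.1 p.2 : ℝ[X]) : PowerSeries ℝ)) := by
    intro n
    simp only [map_sub, Polynomial.coeff_coe]
    exact continuous_const.sub (continuous_coeff n)
  have h2 : (fun p : (V → V → ℂ) × (V → K → ℝ) => Hf k p.1 p.2)
      = fun p => ∑ n ∈ Finset.range (2 * k + 1), ((2 * k : ℕ) : ℝ) / (n + 1) *
        PowerSeries.coeff (2 * k) ((1 - ((pol p.1 p.2 : ℝ[X]) : PowerSeries ℝ)) ^ (n + 1)) := by
    funext p
    rw [Hf, coeff_qS _ (cc_one_sub_pol _ _)]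
  rw [h2]
  refine continuous_finsetSum _ fun n _ => continuous_const.mul ?_
  exact continuous_coeff_pow (fun p : (V → V → ℂ) × (V → K → ℝ) =>
    1 - ((pol p.1 p.2 : ℝ[X]) : PowerSeries ℝ)) h1 (n + 1) (2 * k)

theorem Hf_reindex (k : ℕ) (e : V ≃ V') (x : V' → V' → ℂ) (γ : V' → K → ℝ) :
    Hf k (fun u w => x (e u) (e w)) (fun v => γ (e v)) = Hf k x γ := by
  rw [Hf, Hf, pol_reindex e x γ]

/-- gauge invariance -/
theorem Hf_gauge (k : ℕ) (x : V → V → ℂ) (a : V → ℂ) (ha : ∀ v, ‖a v‖ = 1) (γ : V → K → ℝ) :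
    Hf k (fun u w => a u * (starRingEnd ℂ) (a w) * x u w) γ = Hf k x γ := by
  have h := pol_gauge (fun v => (starRingEnd ℂ) (a v))
    (fun v => by
      rw [Complex.conj_conj, Complex.mul_conj, Complex.normSq_eq_norm_sq, ha v]
      simp) x γ
  have h2 : (fun u w => a u * (starRingEnd ℂ) (a w) * x u w)
      = fun u w => (starRingEnd ℂ) ((starRingEnd ℂ) (a u)) * x u w * (starRingEnd ℂ) (a w) := by
    funext u w
    rw [Complex.conj_conj]
    ring
  rw [Hf, Hf, h2, h]

/-- uniform bound on bounded data -/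
theorem Hf_bdd (V K : Type*) [Fintype V] [DecidableEq V] [Fintype K] [DecidableEq K] (k : ℕ)
    (M G : ℝ) : ∃ C : ℝ, ∀ (x : V → V → ℂ) (γ : V → K → ℝ), (∀ u w, ‖x u w‖ ≤ M) →
      (∀ v i, |γ v i| ≤ G) → |Hf k x γ| ≤ C := by
  have hcomp : IsCompact {p : (V → V → ℂ) × (V → K → ℝ) |
      (∀ u w, p.1 u w ∈ Metric.closedBall (0 : ℂ) M) ∧
      ∀ v i, p.2 v i ∈ Metric.closedBall (0 : ℝ) G} := by
    have h1 : IsCompact (Set.pi Set.univ fun _ : V => Set.pi Set.univ fun _ : V =>
        Metric.closedBall (0 : ℂ) M) :=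
      isCompact_univ_pi fun _ => isCompact_univ_pi fun _ => isCompact_closedBall _ _
    have h2 : IsCompact (Set.pi Set.univ fun _ : V => Set.pi Set.univ fun _ : K =>
        Metric.closedBall (0 : ℝ) G) :=
      isCompact_univ_pi fun _ => isCompact_univ_pi fun _ => isCompact_closedBall _ _
    convert h1.prod h2 using 1
    ext p
    simp only [Set.mem_ofPred_eq, Set.mem_prod, Set.mem_pi, Set.mem_univ, true_imp_iff]
  obtain ⟨C, hC⟩ := hcomp.exists_bound_of_continuousOn
    (f := fun p : (V → V → ℂ) × (V → K → ℝ) => Hf k p.1 p.2) (continuous_Hf k).continuousOn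
  refine ⟨C, fun x γ hx hγ => ?_⟩
  have := hC (x, γ) ⟨fun u w => by simpa using hx u w, fun v i => by simpa using hγ v i⟩
  simpa using this

/-- the potential along an injective parametrization -/
theorem H_image {X I : Type*} [Fintype I] [DecidableEq I] {r : ℕ} (k : ℕ) (x : X → X → ℂ)
    (g : X → Fin r → ℝ) (u : I → X) (hu : Function.Injective u) (W : Finset X)
    (hW : ∀ y, y ∈ W ↔ ∃ i, u i = y) :
    H k x g W = Hf k (fun i j => x (u i) (u j)) (fun i => g (u i)) := by
  classical
  let e : I ≃ W := Equiv.ofBijective (fun i => (⟨u i, (hW _).2 ⟨i, rfl⟩⟩ : W)) ⟨fun i j h => by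
    exact hu (congrArg Subtype.val h), fun y => by
      obtain ⟨i, hi⟩ := (hW y.1).1 y.2
      exact ⟨i, Subtype.ext hi⟩⟩
  have h := Hf_reindex k e (fun u w : W => x u w) (fun (v : W) i => g v i)
  rw [H]
  refine Eq.trans ?_ h.symm
  congr!

end Crest.Agent.R109.FinVol
end

-- ▼ part R109/HMeas
section

/-!
# Row 109: measurability and bounds of the potential (H5)

`KMeas K`: the kernel `K` is measurable up to diagonal unitaries along the action.
`measK_H`: `x ↦ H k K (gam Q k β K₀ x s) (ball F x)` is measurable for every measurable state.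
`bdd_H`: it is bounded on subsets of balls.
-/

set_option autoImplicit false
set_option linter.unusedSectionVars false

open MeasureTheory

namespace Crest.Agent.R109.Book

open Crest.Agent.R109.FinVol (Hf H H_image Hf_gauge Hf_bdd continuous_Hf)
open scoped ComplexConjugate

section

variable {Gam X : Type*} [Group Gam] [MulAction Gam X] [MeasurableSpace X] {μ : Measure X}

/-- measurable up to gauge -/
def KMeas (Gam : Type*) {X : Type*} [Group Gam] [MulAction Gam X] [MeasurableSpace X]
    (K : X → X → ℂ) : Prop :=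
  ∀ F : Finset Gam, ∃ K' : Gam → Gam → X → ℂ,
    (∀ g ∈ F, ∀ h ∈ F, Measurable (K' g h)) ∧
    ∀ x, ∃ a : Gam → ℂ, (∀ g ∈ F, ‖a g‖ = 1) ∧
      ∀ g ∈ F, ∀ h ∈ F, K (g • x) (h • x) = a g * (starRingEnd ℂ) (a h) * K' g h x

theorem KMeas.of_gauge {K : X → X → ℂ}
    (gauge : ∃ ph : Gam → X → ℂ, (∀ g x, ‖ph g x‖ = 1) ∧
      ∀ g h, Measurable fun x => ph g x * K (g • x) (h • x) * conj (ph h x)) : KMeas Gam K := by
  obtain ⟨ph, h1, h2⟩ := gauge
  intro F
  refine ⟨fun g h x => ph g x * K (g • x) (h • x) * conj (ph h x), fun g _ h _ => h2 g h,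
    fun x => ⟨fun g => conj (ph g x), fun g _ => by rw [RCLike.norm_conj]; exact h1 g x, ?_⟩⟩
  intro g _ h _
  have e1 : ∀ g, ph g x * conj (ph g x) = 1 := by
    intro g
    rw [Complex.mul_conj, Complex.normSq_eq_norm_sq, h1 g x]
    simp
  have e2 := e1 g
  have e3 := e1 h
  simp only [Complex.conj_conj]
  linear_combination (-K (g • x) (h • x)) * e2
    - K (g • x) (h • x) * (ph g x * conj (ph g x)) * e3

/-- the set where `g ↦ g • x` is injective on `F'` and `F' • x = F • x` -/
def patt (F F' : Finset Gam) : Set X :=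
  {x | (∀ g ∈ F', ∀ h ∈ F', g • x = h • x → g = h) ∧ ball F x = ball F' x}

theorem measurableSet_patt (Q : QI Gam X μ) (F F' : Finset Gam) :
    MeasurableSet (patt F F' : Set X) := by
  classical
  have : (patt F F' : Set X) = (⋂ g ∈ F', ⋂ h ∈ F', ({x | g • x = h • x}ᶜ ∪ {_x | g = h})) ∩
      {x | ball F x = ball F' x} := by
    ext x
    simp only [patt, Set.mem_ofPred_eq, Set.mem_inter_iff, Set.mem_iInter, Set.mem_union,
      Set.mem_compl_iff, imp_iff_not_or]
  rw [this]
  refine MeasurableSet.inter ?_ (measurableSet_ball_eq Q F F')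
  refine MeasurableSet.biInter F'.countable_toSet fun g _ =>
    MeasurableSet.biInter F'.countable_toSet fun h _ => ?_
  exact (Q.meas_eq g h).compl.union (MeasurableSet.const _)

theorem exists_patt (F : Finset Gam) (x : X) : ∃ F' ∈ F.powerset, x ∈ (patt F F' : Set X) := by
  classical
  obtain ⟨F', hF', hinj, himg⟩ : ∃ F' : Finset Gam, F' ⊆ F ∧
      Set.InjOn (fun g => g • x) (F' : Set Gam) ∧
      F'.image (fun g => g • x) = F.image (fun g => g • x) := by
    obtain ⟨t, ht1, ht2, ht3⟩ := Finset.exists_subset_injOn_image_eq_of_surjOn F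
      (F.image fun g => g • x) (f := fun g : Gam => g • x) (by
        intro y hy
        simpa using hy)
    exact ⟨t, ht1, ht2, ht3⟩
  refine ⟨F', Finset.mem_powerset.2 hF', fun g hg h hh heq => hinj hg hh heq, ?_⟩
  rw [ball, ball, himg]

/-- measurability on a finite measurable cover -/
theorem measurable_of_cover {ι Z : Type*} [MeasurableSpace Z] (s : Finset ι) (A : ι → Set X)
    (hA : ∀ i ∈ s, MeasurableSet (A i)) (hcov : ∀ x, ∃ i ∈ s, x ∈ A i) (G : X → Z) (G' : ι → X → Z)
    (hG' : ∀ i ∈ s, Measurable (G' i)) (heq : ∀ i ∈ s, ∀ x ∈ A i, G x = G' i x) :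
    Measurable G := by
  intro t ht
  have : G ⁻¹' t = ⋃ i ∈ s, (A i ∩ (G' i) ⁻¹' t) := by
    ext x
    simp only [Set.mem_preimage, Set.mem_iUnion, Set.mem_inter_iff, exists_prop]
    constructor
    · intro hx
      obtain ⟨i, hi, hxi⟩ := hcov x
      exact ⟨i, hi, hxi, by rw [← heq i hi x hxi]; exact hx⟩
    · rintro ⟨i, hi, hxi, hx⟩
      rw [heq i hi x hxi]
      exact hx
  rw [this]
  exact MeasurableSet.biUnion s.countable_toSet fun i hi => (hA i hi).inter (hG' i hi ht)

variable {r : ℕ}

theorem measurable_lev (Q : QI Gam X μ) {s : X → Option (Fin r)} (hs : MeasF s) (β K₀ : ℝ)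
    (g : Gam) (i : Fin r) : Measurable fun x => lev β K₀ (s (g • x)) i := by
  let _ : MeasurableSpace (Option (Fin r)) := ⊤
  have h1 : Measurable fun x => s (g • x) := by
    refine measurable_to_countable' fun a => ?_
    exact Q.meas_smul g (hs a)
  have h2 : Measurable fun a : Option (Fin r) => lev β K₀ a i := measurable_from_top
  exact h2.comp h1

theorem measurable_gam (Q : QI Gam X μ) {s : X → Option (Fin r)} (hs : MeasF s) (β K₀ : ℝ)
    (k : ℕ) (g : Gam) (i : Fin r) :
    Measurable fun x => gam Q k β K₀ x s (g • x) i := by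
  simp only [gam, Q.rel_smul]
  exact ((Q.meas_D g).pow_const _).mul (measurable_lev Q hs β K₀ g i)

theorem measurable_Hf0 {I : Type*} [Fintype I] [DecidableEq I] (k : ℕ) :
    Measurable fun p : (I → I → ℂ) × (I → Fin r → ℝ) => Hf k p.1 p.2 := by
  have h := continuous_Hf (V := I) (K := Fin r) k
  exact h.measurable

attribute [local irreducible] Hf

theorem measurable_Hf {I : Type*} [Fintype I] [DecidableEq I] (k : ℕ) (A : X → I → I → ℂ)
    (B : X → I → Fin r → ℝ) (hA : ∀ i j, Measurable fun x => A x i j)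
    (hB : ∀ i j, Measurable fun x => B x i j) : Measurable fun x => Hf k (A x) (B x) := by
  have h1 : Measurable fun x : X => (A x, B x) :=
    (measurable_pi_lambda _ fun i => measurable_pi_lambda _ fun j => hA i j).prodMk
      (measurable_pi_lambda _ fun i => measurable_pi_lambda _ fun j => hB i j)
  exact (measurable_Hf0 (I := I) (r := r) k).comp h1

/-- **measurability of the potential** -/
theorem measK_H (Q : QI Gam X μ) {K : X → X → ℂ}
    (gauge : ∃ ph : Gam → X → ℂ, (∀ g x, ‖ph g x‖ = 1) ∧
      ∀ g h, Measurable fun x => ph g x * K (g • x) (h • x) * conj (ph h x))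
    (k : ℕ) (β K₀ : ℝ) {s : X → Option (Fin r)} (hs : MeasF s) :
    MeasK Gam fun x W => H k K (gam Q k β K₀ x s) W := by
  have hK := KMeas.of_gauge gauge
  classical
  intro F
  obtain ⟨K', hK'm, hK'⟩ := hK F
  refine measurable_of_cover F.powerset (fun F' => patt F F')
    (fun F' _ => measurableSet_patt Q F F') (exists_patt F) _
    (fun F' x => Hf k (fun g h : F' => K' g h x) (fun (g : F') i =>
      gam Q k β K₀ x s ((g : Gam) • x) i)) ?_ ?_
  · intro F' hF'
    rw [Finset.mem_powerset] at hF'
    exact measurable_Hf k (fun x (g h : F') => K' g h x)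
      (fun x (g : F') i => gam Q k β K₀ x s ((g : Gam) • x) i)
      (fun g h => hK'm g (hF' g.2) h (hF' h.2)) (fun g i => measurable_gam Q hs β K₀ k g i)
  · intro F' hF' x hx
    rw [Finset.mem_powerset] at hF'
    obtain ⟨a, ha, hKa⟩ := hK' x
    have hinj : Function.Injective fun g : F' => (g : Gam) • x := by
      intro g h hgh
      exact Subtype.ext (hx.1 g g.2 h h.2 hgh)
    simp only
    rw [hx.2, H_image k K (gam Q k β K₀ x s) (fun g : F' => (g : Gam) • x) hinj (ball F' x)
      (fun y => by
        rw [mem_ball]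
        constructor
        · rintro ⟨g, hg, rfl⟩
          exact ⟨⟨g, hg⟩, rfl⟩
        · rintro ⟨g, rfl⟩
          exact ⟨g, g.2, rfl⟩)]
    have h2 : (fun i j : F' => K ((i : Gam) • x) ((j : Gam) • x))
        = fun i j : F' => a i * (starRingEnd ℂ) (a j) * K' i j x := by
      funext i j
      exact hKa i (hF' i.2) j (hF' j.2)
    rw [h2]
    exact Hf_gauge k (fun i j : F' => K' i j x) (fun g : F' => a g) (fun g => ha g (hF' g.2)) _

theorem abs_lev_le (β K₀ : ℝ) (o : Option (Fin r)) (i : Fin r) :
    |lev β K₀ o i| ≤ |1 / (r * β)| + |1 / (K₀ * β)| := by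
  have h1 := abs_nonneg (1 / ((r : ℝ) * β))
  have h2 := abs_nonneg (1 / (K₀ * β))
  cases o with
  | none => simp only [lev]; linarith
  | some c =>
    simp only [lev]
    split_ifs
    · linarith
    · rw [abs_zero]; linarith

/-- **bound of the potential** -/
theorem bdd_H (Q : QI Gam X μ) {K : X → X → ℂ} {M : ℝ} (hK : ∀ u w, ‖K u w‖ ≤ M)
    (k : ℕ) (β K₀ : ℝ) (s : X → Option (Fin r)) (S : Finset Gam) :
    ∃ C, ∀ (x : X) (W : Finset X), W ⊆ ball S x → |H k K (gam Q k β K₀ x s) W| ≤ C := by
  classical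
  choose D hD using Q.D_bdd
  set G : ℝ := ∑ g ∈ S, |D g| with hG
  have hG0 : 0 ≤ G := Finset.sum_nonneg fun _ _ => abs_nonneg _
  set L : ℝ := |1 / (r * β)| + |1 / (K₀ * β)| with hL
  have hL0 : 0 ≤ L := by positivity
  have hC : ∀ F' : Finset Gam, ∃ C : ℝ, ∀ (x : F' → F' → ℂ) (γ : F' → Fin r → ℝ),
      (∀ u w, ‖x u w‖ ≤ M) → (∀ v i, |γ v i| ≤ G ^ ((1 : ℝ) / (2 * k)) * L) → |Hf k x γ| ≤ C :=
    fun F' => Hf_bdd F' (Fin r) k M _
  choose C hC using hC
  refine ⟨∑ F' ∈ S.powerset, |C F'|, fun x W hW => ?_⟩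
  obtain ⟨F1, hF1, hWF⟩ : ∃ F1 : Finset Gam, F1 ⊆ S ∧ ball F1 x = W := by
    rw [ball, Finset.subset_image_iff] at hW
    obtain ⟨F1, hF1, h⟩ := hW
    exact ⟨F1, hF1, by rw [ball]; convert h⟩
  obtain ⟨F', hF', hx⟩ := exists_patt F1 x
  rw [Finset.mem_powerset] at hF'
  have hF'S : F' ⊆ S := hF'.trans hF1
  have hinj : Function.Injective fun g : F' => (g : Gam) • x := by
    intro g h hgh
    exact Subtype.ext (hx.1 g g.2 h h.2 hgh)
  rw [← hWF, hx.2, H_image k K (gam Q k β K₀ x s) (fun g : F' => (g : Gam) • x) hinj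
    (ball F' x) (fun y => by
        rw [mem_ball]
        constructor
        · rintro ⟨g, hg, rfl⟩
          exact ⟨⟨g, hg⟩, rfl⟩
        · rintro ⟨g, rfl⟩
          exact ⟨g, g.2, rfl⟩)]
  refine (hC F' _ _ (fun u w => hK _ _) ?_).trans ?_
  · intro v i
    simp only [gam]
    rw [abs_mul, abs_of_nonneg (Real.rpow_nonneg (Q.rel_pos _ _).le _)]
    refine mul_le_mul ?_ (abs_lev_le β K₀ _ _) (abs_nonneg _) (Real.rpow_nonneg hG0 _)
    refine Real.rpow_le_rpow (Q.rel_pos _ _).le ?_ (by positivity)
    rw [Q.rel_smul]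
    refine (hD v x).trans ((le_abs_self _).trans ?_)
    exact Finset.single_le_sum (f := fun g => |D g|) (fun _ _ => abs_nonneg _) (hF'S v.2)
  · refine (le_abs_self _).trans ?_
    exact Finset.single_le_sum (f := fun F' => |C F'|) (fun _ _ => abs_nonneg _)
      (Finset.mem_powerset.2 hF'S)

end

end Crest.Agent.R109.Book
end

-- ▼ part R109/Cluster
section

/-!
# Row 109, (H2) CLUSTER: the Moebius inverse of `H` lives on connected sets with at most `2k` points
-/

set_option autoImplicit false
set_option linter.unusedSectionVars false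
set_option linter.unusedSimpArgs false

namespace Crest.Agent.R109.Cluster

open Finset Crest.Agent.R109.Ann Crest.Agent.R109.Book

/-! ### Moebius algebra -/

section Mob

variable {X : Type*}

theorem mob_add (f g : Finset X → ℝ) (U : Finset X) :
    mob (fun V => f V + g V) U = mob f U + mob g U := by
  simp only [mob, mul_add, Finset.sum_add_distrib]

/-- a function which ignores a point of `U` has zero Moebius inverse at `U` -/
theorem mob_eq_zero_of_ignore [DecidableEq X] (f : Finset X → ℝ) {a : X} {U : Finset X}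
    (ha : a ∈ U) (h : ∀ V ⊆ U, f (insert a V) = f V) : mob f U = 0 := by
  have h1 : insert a (U.erase a) = U := Finset.insert_erase ha
  rw [← h1, mob_insert f (Finset.notMem_erase a U), sub_eq_zero]
  exact mob_congr fun V hV => h V (hV.trans (Finset.erase_subset _ _))

/-- uniqueness of the Moebius inverse -/
theorem mob_unique (f φ : Finset X → ℝ) (U : Finset X)
    (h : ∀ W ⊆ U, f W = ∑ S ∈ W.powerset, φ S) : ∀ W ⊆ U, mob f W = φ W := by
  classical
  have key : ∀ n : ℕ, ∀ W ⊆ U, W.card = n → mob f W = φ W := by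
    intro n
    induction n using Nat.strong_induction_on with
    | _ n ih =>
      intro W hW hn
      have h1 : ∑ S ∈ W.powerset, mob f S = ∑ S ∈ W.powerset, φ S := by
        rw [sum_mob, h W hW]
      rw [← Finset.add_sum_erase _ _ (Finset.mem_powerset_self W),
        ← Finset.add_sum_erase _ _ (Finset.mem_powerset_self W)] at h1
      have h2 : ∑ S ∈ W.powerset.erase W, mob f S = ∑ S ∈ W.powerset.erase W, φ S := by
        refine Finset.sum_congr rfl fun S hS => ?_
        rw [Finset.mem_erase, Finset.mem_powerset] at hS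
        have hlt : S.card < W.card := Finset.card_lt_card ⟨hS.2, fun h => hS.1 (subset_antisymm hS.2 h)⟩
        exact ih S.card (hn ▸ hlt) S (hS.2.trans hW) rfl
      linarith
  exact fun W hW => key _ W hW rfl

/-- `f` is of degree at most `n` on the subsets of `U` -/
def Dg (U : Finset X) (n : ℕ) (f : Finset X → ℝ) : Prop :=
  ∃ φ : Finset X → ℝ, (∀ W ⊆ U, f W = ∑ S ∈ W.powerset, φ S) ∧ ∀ S ⊆ U, n < S.card → φ S = 0

theorem Dg.mob_eq_zero {U : Finset X} {n : ℕ} {f : Finset X → ℝ} (h : Dg U n f)
    (hn : n < U.card) : mob f U = 0 := by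
  obtain ⟨φ, h1, h2⟩ := h
  rw [mob_unique f φ U h1 U subset_rfl]
  exact h2 U subset_rfl hn

theorem Dg.mono {U : Finset X} {n m : ℕ} {f : Finset X → ℝ} (h : Dg U n f) (hnm : n ≤ m) :
    Dg U m f := by
  obtain ⟨φ, h1, h2⟩ := h
  exact ⟨φ, h1, fun S hS hn => h2 S hS (by omega)⟩

theorem Dg.congr {U : Finset X} {n : ℕ} {f g : Finset X → ℝ} (h : Dg U n f)
    (hfg : ∀ W ⊆ U, g W = f W) : Dg U n g := by
  obtain ⟨φ, h1, h2⟩ := h
  exact ⟨φ, fun W hW => (hfg W hW).trans (h1 W hW), h2⟩

theorem Dg.const (U : Finset X) (n : ℕ) (c : ℝ) : Dg U n (fun _ => c) := by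
  classical
  refine ⟨fun S => if S = ∅ then c else 0, fun W _ => ?_, fun S _ hS => ?_⟩
  · rw [Finset.sum_ite_eq' W.powerset ∅ (fun _ => c), if_pos (Finset.empty_mem_powerset W)]
  · have : S ≠ ∅ := by
      rintro rfl
      simp at hS
    simp [this]

theorem Dg.add {U : Finset X} {n : ℕ} {f g : Finset X → ℝ} (hf : Dg U n f) (hg : Dg U n g) :
    Dg U n (fun W => f W + g W) := by
  obtain ⟨φ, h1, h2⟩ := hf
  obtain ⟨ψ, h3, h4⟩ := hg
  refine ⟨fun S => φ S + ψ S, fun W hW => ?_, fun S hS hn => ?_⟩
  · simp only [h1 W hW, h3 W hW, Finset.sum_add_distrib]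
  · simp only [h2 S hS hn, h4 S hS hn, add_zero]

theorem Dg.cmul {U : Finset X} {n : ℕ} {f : Finset X → ℝ} (c : ℝ) (hf : Dg U n f) :
    Dg U n (fun W => c * f W) := by
  obtain ⟨φ, h1, h2⟩ := hf
  refine ⟨fun S => c * φ S, fun W hW => ?_, fun S hS hn => ?_⟩
  · simp only [h1 W hW, Finset.mul_sum]
  · simp only [h2 S hS hn, mul_zero]

theorem Dg.sum {U : Finset X} {n : ℕ} {ι : Type*} (s : Finset ι) (f : ι → Finset X → ℝ)
    (h : ∀ i ∈ s, Dg U n (f i)) : Dg U n (fun W => ∑ i ∈ s, f i W) := by
  classical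
  induction s using Finset.induction_on with
  | empty => simpa using Dg.const U n 0
  | insert a s ha ih =>
    have h1 := (h a (Finset.mem_insert_self a s)).add
      (ih fun i hi => h i (Finset.mem_insert_of_mem hi))
    exact h1.congr fun W _ => Finset.sum_insert ha

theorem Dg.mul {U : Finset X} {n m : ℕ} {f g : Finset X → ℝ} (hf : Dg U n f) (hg : Dg U m g) :
    Dg U (n + m) (fun W => f W * g W) := by
  classical
  obtain ⟨φ, h1, h2⟩ := hf
  obtain ⟨ψ, h3, h4⟩ := hg
  refine ⟨fun R => ∑ p ∈ (R.powerset ×ˢ R.powerset).filter (fun p => p.1 ∪ p.2 = R),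
    φ p.1 * ψ p.2, fun W hW => ?_, fun R hR hn => ?_⟩
  · beta_reduce
    rw [h1 W hW, h3 W hW, Finset.sum_mul_sum, ← Finset.sum_product']
    rw [← Finset.sum_fiberwise_of_maps_to (s := W.powerset ×ˢ W.powerset) (t := W.powerset)
      (g := fun p => p.1 ∪ p.2) (fun p hp => by
        rw [Finset.mem_product, Finset.mem_powerset, Finset.mem_powerset] at hp
        rw [Finset.mem_powerset]
        exact Finset.union_subset hp.1 hp.2)]
    refine Finset.sum_congr rfl fun R hR => ?_
    rw [Finset.mem_powerset] at hR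
    refine Finset.sum_congr ?_ fun _ _ => rfl
    ext p
    simp only [Finset.mem_filter, Finset.mem_product, Finset.mem_powerset]
    constructor
    · rintro ⟨⟨_, _⟩, h⟩
      subst h
      exact ⟨⟨Finset.subset_union_left, Finset.subset_union_right⟩, rfl⟩
    · rintro ⟨⟨h5, h6⟩, h⟩
      exact ⟨⟨h5.trans hR, h6.trans hR⟩, h⟩
  · refine Finset.sum_eq_zero fun p hp => ?_
    rw [Finset.mem_filter, Finset.mem_product, Finset.mem_powerset, Finset.mem_powerset] at hp
    have hc : R.card ≤ p.1.card + p.2.card := by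
      rw [← hp.2]; exact Finset.card_union_le _ _
    rcases Nat.lt_or_ge n p.1.card with h | h
    · rw [h2 p.1 (hp.1.1.trans hR) h, zero_mul]
    · rw [h4 p.2 (hp.1.2.trans hR) (by omega), mul_zero]

/-- power series version -/
def DgS (U : Finset X) (F : Finset X → PowerSeries ℝ) : Prop :=
  ∀ n, Dg U n (fun W => PowerSeries.coeff n (F W))

theorem DgS.one (U : Finset X) : DgS U (fun _ => 1) := fun n => Dg.const U n _

theorem DgS.sub {U : Finset X} {F G : Finset X → PowerSeries ℝ} (hF : DgS U F) (hG : DgS U G) :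
    DgS U (fun W => F W - G W) := fun n =>
  ((hF n).add ((hG n).cmul (-1))).congr fun W _ => by
    simp only [map_sub]; ring

theorem DgS.mul {U : Finset X} {F G : Finset X → PowerSeries ℝ} (hF : DgS U F) (hG : DgS U G) :
    DgS U (fun W => F W * G W) := fun n => by
  have h := Dg.sum (U := U) (n := n) (Finset.HasAntidiagonal.antidiagonal n)
    (fun (p : ℕ × ℕ) W => PowerSeries.coeff p.1 (F W) * PowerSeries.coeff p.2 (G W)) (fun p hp => by
      rw [Finset.HasAntidiagonal.mem_antidiagonal] at hp
      exact ((hF p.1).mul (hG p.2)).mono (le_of_eq hp))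
  exact h.congr fun W _ => PowerSeries.coeff_mul _ _ _

theorem DgS.pow {U : Finset X} {F : Finset X → PowerSeries ℝ} (hF : DgS U F) (m : ℕ) :
    DgS U (fun W => F W ^ m) := by
  induction m with
  | zero => simpa using DgS.one U
  | succ m ih => simpa only [pow_succ] using ih.mul hF

end Mob

/-! ### the annealed polynomial as a function of the window -/

section Pol

variable {X : Type*} {r : ℕ}

open Classical in
/-- the annealed polynomial of the window -/
noncomputable def PW (x : X → X → ℂ) (g : X → Fin r → ℝ) (W : Finset X) : Polynomial ℝ :=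
  pol (fun u w : W => x u w) (fun (v : W) i => g v i)

theorem H_eq_PW (k : ℕ) (x : X → X → ℂ) (g : X → Fin r → ℝ) (W : Finset X) :
    FinVol.H k x g W = PowerSeries.coeff (2 * k) (qS (1 - (PW x g W : PowerSeries ℝ))) := rfl

open Classical in
theorem PW_subset (x : X → X → ℂ) (g : X → Fin r → ℝ) {W U : Finset X} (hW : W ⊆ U) :
    PW x g W = pol (fun u w : U => x u w) (fun (v : U) i => if v.1 ∈ W then g v i else 0) := by
  rw [FinVol.pol_extend (fun v : W => (⟨v.1, hW v.2⟩ : U)) ?_ (fun u w : U => x u w)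
    (fun (v : U) i => if v.1 ∈ W then g v i else 0) ?_]
  · rw [PW]
    congr 1
    funext v i
    simp
  · intro a b h
    exact Subtype.ext (by simpa using congrArg Subtype.val h)
  · rintro ⟨v, hv⟩ hn
    have : v ∉ W := fun h => hn ⟨⟨v, h⟩, rfl⟩
    funext i
    simp [this]

open Classical in
theorem PW_coeff_zero (x : X → X → ℂ) (g : X → Fin r → ℝ) (W : Finset X) :
    (PW x g W).coeff 0 = 1 := pol_coeff_zero _ _

open Classical in
theorem coeff_pol {V K : Type*} [Fintype V] [DecidableEq V] [Fintype K] [DecidableEq K]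
    (x : V → V → ℂ) (γ : V → K → ℝ) (n : ℕ) :
    (pol x γ).coeff n = ∑ c : V → Option K,
      if n = (Ann.sup c).card then (N x c).det.re * ∏ v, wt (γ v) (c v) else 0 := by
  rw [pol, annD_apply, Polynomial.finsetSum_coeff]
  refine Finset.sum_congr rfl fun c _ => ?_
  have : (∏ w, wt (fun i => (Polynomial.C (γ w i) : Polynomial ℝ)) (c w))
      = Polynomial.C (∏ w, wt (γ w) (c w)) := by
    rw [map_prod]
    refine Finset.prod_congr rfl fun w _ => ?_
    cases c w <;> simp
  rw [this, Dp, mul_right_comm, ← Polynomial.C_mul, Polynomial.coeff_C_mul_X_pow]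

theorem DgS_PW (x : X → X → ℂ) (g : X → Fin r → ℝ) (U : Finset X) :
    DgS U (fun W => (PW x g W : PowerSeries ℝ)) := by
  classical
  intro n
  -- support of a coloring of `U`
  let S : (U → Option (Fin r)) → Finset X := fun c => (Ann.sup c).map (Function.Embedding.subtype _)
  have hS : ∀ c, (S c).card = (Ann.sup c).card := fun c => Finset.card_map _
  have h := Dg.sum (U := U) (n := n) (Finset.univ : Finset (U → Option (Fin r)))
    (fun c W => if n = (Ann.sup c).card ∧ S c ⊆ W then
      (N (fun u w : U => x u w) c).det.re * ∏ v : U, wt (g v) (c v) else 0) (fun c _ => by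
      refine ⟨fun T => if n = (Ann.sup c).card ∧ S c = T then
        (N (fun u w : U => x u w) c).det.re * ∏ v : U, wt (g v) (c v) else 0, fun W _ => ?_,
        fun T _ hT => ?_⟩
      · by_cases h1 : n = (Ann.sup c).card
        · simp only [h1, true_and]
          rw [Finset.sum_ite_eq W.powerset (S c)]
          simp only [Finset.mem_powerset]
        · simp [h1]
      · beta_reduce
        rw [if_neg]
        rintro ⟨h1, h2⟩
        rw [← h2, hS] at hT
        omega)
  refine h.congr fun W hW => ?_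
  rw [Polynomial.coeff_coe, PW_subset x g hW, coeff_pol]
  refine Finset.sum_congr rfl fun c _ => ?_
  by_cases h1 : n = (Ann.sup c).card
  · simp only [h1, true_and, if_true]
    by_cases h2 : S c ⊆ W
    · rw [if_pos h2]
      congr 1
      refine Finset.prod_congr rfl fun v _ => ?_
      by_cases hv : v.1 ∈ W
      · simp [hv]
      · have : c v = none := by
          by_contra hc
          apply hv
          apply h2
          simp only [S, Finset.mem_map, Function.Embedding.coe_subtype]
          exact ⟨v, by simp [Ann.sup, hc], rfl⟩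
        rw [this]; rfl
    · rw [if_neg h2]
      obtain ⟨v, hv, hvW⟩ := Finset.not_subset.1 h2
      simp only [S, Finset.mem_map, Function.Embedding.coe_subtype] at hv
      obtain ⟨a, ha, rfl⟩ := hv
      rw [Finset.prod_eq_zero (Finset.mem_univ a), mul_zero]
      have hc : c a ≠ none := by simpa [Ann.sup] using ha
      cases hc' : c a with
      | none => exact absurd hc' hc
      | some i => simp [hvW]
  · simp [h1]

theorem cc_one_sub_PW (x : X → X → ℂ) (g : X → Fin r → ℝ) (W : Finset X) :
    PowerSeries.constantCoeff (1 - (PW x g W : PowerSeries ℝ)) = 0 := by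
  rw [map_sub, map_one, Polynomial.constantCoeff_coe, PW_coeff_zero, sub_self]

theorem Dg_H (k : ℕ) (x : X → X → ℂ) (g : X → Fin r → ℝ) (U : Finset X) :
    Dg U (2 * k) (FinVol.H k x g) := by
  have h1 : DgS U (fun W => 1 - (PW x g W : PowerSeries ℝ)) := (DgS.one U).sub (DgS_PW x g U)
  have h2 := Dg.sum (U := U) (n := 2 * k) (Finset.range (2 * k + 1))
    (fun n W => ((2 * k : ℕ) : ℝ) / (n + 1) *
      PowerSeries.coeff (2 * k) ((1 - (PW x g W : PowerSeries ℝ)) ^ (n + 1)))
    (fun n _ => ((h1.pow (n + 1)) (2 * k)).cmul _)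
  refine h2.congr fun W _ => ?_
  rw [H_eq_PW, coeff_qS _ (cc_one_sub_PW x g W)]

/-- **(H2a)** clusters have at most `2k` points -/
theorem card_le_of_mob (k : ℕ) (x : X → X → ℂ) (g : X → Fin r → ℝ) (U : Finset X)
    (h : mob (FinVol.H k x g) U ≠ 0) : U.card ≤ 2 * k := by
  by_contra hcon
  exact h ((Dg_H k x g U).mob_eq_zero (by omega))

end Pol

end Crest.Agent.R109.Cluster
end

-- ▼ part R109/ClusterB
section

/-!
# Row 109, (H2) CLUSTER, second part: connectivity, and the structure `Book.HIn`
-/

set_option autoImplicit false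
set_option linter.unusedSectionVars false
set_option linter.unusedSimpArgs false

namespace Crest.Agent.R109.Cluster

open Finset Crest.Agent.R109.Ann Crest.Agent.R109.Book

section Sum

variable {V₁ V₂ K : Type*} [Fintype V₁] [DecidableEq V₁] [Fintype V₂] [DecidableEq V₂]
  [Fintype K] [DecidableEq K]

theorem det_N_sum {R : Type*} [CommRing R] (x : V₁ ⊕ V₂ → V₁ ⊕ V₂ → R)
    (h12 : ∀ u w, x (Sum.inl u) (Sum.inr w) = 0) (h21 : ∀ u w, x (Sum.inr u) (Sum.inl w) = 0)
    (c : V₁ ⊕ V₂ → Option K) :
    (N x c).det = (N (fun u w => x (Sum.inl u) (Sum.inl w)) (fun v => c (Sum.inl v))).det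
      * (N (fun u w => x (Sum.inr u) (Sum.inr w)) (fun v => c (Sum.inr v))).det := by
  have h : N x c = Matrix.fromBlocks (N (fun u w => x (Sum.inl u) (Sum.inl w)) (fun v => c (Sum.inl v)))
      0 0 (N (fun u w => x (Sum.inr u) (Sum.inr w)) (fun v => c (Sum.inr v))) := by
    ext u w
    rcases u with u | u <;> rcases w with w | w
    · simp [N]
    · simp [N, h12]
    · simp [N, h21]
    · simp [N]
  rw [h, Matrix.det_fromBlocks_zero₂₁]

theorem ann_sum {R : Type*} [CommRing R] (x : V₁ ⊕ V₂ → V₁ ⊕ V₂ → R)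
    (g : V₁ ⊕ V₂ → K → R)
    (h12 : ∀ u w, x (Sum.inl u) (Sum.inr w) = 0) (h21 : ∀ u w, x (Sum.inr u) (Sum.inl w) = 0) :
    ann x g = ann (fun u w => x (Sum.inl u) (Sum.inl w)) (fun v => g (Sum.inl v))
      * ann (fun u w => x (Sum.inr u) (Sum.inr w)) (fun v => g (Sum.inr v)) := by
  rw [ann_apply, ann_apply, ann_apply, Finset.sum_mul_sum, ← Fintype.sum_prod_type']
  refine Fintype.sum_equiv (Equiv.sumArrowEquivProdArrow V₁ V₂ (Option K)) _ _ fun c => ?_
  rw [det_N_sum x h12 h21 c, Fintype.prod_sum_type]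
  simp only [Equiv.sumArrowEquivProdArrow]
  simp only [Equiv.coe_fn_mk, Function.comp_def]
  ring

theorem pol_sum {x : V₁ ⊕ V₂ → V₁ ⊕ V₂ → ℂ} (hx : Herm x) (γ : V₁ ⊕ V₂ → K → ℝ)
    (h12 : ∀ u w, x (Sum.inl u) (Sum.inr w) = 0) :
    pol x γ = pol (fun u w => x (Sum.inl u) (Sum.inl w)) (fun v => γ (Sum.inl v))
      * pol (fun u w => x (Sum.inr u) (Sum.inr w)) (fun v => γ (Sum.inr v)) := by
  have h21 : ∀ u w, x (Sum.inr u) (Sum.inl w) = 0 := fun u w => by
    rw [hx (Sum.inl w) (Sum.inr u), h12, map_zero]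
  apply Polynomial.map_injective (algebraMap ℝ ℂ) (algebraMap ℝ ℂ).injective
  apply Polynomial.funext
  intro y
  rw [Polynomial.map_mul, Polynomial.eval_mul, eval_pol hx,
    eval_pol (fun u w => hx (Sum.inl u) (Sum.inl w)),
    eval_pol (fun u w => hx (Sum.inr u) (Sum.inr w)), ann_sum x _ h12 h21]

end Sum

section Win

variable {X : Type*} {r : ℕ}

open Classical in
/-- disconnected windows: the polynomial is multiplicative -/
theorem PW_union {x : X → X → ℂ} (hx : Herm x) (g : X → Fin r → ℝ) {A B : Finset X}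
    (hAB : Disjoint A B) (h : ∀ a ∈ A, ∀ b ∈ B, x a b = 0) :
    PW x g (A ∪ B) = PW x g A * PW x g B := by
  rw [PW, FinVol.pol_extend (V' := A ⊕ B)
    (Sum.elim (fun a => ⟨a.1, Finset.mem_union_left _ a.2⟩)
      (fun b => ⟨b.1, Finset.mem_union_right _ b.2⟩)) ?_ _ _ ?_]
  · rw [pol_sum (fun u w => hx _ _) _ (fun u w => h u.1 u.2 w.1 w.2)]
    rfl
  · rintro (a | a) (b | b) hab
    · have h1 : a.1 = b.1 := by simpa only [Sum.elim_inl, Subtype.mk.injEq] using hab
      rw [Subtype.ext h1]
    · have h1 : a.1 = b.1 := by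
        simpa only [Sum.elim_inl, Sum.elim_inr, Subtype.mk.injEq] using hab
      exact absurd b.2 (Finset.disjoint_left.1 hAB (h1 ▸ a.2))
    · have h1 : a.1 = b.1 := by
        simpa only [Sum.elim_inl, Sum.elim_inr, Subtype.mk.injEq] using hab
      exact absurd a.2 (Finset.disjoint_left.1 hAB (h1 ▸ b.2))
    · have h1 : a.1 = b.1 := by simpa only [Sum.elim_inr, Subtype.mk.injEq] using hab
      rw [Subtype.ext h1]
  · rintro ⟨v, hv⟩ hn
    exfalso
    apply hn
    rcases Finset.mem_union.1 hv with h1 | h1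
    · exact ⟨Sum.inl ⟨v, h1⟩, rfl⟩
    · exact ⟨Sum.inr ⟨v, h1⟩, rfl⟩

open Classical in
/-- additivity over disconnected windows -/
theorem H_union (k : ℕ) {x : X → X → ℂ} (hx : Herm x) (g : X → Fin r → ℝ) {A B : Finset X}
    (hAB : Disjoint A B) (h : ∀ a ∈ A, ∀ b ∈ B, x a b = 0) :
    FinVol.H k x g (A ∪ B) = FinVol.H k x g A + FinVol.H k x g B := by
  rw [H_eq_PW, H_eq_PW, H_eq_PW, ← map_add]
  congr 1
  apply qS_of_mul _ _ _ (cc_one_sub_PW x g A) (cc_one_sub_PW x g B)
  rw [PW_union hx g hAB h, Polynomial.coe_mul]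
  ring

/-- **(H2b)** clusters are connected -/
theorem conn_of_mob (k : ℕ) {x : X → X → ℂ} (hx : Herm x) (g : X → Fin r → ℝ) (U A : Finset X)
    (h : mob (FinVol.H k x g) U ≠ 0) (hA : A ⊆ U) (hne : A.Nonempty) (hAU : A ≠ U) :
    ∃ a ∈ A, ∃ b ∈ U, b ∉ A ∧ x a b ≠ 0 := by
  classical
  by_contra hcon
  push Not at hcon
  apply h
  have h1 : ∀ W ⊆ U, FinVol.H k x g W
      = FinVol.H k x g (W ∩ A) + FinVol.H k x g (W \ A) := by
    intro W hW
    have e : W = (W ∩ A) ∪ (W \ A) := by
      ext v
      simp only [Finset.mem_union, Finset.mem_inter, Finset.mem_sdiff]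
      tauto
    conv_lhs => rw [e]
    refine H_union k hx g ?_ ?_
    · rw [Finset.disjoint_left]
      intro v hv hv'
      exact (Finset.mem_sdiff.1 hv').2 (Finset.mem_inter.1 hv).2
    · intro a ha b hb
      exact hcon a (Finset.mem_inter.1 ha).2 b (hW (Finset.mem_sdiff.1 hb).1)
        (Finset.mem_sdiff.1 hb).2
  rw [mob_congr h1, mob_add]
  obtain ⟨a, ha⟩ := hne
  obtain ⟨b, hb, hbA⟩ : ∃ b ∈ U, b ∉ A := by
    by_contra hcon2
    push Not at hcon2
    exact hAU (subset_antisymm hA hcon2)
  have z1 : mob (fun W => FinVol.H k x g (W ∩ A)) U = 0 := by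
    refine mob_eq_zero_of_ignore _ hb fun V _ => ?_
    rw [Finset.insert_inter_of_notMem hbA]
  have z2 : mob (fun W => FinVol.H k x g (W \ A)) U = 0 := by
    refine mob_eq_zero_of_ignore _ (hA ha) fun V _ => ?_
    rw [Finset.insert_sdiff_of_mem _ ha]
  rw [z1, z2, add_zero]

end Win

open MeasureTheory in
/-- **(H2)** the finite volume potential satisfies the hypotheses of the mass transport book -/
theorem hIn {Gam X : Type*} [Group Gam] [MulAction Gam X] [MeasurableSpace X] {μ : Measure X}
    (Q : QI Gam X μ) (S1 : Finset Gam) (k : ℕ) {r : ℕ} {x : X → X → ℂ} (hx : Herm x)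
    (hloc : ∀ a b, x a b ≠ 0 → b ∈ ball S1 a) :
    HIn Q S1 k (fun (g : X → Fin r → ℝ) => FinVol.H k x g) where
  dep := fun g g' W h => FinVol.H_congr k (fun _ _ _ _ => rfl) h
  hom := fun g c W _ _ => FinVol.H_smul k hx g W c
  card := fun g U h => card_le_of_mob k x g U h
  conn := fun g U A h hA hne hAU => by
    obtain ⟨a, ha, b, hb, hbA, hab⟩ := conn_of_mob k hx g U A h hA hne hAU
    exact ⟨a, ha, b, hb, hbA, hloc a b hab⟩

end Crest.Agent.R109.Cluster
end

-- ▼ part R109/FinVolB

/-!
# Row 109, finite-volume block: counting forms of the flip inequality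
-/

set_option autoImplicit false
set_option linter.unusedSectionVars false

namespace Crest.Agent.R109.FinVol

open Finset Crest.Agent.R109.Ann

variable {X : Type*} {r : ℕ}

open Classical in
/-- **(H1)**, counting form for arbitrary weights: at least half of the colours are good -/
theorem H_good_nat [NeZero r] (k : ℕ) (hk : 1 ≤ k) {x : X → X → ℂ} (hx : Herm x) (W : Finset X)
    (hd : ∀ v ∈ W, x v v = 0) (g : X → Fin r → ℝ) (hg : ∀ v ∈ W, ∀ i, 0 ≤ g v i) (v : X)
    (hv : v ∈ W) (u : ℝ) (hu : 0 ≤ u) (K₀ : ℝ) (hK : 48 ≤ K₀) :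
    r ≤ 2 * ((univ : Finset (Fin r)).filter (fun a =>
      H k x (Function.update g v (fun i => if i = a then u / K₀ else 0)) W
        ≤ H k x (Function.update g v (fun _ => u / r)) W)).card := by
  have h1 := H_good k hk hx W hd g hg v hv u hu (1 / 2) (by norm_num) K₀ (by norm_num; exact hK)
  have h2 : (r : ℝ) ≤ 2 * ((univ : Finset (Fin r)).filter (fun a =>
      H k x (Function.update g v (fun i => if i = a then u / K₀ else 0)) W
        ≤ H k x (Function.update g v (fun _ => u / r)) W)).card := by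
    linarith
  exact_mod_cast h2

end Crest.Agent.R109.FinVol
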