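import Crest.Agent.R109.Supp

-- ▼ part R109/Corner
section

/-!
# Row 109: the corner von Neumann algebra under a projection of the masa
-/

set_option autoImplicit false
set_option linter.unusedSectionVars false
set_option linter.style.haveILetI false

namespace Crest.Agent.R109

open scoped InnerProductSpace
open ContinuousLinearMap Crest.Agent.R121 Crest.Agent.R124

universe u

variable {H : Type u} [NormedAddCommGroup H] [InnerProductSpace ℂ H] [CompleteSpace H]

section Abstract

variable {K : Type u} [NormedAddCommGroup K] [InnerProductSpace ℂ K] [CompleteSpace K]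
variable {M : VonNeumannAlgebra H} {A : StarSubalgebra ℂ (H →L[ℂ] H)}

/-- `T ↦ J T J*` -/
noncomputable def up (J : K →L[ℂ] H) (T : K →L[ℂ] K) : H →L[ℂ] H := J ∘L T ∘L adjoint J

/-- `x ↦ J* x J` -/
noncomputable def dn (J : K →L[ℂ] H) (x : H →L[ℂ] H) : K →L[ℂ] K := adjoint J ∘L x ∘L J

variable {J : K →L[ℂ] H}

lemma up_apply (T : K →L[ℂ] K) (v : H) : up J T v = J (T (adjoint J v)) := rfl

lemma dn_apply (x : H →L[ℂ] H) (v : K) : dn J x v = adjoint J (x (J v)) := rfl

lemma up_add (T T' : K →L[ℂ] K) : up J (T + T') = up J T + up J T' := by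
  ext v; simp [up_apply]

lemma up_sub (T T' : K →L[ℂ] K) : up J (T - T') = up J T - up J T' := by
  ext v; simp [up_apply]

lemma up_zero : up J (0 : K →L[ℂ] K) = 0 := by
  ext v; simp [up_apply]

lemma up_smul (c : ℂ) (T : K →L[ℂ] K) : up J (c • T) = c • up J T := by
  ext v; simp [up_apply]

lemma up_sum {ι : Type*} (s : Finset ι) (T : ι → K →L[ℂ] K) :
    up J (∑ i ∈ s, T i) = ∑ i ∈ s, up J (T i) := by
  classical
  induction s using Finset.induction_on with
  | empty => simp [up_zero]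
  | insert a s ha ih => rw [Finset.sum_insert ha, Finset.sum_insert ha, up_add, ih]

lemma up_star (T : K →L[ℂ] K) : up J (star T) = star (up J T) := by
  rw [star_eq_adjoint, star_eq_adjoint]
  refine (eq_adjoint_iff _ _).2 ?_
  intro v w
  rw [up_apply, up_apply, ← adjoint_inner_right J, adjoint_inner_left T, adjoint_inner_left J]

lemma dn_star (x : H →L[ℂ] H) : dn J (star x) = star (dn J x) := by
  rw [star_eq_adjoint, star_eq_adjoint]
  refine (eq_adjoint_iff _ _).2 ?_
  intro v w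
  rw [dn_apply, dn_apply, adjoint_inner_left, adjoint_inner_left, adjoint_inner_right]

lemma norm_dn_le (hJ : ‖J‖ ≤ 1) (x : H →L[ℂ] H) : ‖dn J x‖ ≤ ‖x‖ := by
  have h1 : ‖adjoint J‖ ≤ 1 := by rwa [LinearIsometryEquiv.norm_map]
  calc ‖dn J x‖ ≤ ‖adjoint J‖ * ‖x ∘L J‖ := opNorm_comp_le _ _
    _ ≤ 1 * (‖x‖ * ‖J‖) := by
        gcongr
        exact opNorm_comp_le _ _
    _ ≤ 1 * (‖x‖ * 1) := by gcongr
    _ = ‖x‖ := by ring

lemma norm_up_le (hJ : ‖J‖ ≤ 1) (T : K →L[ℂ] K) : ‖up J T‖ ≤ ‖T‖ := by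
  have h1 : ‖adjoint J‖ ≤ 1 := by rwa [LinearIsometryEquiv.norm_map]
  calc ‖up J T‖ ≤ ‖J‖ * ‖T ∘L adjoint J‖ := opNorm_comp_le _ _
    _ ≤ 1 * (‖T‖ * ‖adjoint J‖) := by
        gcongr
        exact opNorm_comp_le _ _
    _ ≤ 1 * (‖T‖ * 1) := by gcongr
    _ = ‖T‖ := by ring

/-- the data of a corner -/
structure IsCorner (J : K →L[ℂ] H) (e : H →L[ℂ] H) : Prop where
  one : ∀ v : K, adjoint J (J v) = v
  proj : ∀ v : H, J (adjoint J v) = e v

namespace IsCorner

variable {e : H →L[ℂ] H} (h : IsCorner J e)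

include h

lemma up_one : up J (1 : K →L[ℂ] K) = e := by
  ext v
  exact h.proj v

lemma up_mul (T T' : K →L[ℂ] K) : up J (T * T') = up J T * up J T' := by
  ext v
  change J (T (T' (adjoint J v))) = J (T (adjoint J (J (T' (adjoint J v)))))
  rw [h.one]

lemma dn_up (T : K →L[ℂ] K) : dn J (up J T) = T := by
  ext v
  rw [dn_apply, up_apply, h.one, h.one]

lemma up_dn (x : H →L[ℂ] H) : up J (dn J x) = e * x * e := by
  ext v
  rw [up_apply, dn_apply, h.proj, h.proj]
  rfl

lemma up_inj {T T' : K →L[ℂ] K} (hTT : up J T = up J T') : T = T' := by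
  rw [← h.dn_up T, hTT, h.dn_up T']

lemma e_up (T : K →L[ℂ] K) : e * up J T = up J T := by
  rw [← h.up_one, ← h.up_mul, one_mul]

lemma up_e (T : K →L[ℂ] K) : up J T * e = up J T := by
  rw [← h.up_one, ← h.up_mul, mul_one]

lemma norm_le : ‖J‖ ≤ 1 := by
  refine opNorm_le_bound _ zero_le_one ?_
  intro v
  have : ‖J v‖ ^ 2 = ‖v‖ ^ 2 := by
    rw [← inner_self_eq_norm_sq (𝕜 := ℂ), ← inner_self_eq_norm_sq (𝕜 := ℂ) v,
      ← adjoint_inner_right, h.one]
  rw [one_mul]
  exact (pow_le_pow_iff_left₀ (norm_nonneg _) (norm_nonneg _) two_ne_zero).1 this.le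

lemma norm_apply (v : K) : ‖J v‖ = ‖v‖ := by
  have : ‖J v‖ ^ 2 = ‖v‖ ^ 2 := by
    rw [← inner_self_eq_norm_sq (𝕜 := ℂ), ← inner_self_eq_norm_sq (𝕜 := ℂ) v,
      ← adjoint_inner_right, h.one]
  exact (pow_left_inj₀ (norm_nonneg _) (norm_nonneg _) two_ne_zero).1 this

lemma e_comm_up {y : H →L[ℂ] H} (hy : y * e = e * y) (T : K →L[ℂ] K) :
    y * up J T = up J (dn J y * T) := by
  rw [h.up_mul, h.up_dn, ← hy, mul_assoc, mul_assoc, h.e_up, h.e_up]

lemma up_comm_e {y : H →L[ℂ] H} (hy : y * e = e * y) (T : K →L[ℂ] K) :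
    up J T * y = up J (T * dn J y) := by
  rw [h.up_mul, h.up_dn, mul_assoc e y e, hy, ← mul_assoc (up J T) e, h.up_e,
    ← mul_assoc (up J T), h.up_e]

end IsCorner

/-- the corner von Neumann algebra -/
noncomputable def cM (J : K →L[ℂ] H) (M : VonNeumannAlgebra H) : VonNeumannAlgebra K where
  toStarSubalgebra := StarSubalgebra.centralizer ℂ {T | ∃ y ∈ M.commutant, T = dn J y}
  centralizer_centralizer' := by simp

lemma mem_cM' {T : K →L[ℂ] K} :
    T ∈ cM J M ↔ ∀ y ∈ M.commutant, dn J y * T = T * dn J y := by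
  have h0 : T ∈ cM J M ↔ T ∈ (StarSubalgebra.centralizer ℂ
      {T | ∃ y ∈ M.commutant, T = dn J y} : StarSubalgebra ℂ (K →L[ℂ] K)) := Iff.rfl
  rw [h0, StarSubalgebra.mem_centralizer_iff]
  constructor
  · intro h y hy
    exact (h _ ⟨y, hy, rfl⟩).1
  · rintro h _ ⟨y, hy, rfl⟩
    refine ⟨h y hy, ?_⟩
    rw [← dn_star]
    exact h _ (star_mem hy)

lemma mem_cM {e : H →L[ℂ] H} (h : IsCorner J e) (heM : e ∈ M) {T : K →L[ℂ] K} :
    T ∈ cM J M ↔ up J T ∈ M := by
  rw [mem_cM']
  constructor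
  · intro hT
    apply mem_of_commutant
    intro y hy
    have hye : y * e = e * y := commutant_comm M heM hy
    rw [h.e_comm_up hye, h.up_comm_e hye, hT y hy]
  · intro hT y hy
    have hye : y * e = e * y := commutant_comm M heM hy
    apply h.up_inj
    rw [← h.e_comm_up hye, ← h.up_comm_e hye]
    exact commutant_comm M hT hy

/-- the corner of the masa -/
noncomputable def cA (J : K →L[ℂ] H) {e : H →L[ℂ] H} (h : IsCorner J e)
    (A : StarSubalgebra ℂ (H →L[ℂ] H)) (heA : e ∈ A) : StarSubalgebra ℂ (K →L[ℂ] K) where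
  carrier := {T | up J T ∈ A}
  mul_mem' := by
    intro T T' hT hT'
    change up J (T * T') ∈ A
    rw [h.up_mul]
    exact mul_mem hT hT'
  add_mem' := by
    intro T T' hT hT'
    change up J (T + T') ∈ A
    rw [up_add]
    exact add_mem hT hT'
  algebraMap_mem' := by
    intro c
    change up J (algebraMap ℂ (K →L[ℂ] K) c) ∈ A
    rw [Algebra.algebraMap_eq_smul_one, up_smul, h.up_one]
    exact SMulMemClass.smul_mem c heA
  star_mem' := by
    intro T hT
    change up J (star T) ∈ A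
    rw [up_star]
    exact star_mem hT

lemma mem_cA {e : H →L[ℂ] H} (h : IsCorner J e) (heA : e ∈ A) {T : K →L[ℂ] K} :
    T ∈ cA J h A heA ↔ up J T ∈ A := Iff.rfl

lemma cornerMasa {e : H →L[ℂ] H} (h : IsCorner J e) (heA : e ∈ A) (hM : Masa M A) :
    Masa (cM J M) (cA J h A heA) where
  le := by
    intro T hT
    exact (mem_cM h (hM.le heA)).2 (hM.le hT)
  comm := by
    intro a ha b hb
    apply h.up_inj
    rw [h.up_mul, h.up_mul]
    exact hM.comm _ ha _ hb
  max := by
    intro T hT hc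
    rw [mem_cA h heA]
    apply hM.max _ ((mem_cM h (hM.le heA)).1 hT)
    intro a ha
    have hae : a * e = e * a := hM.comm a ha e heA
    rw [h.e_comm_up hae, h.up_comm_e hae]
    congr 1
    apply hc
    rw [mem_cA h heA, h.up_dn]
    exact mul_mem (mul_mem heA ha) heA

lemma cornerAmp {e : H →L[ℂ] H} (h : IsCorner J e) (heM : e ∈ M) (hA : Amp M) :
    Amp (cM J M) := by
  obtain ⟨S, T, hS, hT, hSS, hTT, hST⟩ := hA
  have key : ∀ y ∈ M.commutant, dn J y ∈ (cM J M).commutant := by
    intro y hy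
    rw [VonNeumannAlgebra.mem_commutant_iff]
    intro g hg
    exact ((mem_cM' (J := J)).1 hg y hy).symm
  have mulk : ∀ y ∈ M.commutant, ∀ y' ∈ M.commutant, dn J y * dn J y' = dn J (y * y') := by
    intro y hy y' hy'
    apply h.up_inj
    have hye : y * e = e * y := commutant_comm M heM hy
    have hye' : y' * e = e * y' := commutant_comm M heM hy'
    have hee : e * e = e := by
      rw [← h.up_one, ← h.up_mul, mul_one]
    rw [h.up_mul, h.up_dn, h.up_dn, h.up_dn]
    calc e * y * e * (e * y' * e) = e * y * ((e * e) * y') * e := by simp only [mul_assoc]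
      _ = e * y * (y' * e) * e := by rw [hee, hye']
      _ = e * (y * y') * (e * e) := by simp only [mul_assoc]
      _ = _ := by rw [hee]
  have one1 : dn J (1 : H →L[ℂ] H) = 1 := by
    ext v
    rw [dn_apply]
    exact h.one v
  have zero1 : dn J (0 : H →L[ℂ] H) = 0 := by
    ext v
    rw [dn_apply]
    simp
  refine ⟨dn J S, dn J T, key S hS, key T hT, ?_, ?_, ?_⟩
  · rw [← dn_star, mulk _ (star_mem hS) _ hS, hSS, one1]
  · rw [← dn_star, mulk _ (star_mem hT) _ hT, hTT, one1]
  · rw [← dn_star, mulk _ (star_mem hS) _ hT, hST, zero1]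

end Abstract

/-- every projection has a corner -/
theorem exists_corner {e : H →L[ℂ] H} (he : IsStarProjection e) :
    ∃ (K : Type u) (_ : NormedAddCommGroup K) (_ : InnerProductSpace ℂ K) (_ : CompleteSpace K)
      (J : K →L[ℂ] H), IsCorner J e := by
  set L : Submodule ℂ H := LinearMap.ker ((1 - e : H →L[ℂ] H) : H →ₗ[ℂ] H) with hL
  have hmem : ∀ v : H, v ∈ L ↔ e v = v := by
    intro v
    rw [hL, LinearMap.mem_ker]
    change v - e v = 0 ↔ _
    rw [sub_eq_zero, eq_comm]
  have hcl : IsClosed (L : Set H) := ContinuousLinearMap.isClosed_ker (1 - e : H →L[ℂ] H)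
  haveI : CompleteSpace L := hcl.completeSpace_coe
  have hee : e * e = e := he.isIdempotentElem
  have hes : star e = e := he.isSelfAdjoint
  have hev : ∀ v : H, e v ∈ L := by
    intro v
    rw [hmem]
    exact congrArg (fun F : H →L[ℂ] H => F v) hee
  refine ⟨L, inferInstance, inferInstance, inferInstance, L.subtypeL, ?_, ?_⟩
  · intro v
    rw [Submodule.adjoint_subtypeL]
    exact Submodule.orthogonalProjectionOnto_mem_subspace_eq_self v
  · intro v
    rw [Submodule.adjoint_subtypeL]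
    change L.starProjection v = e v
    refine Submodule.eq_starProjection_of_mem_of_inner_eq_zero (hev v) ?_
    intro w hw
    have h1 : e w = w := (hmem w).1 hw
    rw [inner_sub_left, ← h1]
    have h2 : ⟪e v, e w⟫_ℂ = ⟪v, e w⟫_ℂ := by
      rw [← adjoint_inner_right, ← star_eq_adjoint, hes]
      have : e (e w) = e w := congrArg (fun F : H →L[ℂ] H => F w) hee
      rw [this]
    rw [h2, sub_self]

end Crest.Agent.R109
end

-- ▼ part R109/RedC
section

/-!
# Row 109: the theorem `NCE_q` on the corner carried by an `A`-central vector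
-/

set_option autoImplicit false
set_option linter.unusedSectionVars false

namespace Crest.Agent.R109

open scoped InnerProductSpace
open ContinuousLinearMap Crest.Agent.R121 Crest.Agent.R124

universe u

variable {H : Type u} [NormedAddCommGroup H] [InnerProductSpace ℂ H] [CompleteSpace H]
variable {M : VonNeumannAlgebra H} {A : StarSubalgebra ℂ (H →L[ℂ] H)}

lemma mem_vspan {η w : H} (hw : w ∈ vspan M η) : ∃ T ∈ M.commutant, w = T η := by
  refine Submodule.span_induction (p := fun y _ => ∃ T ∈ M.commutant, y = T η) ?_ ?_ ?_ ?_ hw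
  · rintro _ ⟨T, hT, rfl⟩; exact ⟨T, hT, rfl⟩
  · exact ⟨0, zero_mem _, rfl⟩
  · rintro a b _ _ ⟨T, hT, rfl⟩ ⟨T', hT', rfl⟩
    exact ⟨T + T', add_mem hT hT', rfl⟩
  · rintro c a _ ⟨T, hT, rfl⟩
    refine ⟨c • T, ?_, rfl⟩
    exact SMulMemClass.smul_mem (S := StarSubalgebra ℂ (H →L[ℂ] H))
      (s := M.commutant.toStarSubalgebra) c hT

/-- elements of `M` which are small on `η` are small on the support of `η` -/
theorem near (M : VonNeumannAlgebra H) (η ξ : H) (C : ℝ) {δ : ℝ} (hδ : 0 < δ) :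
    ∃ δ' : ℝ, 0 < δ' ∧ ∀ y ∈ M, ‖y‖ ≤ C → ‖y η‖ < δ' → ‖y (vs M η ξ)‖ < δ := by
  have hcl := vs_apply_mem M η ξ
  rw [Metric.mem_closure_iff] at hcl
  have hC : 0 < 2 * (|C| + 1) := by positivity
  obtain ⟨w, hw, hd⟩ := hcl (δ / (2 * (|C| + 1))) (by positivity)
  obtain ⟨T, hT, rfl⟩ := mem_vspan hw
  refine ⟨δ / (2 * (‖T‖ + 1)), by positivity, ?_⟩
  intro y hy hyC hyη
  have h1 : y (vs M η ξ) = y (vs M η ξ - T η) + T (y η) := by
    have := congrArg (fun F : H →L[ℂ] H => F η) (commutant_comm M hy hT)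
    change T (y η) = y (T η) at this
    rw [this, map_sub, sub_add_cancel]
  rw [dist_eq_norm] at hd
  have h2 : ‖y (vs M η ξ - T η)‖ ≤ (|C| + 1) * (δ / (2 * (|C| + 1))) := by
    refine (le_opNorm _ _).trans ?_
    gcongr
    exact hyC.trans ((le_abs_self C).trans (by linarith))
  have h3 : ‖T (y η)‖ < (‖T‖ + 1) * (δ / (2 * (‖T‖ + 1))) := by
    refine (le_opNorm _ _).trans_lt ?_
    calc ‖T‖ * ‖y η‖ ≤ (‖T‖ + 1) * ‖y η‖ := by gcongr; linarith
      _ < _ := by
        apply mul_lt_mul_of_pos_left hyη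
        positivity
  have h4 : (|C| + 1) * (δ / (2 * (|C| + 1))) = δ / 2 := by
    field_simp
  have h5 : (‖T‖ + 1) * (δ / (2 * (‖T‖ + 1))) = δ / 2 := by
    field_simp
  rw [h1]
  calc ‖y (vs M η ξ - T η) + T (y η)‖ ≤ _ + _ := norm_add_le _ _
    _ < δ / 2 + δ / 2 := by
      rw [h4] at h2
      rw [h5] at h3
      linarith
    _ = δ := by ring

/-- `NCE_q` on the corner of an `A`-central vector -/
theorem nce_corner (hN : NCE_q.{u}) (hM : Masa M A) (hA : Amp M) {η : H} (hη : CVec M A η)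
    {x : H →L[ℂ] H} (hx : x ∈ M) (hsa : IsSelfAdjoint x) (hn : ‖x‖ ≤ 1)
    (h0 : ∀ a ∈ A, ⟪η, (a * x) η⟫_ℂ = 0) {ε : ℝ} (hε : 0 < ε) (hε1 : ε < 1) {r : ℕ}
    (hr : 10 ^ 8 / ε ^ 2 ≤ (r : ℝ)) {δ : ℝ} (hδ : 0 < δ) :
    ∃ p : Fin r → H →L[ℂ] H, Part A (vs M η) p ∧ ∃ q ∈ M, IsStarProjection q ∧
      vs M η * q = q ∧ ‖(vs M η - q) η‖ < δ ∧ ‖q * (∑ i, p i * x * p i) * q‖ ≤ ε := by
  set e := vs M η with he
  have hep : IsStarProjection e := vs_proj M η
  have heA : e ∈ A := hη.vs_mem hM
  have heM : e ∈ M := hM.le heA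
  obtain ⟨K, iK1, iK2, iK3, J, h⟩ := exists_corner hep
  have inn : ∀ T : K →L[ℂ] K, ⟪adjoint J η, T (adjoint J η)⟫_ℂ = ⟪η, up J T η⟫_ℂ := by
    intro T
    rw [adjoint_inner_left]
    rfl
  have heη : e η = η := vs_self M η
  have hproj : ∀ T : K →L[ℂ] K, IsStarProjection T → IsStarProjection (up J T) := by
    intro T hT
    refine ⟨?_, ?_⟩
    · change up J T * up J T = up J T
      rw [← h.up_mul, hT.isIdempotentElem.eq]
    · change star (up J T) = up J T
      rw [← up_star, hT.isSelfAdjoint.star_eq]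
  have hC : CVec (cM J M) (cA J h A heA) (adjoint J η) := by
    intro a ha T hT
    rw [inn, inn, h.up_mul, h.up_mul]
    exact hη _ ha _ ((mem_cM h heM).1 hT)
  have hsep : ∀ T ∈ cM J M, T (adjoint J η) = 0 → T = 0 := by
    intro T hT hT0
    have h1 : up J T η = 0 := by
      rw [up_apply, hT0, map_zero]
    have h2 := mul_vs_eq_zero M ((mem_cM h heM).1 hT) h1
    rw [← he, h.up_e] at h2
    exact h.up_inj (h2.trans up_zero.symm)
  have hxM : dn J x ∈ cM J M := by
    rw [mem_cM h heM, h.up_dn]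
    exact mul_mem (mul_mem heM hx) heM
  have hxsa : IsSelfAdjoint (dn J x) := by
    change star (dn J x) = dn J x
    rw [← dn_star, hsa.star_eq]
  have hx1 : ‖dn J x‖ ≤ 1 := (norm_dn_le h.norm_le x).trans hn
  have hx0 : ∀ a ∈ cA J h A heA, ⟪adjoint J η, (a * dn J x) (adjoint J η)⟫_ℂ = 0 := by
    intro a ha
    rw [inn, h.up_mul, h.up_dn, ← mul_assoc, ← mul_assoc, h.up_e]
    change ⟪η, (up J a * x) (e η)⟫_ℂ = 0
    rw [heη]
    exact h0 _ ha
  obtain ⟨p, hp, q, hqM, hqp, hqη, hq⟩ := hN K (cM J M) (cA J h A heA) (cornerMasa h heA hM)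
    (cornerAmp h heM hA) (adjoint J η) hC hsep (dn J x) hxM hxsa hx1 hx0 ε hε hε1 r hr δ hδ
  refine ⟨fun i => up J (p i), ⟨fun i => hp.mem i, fun i => hproj _ (hp.proj i), ?_, ?_⟩,
    up J q, (mem_cM h heM).1 hqM, hproj q hqp, h.e_up q, ?_, ?_⟩
  · intro i j hij
    rw [← h.up_mul, hp.orth i j hij, up_zero]
  · rw [← up_sum, hp.sum, h.up_one]
  · have h1 : (e - up J q) η = J ((1 - q) (adjoint J η)) := by
      rw [← h.up_one, ← up_sub]
      rfl
    rw [h1, h.norm_apply]
    exact hqη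
  · have h1 : up J q * (∑ i, up J (p i) * x * up J (p i)) * up J q =
        up J (q * (∑ i, p i * dn J x * p i) * q) := by
      rw [h.up_mul, h.up_mul, up_sum]
      congr 2
    rw [h1]
    exact (norm_up_le h.norm_le _).trans hq

end Crest.Agent.R109
end

-- ▼ part R109/PartLib

/-!
# Row 109: partitions of the masa, block diagonal norms, conditional expectation on a corner
-/

set_option autoImplicit false
set_option linter.unusedSectionVars false

namespace Crest.Agent.R109

open scoped InnerProductSpace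
open ContinuousLinearMap Crest.Agent.R121 Crest.Agent.R124

universe u

variable {H : Type u} [NormedAddCommGroup H] [InnerProductSpace ℂ H] [CompleteSpace H]
variable {M : VonNeumannAlgebra H} {A : StarSubalgebra ℂ (H →L[ℂ] H)}

namespace Part

variable {z : H →L[ℂ] H} {ι : Type*} [Fintype ι] {p : ι → H →L[ℂ] H}

lemma mul_z (h : Part A z p) (i : ι) : p i * z = p i := by
  classical
  rw [← h.sum, Finset.mul_sum, Finset.sum_eq_single i]
  · exact (h.proj i).isIdempotentElem
  · intro j _ hj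
    exact h.orth i j hj.symm
  · intro hi
    exact absurd (Finset.mem_univ i) hi

lemma z_mul (h : Part A z p) (i : ι) : z * p i = p i := by
  classical
  rw [← h.sum, Finset.sum_mul, Finset.sum_eq_single i]
  · exact (h.proj i).isIdempotentElem
  · intro j _ hj
    exact h.orth j i hj
  · intro hi
    exact absurd (Finset.mem_univ i) hi

lemma star (h : Part A z p) (i : ι) : Star.star (p i) = p i := (h.proj i).isSelfAdjoint

lemma z_mem (h : Part A z p) : z ∈ A := by
  rw [← h.sum]
  exact sum_mem (fun i _ => h.mem i)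

/-- gluing two partitions -/
lemma append {z' : H →L[ℂ] H} {m n : ℕ} {p : Fin m → H →L[ℂ] H} {p' : Fin n → H →L[ℂ] H}
    (h : Part A z p) (h' : Part A z' p') (hz : z * z' = 0) (hz' : z' * z = 0) :
    Part A (z + z') (Fin.append p p') where
  mem := by
    intro i
    refine Fin.addCases (fun j => ?_) (fun j => ?_) i
    · rw [Fin.append_left]; exact h.mem j
    · rw [Fin.append_right]; exact h'.mem j
  proj := by
    intro i
    refine Fin.addCases (fun j => ?_) (fun j => ?_) i
    · rw [Fin.append_left]; exact h.proj j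
    · rw [Fin.append_right]; exact h'.proj j
  orth := by
    have e1 : ∀ j k, p j * p' k = 0 := by
      intro j k
      rw [← h.mul_z j, ← h'.z_mul k, mul_assoc, ← mul_assoc z, hz, zero_mul, mul_zero]
    have e2 : ∀ j k, p' k * p j = 0 := by
      intro j k
      rw [← h'.mul_z k, ← h.z_mul j, mul_assoc, ← mul_assoc z', hz', zero_mul, mul_zero]
    intro i j
    refine Fin.addCases (fun i' => ?_) (fun i' => ?_) i
    · refine Fin.addCases (fun j' => ?_) (fun j' => ?_) j
      · intro hij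
        rw [Fin.append_left, Fin.append_left]
        exact h.orth i' j' (fun hh => hij (by rw [hh]))
      · intro _
        rw [Fin.append_left, Fin.append_right]
        exact e1 i' j'
    · refine Fin.addCases (fun j' => ?_) (fun j' => ?_) j
      · intro _
        rw [Fin.append_right, Fin.append_left]
        exact e2 j' i'
      · intro hij
        rw [Fin.append_right, Fin.append_right]
        exact h'.orth i' j' (fun hh => hij (by rw [hh]))
  sum := by
    rw [Fin.sum_univ_add]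
    simp only [Fin.append_left, Fin.append_right]
    rw [h.sum, h'.sum]

/-- the partition with one element -/
lemma single {z : H →L[ℂ] H} (hz : z ∈ A) (hp : IsStarProjection z) :
    Part A z (fun _ : Fin 1 => z) where
  mem := fun _ => hz
  proj := fun _ => hp
  orth := fun i j hij => absurd (Subsingleton.elim i j) hij
  sum := by simp


end Part

section Block

/-- norm of a block diagonal operator -/
lemma norm_block {e f S T : H →L[ℂ] H} (he : IsStarProjection e) (hf : IsStarProjection f)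
    (hef : e * f = 0) (hS : e * S = S) (hS' : S * e = S) (hT : f * T = T) (hT' : T * f = T)
    {c : ℝ} (hSc : ‖S‖ ≤ c) (hTc : ‖T‖ ≤ c) : ‖S + T‖ ≤ c := by
  have hc : 0 ≤ c := (norm_nonneg _).trans hSc
  have hes : Star.star e = e := he.isSelfAdjoint
  have hfs : Star.star f = f := hf.isSelfAdjoint
  refine opNorm_le_bound _ hc ?_
  intro v
  have horth : ∀ a b : H, ⟪e a, f b⟫_ℂ = 0 := by
    intro a b
    rw [← adjoint_inner_right, ← star_eq_adjoint, hes]
    have : e (f b) = 0 := by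
      have := congrArg (fun F : H →L[ℂ] H => F b) hef
      exact this
    rw [this, inner_zero_right]
  have pyth : ∀ a b : H, ⟪a, b⟫_ℂ = 0 → ‖a + b‖ ^ 2 = ‖a‖ ^ 2 + ‖b‖ ^ 2 := by
    intro a b hab
    have := norm_add_sq_eq_norm_sq_add_norm_sq_of_inner_eq_zero a b hab
    nlinarith [this]
  have h1 : S v = e (S v) := (congrArg (fun F : H →L[ℂ] H => F v) hS).symm
  have h2 : T v = f (T v) := (congrArg (fun F : H →L[ℂ] H => F v) hT).symm
  have h3 : ‖(S + T) v‖ ^ 2 = ‖S v‖ ^ 2 + ‖T v‖ ^ 2 := by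
    change ‖S v + T v‖ ^ 2 = _
    apply pyth
    rw [h1, h2]
    exact horth _ _
  have h4 : S v = S (e v) := (congrArg (fun F : H →L[ℂ] H => F v) hS').symm
  have h5 : T v = T (f v) := (congrArg (fun F : H →L[ℂ] H => F v) hT').symm
  have h6 : ‖e v‖ ^ 2 + ‖f v‖ ^ 2 ≤ ‖v‖ ^ 2 := by
    have h7 : ‖v‖ ^ 2 = ‖e v + f v‖ ^ 2 + ‖v - (e v + f v)‖ ^ 2 := by
      rw [← pyth]
      · congr 2
        abel
      · have hfe : f * e = 0 := by
          have := congrArg Star.star hef
          rwa [star_mul, hes, hfs, star_zero] at this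
        have a1 : ∀ a : H, e (f a) = 0 := fun a => congrArg (fun F : H →L[ℂ] H => F a) hef
        have a2 : ∀ a : H, f (e a) = 0 := fun a => congrArg (fun F : H →L[ℂ] H => F a) hfe
        have a3 : ∀ a : H, e (e a) = e a := fun a =>
          congrArg (fun F : H →L[ℂ] H => F a) he.isIdempotentElem.eq
        have a4 : ∀ a : H, f (f a) = f a := fun a =>
          congrArg (fun F : H →L[ℂ] H => F a) hf.isIdempotentElem.eq
        rw [inner_add_left]
        have b1 : ⟪e v, v - (e v + f v)⟫_ℂ = 0 := by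
          rw [← adjoint_inner_right, ← star_eq_adjoint, hes, map_sub, map_add, a3, a1, add_zero,
            sub_self, inner_zero_right]
        have b2 : ⟪f v, v - (e v + f v)⟫_ℂ = 0 := by
          rw [← adjoint_inner_right, ← star_eq_adjoint, hfs, map_sub, map_add, a4, a2, zero_add,
            sub_self, inner_zero_right]
        rw [b1, b2, add_zero]
    rw [h7, pyth _ _ (horth v v)]
    nlinarith [sq_nonneg ‖v - (e v + f v)‖]
  have h8 : ‖(S + T) v‖ ^ 2 ≤ (c * ‖v‖) ^ 2 := by
    rw [h3, h4, h5]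
    have i1 : ‖S (e v)‖ ≤ c * ‖e v‖ := (le_opNorm _ _).trans (by gcongr)
    have i2 : ‖T (f v)‖ ≤ c * ‖f v‖ := (le_opNorm _ _).trans (by gcongr)
    calc ‖S (e v)‖ ^ 2 + ‖T (f v)‖ ^ 2 ≤ (c * ‖e v‖) ^ 2 + (c * ‖f v‖) ^ 2 := by gcongr
      _ = c ^ 2 * (‖e v‖ ^ 2 + ‖f v‖ ^ 2) := by ring
      _ ≤ c ^ 2 * ‖v‖ ^ 2 := by gcongr
      _ = _ := by ring
  exact (pow_le_pow_iff_left₀ (norm_nonneg _) (by positivity) two_ne_zero).1 h8


end Block

/-- existence of the conditional expectation (helper271) -/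
def HasE : Prop :=
  ∀ (H : Type u) [NormedAddCommGroup H] [InnerProductSpace ℂ H] [CompleteSpace H]
    (M : VonNeumannAlgebra H) (A : StarSubalgebra ℂ (H →L[ℂ] H)), Masa M A →
    ∀ η : H, CVec M A η → (∀ x ∈ M, x η = 0 → x = 0) →
    ∀ x ∈ M, IsSelfAdjoint x → ∃ a ∈ A, IsSelfAdjoint a ∧ ‖a‖ ≤ ‖x‖ ∧
      ∀ b ∈ A, ⟪η, (b * a) η⟫_ℂ = ⟪η, (b * x) η⟫_ℂ

/-- conditional expectation on the corner of an `A`-central vector -/
theorem exists_E (hE : HasE.{u}) (hM : Masa M A) {η : H} (hη : CVec M A η)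
    {x : H →L[ℂ] H} (hx : x ∈ M) (hsa : IsSelfAdjoint x) :
    ∃ a ∈ A, IsSelfAdjoint a ∧ ‖a‖ ≤ ‖x‖ ∧ vs M η * a = a ∧ a * vs M η = a ∧
      ∀ b ∈ A, ⟪η, (b * (x - a)) η⟫_ℂ = 0 := by
  set e := vs M η with he
  have hep : IsStarProjection e := vs_proj M η
  have heA : e ∈ A := hη.vs_mem hM
  have heM : e ∈ M := hM.le heA
  obtain ⟨K, iK1, iK2, iK3, J, h⟩ := exists_corner hep
  have inn : ∀ T : K →L[ℂ] K, ⟪adjoint J η, T (adjoint J η)⟫_ℂ = ⟪η, up J T η⟫_ℂ := by
    intro T
    rw [adjoint_inner_left]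
    rfl
  have heη : e η = η := vs_self M η
  have hC : CVec (cM J M) (cA J h A heA) (adjoint J η) := by
    intro a ha T hT
    rw [inn, inn, h.up_mul, h.up_mul]
    exact hη _ ha _ ((mem_cM h heM).1 hT)
  have hsep : ∀ T ∈ cM J M, T (adjoint J η) = 0 → T = 0 := by
    intro T hT hT0
    have h1 : up J T η = 0 := by
      rw [up_apply, hT0, map_zero]
    have h2 := mul_vs_eq_zero M ((mem_cM h heM).1 hT) h1
    rw [← he, h.up_e] at h2
    exact h.up_inj (h2.trans up_zero.symm)
  have hxM : dn J x ∈ cM J M := by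
    rw [mem_cM h heM, h.up_dn]
    exact mul_mem (mul_mem heM hx) heM
  have hxsa : IsSelfAdjoint (dn J x) := by
    change Star.star (dn J x) = dn J x
    rw [← dn_star, hsa.star_eq]
  obtain ⟨a, haA, hasa, han, hab⟩ := hE K (cM J M) (cA J h A heA) (cornerMasa h heA hM)
    (adjoint J η) hC hsep (dn J x) hxM hxsa
  refine ⟨up J a, haA, ?_, ?_, h.e_up a, h.up_e a, ?_⟩
  · change Star.star (up J a) = up J a
    rw [← up_star, hasa.star_eq]
  · exact (norm_up_le h.norm_le a).trans (han.trans (norm_dn_le h.norm_le x))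
  · intro b hb
    have hbe : b * e = e * b := hM.comm b hb e heA
    have hb' : dn J b ∈ cA J h A heA := by
      rw [mem_cA h heA, h.up_dn]
      exact mul_mem (mul_mem heA hb) heA
    have h1 := hab (dn J b) hb'
    rw [inn, inn, h.up_mul, h.up_mul, h.up_dn, h.up_dn] at h1
    have e1 : (e * b * e * up J a) η = (b * up J a) η := by
      rw [← hbe, mul_assoc b e e, hep.isIdempotentElem.eq, mul_assoc, h.e_up]
    have e2 : (e * b * e * (e * x * e)) η = (e * (b * x)) η := by
      have : e * b * e * (e * x * e) = e * (b * x) * e := by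
        calc e * b * e * (e * x * e) = e * b * (e * e) * (x * e) := by simp only [mul_assoc]
          _ = e * (b * e) * (x * e) := by rw [hep.isIdempotentElem.eq]; simp only [mul_assoc]
          _ = e * (e * b) * (x * e) := by rw [hbe]
          _ = (e * e) * (b * x) * e := by simp only [mul_assoc]
          _ = _ := by rw [hep.isIdempotentElem.eq]
      rw [this]
      change (e * (b * x)) (e η) = _
      rw [heη]
    rw [e1, e2] at h1
    have e3 : ⟪η, (e * (b * x)) η⟫_ℂ = ⟪η, (b * x) η⟫_ℂ := by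
      change ⟪η, e ((b * x) η)⟫_ℂ = _
      have hes : Star.star e = e := hep.isSelfAdjoint
      rw [← hes, star_eq_adjoint, adjoint_inner_right, heη]
    rw [e3] at h1
    rw [mul_sub, sub_apply, inner_sub_right, h1, sub_self]

end Crest.Agent.R109
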