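import Crest.Agent.R109.AnnFlip
import Crest.Agent.R109.FinStart4
import Crest.Agent.R109.FinVolA
import Mathlib
import Crest.Agent.R109.AnnealedReal
import Crest.Agent.R109.OneSiteA
import Crest.Agent.R109.Book1
import Crest.Agent.R109.FinVol
import Crest.Agent.R109.Book6
import Crest.Agent.R109.BookEnd
import Crest.Agent.R109.FinVolB_Mg
import Crest.Agent.R109.Defs
import Crest.Agent.R109.Supp
import Crest.Agent.R109.PartLib
import Crest.Agent.R121.WLim
import Crest.Agent.R124.GnsMap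

-- ▼ part R109/StartInc
section

/-!
# Start increment (row 109, module p4)

Root location of the uniform annealed polynomial with arbitrary small weights
(`a v ≤ 1/(2 b₀)`, `b₀ = 2√2/√r`): `RP x γ` has no real zero in `(-2,2)`; hence one vertex
increases the start potential by at most `2 · 4^(-k)`.
-/

set_option autoImplicit false

namespace Crest.Agent.R109.StartInc

open Matrix Finset Polynomial Crest.Agent.R109 Crest.Agent.R109.Ann Crest.Agent.R109.Lk
open scoped ComplexOrder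

variable {V : Type*} [Fintype V] [DecidableEq V]

/-- the value of the annealed polynomial at a real point, positive weights -/
theorem ann_unif {r : ℕ} (hr : 0 < r) (x : V → V → ℂ) (a : V → ℝ) (y : ℝ)
    (hay : ∀ v, a v * y ≠ 0) :
    ann x (fun v (_ : Fin r) => (a v / r : ℂ) * y)
      = (1 / (r : ℂ)) ^ (Fintype.card V) * (∏ v, ((a v * y : ℝ) : ℂ)) *
        ∑ c : V → Fin r, (Matrix.diagonal (fun v => (((a v * y)⁻¹ : ℝ) : ℂ)) - tot x c).det := by
  have hr' : (r : ℂ) ≠ 0 := by exact_mod_cast hr.ne'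
  have h1 := ann_mix x (fun (_ : V) (_ : Fin r) => (1 / (r : ℂ)))
    (by intro v; simp [hr']) (fun v => ((a v * y : ℝ) : ℂ))
  have h2 : (fun v (_ : Fin r) => (a v / r : ℂ) * y)
      = (fun v (_ : Fin r) => (1 / (r : ℂ)) * ((a v * y : ℝ) : ℂ)) := by
    funext v i; push_cast; ring
  rw [h2, h1, Finset.mul_sum]
  refine Finset.sum_congr rfl fun c _ => ?_
  rw [Finset.prod_const, Finset.card_univ, mul_assoc]
  congr 1
  rw [← Matrix.det_diagonal, ← Matrix.det_mul]
  congr 1
  ext u w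
  rw [Matrix.diagonal_mul, Matrix.sub_apply, Matrix.sub_apply, Matrix.diagonal_mul]
  by_cases h : u = w
  · subst h
    have : (((a u * y : ℝ) : ℂ)) * (((a u * y)⁻¹ : ℝ) : ℂ) = 1 := by
      rw [← Complex.ofReal_mul, mul_inv_cancel₀ (hay u), Complex.ofReal_one]
    simp only [Matrix.one_apply_eq, Matrix.diagonal_apply_eq, mul_sub, this]
  · simp [Matrix.one_apply_ne h, Matrix.diagonal_apply_ne _ h]

/-- the uniform polynomial has no real zero in `(-2,2)` when all weights are `≤ 1/(2 b₀)` -/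
theorem RP_unif_ne_zero {r : ℕ} (hr : 2 < r) {x : V → V → ℂ} (hx : Herm x)
    (h1 : (1 - (Matrix.of x : Matrix V V ℂ)).PosSemidef)
    (h2 : (1 + (Matrix.of x : Matrix V V ℂ)).PosSemidef) (h0 : ∀ v, x v v = 0)
    (a : V → ℝ) (ha : ∀ v, 0 < a v) (hb : ∀ v, a v * (2 * (2 * Real.sqrt 2 / Real.sqrt r)) ≤ 1)
    (y : ℝ) (hy : |y| < 2) :
    (RP x (fun v (_ : Fin r) => a v / r)).eval y ≠ 0 := by
  have hr0 : 0 < r := by omega
  have hb0 : 0 < 2 * Real.sqrt 2 / Real.sqrt r := by positivity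
  by_cases hy0 : y = 0
  · subst hy0
    rw [← Polynomial.coeff_zero_eq_eval_zero, RP_coeff_zero hx]
    exact one_ne_zero
  have hay : ∀ v, a v * y ≠ 0 := fun v => mul_ne_zero (ha v).ne' hy0
  have hZ : ∀ v, 2 * Real.sqrt 2 / Real.sqrt r ≤ (a v * |y|)⁻¹ := by
    intro v
    have hp : 0 < a v * |y| := mul_pos (ha v) (abs_pos.mpr hy0)
    rw [le_inv_comm₀ hb0 hp]
    have h3 : a v * |y| ≤ a v * 2 := mul_le_mul_of_nonneg_left hy.le (ha v).le
    refine h3.trans ?_
    rw [← one_div, le_div_iff₀ hb0]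
    have := hb v
    nlinarith
  have hev : (((RP x (fun v (_ : Fin r) => a v / r)).eval y : ℝ) : ℂ)
      = ann x (fun v (_ : Fin r) => (a v / r : ℂ) * y) := by
    have := eval_RP hx (fun v (_ : Fin r) => a v / r) (y : ℂ)
    rw [Start.map_eval_ofReal] at this
    rw [this]
    congr 1
    funext v i
    push_cast; ring
  intro h
  rw [h, Complex.ofReal_zero, ann_unif hr0 x a y hay] at hev
  have hr' : (1 / (r : ℂ)) ^ (Fintype.card V) ≠ 0 := by
    apply pow_ne_zero
    apply one_div_ne_zero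
    exact_mod_cast hr0.ne'
  have hpr : (∏ v, ((a v * y : ℝ) : ℂ)) ≠ 0 :=
    Finset.prod_ne_zero_iff.mpr fun v _ => by exact_mod_cast hay v
  have hsum : (∑ c : V → Fin r,
      (Matrix.diagonal (fun v => (((a v * y)⁻¹ : ℝ) : ℂ)) - tot x c).det) = 0 := by
    have := hev.symm
    rcases mul_eq_zero.mp this with h' | h'
    · rcases mul_eq_zero.mp h' with h'' | h''
      · exact absurd h'' hr'
      · exact absurd h'' hpr
    · exact h'
  rcases lt_or_gt_of_ne hy0 with hneg | hpos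
  · -- negative
    have hs := Start.start_bound_neg hr (Matrix.of x) h1 h2 h0 (fun v => (a v * |y|)⁻¹) hZ
    have he : ∀ c : V → Fin r,
        (Matrix.diagonal (fun v => (((a v * y)⁻¹ : ℝ) : ℂ)) - tot x c).det
        = (-1) ^ (Fintype.card V) * (Matrix.diagonal (fun v => (((a v * |y|)⁻¹ : ℝ) : ℂ)) +
          Matrix.of fun v w => if c v = c w then (Matrix.of x : Matrix V V ℂ) v w else 0).det := by
      intro c
      rw [← Matrix.det_neg]
      congr 1
      ext u w
      rw [abs_of_neg hneg]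
      by_cases h : u = w
      · subst h
        simp [tot, h0]
      · simp [tot, Matrix.diagonal_apply_ne _ h]
    simp only [he, ← Finset.mul_sum] at hsum
    rcases mul_eq_zero.mp hsum with h' | h'
    · exact absurd h' (pow_ne_zero _ (by norm_num))
    · rw [h'] at hs
      exact lt_irrefl _ hs
  · have hs := Start.start_bound_single hr (Matrix.of x) h1 h2 h0 (fun v => (a v * |y|)⁻¹) hZ
    rw [abs_of_pos hpos] at hs
    have he : ∀ c : V → Fin r,
        (Matrix.diagonal (fun v => (((a v * y)⁻¹ : ℝ) : ℂ)) - tot x c).det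
        = (Matrix.diagonal (fun v => (((a v * y)⁻¹ : ℝ) : ℂ)) -
          Matrix.of fun v w => if c v = c w then (Matrix.of x : Matrix V V ℂ) v w else 0).det :=
      fun c => rfl
    simp only [he] at hsum
    rw [hsum] at hs
    exact lt_irrefl _ hs


end Crest.Agent.R109.StartInc
end

-- ▼ part R109/StartIncH
section

/-!
# Start increment, Finset form (row 109, module p4 / (H3))

`H k x g W - H k x g (W.erase v) ≤ 2 · 4^(-k)` for the undecided state with weights
`g w i = a w / r`, `0 < a w`, `2 b₀ a w ≤ 1`, `b₀ = 2√2/√r`.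
-/

set_option autoImplicit false

namespace Crest.Agent.R109.StartInc

open Matrix Finset Polynomial Crest.Agent.R109 Crest.Agent.R109.Ann Crest.Agent.R109.Lk
  Crest.Agent.R109.FinVol
open scoped ComplexOrder Classical

variable {X : Type*} {r : ℕ}

/-- no real zero of the undecided state in `(-2,2)` -/
theorem pol_start_ne_zero' (hr : 2 < r) {x : X → X → ℂ} (hx : Herm x) (W : Finset X)
    (h1 : (1 - (Matrix.of fun u w : W => x u w)).PosSemidef)
    (h2 : (1 + (Matrix.of fun u w : W => x u w)).PosSemidef) (h0 : ∀ v ∈ W, x v v = 0)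
    (g : X → Fin r → ℝ) (a : X → ℝ) (hg : ∀ w ∈ W, ∀ i, g w i = a w / r)
    (ha : ∀ w ∈ W, 0 < a w) (hb : ∀ w ∈ W, a w * (2 * (2 * Real.sqrt 2 / Real.sqrt r)) ≤ 1)
    (y : ℝ) (hy : |y| < 2) :
    (pol (fun u w : W => x u w) (fun (v : W) i => g v i)).eval y ≠ 0 := by
  have hxW : Herm (fun u w : W => x u w) := fun u w => hx u w
  have e : (fun (v : W) i => g v i) = fun (v : W) (_ : Fin r) => a v / r := by
    funext v i
    exact hg v v.2 i
  have key := RP_unif_ne_zero hr hxW h1 h2 (fun v => h0 v v.2) (fun v : W => a v)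
    (fun v => ha v v.2) (fun v => hb v v.2) y hy
  rw [e, ← FinVol.RP_eq_pol hxW]
  exact key

/-- **(H3)** start increment on finite subsets of `X` -/
theorem H_start_increment (hr : 2 < r) (k : ℕ) (hk : 1 ≤ k) {x : X → X → ℂ} (hx : Herm x)
    (W : Finset X) (h1 : (1 - (Matrix.of fun u w : W => x u w)).PosSemidef)
    (h2 : (1 + (Matrix.of fun u w : W => x u w)).PosSemidef) (h0 : ∀ v ∈ W, x v v = 0)
    (g : X → Fin r → ℝ) (a : X → ℝ) (hg : ∀ w ∈ W, ∀ i, g w i = a w / r)
    (ha : ∀ w ∈ W, 0 < a w) (hb : ∀ w ∈ W, a w * (2 * (2 * Real.sqrt 2 / Real.sqrt r)) ≤ 1)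
    (v : X) : H k x g W - H k x g (W.erase v) ≤ 2 * (1 / 4 : ℝ) ^ k := by
  have : NeZero r := ⟨by omega⟩
  have h := H_start k hk hx W h0 g
    (fun w hw i => by rw [hg w hw i]; exact div_nonneg (ha w hw).le (Nat.cast_nonneg r))
    v (1 / 2) (by norm_num) (fun y hy =>
      pol_start_ne_zero' hr hx W h1 h2 h0 g a hg ha hb y (by linarith))
  have e2 : (1 / 2 : ℝ) ^ (2 * k) = (1 / 4) ^ k := by
    rw [pow_mul]; norm_num
  rwa [e2] at h


end Crest.Agent.R109.StartInc
end

-- ▼ part R109/Pure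
section

/-!
# Row 109, module PURE STATE

If every vertex `v` has its whole weight `a v` on one colour `c v`, then
`coeff n (qS (1 - pol x γ)) = trace ((√a T √a)^n)`, `T u w = 1[c u = c w] x u w`.
-/

set_option autoImplicit false
set_option linter.unusedSectionVars false

namespace Crest.Agent.R109.Ann

open Matrix Finset PowerSeries

section Series

variable {V : Type*} [Fintype V]

theorem qS_one_sub_mul (P Q : ℝ⟦X⟧) (hP : constantCoeff P = 1) (hQ : constantCoeff Q = 1) :
    qS (1 - P * Q) = qS (1 - P) + qS (1 - Q) := by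
  have hP1 : P * P⁻¹ = 1 := PowerSeries.mul_inv_cancel _ (by simp [hP])
  have hQ1 : Q * Q⁻¹ = 1 := PowerSeries.mul_inv_cancel _ (by simp [hQ])
  have hPQ : (P * Q)⁻¹ = P⁻¹ * Q⁻¹ := by
    rw [PowerSeries.mul_inv_rev, mul_comm]
  simp only [qS, sub_sub_cancel, map_sub, hPQ]
  rw [Derivation.leibniz, smul_eq_mul, smul_eq_mul]
  have h1 : d⁄dX ℝ (1 : ℝ⟦X⟧) = 0 := by simp
  rw [h1]
  linear_combination (-(X * d⁄dX ℝ Q * Q⁻¹)) * hP1 + (-(X * d⁄dX ℝ P * P⁻¹)) * hQ1

theorem qS_one_sub_lin (s : ℝ) (n : ℕ) (hn : 1 ≤ n) :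
    coeff n (qS (1 - (1 - C s * X))) = s ^ n := by
  obtain ⟨m, rfl⟩ : ∃ m, n = m + 1 := ⟨n - 1, by omega⟩
  have h1 : (1 - C s * X : ℝ⟦X⟧)⁻¹ = geo s := by
    have h2 := geo_mul s
    have h3 : (1 - C s * X : ℝ⟦X⟧) * (1 - C s * X)⁻¹ = 1 := PowerSeries.mul_inv_cancel _ (by simp)
    calc (1 - C s * X : ℝ⟦X⟧)⁻¹ = (1 - C s * X)⁻¹ * ((1 - C s * X) * geo s) := by rw [h2, mul_one]
      _ = ((1 - C s * X) * (1 - C s * X)⁻¹) * geo s := by ring
      _ = geo s := by rw [h3, one_mul]
  have h4 : qS (1 - (1 - C s * X)) = C s * (X * geo s) := by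
    have : d⁄dX ℝ (C s * X : ℝ⟦X⟧) = C s := by
      rw [Derivation.leibniz]
      simp
    rw [qS, sub_sub_cancel, h1, this]; ring
  rw [h4, coeff_C_mul, coeff_succ_X_mul, coeff_geo, pow_succ]; ring

theorem coeff_qS_prod (s : V → ℝ) (n : ℕ) (hn : 1 ≤ n) :
    coeff n (qS (1 - ∏ v, (1 - C (s v) * X))) = ∑ v, s v ^ n := by
  classical
  have key : ∀ t : Finset V, constantCoeff (∏ v ∈ t, (1 - C (s v) * X : ℝ⟦X⟧)) = 1 ∧
      coeff n (qS (1 - ∏ v ∈ t, (1 - C (s v) * X))) = ∑ v ∈ t, s v ^ n := by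
    intro t
    induction t using Finset.induction_on with
    | empty => simp [qS]
    | insert a t ha ih =>
      refine ⟨?_, ?_⟩
      · rw [Finset.prod_insert ha, map_mul, ih.1]; simp
      · rw [Finset.prod_insert ha, Finset.sum_insert ha, qS_one_sub_mul _ _ (by simp) ih.1, map_add,
          ih.2, qS_one_sub_lin _ _ hn]
  exact (key Finset.univ).2

end Series

section Herm

variable {V : Type*} [Fintype V] [DecidableEq V]

theorem det_one_sub_smul_of_herm {A : Matrix V V ℂ} (hA : A.IsHermitian) (y : ℂ) :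
    Matrix.det (1 - y • A) = ∏ v, (1 - y * (hA.eigenvalues v : ℂ)) := by
  have h1 : (1 - y • A) = Unitary.conjStarAlgAut ℂ _ hA.eigenvectorUnitary
      (1 - y • diagonal (RCLike.ofReal ∘ hA.eigenvalues)) := by
    conv_lhs => rw [hA.spectral_theorem]
    rw [map_sub, map_one, map_smul]
  rw [h1, Unitary.conjStarAlgAut_apply]
  have h2 : ((hA.eigenvectorUnitary : Matrix V V ℂ)) * star (hA.eigenvectorUnitary : Matrix V V ℂ) = 1 :=
    Unitary.coe_mul_star_self _
  rw [Matrix.det_mul, Matrix.det_mul, mul_right_comm, ← Matrix.det_mul, h2, Matrix.det_one, one_mul]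
  have h3 : (1 - y • diagonal (RCLike.ofReal ∘ hA.eigenvalues) : Matrix V V ℂ)
      = diagonal (fun v => 1 - y * (hA.eigenvalues v : ℂ)) := by
    ext u w
    by_cases h : u = w
    · subst h; simp
    · simp [h, Matrix.one_apply_ne h]
  rw [h3, Matrix.det_diagonal]

theorem trace_pow_of_herm {A : Matrix V V ℂ} (hA : A.IsHermitian) (n : ℕ) :
    Matrix.trace (A ^ n) = ∑ v, (hA.eigenvalues v : ℂ) ^ n := by
  have h1 : A ^ n = Unitary.conjStarAlgAut ℂ _ hA.eigenvectorUnitary
      (diagonal (RCLike.ofReal ∘ hA.eigenvalues) ^ n) := by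
    conv_lhs => rw [hA.spectral_theorem]
    rw [map_pow]
  have h2 : star (hA.eigenvectorUnitary : Matrix V V ℂ) * ((hA.eigenvectorUnitary : Matrix V V ℂ)) = 1 :=
    Unitary.coe_star_mul_self _
  rw [h1, Unitary.conjStarAlgAut_apply, Matrix.trace_mul_comm, ← Matrix.mul_assoc, h2, Matrix.one_mul,
    Matrix.diagonal_pow, Matrix.trace_diagonal]
  simp

end Herm

section Pure

variable {V K : Type*} [Fintype V] [DecidableEq V] [Fintype K] [DecidableEq K]

/-- all the weight of `v` on the colour `c v` -/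
def pureγ (c : V → K) (a : V → ℝ) : V → K → ℝ := fun v i => if i = c v then a v else 0

/-- the tilted colour-diagonal matrix -/
noncomputable def pmat (x : V → V → ℂ) (c : V → K) (a : V → ℝ) : Matrix V V ℂ :=
  Matrix.of fun u w => (√(a u) : ℂ) * (if c u = c w then x u w else 0) * (√(a w) : ℂ)

theorem pmat_isHermitian {x : V → V → ℂ} (hx : Herm x) (c : V → K) (a : V → ℝ) :
    (pmat x c a).IsHermitian := by
  ext u w
  simp only [pmat, Matrix.conjTranspose_apply, Matrix.of_apply, star_mul', RCLike.star_def,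
    Complex.conj_ofReal]
  by_cases h : c u = c w
  · rw [if_pos h, if_pos h.symm, hx w u]; ring
  · rw [if_neg h, if_neg (fun h' => h h'.symm)]; simp

theorem det_pure_eq (x : V → V → ℂ) (c : V → K) (a : V → ℝ) (ha : ∀ v, 0 ≤ a v) (y : ℂ) :
    Matrix.det (1 - Matrix.diagonal (fun v => (a v : ℂ) * y) * tot x c)
      = Matrix.det (1 - y • pmat x c a) := by
  set R : Matrix V V ℂ := Matrix.diagonal (fun v => (√(a v) : ℂ)) with hR
  have h1 : Matrix.diagonal (fun v => (a v : ℂ) * y) * tot x c = R * (y • (R * tot x c)) := by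
    ext u w
    rw [hR, Matrix.diagonal_mul, Matrix.diagonal_mul, Matrix.smul_apply, Matrix.diagonal_mul]
    have : ((a u : ℝ) : ℂ) = (√(a u) : ℂ) * (√(a u) : ℂ) := by
      rw [← Complex.ofReal_mul, Real.mul_self_sqrt (ha u)]
    rw [this, smul_eq_mul]; ring
  have h2 : y • pmat x c a = (y • (R * tot x c)) * R := by
    ext u w
    rw [hR, Matrix.mul_diagonal, Matrix.smul_apply, Matrix.smul_apply, Matrix.diagonal_mul, pmat, tot,
      Matrix.of_apply, Matrix.of_apply, smul_eq_mul, smul_eq_mul]; ring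
  rw [h1, h2, Matrix.det_one_sub_mul_comm]

theorem pol_pure {x : V → V → ℂ} (hx : Herm x) (c : V → K) (a : V → ℝ) (ha : ∀ v, 0 ≤ a v) :
    pol x (pureγ c a)
      = ∏ v, (1 - Polynomial.C ((pmat_isHermitian hx c a).eigenvalues v) * Polynomial.X) := by
  apply Polynomial.map_injective (algebraMap ℝ ℂ) (algebraMap ℝ ℂ).injective
  apply Polynomial.funext
  intro y
  rw [eval_pol hx]
  have h1 : (fun v i => ((pureγ c a v i : ℝ) : ℂ) * y) = fun v i => if i = c v then (a v : ℂ) * y else 0 := by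
    funext v i
    by_cases h : i = c v
    · simp [pureγ, h]
    · simp [pureγ, h]
  rw [h1, ann_pure, det_pure_eq x c a ha y, det_one_sub_smul_of_herm (pmat_isHermitian hx c a),
    Polynomial.map_prod, Polynomial.eval_prod]
  refine Finset.prod_congr rfl fun v _ => ?_
  rw [Polynomial.map_sub, Polynomial.map_one, Polynomial.map_mul, Polynomial.map_C, Polynomial.map_X,
    Polynomial.eval_sub, Polynomial.eval_one, Polynomial.eval_mul, Polynomial.eval_C, Polynomial.eval_X]
  rw [mul_comm]; rfl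

/-- **PURE STATE**: the `n`-th power sum of the state is the trace of the `n`-th power -/
theorem pure_coeff {x : V → V → ℂ} (hx : Herm x) (c : V → K) (a : V → ℝ) (ha : ∀ v, 0 ≤ a v)
    (n : ℕ) (hn : 1 ≤ n) :
    ((coeff n (qS (1 - (pol x (pureγ c a) : ℝ⟦X⟧))) : ℝ) : ℂ) = Matrix.trace (pmat x c a ^ n) := by
  have h1 : ((pol x (pureγ c a) : Polynomial ℝ) : ℝ⟦X⟧)
      = ∏ v, (1 - C ((pmat_isHermitian hx c a).eigenvalues v) * X) := by
    rw [pol_pure hx c a ha]
    have := map_prod (Polynomial.coeToPowerSeries.ringHom (R := ℝ))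
      (fun v => (1 - Polynomial.C ((pmat_isHermitian hx c a).eigenvalues v) * Polynomial.X)) Finset.univ
    simp only [Polynomial.coeToPowerSeries.ringHom_apply] at this
    rw [this]
    refine Finset.prod_congr rfl fun v _ => ?_
    simp
  rw [h1, coeff_qS_prod _ n hn, trace_pow_of_herm (pmat_isHermitian hx c a)]
  push_cast
  rfl

theorem pure_coeff_re {x : V → V → ℂ} (hx : Herm x) (c : V → K) (a : V → ℝ) (ha : ∀ v, 0 ≤ a v)
    (n : ℕ) (hn : 1 ≤ n) :
    coeff n (qS (1 - (pol x (pureγ c a) : ℝ⟦X⟧))) = ∑ v, ((pmat x c a ^ n) v v).re := by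
  have := congrArg Complex.re (pure_coeff hx c a ha n hn)
  rw [Complex.ofReal_re] at this
  rw [this, Matrix.trace, Complex.re_sum]
  rfl


end Pure

end Crest.Agent.R109.Ann
end

-- ▼ part R109/Pure2
section

/-!
# Row 109, module PURE STATE (2): the local density of a pure state

For a kernel on an infinite set `X` and a finite `W ⊆ X` the density at `v ∈ W` is the diagonal entry
of the `2k`-th power of the tilted colour-diagonal matrix.  It is homogeneous and local.
-/

set_option autoImplicit false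
set_option linter.unusedSectionVars false

namespace Crest.Agent.R109.Ann

open Matrix Finset PowerSeries

section Walk

variable {X K : Type*} [DecidableEq X] [DecidableEq K]

/-- the tilted colour-diagonal kernel -/
noncomputable def tilt (x : X → X → ℂ) (c : X → K) (a : X → ℝ) : X → X → ℂ :=
  fun u w => (√(a u) : ℂ) * (if c u = c w then x u w else 0) * (√(a w) : ℂ)

/-- sums over walks inside `W` -/
noncomputable def wk (B : X → X → ℂ) (W : Finset X) : ℕ → X → X → ℂ
  | 0, v, w => if v = w then 1 else 0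
  | n + 1, v, w => ∑ z ∈ W, wk B W n v z * B z w

@[simp] theorem wk_zero (B : X → X → ℂ) (W : Finset X) (v w : X) :
    wk B W 0 v w = if v = w then 1 else 0 := rfl

theorem wk_succ (B : X → X → ℂ) (W : Finset X) (n : ℕ) (v w : X) :
    wk B W (n + 1) v w = ∑ z ∈ W, wk B W n v z * B z w := rfl

/-- the local density of the pure state `(c, a)` in `W` at `v` -/
noncomputable def dens (k : ℕ) (x : X → X → ℂ) (c : X → K) (a : X → ℝ) (W : Finset X) (v : X) : ℝ :=
  ∑ w ∈ W, Complex.normSq (wk (tilt x c a) W k v w)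

theorem dens_nonneg (k : ℕ) (x : X → X → ℂ) (c : X → K) (a : X → ℝ) (W : Finset X) (v : X) :
    0 ≤ dens k x c a W v :=
  Finset.sum_nonneg fun _ _ => Complex.normSq_nonneg _

/-- walks are entries of matrix powers -/
theorem wk_eq_pow (B : X → X → ℂ) (W : Finset X) (n : ℕ) (v w : W) :
    wk B W n v w = ((Matrix.of fun u z : W => B u z) ^ n) v w := by
  induction n generalizing w with
  | zero =>
    rw [wk_zero, pow_zero, Matrix.one_apply]
    by_cases h : v = w
    · simp [h]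
    · rw [if_neg h, if_neg (fun h' => h (Subtype.ext h'))]
  | succ n ih =>
    rw [wk_succ, pow_succ, Matrix.mul_apply, ← Finset.sum_coe_sort]
    exact Finset.sum_congr rfl fun z _ => by rw [ih z]; rfl


theorem wk_smul (l : ℂ) (B : X → X → ℂ) (W : Finset X) (n : ℕ) (v w : X) :
    wk (fun u w => l * B u w) W n v w = l ^ n * wk B W n v w := by
  induction n generalizing w with
  | zero => simp
  | succ n ih =>
    rw [wk_succ, wk_succ, Finset.mul_sum]
    refine Finset.sum_congr rfl fun z _ => ?_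
    rw [ih, pow_succ]; ring

theorem tilt_smul (x : X → X → ℂ) (c : X → K) (a : X → ℝ) {l : ℝ} (hl : 0 ≤ l) :
    tilt x c (fun v => l * a v) = fun u w => (l : ℂ) * tilt x c a u w := by
  funext u w
  simp only [tilt]
  rw [Real.sqrt_mul hl, Real.sqrt_mul hl]
  have : ((l : ℝ) : ℂ) = (√l : ℂ) * (√l : ℂ) := by
    rw [← Complex.ofReal_mul, Real.mul_self_sqrt hl]
  rw [this]; push_cast; ring

/-- homogeneity -/
theorem dens_smul (k : ℕ) (x : X → X → ℂ) (c : X → K) (a : X → ℝ) {l : ℝ} (hl : 0 ≤ l)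
    (W : Finset X) (v : X) :
    dens k x c (fun v => l * a v) W v = l ^ (2 * k) * dens k x c a W v := by
  rw [dens, dens, Finset.mul_sum]
  refine Finset.sum_congr rfl fun w _ => ?_
  rw [tilt_smul x c a hl, wk_smul, Complex.normSq_mul, map_pow, Complex.normSq_ofReal]
  ring

/-- walks of length `j` from `v` end in `N j` -/
theorem wk_eq_zero {B : X → X → ℂ} (N : ℕ → Set X) (v : X) (h0 : v ∈ N 0)
    (hN : ∀ j z w, z ∈ N j → B z w ≠ 0 → w ∈ N (j + 1)) (U : Finset X) (j : ℕ) :
    ∀ w, w ∉ N j → wk B U j v w = 0 := by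
  induction j with
  | zero =>
    intro w hw
    rw [wk_zero, if_neg]
    rintro rfl; exact hw h0
  | succ j ih =>
    intro w hw
    rw [wk_succ]
    refine Finset.sum_eq_zero fun z _ => ?_
    by_cases hzN : z ∈ N j
    · by_cases hB : B z w = 0
      · rw [hB, mul_zero]
      · exact absurd (hN j z w hzN hB) hw
    · rw [ih z hzN, zero_mul]

theorem sum_congr_support {W W' : Finset X} {N : Set X} (hW : ∀ z ∈ N, (z ∈ W ↔ z ∈ W'))
    {M : Type*} [AddCommMonoid M] {f f' : X → M} (hf : ∀ z, z ∉ N → f z = 0)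
    (hf' : ∀ z, z ∉ N → f' z = 0) (hff : ∀ z ∈ N, z ∈ W → f z = f' z) :
    ∑ z ∈ W, f z = ∑ z ∈ W', f' z := by
  classical
  have key : ∀ (U : Finset X) (g : X → M) (_ : ∀ z, z ∉ N → g z = 0), ∑ z ∈ U, g z
      = ∑ z ∈ U.filter (fun z => z ∈ N), g z := by
    intro U g hg
    rw [Finset.sum_filter]
    refine Finset.sum_congr rfl fun z _ => ?_
    by_cases h : z ∈ N
    · rw [if_pos h]
    · rw [if_neg h, hg z h]
  rw [key W f hf, key W' f' hf']
  have hs : W.filter (fun z => z ∈ N) = W'.filter (fun z => z ∈ N) := by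
    ext z
    simp only [Finset.mem_filter]
    constructor
    · rintro ⟨h1, h2⟩; exact ⟨(hW z h2).1 h1, h2⟩
    · rintro ⟨h1, h2⟩; exact ⟨(hW z h2).2 h1, h2⟩
  rw [← hs]
  refine Finset.sum_congr rfl fun z hz => ?_
  rw [Finset.mem_filter] at hz
  exact hff z hz.2 hz.1

/-- locality of walks: `N j` is the set of points reachable in `j` steps -/
theorem wk_local {B B' : X → X → ℂ} {W W' : Finset X} (N : ℕ → Set X) (v : X) (h0 : v ∈ N 0)
    (hN : ∀ j z w, z ∈ N j → B z w ≠ 0 → w ∈ N (j + 1))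
    (hN' : ∀ j z w, z ∈ N j → B' z w ≠ 0 → w ∈ N (j + 1)) (hmono : ∀ j, N j ⊆ N (j + 1)) (k : ℕ)
    (hW : ∀ z ∈ N k, (z ∈ W ↔ z ∈ W'))
    (hB : ∀ z w, z ∈ N k → z ∈ W → w ∈ N k → w ∈ W → B z w = B' z w) :
    ∀ j, j ≤ k → ∀ w, w ∈ W → wk B W j v w = wk B' W' j v w := by
  have hle : ∀ i j, i ≤ j → N i ⊆ N j := fun i j hij =>
    Nat.le_induction (le_refl (N i)) (fun j _ h => h.trans (hmono j)) j hij
  intro j
  induction j with
  | zero => intro _ w _; rfl
  | succ j ih =>
    intro hj w hw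
    by_cases hwN : w ∈ N (j + 1)
    · rw [wk_succ, wk_succ]
      refine sum_congr_support (N := N j) (fun z hz => hW z (hle j k (by omega) hz)) ?_ ?_ ?_
      · intro z hz; rw [wk_eq_zero N v h0 hN W j z hz, zero_mul]
      · intro z hz; rw [wk_eq_zero N v h0 hN' W' j z hz, zero_mul]
      · intro z hz hzW
        rw [ih (by omega) z hzW, hB z w (hle j k (by omega) hz) hzW (hle (j + 1) k hj hwN) hw]
    · rw [wk_eq_zero N v h0 hN W _ w hwN, wk_eq_zero N v h0 hN' W' _ w hwN]

/-- **locality** of the density: only `x`, `c`, `a` and `W` on the points reachable in `k` steps -/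
theorem dens_local_gen {x x' : X → X → ℂ} {c c' : X → K} {a a' : X → ℝ} {W W' : Finset X}
    (N : ℕ → Set X) (v : X) (h0 : v ∈ N 0)
    (hN : ∀ j z w, z ∈ N j → x z w ≠ 0 → w ∈ N (j + 1))
    (hN' : ∀ j z w, z ∈ N j → x' z w ≠ 0 → w ∈ N (j + 1)) (hmono : ∀ j, N j ⊆ N (j + 1)) (k : ℕ)
    (hW : ∀ z ∈ N k, (z ∈ W ↔ z ∈ W'))
    (hx : ∀ z w, z ∈ N k → z ∈ W → w ∈ N k → w ∈ W → x z w = x' z w)
    (hc : ∀ z, z ∈ N k → z ∈ W → c z = c' z) (ha : ∀ z, z ∈ N k → z ∈ W → a z = a' z) :
    dens k x c a W v = dens k x' c' a' W' v := by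
  have hB0 : ∀ (x : X → X → ℂ) (c : X → K) (a : X → ℝ) (_ : ∀ j z w, z ∈ N j → x z w ≠ 0 → w ∈ N (j + 1))
      j z w, z ∈ N j → tilt x c a z w ≠ 0 → w ∈ N (j + 1) := by
    intro x c a hN j z w hz hB
    refine hN j z w hz ?_
    intro h0
    apply hB
    simp [tilt, h0]
  rw [dens, dens]
  refine sum_congr_support (N := N k) hW ?_ ?_ ?_
  · intro z hz; rw [wk_eq_zero N v h0 (hB0 x c a hN) W k z hz, map_zero]
  · intro z hz; rw [wk_eq_zero N v h0 (hB0 x' c' a' hN') W' k z hz, map_zero]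
  · intro z _ hzW
    rw [wk_local N v h0 (hB0 x c a hN) (hB0 x' c' a' hN') hmono k hW ?_ k le_rfl z hzW]
    intro z w hz hzW hw hwW
    simp only [tilt]
    rw [hc z hz hzW, hc w hw hwW, ha z hz hzW, ha w hw hwW, hx z w hz hzW hw hwW]


end Walk

section Restrict

variable {X K : Type*} [DecidableEq X] [DecidableEq K] [Fintype K]

/-- the density is the diagonal entry of the `2k`-th power of the matrix -/
theorem dens_eq {x : X → X → ℂ} (hx : Herm x) (k : ℕ) (c : X → K) (a : X → ℝ) (W : Finset X) (v : W) :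
    dens k x c a W v
      = ((pmat (fun u w : W => x u w) (fun v : W => c v) (fun v : W => a v) ^ (2 * k)) v v).re := by
  set B : Matrix W W ℂ := pmat (fun u w : W => x u w) (fun v : W => c v) (fun v : W => a v) with hB
  have hB1 : B = Matrix.of fun u z : W => tilt x c a u z := rfl
  have hH : B.IsHermitian :=
    pmat_isHermitian (x := fun u w : W => x u w) (fun u w => hx u w) _ _
  rw [dens, ← Finset.sum_coe_sort, two_mul, pow_add, Matrix.mul_apply, Complex.re_sum]
  refine Finset.sum_congr rfl fun w _ => ?_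
  rw [wk_eq_pow, ← hB1]
  have h2 : (B ^ k) w v = (starRingEnd ℂ) ((B ^ k) v w) := by
    have := congrFun (congrFun (hH.pow k) w) v
    rw [Matrix.conjTranspose_apply] at this
    rw [← this]; rfl
  rw [h2, Complex.mul_conj, Complex.ofReal_re]

/-- **PURE STATE** on a finite subset of an infinite set -/
theorem coeff_pure_sum {x : X → X → ℂ} (hx : Herm x) (k : ℕ) (hk : 1 ≤ k) (c : X → K)
    (a : X → ℝ) (W : Finset X) (ha : ∀ v ∈ W, 0 ≤ a v) (g : X → K → ℝ)
    (hg : ∀ v ∈ W, g v = fun i => if i = c v then a v else 0) :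
    coeff (2 * k) (qS (1 - (pol (fun u w : W => x u w) (fun (v : W) => g v) : ℝ⟦X⟧)))
      = ∑ v ∈ W, dens k x c a W v := by
  have h1 : (fun (v : W) => g v) = pureγ (fun v : W => c v) (fun v : W => a v) := by
    funext v i
    rw [hg v v.2]; rfl
  rw [h1, pure_coeff_re (x := fun u w : W => x u w) (fun u w => hx u w) (fun v : W => c v)
    (fun v : W => a v) (fun v => ha v v.2) (2 * k) (by omega),
    ← Finset.sum_coe_sort W (fun v => dens k x c a W v)]
  exact Finset.sum_congr rfl fun v _ => (dens_eq hx k c a W v).symm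

end Restrict

end Crest.Agent.R109.Ann
end

-- ▼ part R109/Pure3
section

/-!
# Row 109, module PURE STATE (3): reachability, balls and root change for the density
-/

set_option autoImplicit false
set_option linter.unusedSectionVars false

namespace Crest.Agent.R109.Ann

open Finset

section Reach

variable {X K : Type*} [DecidableEq X] [DecidableEq K]

/-- points reachable from `v` in at most `j` steps of the support of `x` -/
def reach (x : X → X → ℂ) : ℕ → X → Set X
  | 0, v => {v}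
  | j + 1, v => reach x j v ∪ {w | ∃ z ∈ reach x j v, x z w ≠ 0}

theorem reach_self (x : X → X → ℂ) (v : X) : v ∈ reach x 0 v := rfl

theorem reach_step {x : X → X → ℂ} {j : ℕ} {v z w : X} (hz : z ∈ reach x j v) (h : x z w ≠ 0) :
    w ∈ reach x (j + 1) v := Or.inr ⟨z, hz, h⟩

theorem reach_succ (x : X → X → ℂ) (j : ℕ) (v : X) : reach x j v ⊆ reach x (j + 1) v :=
  fun _ h => Or.inl h

/-- the density in `W` only sees `W ∩ B` if `B` contains the points reachable in `k` steps -/
theorem dens_inter {x : X → X → ℂ} (k : ℕ) (c : X → K) (a : X → ℝ) (W B : Finset X) (v : X)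
    (hB : reach x k v ⊆ (B : Set X)) :
    dens k x c a W v = dens k x c a (W ∩ B) v := by
  refine dens_local_gen (fun j => reach x j v) v (reach_self x v)
    (fun j z w hz h => reach_step hz h) (fun j z w hz h => reach_step hz h)
    (fun j => reach_succ x j v) k ?_ (fun _ _ _ _ _ _ => rfl) (fun _ _ _ => rfl) (fun _ _ _ => rfl)
  intro z hz
  rw [Finset.mem_inter]
  exact ⟨fun h => ⟨h, hB hz⟩, fun h => h.1⟩

/-- the density only depends on the data in `W ∩ B` -/
theorem dens_congr {x x' : X → X → ℂ} {c c' : X → K} {a a' : X → ℝ} {W : Finset X} (v : X)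
    (k : ℕ) (hx : ∀ z ∈ W, ∀ w ∈ W, x z w = x' z w) (hc : ∀ z ∈ W, c z = c' z)
    (ha : ∀ z ∈ W, a z = a' z) :
    dens k x c a W v = dens k x' c' a' W v := by
  refine dens_local_gen (fun _ => Set.univ) v (Set.mem_univ v)
    (fun _ _ _ _ _ => Set.mem_univ _) (fun _ _ _ _ _ => Set.mem_univ _)
    (fun _ => subset_rfl) k (fun _ _ => Iff.rfl) ?_ ?_ ?_
  · intro z w _ hz _ hw; exact hx z hz w hw
  · intro z _ hz; exact hc z hz
  · intro z _ hz; exact ha z hz

end Reach

section Ball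

variable {Gam X K : Type*} [Group Gam] [MulAction Gam X] [MeasurableSpace X] [DecidableEq X]
  [DecidableEq K]

theorem reach_ball {x : X → X → ℂ} {S1 : Finset Gam}
    (hx : ∀ u w, x u w ≠ 0 → w ∈ Book.ball S1 u) (S : ℕ → Finset Gam) (h0 : (1 : Gam) ∈ S 0)
    (hmono : ∀ j, S j ⊆ S (j + 1)) (hmul : ∀ j, ∀ g ∈ S1, ∀ h ∈ S j, g * h ∈ S (j + 1)) (v : X) :
    ∀ j, reach x j v ⊆ (Book.ball (S j) v : Set X) := by
  intro j
  induction j with
  | zero =>
    intro z hz
    have : z = v := hz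
    subst this
    exact Book.self_mem_ball h0 _
  | succ j ih =>
    rintro z (hz | ⟨u, hu, huz⟩)
    · obtain ⟨g, hg, rfl⟩ := Book.mem_ball.1 (ih hz)
      exact Book.mem_ball.2 ⟨g, hmono j hg, rfl⟩
    · obtain ⟨h, hh, rfl⟩ := Book.mem_ball.1 (ih hu)
      obtain ⟨g, hg, rfl⟩ := Book.mem_ball.1 (hx _ _ huz)
      exact Book.mem_ball.2 ⟨g * h, hmul j g hg h hh, mul_smul g h v⟩

open scoped Pointwise in
open Classical in
theorem reach_ball_pow {x : X → X → ℂ} {S1 : Finset Gam}
    (hx : ∀ u w, x u w ≠ 0 → w ∈ Book.ball S1 u) (h1 : (1 : Gam) ∈ S1) (v : X) (k : ℕ) :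
    reach x k v ⊆ (Book.ball (S1 ^ k) v : Set X) := by
  refine reach_ball hx (fun j => S1 ^ j) (by simp) ?_ ?_ v k
  · intro j g hg
    show g ∈ S1 ^ (j + 1)
    rw [pow_succ]
    exact Finset.mem_mul.2 ⟨g, hg, 1, h1, mul_one g⟩
  · intro j g hg h hh
    show g * h ∈ S1 ^ (j + 1)
    rw [pow_succ']
    exact Finset.mem_mul.2 ⟨g, hg, h, hh, rfl⟩

end Ball

section Root

open MeasureTheory

variable {Gam X K : Type*} [Group Gam] [MulAction Gam X] [MeasurableSpace X] {μ : Measure X}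
  [DecidableEq X] [DecidableEq K]

/-- root change for the density: `a x w = (rel x w)^(1/2k) * l` -/
theorem dens_root (Q : Book.QI Gam X μ) (k : ℕ) (hk : 1 ≤ k) (T : X → X → ℂ) (c : X → K) (l : ℝ)
    {x y : X} (hxy : Book.Rel Gam x y) (W : Finset X) (hW : ∀ w ∈ W, Book.Rel Gam x w) (v : X) :
    dens k T c (fun w => (Q.rel y w) ^ ((1 : ℝ) / (2 * k)) * l) W v
      = Q.rel y x * dens k T c (fun w => (Q.rel x w) ^ ((1 : ℝ) / (2 * k)) * l) W v := by
  have hp : 0 < Q.rel y x := Q.rel_pos _ _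
  set t : ℝ := (Q.rel y x) ^ ((1 : ℝ) / (2 * k)) with ht
  have ht0 : 0 ≤ t := Real.rpow_nonneg hp.le _
  have ht2 : t ^ (2 * k) = Q.rel y x := by
    rw [ht, ← Real.rpow_natCast, ← Real.rpow_mul hp.le]
    have hk' : (k : ℝ) ≠ 0 := by exact_mod_cast (by omega : k ≠ 0)
    have : (1 : ℝ) / (2 * k) * ((2 * k : ℕ) : ℝ) = 1 := by push_cast; field_simp
    rw [this, Real.rpow_one]
  rw [← ht2, ← dens_smul k T c _ ht0]
  refine dens_congr v k (fun _ _ _ _ => rfl) (fun _ _ => rfl) ?_
  intro w hw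
  rw [Q.rel_trans hxy.symm (hW w hw), Real.mul_rpow hp.le (Q.rel_pos _ _).le]
  ring

end Root

end Crest.Agent.R109.Ann
end

-- ▼ part R109/Pure4
section

/-!
# Row 109, module PURE STATE (4): (H4), the potential `H` of a decided state

`FinVol.H k x g W` is the potential of the finite window `W`.  For a decided state it is the sum over
`v ∈ W` of the local densities `dens`; with the tilted weights `gam` the densities are `pdens`.
-/

set_option autoImplicit false
set_option linter.unusedSectionVars false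

namespace Crest.Agent.R109.Ann

open Finset

section Window

variable {X : Type*} [DecidableEq X]

/-- **PURE STATE (H4)**: the potential of a decided state on the finite window `W` is the sum of the
local densities -/
theorem H_pure {r : ℕ} {x : X → X → ℂ} (hx : Herm x) {k : ℕ} (hk : 1 ≤ k) (c : X → Fin r)
    (a : X → ℝ) (W : Finset X) (ha : ∀ v ∈ W, 0 ≤ a v) (g : X → Fin r → ℝ)
    (hg : ∀ v ∈ W, g v = fun i => if i = c v then a v else 0) :
    FinVol.H k x g W = ∑ v ∈ W, dens k x c a W v := by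
  rename_i hX
  obtain rfl : hX = fun a b => Classical.propDecidable (a = b) := Subsingleton.elim _ _
  exact @coeff_pure_sum X (Fin r) (fun a b => Classical.propDecidable (a = b)) _ _ x hx k hk c a W
    ha g hg

end Window

section Gam

open MeasureTheory

variable {Gam X : Type*} [Group Gam] [MulAction Gam X] [MeasurableSpace X] {μ : Measure X}
  [DecidableEq X]







end Gam

end Crest.Agent.R109.Ann
end

-- ▼ part R109/CartDens
section

/-!
# Row 109: the density of a pure state (measurability, comparison with the tilted kernel)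
-/

set_option autoImplicit false
set_option linter.unusedSectionVars false

open MeasureTheory
open scoped ENNReal ComplexConjugate Pointwise ComplexOrder

namespace Crest.Agent.R109.Book

section Walk

variable {Gam X : Type*} [Group Gam] [MulAction Gam X] [MeasurableSpace X] {μ : Measure X}

open Classical in
/-- walk sums inside `W`, recursion at the start -/
noncomputable def wkc (B : X → X → ℂ) (W : Finset X) : ℕ → X → X → ℂ
  | 0, y, z => if y = z then 1 else 0
  | m + 1, y, z => ∑ w ∈ W, B y w * wkc B W m w z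

theorem wkc_eq_pow [DecidableEq X] (B : X → X → ℂ) (W : Finset X) (m : ℕ) :
    ∀ y z : W, ((Matrix.of fun u w : W => B u w) ^ m : Matrix W W ℂ) y z = wkc B W m y z := by
  induction m with
  | zero =>
    intro y z
    rw [pow_zero, Matrix.one_apply]
    by_cases h : y = z
    · rw [if_pos h, wkc, if_pos (congrArg Subtype.val h)]
    · rw [if_neg h, wkc, if_neg fun h' => h (Subtype.ext h')]
  | succ m ih =>
    intro y z
    rw [pow_succ', Matrix.mul_apply]
    simp only [wkc]
    rw [← Finset.sum_coe_sort W (fun w => B y w * wkc B W m w z)]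
    exact Finset.sum_congr rfl fun w _ => by rw [ih w z]; rfl

theorem measurable_wkc_aux (Q : QI Gam X μ) (F : Finset Gam) (B : X → X → X → ℂ)
    (hB : CW Gam B) (m : ℕ) :
    ∀ (g : Gam) (l : List Gam),
      Measurable fun v => wprod B v g l * wkc (B v) (ball F v) m (wend g l • v) (g • v) := by
  classical
  induction m with
  | zero =>
    intro g l
    have : (fun v => wprod B v g l * wkc (B v) (ball F v) 0 (wend g l • v) (g • v))
        = fun v => if wend g l • v = g • v then wprod B v g l else 0 := by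
      funext v
      simp only [wkc]
      split_ifs <;> simp
    rw [this]
    exact hB g l
  | succ m ih =>
    intro g l
    have h1 : (fun v => wprod B v g l * wkc (B v) (ball F v) (m + 1) (wend g l • v) (g • v))
        = fun v => ∑ w ∈ F.image (fun s => s • v),
            wprod B v g l * (B v (wend g l • v) w * wkc (B v) (ball F v) m w (g • v)) := by
      funext v
      simp only [wkc, ball, Finset.mul_sum]
    rw [h1]
    refine measurable_sum_image_c F (fun s v => s • v) (fun i _ j _ => Q.meas_eq _ _)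
      (fun v w => wprod B v g l * (B v (wend g l • v) w * wkc (B v) (ball F v) m w (g • v))) ?_
    intro s _
    have h2 := ih g (l ++ [s])
    simp only [wprod_append, wend_append] at h2
    simpa only [mul_assoc] using h2

theorem measurable_wkc (Q : QI Gam X μ) (F : Finset Gam) (B : X → X → X → ℂ)
    (hB : CW Gam B) (m : ℕ) : Measurable fun v => wkc (B v) (ball F v) m v v := by
  have := measurable_wkc_aux Q F B hB m 1 []
  simpa [wprod, wend] using this

end Walk

section Den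

variable {Gam X : Type*} [Group Gam] [MulAction Gam X] [MeasurableSpace X] {μ : Measure X}

/-- the tilted weights of a pure state -/
noncomputable def wgt (Q : QI Gam X μ) (k : ℕ) (l : ℝ) (x w : X) : ℝ :=
  (Q.rel x w) ^ ((1 : ℝ) / (2 * k)) * l

theorem wgt_nonneg (Q : QI Gam X μ) (k : ℕ) {l : ℝ} (hl : 0 ≤ l) (x w : X) :
    0 ≤ wgt Q k l x w :=
  mul_nonneg (Real.rpow_nonneg (Q.rel_pos _ _).le _) hl

open Classical in
/-- the density of the pure state `c`, cut to `W` -/
noncomputable def den (Q : QI Gam X μ) (K : X → X → ℂ) (k : ℕ) (l : ℝ) {r : ℕ} (c : X → Fin r)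
    (x v : X) (W : Finset X) : ℝ :=
  if v ∈ W then Ann.dens k K c (wgt Q k l x) W v else 0

open Classical in
theorem den_nonneg (Q : QI Gam X μ) (K : X → X → ℂ) (k : ℕ) (l : ℝ) {r : ℕ} (c : X → Fin r)
    (x v : X) (W : Finset X) : 0 ≤ den Q K k l c x v W := by
  unfold den
  split_ifs
  · exact Ann.dens_nonneg _ _ _ _ _ _
  · exact le_rfl

theorem den_cov (Q : QI Gam X μ) (K : X → X → ℂ) {k : ℕ} (hk : 1 ≤ k) (l : ℝ) {r : ℕ}
    (c : X → Fin r) {x y v : X} {W : Finset X} (hxy : Rel Gam x y)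
    (hW : ∀ w ∈ W, Rel Gam x w) : den Q K k l c y v W = Q.rel y x * den Q K k l c x v W := by
  classical
  unfold den
  split_ifs with h
  · exact Ann.dens_root Q k hk K c l hxy W hW v
  · rw [mul_zero]

open Classical in
theorem den_loc [DecidableEq Gam] (Q : QI Gam X μ) {K : X → X → ℂ} {S : Finset Gam}
    (h1 : (1 : Gam) ∈ S) (band : ∀ v w, K v w ≠ 0 → w ∈ ball S v) (k : ℕ) (l : ℝ) {r : ℕ}
    (c : X → Fin r) (x v : X) (W : Finset X) (hv : v ∈ W) :
    den Q K k l c x v W = den Q K k l c x v (W ∩ ball (S ^ k) v) := by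
  have hvb : v ∈ ball (S ^ k) v := self_mem_ball (Finset.one_mem_pow h1) v
  unfold den
  rw [if_pos hv, if_pos (Finset.mem_inter.2 ⟨hv, hvb⟩)]
  exact Ann.dens_inter k c _ W _ v (by convert Ann.reach_ball_pow band h1 v k)

/-- the tilted kernel of the pure state, written with square roots -/
noncomputable def bker (Q : QI Gam X μ) (K : X → X → ℂ) (k : ℕ) (l : ℝ) {r : ℕ} (c : X → Fin r)
    (x u w : X) : ℂ :=
  ((√(wgt Q k l x u) * (if c u = c w then 1 else 0) * √(wgt Q k l x w) : ℝ) : ℂ) * K u w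

open Classical in
theorem den_eq_wkc (Q : QI Gam X μ) {K : X → X → ℂ} (herm : ∀ v w, K w v = conj (K v w))
    (k : ℕ) (l : ℝ) {r : ℕ} (c : X → Fin r) (x v : X) (W : Finset X) (hv : v ∈ W) :
    den Q K k l c x v W = (wkc (bker Q K k l c x) W (2 * k) v v).re := by
  unfold den
  rw [if_pos hv, Ann.dens_eq (fun u w => herm u w) k c (wgt Q k l x) W ⟨v, hv⟩]
  rw [← wkc_eq_pow (bker Q K k l c x) W (2 * k) ⟨v, hv⟩ ⟨v, hv⟩]
  have hM : Ann.pmat (fun u w : W => K u w) (fun v : W => c v) (fun v : W => wgt Q k l x v)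
      = Matrix.of fun u w : W => bker Q K k l c x u w := by
    ext u w
    simp only [Ann.pmat, Matrix.of_apply, bker]
    by_cases h : c u = c w
    · simp only [h, if_true]; push_cast; ring
    · simp only [h, if_false]; push_cast; ring
  rw [hM]

theorem CW_bker (Q : QI Gam X μ) {K : X → X → ℂ} (cw : CW Gam (fun _ : X => K)) (k : ℕ) (l : ℝ)
    {r : ℕ} {c : X → Fin r} (hc : Measurable c) : CW Gam (bker Q K k l c) := by
  classical
  refine CW.mul cw (fun x u w =>
    ((√(wgt Q k l x u) * (if c u = c w then 1 else 0) * √(wgt Q k l x w) : ℝ) : ℂ)) fun g h => ?_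
  refine Complex.measurable_ofReal.comp ?_
  have hw : ∀ g : Gam, Measurable fun x => √(wgt Q k l x (g • x)) := by
    intro g
    simp only [wgt, Q.rel_smul]
    exact (((Q.meas_D g).pow_const _).mul_const _).sqrt
  refine ((hw g).mul ?_).mul (hw h)
  exact Measurable.ite
    (measurableSet_eq_fun (hc.comp (Q.meas_smul g)) (hc.comp (Q.meas_smul h)))
    measurable_const measurable_const

theorem measK_den (Q : QI Gam X μ) {K : X → X → ℂ} (herm : ∀ v w, K w v = conj (K v w))
    (cw : CW Gam (fun _ : X => K)) (k : ℕ) (l : ℝ) {r : ℕ} {c : X → Fin r} (hc : Measurable c) :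
    MeasK Gam fun x W => den Q K k l c x x W := by
  classical
  intro F
  have h1 : (fun x => den Q K k l c x x (ball F x)) = fun x => if x ∈ ball F x then
      (wkc (bker Q K k l c x) (ball F x) (2 * k) x x).re else 0 := by
    funext x
    by_cases h : x ∈ ball F x
    · rw [if_pos h, den_eq_wkc Q herm k l c x x _ h]
    · rw [if_neg h, den, if_neg h]
  rw [h1]
  refine Measurable.ite (measurableSet_self_mem_ball Q F) ?_ measurable_const
  exact Complex.measurable_re.comp (measurable_wkc Q F _ (CW_bker Q cw k l hc) (2 * k))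

/-- comparison with the tilted kernel of the END step -/
theorem den_eq_tilt (Q : QI Gam X μ) {K : X → X → ℂ} (herm : ∀ v w, K w v = conj (K v w))
    (k : ℕ) {l : ℝ} (hl : 0 ≤ l) {r : ℕ} (c : X → Fin r) (v : X) (W : Finset X)
    (hv : v ∈ W) [DecidableEq X] :
    den Q K k l c v v W
      = l ^ (2 * k) * ((mat (tilt Q k (pin c (fun _ => K)) v) W ^ (2 * k)) ⟨v, hv⟩ ⟨v, hv⟩).re := by
  rw [den_eq_wkc Q herm k l c v v W hv, ← wkc_eq_pow _ W (2 * k) ⟨v, hv⟩ ⟨v, hv⟩]
  have hM : (Matrix.of fun u w : W => bker Q K k l c v u w)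
      = (l : ℂ) • mat (tilt Q k (pin c (fun _ => K)) v) W := by
    ext u w
    simp only [Matrix.of_apply, Matrix.smul_apply, mat_apply, tilt, tf, pin, bker, wgt,
      smul_eq_mul]
    have hs : ∀ y : X, √((Q.rel v y) ^ ((1 : ℝ) / (2 * k)) * l)
        = (Q.rel v y) ^ (1 / (4 * k) : ℝ) * √l := by
      intro y
      rw [Real.sqrt_mul (Real.rpow_nonneg (Q.rel_pos _ _).le _), Real.sqrt_eq_rpow,
        ← Real.rpow_mul (Q.rel_pos _ _).le]
      congr 2
      ring
    rw [hs, hs]
    have hll : (√l : ℂ) * (√l : ℂ) = (l : ℂ) := by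
      rw [← Complex.ofReal_mul, Real.mul_self_sqrt hl]
    by_cases h : c u = c w
    · simp only [h, if_true]
      rw [← hll]; push_cast; ring
    · simp only [h, if_false]; push_cast; ring
  rw [hM, smul_pow, Matrix.smul_apply, smul_eq_mul, ← Complex.ofReal_pow, Complex.re_ofReal_mul]

end Den

end Crest.Agent.R109.Book
private theorem rz_957adc2acf : type_of% @_root_.Crest.Agent.R109.Book.wkc.eq_def := @_root_.Crest.Agent.R109.Book.wkc.eq_def -- L23
private theorem rz_8ae4583622 : type_of% @_root_.Crest.Agent.R109.Book.wkc.eq_1 := @_root_.Crest.Agent.R109.Book.wkc.eq_1 -- L23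
end

-- ▼ part R109/CartCore
section

/-!
# Row 109: the core of the Cartan colouring theorem

From the finite volume modules (`FinVol.H`: homogeneity, clusters, good colours, start increment,
pure state) and BOOK (selection, density, END): every measurable colouring which respects the
admissible lists has small pinched moments.
-/

set_option autoImplicit false
set_option linter.unusedSectionVars false

open MeasureTheory
open scoped ENNReal ComplexConjugate Pointwise ComplexOrder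

namespace Crest.Agent.R109.Book

section Core

variable {Gam X : Type*} [Group Gam] [MulAction Gam X] [MeasurableSpace X] {μ : Measure X}

/-! ### the family of potentials -/

theorem hIn_of {Q : QI Gam X μ} {S : Finset Gam} {K : X → X → ℂ} (hK : KSys Q S K) (k r : ℕ) :
    HIn Q S k (fun g : X → Fin r → ℝ => FinVol.H k K g) :=
  Cluster.hIn Q S k (fun u w => hK.herm u w) hK.band

/-- the family of potentials -/
noncomputable def pot (Q : QI Gam X μ) (K : X → X → ℂ) (k : ℕ) (β K0 : ℝ) {r : ℕ}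
    (s : X → Option (Fin r)) (x : X) (W : Finset X) : ℝ :=
  FinVol.H k K (gam Q k β K0 x s) W

theorem fvs_pot [DecidableEq Gam] {Q : QI Gam X μ} {S : Finset Gam} {K : X → X → ℂ}
    (hK : KSys Q S K) {k : ℕ} (hk : 1 ≤ k) {r : ℕ} {β K0 : ℝ} (hβ : 0 < β) (hK0 : 0 < K0) :
    FVS Q (S ^ (2 * k)) (pot Q K k β K0 (r := r)) :=
  fvs_of hK.one_mem hk (hIn_of hK k r) hβ hK0 (fun _ hs => measK_H Q hK.gauge k β K0 hs)
    (fun s _ => bdd_H Q hK.bd k β K0 s _)

open Classical in
theorem good_pot {Q : QI Gam X μ} {S S2 : Finset Gam} {K : X → X → ℂ} (hK : KSys Q S K) {k : ℕ}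
    (hk : 1 ≤ k) {r : ℕ} [NeZero r] {β K0 : ℝ} (hβ : 0 < β) (hK0 : 48 ≤ K0)
    (h1 : (1 : Gam) ∈ S2)
    (s : X → Option (Fin r)) (x : X) (hs : s x = none) :
    (r + 1) / 2 ≤ (Finset.univ.filter fun a : Fin r =>
        pot Q K k β K0 (Function.update s x (some a)) x (ball S2 x)
          ≤ pot Q K k β K0 s x (ball S2 x)).card := by
  have hK0' : 0 < K0 := by linarith
  have key := FinVol.H_good_nat k hk (fun u w => hK.herm u w) (ball S2 x)
    (fun v _ => hK.diag v) (gam Q k β K0 x s) (fun w _ i => gam_nonneg Q k hβ hK0' x s w i)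
    x (self_mem_ball h1 x) (1 / β) (by positivity) K0 hK0 (r := r)
  have e1 : ∀ a : Fin r, Function.update (gam Q k β K0 x s) x (fun i => if i = a then 1 / β / K0
      else 0) = gam Q k β K0 x (Function.update s x (some a)) := by
    intro a
    funext w i
    by_cases hw : w = x
    · subst hw
      simp only [gam, Function.update_self, Q.rel_self, Real.one_rpow, one_mul, lev]
      by_cases hi : i = a
      · rw [if_pos hi, if_pos hi]
        field_simp
      · rw [if_neg hi, if_neg hi]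
    · simp only [gam, Function.update_of_ne hw]
  have e2 : Function.update (gam Q k β K0 x s) x (fun _ => 1 / β / r) = gam Q k β K0 x s := by
    funext w i
    by_cases hw : w = x
    · subst hw
      simp only [gam, Function.update_self, Q.rel_self, Real.one_rpow, one_mul, hs, lev]
      rw [div_div, mul_comm]
    · simp only [Function.update_of_ne hw]
  have key' : r ≤ 2 * (Finset.univ.filter fun a : Fin r =>
      pot Q K k β K0 (Function.update s x (some a)) x (ball S2 x)
        ≤ pot Q K k β K0 s x (ball S2 x)).card := by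
    have hiff : ∀ a : Fin r, (FinVol.H k K (Function.update (gam Q k β K0 x s) x
        (fun i => if i = a then 1 / β / K0 else 0)) (ball S2 x)
          ≤ FinVol.H k K (Function.update (gam Q k β K0 x s) x (fun _ => 1 / β / r)) (ball S2 x))
        ↔ (pot Q K k β K0 (Function.update s x (some a)) x (ball S2 x)
          ≤ pot Q K k β K0 s x (ball S2 x)) := by
      intro a
      rw [e1 a, e2]
      exact Iff.rfl
    have hc := congrArg Finset.card (Finset.filter_congr (s := (Finset.univ : Finset (Fin r)))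
      fun a _ => hiff a)
    rw [← hc]
    exact key
  omega

/-! ### start -/

theorem start_pot {Q : QI Gam X μ} {S : Finset Gam} {K : X → X → ℂ} (hK : KSys Q S K) {k : ℕ}
    (hk : 1 ≤ k) {r : ℕ} (hr : 2 < r) {K0 : ℝ} {β : ℝ}
    (hβ : β = 2 * (2 * Real.sqrt 2 / Real.sqrt r)) (x : X) (W : Finset X)
    (hW : ∀ w ∈ W, Q.rel x w ≤ 1) [DecidableEq X] :
    pot Q K k β K0 (fun _ => (none : Option (Fin r))) x W
      - pot Q K k β K0 (fun _ => (none : Option (Fin r))) x (W.erase x) ≤ 2 * (1 / 4) ^ k := by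
  classical
  have hr0 : (0 : ℝ) < r := by exact_mod_cast (by omega : 0 < r)
  have hβ0 : 0 < β := by rw [hβ]; positivity
  have key := StartInc.H_start_increment hr k hk (fun u w => hK.herm u w) W (hK.sub W) (hK.add W)
    (fun v _ => hK.diag v) (gam Q k β K0 x (fun _ => (none : Option (Fin r))))
    (fun w => (Q.rel x w) ^ (1 / (2 * (k : ℝ))) * (1 / β)) ?_
    (fun w _ => mul_pos (Real.rpow_pos_of_pos (Q.rel_pos _ _) _) (by positivity)) ?_ x
  · simp only [pot]
    convert key
  · intro w hw i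
    simp only [gam, lev]
    field_simp
  · intro w hw
    rw [← hβ, mul_assoc, one_div_mul_cancel hβ0.ne', mul_one]
    exact Real.rpow_le_one (Q.rel_pos _ _).le (hW w hw) (by positivity)

/-! ### the pure state -/

theorem measF_some {r : ℕ} {c : X → Fin r} (hc : Measurable c) :
    MeasF fun x => (some (c x) : Option (Fin r)) := by
  intro a
  cases a with
  | none => simp
  | some a =>
    have : {x | (some (c x) : Option (Fin r)) = some a} = c ⁻¹' {a} := by
      ext x; simp
    rw [this]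
    exact hc (measurableSet_singleton a)

theorem phi_pot [IsFiniteMeasure μ] [DecidableEq Gam] {Q : QI Gam X μ} {S : Finset Gam}
    {K : X → X → ℂ} (hK : KSys Q S K) {k : ℕ} (hk : 1 ≤ k) {r : ℕ} {β K0 : ℝ} (hβ : 0 < β)
    (hK0 : 0 < K0) {c : X → Fin r} (hc : Measurable c) :
    Phi μ (S ^ (2 * k)) (pot Q K k β K0 fun x => some (c x))
      = ∫ x, den Q K k (1 / (K0 * β)) c x x (ball (S ^ (2 * k)) x) ∂μ := by
  classical
  have hl : 0 ≤ 1 / (K0 * β) := by positivity
  have hfv := (fvs_pot hK hk hβ hK0 (r := r)).fv (fun x => some (c x)) (measF_some hc)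
  have hsum : ∀ x W, pot Q K k β K0 (fun x => some (c x)) x W
      = ∑ v ∈ W, den Q K k (1 / (K0 * β)) c x v W := by
    intro x W
    have h1 := Ann.H_pure (fun u w => hK.herm u w) hk c (wgt Q k (1 / (K0 * β)) x) W
      (fun w _ => wgt_nonneg Q k hl x w) (gam Q k β K0 x fun x => some (c x)) ?_
    · rw [pot, h1]
      refine Finset.sum_congr rfl fun v hv => ?_
      rw [den, if_pos hv]
    · intro w _
      funext i
      simp only [gam, lev, wgt]
      split_ifs <;> simp
  refine phi_eq_density (S0 := S ^ k) (Finset.one_mem_pow hK.one_mem) (inv_mem_pow hK.symm _)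
    (mul_inv_mem_pow hK.symm k) hfv (den Q K k (1 / (K0 * β)) c) (fun x W _ => hsum x W)
    (fun x y v W hxy hW _ => den_cov Q K hk _ c hxy hW) (fun x v W _ hv => ?_)
    (measK_den Q hK.herm hK.cw k _ hc) ?_ (Finset.one_mem_pow hK.one_mem)
  · convert den_loc Q hK.one_mem hK.band k (1 / (K0 * β)) c x v W hv
  · obtain ⟨C, hC⟩ := hfv.bdd
    refine ⟨max C 0, fun x W hW => ?_⟩
    rw [abs_of_nonneg (den_nonneg _ _ _ _ _ _ _ _)]
    by_cases hx : x ∈ W
    · refine le_trans ?_ ((le_abs_self _).trans ((hC x W hW).trans (le_max_left _ _)))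
      rw [hsum x W]
      exact Finset.single_le_sum (f := fun v => den Q K k (1 / (K0 * β)) c x v W)
        (fun v _ => den_nonneg _ _ _ _ _ _ _ _) hx
    · rw [den, if_neg hx]
      exact le_max_right _ _

theorem eq_mul_of_eq_mul_aux {a b M D : ℝ} (e1 : D = b * M) (e2 : a * b = 1) : M = a * D := by
  rw [e1, ← mul_assoc, e2, one_mul]

/-- **CORE**: the family of potentials, its admissible lists, and the moment bound -/
theorem cart_core [IsProbabilityMeasure μ] (Q : QI Gam X μ) (S : Finset Gam) (K : X → X → ℂ)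
    (hK : KSys Q S K) {r : ℕ} (hr : 100 ≤ r) {n : ℕ} (hn : 1 ≤ n) {κ : ℝ} (hκ : 0 < κ) :
    ∃ (S2 : Finset Gam) (p : (X → Option (Fin r)) → X → Finset X → ℝ),
      (1 : Gam) ∈ S2 ∧ (∀ g ∈ S2, g⁻¹ ∈ S2) ∧ FVS Q S2 p ∧
      (∀ (cls : X → ℕ) (c : X → Fin r) (x : X), r ≤ 2 * (Adm p S2 cls c x).card) ∧
      ∀ (cls : X → ℕ) (N : ℕ), Measurable cls → (∀ x, cls x < N) →
        (∀ x, ∀ y ∈ ball S2 x, cls y = cls x → y = x) →
        ∀ c : X → Fin r, Measurable c → (∀ x, c x ∈ Adm p S2 cls c x) →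
          ∫ x, (kp S (pin c (fun _ => K) x) (2 * n) x x).re ∂μ
            ≤ (500 / Real.sqrt r) ^ (2 * n) + κ := by
  classical
  obtain ⟨J, hJ⟩ := book_end Q S (fun _ => K) (fun _ v w => hK.herm v w)
    (fun _ v w => hK.band v w) (fun _ v w => hK.bd v w) hK.cw n κ hκ
  set k : ℕ := 2 ^ J * n with hkdef
  have hk : 1 ≤ k := Nat.mul_pos (Nat.two_pow_pos J) hn
  have : NeZero r := ⟨by omega⟩
  have hr0 : (0 : ℝ) < r := by exact_mod_cast (by omega : 0 < r)
  have hsr : 0 < Real.sqrt r := Real.sqrt_pos.2 hr0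
  set β : ℝ := 2 * (2 * Real.sqrt 2 / Real.sqrt r) with hβdef
  have hβ : 0 < β := by positivity
  have hS1 : (1 : Gam) ∈ S ^ (2 * k) := Finset.one_mem_pow hK.one_mem
  have hSi : ∀ g ∈ S ^ (2 * k), g⁻¹ ∈ S ^ (2 * k) := inv_mem_pow hK.symm _
  have hfvs : FVS Q (S ^ (2 * k)) (pot Q K k β 48 (r := r)) :=
    fvs_pot hK hk hβ (by norm_num)
  refine ⟨S ^ (2 * k), pot Q K k β 48, hS1, hSi, hfvs, ?_, ?_⟩
  · intro cls c x
    have := card_Adm (S := S ^ (2 * k)) (cls := cls) (m := (r + 1) / 2)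
      (p := pot Q K k β 48 (r := r)) (fun s x hs => by
        convert good_pot hK hk hβ le_rfl hS1 s x hs) c x
    omega
  · intro cls N hcm hN hsep c hc hadm
    have hcF : MeasF c := fun a => hc (measurableSet_singleton a)
    have he : (0 : ℝ) ≤ 2 * (1 / 4) ^ k := by positivity
    have hsel := selection hSi hfvs hcm hN hsep he (fun x W _ _ hW => by
      convert start_pot hK hk (by omega) hβdef x W hW) hcF hadm
    rw [phi_pot hK hk hβ (by norm_num) hc, probReal_univ, mul_one] at hsel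
    have hB : (0 : ℝ) < 500 / Real.sqrt r := by positivity
    have hS' : ∀ l : List Gam, l.length ≤ 2 * (2 ^ J * n) → (∀ g ∈ l, g ∈ S) →
        l.prod ∈ S ^ (2 * k) := by
      intro l hl hlS
      have h1 : l.prod ∈ S ^ l.length := by
        clear hl
        induction l with
        | nil => simp
        | cons a l ih =>
          rw [List.prod_cons, List.length_cons, pow_succ']
          exact Finset.mul_mem_mul (hlS a (by simp))
            (ih fun g hg => hlS g (List.mem_cons_of_mem _ hg))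
      exact Finset.pow_subset_pow_right hK.one_mem hl h1
    refine (hJ J le_rfl r c hc _ hB (S ^ (2 * k)) hS' ?_).2.trans (le_of_eq ?_)
    · have hl : (0 : ℝ) ≤ 1 / (48 * β) := by positivity
      have hle : ∀ x, ((mat (tilt Q k (pin c fun _ => K) x) (ball (S ^ (2 * k)) x) ^ (2 * k))
          ⟨x, (near_ball S (S ^ (2 * k)) _ hS' x).mem⟩
          ⟨x, (near_ball S (S ^ (2 * k)) _ hS' x).mem⟩).re
          = (48 * β) ^ (2 * k) * den Q K k (1 / (48 * β)) c x x (ball (S ^ (2 * k)) x) := by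
        intro x
        have e1 := den_eq_tilt Q hK.herm k hl c x _ (near_ball S (S ^ (2 * k)) _ hS' x).mem
        have e2 : (48 * β) ^ (2 * k) * (1 / (48 * β)) ^ (2 * k) = 1 := by
          rw [← mul_pow, mul_one_div_cancel (by positivity), one_pow]
        exact eq_mul_of_eq_mul_aux e1 e2
      simp only [← hkdef]
      rw [integral_congr_ae (Filter.Eventually.of_forall hle), integral_const_mul, probReal_univ,
        one_mul]
      refine (mul_le_mul_of_nonneg_left hsel (by positivity)).trans ?_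
      have h2 : (2 : ℝ) ≤ 2 ^ (2 * k) := by
        calc (2 : ℝ) = 2 ^ 1 := by norm_num
          _ ≤ 2 ^ (2 * k) := pow_le_pow_right₀ (by norm_num) (by omega)
      have h3 : (48 * β) ^ (2 * k) * (2 * (1 / 4) ^ k) ≤ (48 * β) ^ (2 * k) := by
        have h4 : (2 : ℝ) * (1 / 4) ^ k ≤ 1 := by
          have : (1 / 4 : ℝ) ^ k = 1 / 2 ^ (2 * k) := by
            rw [one_div_pow, pow_mul 2 2 k, show (2 : ℝ) ^ 2 = 4 by norm_num]
          rw [this, mul_one_div, div_le_one (by positivity)]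
          exact h2
        calc (48 * β) ^ (2 * k) * (2 * (1 / 4) ^ k) ≤ (48 * β) ^ (2 * k) * 1 :=
              mul_le_mul_of_nonneg_left h4 (by positivity)
          _ = _ := mul_one _
      refine h3.trans (pow_le_pow_left₀ (by positivity) ?_ _)
      rw [hβdef]
      have h5 : Real.sqrt 2 ≤ 3 / 2 := by
        rw [Real.sqrt_le_left (by norm_num)]; norm_num
      have h6 : 48 * (2 * (2 * Real.sqrt 2 / Real.sqrt r)) = (192 * Real.sqrt 2) / Real.sqrt r := by
        ring
      rw [h6]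
      gcongr
      linarith
    · rw [probReal_univ, one_mul]

end Core

end Crest.Agent.R109.Book

namespace Crest.Agent.R109

open Crest.Agent.R109.Book

universe u

theorem cartCore : CartCoreProp.{u} := by
  intro Gam X _ _ _ μ _ Q S K hK r hr n hn κ hκ
  exact cart_core Q S K hK hr hn hκ

/-- **the measured list theorem** -/
theorem measList : MeasListProp.{u} := measList_of cartCore

end Crest.Agent.R109
end

-- ▼ part R109/ExQ1
section

/-!
# Row 109, ExistsQ, part 1: spectral cuts and simple function approximation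
-/

set_option autoImplicit false
set_option linter.unusedSectionVars false

namespace Crest.Agent.R109

open scoped InnerProductSpace
open ContinuousLinearMap Crest.Agent.R121 Crest.Agent.R124

universe u

variable {H : Type u} [NormedAddCommGroup H] [InnerProductSpace ℂ H] [CompleteSpace H]

lemma rp_commQ {b T : H →L[ℂ] H} (hb : star b = b) (h : T * b = b * T) :
    T * rp b = rp b * T := by
  have hs : star (rp b) = rp b := (rp_proj b).isSelfAdjoint
  have key : ∀ S : H →L[ℂ] H, S * b = b * S → rp b * S * rp b = S * rp b := by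
    intro S hS
    have h0 : (1 - rp b) * S * rp b = 0 := by
      apply mul_rp_eq_zero
      rw [mul_assoc, hS, ← mul_assoc, sub_mul, one_mul, rp_mul_self, sub_self, zero_mul]
    rw [sub_mul, one_mul, sub_mul, sub_eq_zero] at h0
    exact h0.symm
  have h1 := key T h
  have h' : star T * b = b * star T := by
    have := congrArg star h
    rw [star_mul, star_mul, hb] at this
    exact this.symm
  have h2 := congrArg star (key (star T) h')
  rw [star_mul, star_mul, star_mul, star_star, hs] at h2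
  rw [← h1, mul_assoc]
  exact h2

section Tr

variable {a : H →L[ℂ] H} (ha : 0 ≤ a)
include ha

lemma tr_comm {T : H →L[ℂ] H} (h : T * a = a * T) (t : ℝ) : T * tr a t = tr a t * T := by
  have h1 : Commute a T := h.symm
  exact (h1.cfc_real _).symm.eq

lemma tr_diff_le_one (t : ℝ) {δ : ℝ} (hδ : 0 < δ) :
    tr a t - tr a (t + δ) ≤ algebraMap ℝ (H →L[ℂ] H) δ := by
  have hsa : IsSelfAdjoint a := ha.isSelfAdjoint
  rw [tr_diff ha]
  refine cfc_le_algebraMap _ _ _ ?_ (by fun_prop) hsa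
  intro s _
  rcases le_total (s - t) 0 with h | h
  · rw [max_eq_right h, max_eq_right (by linarith)]; linarith
  · rw [max_eq_left h]
    have := le_max_left (s - (t + δ)) 0
    linarith

end Tr

/-- an operator supported by the projection `q` and bounded by `δ` -/
lemma le_smul_of_supp {G q : H →L[ℂ] H} {δ : ℝ} (hq : IsStarProjection q) (hG : G ≤ algebraMap ℝ _ δ)
    (h1 : q * G * q = G) : G ≤ δ • q := by
  have hs : star q = q := hq.isSelfAdjoint
  have := star_left_conjugate_le_conjugate hG q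
  rw [hs, h1, Algebra.algebraMap_eq_smul_one, mul_smul_comm, smul_mul_assoc, mul_one,
    hq.isIdempotentElem.eq] at this
  exact this

lemma smul_le_of_mul {G p : H →L[ℂ] H} {δ : ℝ} (hp : IsStarProjection p) (hG : 0 ≤ G)
    (h1 : G * p = δ • p) : δ • p ≤ G := by
  have hs : star p = p := hp.isSelfAdjoint
  have hGs : star G = G := hG.isSelfAdjoint
  have hpp : p * p = p := hp.isIdempotentElem
  have h2 : p * G = δ • p := by
    have := congrArg star h1
    rwa [star_mul, hGs, star_smul, hs, star_trivial] at this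
  have h3 : G - δ • p = star (1 - p) * G * (1 - p) := by
    rw [star_sub, star_one, hs]
    have : (1 - p) * G * (1 - p) = G - G * p - p * G + p * (G * p) := by noncomm_ring
    rw [this, h1, h2, mul_smul_comm, hpp]
    abel
  rw [← sub_nonneg, h3]
  exact star_left_conjugate_nonneg hG _

/-- simple function approximation of a positive operator by its spectral projections -/
theorem exists_simple {a : H →L[ℂ] H} (ha : 0 ≤ a) {δ : ℝ} (hδ : 0 < δ) :
    ∃ (n : ℕ) (q : Fin n → H →L[ℂ] H), (∀ k, IsStarProjection (q k)) ∧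
      (∀ T, T * a = a * T → ∀ k, T * q k = q k * T) ∧
      (∀ g : H →L[ℂ] H, g * a = 0 → ∀ k, g * q k = 0) ∧
      δ • ∑ k, q k ≤ a ∧ a ≤ δ • ∑ k, q k + algebraMap ℝ _ δ := by
  obtain ⟨n, hn⟩ := exists_nat_ge (‖a‖ / δ)
  have hn' : ‖a‖ ≤ (n + 1 : ℕ) * δ := by
    have h0 : ‖a‖ ≤ n * δ := (div_le_iff₀ hδ).1 hn
    push_cast
    nlinarith
  set b : ℕ → H →L[ℂ] H := fun k => tr a (k * δ) with hb
  have hbs : ∀ k : ℕ, b (k + 1) = tr a (k * δ + δ) := by
    intro k
    simp only [hb]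
    congr 1
    push_cast; ring
  have hb0 : b 0 = a := by simp only [hb]; simpa using tr_zero ha
  have hbn : b (n + 1) = 0 := tr_eq_zero ha hn'
  have hbsa : ∀ k, star (b k) = b k := fun k => tr_sa ha _
  set q : ℕ → H →L[ℂ] H := fun k => rp (b k) with hq
  have hqp : ∀ k, IsStarProjection (q k) := fun k => rp_proj _
  have hqa : ∀ k, ∀ g : H →L[ℂ] H, g * a = 0 → g * q k = 0 := by
    intro k g hg
    apply mul_rp_eq_zero
    induction k with
    | zero => rw [hb0, hg]
    | succ k ih =>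
      obtain ⟨c, hc⟩ := tr_factor ha (t := k * δ) hδ
      rw [hbs, hc, ← mul_assoc]
      change g * b k * c = 0
      rw [ih, zero_mul]
  set G : ℕ → H →L[ℂ] H := fun k => b k - b (k + 1) with hG
  have hGdef : ∀ k, G k = tr a (k * δ) - tr a (k * δ + δ) := fun k => by
    simp only [hG]; rw [hbs]
  have hGs : ∀ k, star (G k) = G k := by
    intro k
    simp only [hG, star_sub, hbsa]
  have hG0 : ∀ k, 0 ≤ G k := fun k => by rw [hGdef]; exact tr_diff_nonneg ha _ hδ
  have hup : ∀ k, G k ≤ δ • q k := by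
    intro k
    have h1 : q k * G k = G k := by
      obtain ⟨c, hc⟩ := tr_factor ha (t := k * δ) hδ
      have e1 : b (k + 1) = b k * c := by rw [hbs, hc]
      have e2 : q k * b k = b k := rp_mul_self _
      simp only [hG]
      rw [mul_sub, e1, ← mul_assoc, e2]
    have h2 : G k * q k = G k := by
      have := congrArg star h1
      rwa [star_mul, hGs, (hqp k).isSelfAdjoint.star_eq] at this
    refine le_smul_of_supp (hqp k) ?_ (by rw [h1, h2])
    rw [hGdef]
    exact tr_diff_le_one ha _ hδ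
  have hlow : ∀ k, δ • q (k + 1) ≤ G k := by
    intro k
    refine smul_le_of_mul (hqp _) (hG0 k) ?_
    have h1 : G k * q (k + 1) = (δ : ℂ) • q (k + 1) := by
      apply mul_rp_of
      rw [hGdef, hbs]
      exact tr_diff_mul ha _ hδ
    rw [h1]
    exact Complex.coe_smul δ _
  have e1 : ∑ k ∈ Finset.range (n + 1), G k = a := by
    rw [Finset.sum_range_sub' b (n + 1), hb0, hbn, sub_zero]
  have hqn : q (n + 1) = 0 := by
    have : q (n + 1) = rp (0 : H →L[ℂ] H) := by simp only [hq, hbn]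
    rw [this]
    have h2 := mul_rp_eq_zero (B := (1 : H →L[ℂ] H)) (b := 0) (by simp)
    rwa [one_mul] at h2
  refine ⟨n + 1, fun k => q (k + 1), fun k => hqp _, ?_, fun g hg k => hqa _ g hg, ?_, ?_⟩
  · intro T hT k
    exact rp_commQ (hbsa _) (tr_comm ha hT _)
  · rw [Finset.smul_sum, Fin.sum_univ_eq_sum_range (fun k => δ • q (k + 1)) (n + 1)]
    conv_rhs => rw [← e1]
    exact Finset.sum_le_sum fun k _ => hlow k
  · rw [Finset.smul_sum, Fin.sum_univ_eq_sum_range (fun k => δ • q (k + 1)) (n + 1)]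
    conv_lhs => rw [← e1]
    calc ∑ k ∈ Finset.range (n + 1), G k ≤ ∑ k ∈ Finset.range (n + 1), δ • q k :=
          Finset.sum_le_sum fun k _ => hup k
      _ = ∑ k ∈ Finset.range n, δ • q (k + 1) + δ • q 0 := by rw [Finset.sum_range_succ']
      _ ≤ ∑ k ∈ Finset.range (n + 1), δ • q (k + 1) + algebraMap ℝ _ δ := by
          rw [Finset.sum_range_succ, hqn, smul_zero, add_zero]
          gcongr
          have h3 : q 0 ≤ 1 := (hqp 0).le_one
          have h4 := smul_le_smul_of_nonneg_left h3 hδ.le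
          rwa [← Algebra.algebraMap_eq_smul_one] at h4

/-- spectral cut -/
noncomputable def cut (a : H →L[ℂ] H) (t : ℝ) : H →L[ℂ] H := rp (tr a t)

lemma cut_proj (a : H →L[ℂ] H) (t : ℝ) : IsStarProjection (cut a t) := rp_proj _

lemma cut_mem {M : VonNeumannAlgebra H} {a : H →L[ℂ] H} (ha : a ∈ M) (t : ℝ) : cut a t ∈ M :=
  rp_mem M (cfc_mem M ha _)

lemma cut_comm {a T : H →L[ℂ] H} (ha : 0 ≤ a) (h : T * a = a * T) (t : ℝ) :
    T * cut a t = cut a t * T := rp_commQ (tr_sa ha _) (tr_comm ha h _)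

lemma cut_supp {a g : H →L[ℂ] H} (ha : 0 ≤ a) {t : ℝ} (ht : 0 < t) (h : g * a = 0) :
    g * cut a t = 0 := by
  apply mul_rp_eq_zero
  obtain ⟨c, hc⟩ := tr_factor ha (t := 0) ht
  rw [zero_add, tr_zero ha] at hc
  rw [hc, ← mul_assoc, h, zero_mul]

/-- `t • cut a t ≤ a` -/
lemma cut_le {a : H →L[ℂ] H} (ha : 0 ≤ a) {t : ℝ} (ht : 0 < t) : t • cut a t ≤ a := by
  have h0 : tr a 0 - tr a (0 + t) ≤ a := by
    rw [tr_zero ha, sub_le_self_iff]
    exact cfc_nonneg fun s _ => le_max_right _ _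
  refine le_trans ?_ h0
  refine smul_le_of_mul (cut_proj a t) (tr_diff_nonneg ha _ ht) ?_
  have h1 : (tr a 0 - tr a (0 + t)) * cut a t = (t : ℂ) • cut a t := by
    apply mul_rp_of
    have := tr_diff_mul ha 0 ht
    rwa [zero_add] at this ⊢
  rw [h1]
  exact Complex.coe_smul t _

/-- `a` is at most `t` off the cut -/
lemma norm_mul_one_sub_cut {a : H →L[ℂ] H} (ha : 0 ≤ a) {t : ℝ} (ht : 0 < t) :
    ‖a * (1 - cut a t)‖ ≤ t := by
  have h1 : tr a t * (1 - cut a t) = 0 := by
    have h2 : tr a t * cut a t = tr a t := by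
      have := congrArg star (rp_mul_self (tr a t))
      rw [star_mul, tr_sa ha] at this
      rw [← (cut_proj a t).isSelfAdjoint.star_eq]
      exact this
    rw [mul_sub, mul_one, h2, sub_self]
  have h3 : a * (1 - cut a t) = (tr a 0 - tr a (0 + t)) * (1 - cut a t) := by
    rw [sub_mul, zero_add, h1, sub_zero, tr_zero ha]
  rw [h3]
  have h4 : ‖tr a 0 - tr a (0 + t)‖ ≤ t := by
    have h5 := CStarAlgebra.norm_le_norm_of_nonneg_of_le (tr_diff_nonneg ha 0 ht)
      (tr_diff_le_one ha 0 ht)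
    refine h5.trans ?_
    rw [Algebra.algebraMap_eq_smul_one, norm_smul, Real.norm_of_nonneg ht.le]
    have : ‖(1 : H →L[ℂ] H)‖ ≤ 1 := ContinuousLinearMap.norm_id_le
    nlinarith
  have h6 : ‖(1 - cut a t : H →L[ℂ] H)‖ ≤ 1 := (cut_proj a t).one_sub.norm_le
  calc _ ≤ ‖tr a 0 - tr a (0 + t)‖ * ‖(1 - cut a t : H →L[ℂ] H)‖ := norm_mul_le _ _
    _ ≤ t * 1 := by gcongr
    _ = t := mul_one _

end Crest.Agent.R109
end

-- ▼ part R109/ExQ2
section

/-!
# Row 109, ExistsQ, part 2: the normal part of a representation of a von Neumann algebra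

For a representation `π` of `B(H)` on `K` the vectors `u` of `K` such that `y ↦ π y u` is
dominated on `M` by a vector of `H` form a closed subspace, which reduces `π(M)` and its commutant.
-/

set_option autoImplicit false
set_option linter.unusedSectionVars false
set_option linter.style.haveILetI false

namespace Crest.Agent.R109

open scoped InnerProductSpace
open ContinuousLinearMap Crest.Agent.R121 Crest.Agent.R124

universe u v w

section Ext

variable {E K1 K2 : Type*} [AddCommGroup E] [Module ℂ E]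
  [NormedAddCommGroup K1] [InnerProductSpace ℂ K1] [CompleteSpace K1]
  [NormedAddCommGroup K2] [InnerProductSpace ℂ K2] [CompleteSpace K2]

/-- extension of a densely defined operator, with intertwining -/
theorem exists_ext (f1 : E →ₗ[ℂ] K1) (f2 : E →ₗ[ℂ] K2) (C : ℝ) (h : ∀ x, ‖f2 x‖ ≤ C * ‖f1 x‖) :
    ∃ W : K1 →L[ℂ] K2, (∀ x, W (f1 x) = f2 x) ∧
      ∀ (T1 : K1 →L[ℂ] K1) (T2 : K2 →L[ℂ] K2),
        (∀ x, ∃ y, f1 y = T1 (f1 x) ∧ f2 y = T2 (f2 x)) →
        (∀ x, ∃ y, f1 y = adjoint T1 (f1 x)) → ∀ v, W (T1 v) = T2 (W v) := by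
  set V : Submodule ℂ K1 := (LinearMap.range f1).topologicalClosure with hV
  haveI : CompleteSpace V := (Submodule.isClosed_topologicalClosure _).completeSpace_coe
  have hVc : (V : Set K1) = closure (Set.range f1) := by
    rw [hV, Submodule.topologicalClosure_coe]
    rfl
  have hmem : ∀ x, f1 x ∈ V := fun x =>
    Submodule.le_topologicalClosure _ (LinearMap.mem_range_self f1 x)
  set f1' : E →ₗ[ℂ] V := LinearMap.codRestrict V f1 hmem with hf1'
  have hcoe : ∀ x, ((f1' x : V) : K1) = f1 x := fun x => rfl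
  have hdense : DenseRange f1' := by
    intro y
    have hy : (y : K1) ∈ closure (Set.range f1) := hVc ▸ y.2
    rw [mem_closure_iff_seq_limit] at hy ⊢
    obtain ⟨s, hs, hlim⟩ := hy
    choose t ht using hs
    refine ⟨fun n => f1' (t n), fun n => ⟨t n, rfl⟩, ?_⟩
    rw [tendsto_subtype_rng]
    simpa [hcoe, ht] using! hlim
  have hbd : ∀ x, ‖f2 x‖ ≤ C * ‖f1' x‖ := h
  set U0 : V →L[ℂ] K2 := f2.extendOfNorm f1' with hU0
  have hU0a : ∀ x, U0 (f1' x) = f2 x := fun x =>
    LinearMap.extendOfNorm_eq hdense ⟨C, hbd⟩ x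
  set W : K1 →L[ℂ] K2 := U0.comp V.orthogonalProjectionOnto with hW
  have hWV : ∀ y : V, W y = U0 y := by
    intro y
    change U0 (V.orthogonalProjectionOnto (y : K1)) = U0 y
    rw [Submodule.orthogonalProjectionOnto_mem_subspace_eq_self]
  have hWp : ∀ v, V.starProjection v = 0 → W v = 0 := by
    intro v hv
    change U0 (V.orthogonalProjectionOnto v) = 0
    have : V.orthogonalProjectionOnto v = 0 := by
      apply Subtype.ext
      exact hv
    rw [this, map_zero]
  refine ⟨W, fun x => ?_, ?_⟩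
  · rw [← hcoe, hWV, hU0a]
  · intro T1 T2 h1 h2 v
    have hV1 : ∀ y : V, W (T1 (y : K1)) = T2 (W (y : K1)) := by
      intro y
      refine hdense.induction_on (p := fun y : V => W (T1 (y : K1)) = T2 (W (y : K1))) y
        (isClosed_eq (by fun_prop) (by fun_prop)) ?_
      intro x
      obtain ⟨x', e1, e2⟩ := h1 x
      rw [hWV, hU0a, hcoe, ← e1, ← e2, ← hcoe, hWV, hU0a]
    have hsp : V.starProjection (v - V.starProjection v) = 0 := by
      have h2 : V.starProjection (V.starProjection v) = V.starProjection v :=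
        Submodule.starProjection_eq_self_iff.2 (Submodule.starProjection_apply_mem _ _)
      rw [map_sub, h2, sub_self]
    have e1 : W (T1 (v - V.starProjection v)) = 0 := by
      apply hWp
      rw [Submodule.starProjection_apply_eq_zero_iff, Submodule.mem_orthogonal] at hsp ⊢
      intro y hy
      have hy' : y ∈ closure (Set.range f1) := hVc ▸ hy
      have hcl : IsClosed {z : K1 | ⟪z, T1 (v - V.starProjection v)⟫_ℂ = 0} :=
        isClosed_eq (by fun_prop) continuous_const
      refine closure_minimal ?_ hcl hy'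
      rintro _ ⟨x, rfl⟩
      change ⟪f1 x, T1 (v - V.starProjection v)⟫_ℂ = 0
      rw [← adjoint_inner_left]
      obtain ⟨x', e'⟩ := h2 x
      rw [← e']
      exact hsp _ (hmem x')
    have e2 : W (v - V.starProjection v) = 0 := hWp _ hsp
    have e3 : W (T1 (V.starProjection v)) = T2 (W (V.starProjection v)) :=
      hV1 ⟨V.starProjection v, Submodule.starProjection_apply_mem _ _⟩
    rw [map_sub, map_sub, sub_eq_zero] at e1
    rw [map_sub, sub_eq_zero] at e2
    rw [e1, e3, e2]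

end Ext

variable {H : Type u} [NormedAddCommGroup H] [InnerProductSpace ℂ H] [CompleteSpace H]
variable {K : Type v} [NormedAddCommGroup K] [InnerProductSpace ℂ K] [CompleteSpace K]
variable {L : Type w} [NormedAddCommGroup L] [InnerProductSpace ℂ L] [CompleteSpace L]
variable (M : VonNeumannAlgebra H)

/-- evaluation of a representation at a vector -/
noncomputable def ev (π : (H →L[ℂ] H) →⋆ₐ[ℂ] (K →L[ℂ] K)) (u : K) : ↥M.toStarSubalgebra →ₗ[ℂ] K where
  toFun y := π (y : H →L[ℂ] H) u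
  map_add' x y := by simp
  map_smul' c x := by simp

lemma ev_apply (π : (H →L[ℂ] H) →⋆ₐ[ℂ] (K →L[ℂ] K)) (u : K) (y : ↥M.toStarSubalgebra) :
    ev M π u y = π (y : H →L[ℂ] H) u := rfl

theorem exists_intertwiner (π : (H →L[ℂ] H) →⋆ₐ[ℂ] (K →L[ℂ] K))
    (ρ : (H →L[ℂ] H) →⋆ₐ[ℂ] (L →L[ℂ] L)) (u : K) (u' : L) (C : ℝ)
    (h : ∀ y ∈ M, ‖ρ y u'‖ ≤ C * ‖π y u‖) :
    ∃ W : K →L[ℂ] L, (∀ y ∈ M, W (π y u) = ρ y u') ∧ ∀ y ∈ M, ∀ v, W (π y v) = ρ y (W v) := by
  obtain ⟨W, h1, h2⟩ := exists_ext (ev M π u) (ev M ρ u') C (fun x => h x x.2)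
  refine ⟨W, fun y hy => h1 ⟨y, hy⟩, fun y hy v => h2 (π y) (ρ y) ?_ ?_ v⟩
  · intro x
    refine ⟨⟨y * x, mul_mem hy x.2⟩, ?_, ?_⟩
    · rw [ev_apply, ev_apply]
      simp
    · rw [ev_apply, ev_apply]
      simp
  · intro x
    refine ⟨⟨star y * x, mul_mem (star_mem hy) x.2⟩, ?_⟩
    rw [ev_apply, ev_apply, ← star_eq_adjoint, ← map_star]
    simp

/-- Radon--Nikodym: a dominated vector is equivalent to a vector -/
theorem exists_rn (π : (H →L[ℂ] H) →⋆ₐ[ℂ] (K →L[ℂ] K)) {u : K} {ζ : H}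
    (h : ∀ y ∈ M, ‖π y u‖ ≤ ‖y ζ‖) : ∃ ζ' : H, ∀ y ∈ M, ‖π y u‖ = ‖y ζ'‖ := by
  obtain ⟨W, h1, h2⟩ := exists_intertwiner M (StarAlgHom.id ℂ (H →L[ℂ] H)) π ζ u 1
    (fun y hy => by rw [one_mul]; exact h y hy)
  change ∀ y ∈ M, W (y ζ) = π y u at h1
  change ∀ y ∈ M, ∀ v, W (y v) = π y (W v) at h2
  set g : H →L[ℂ] H := (adjoint W).comp W with hg
  have hg0 : 0 ≤ g := by
    rw [ContinuousLinearMap.nonneg_iff_isPositive]
    exact isPositive_adjoint_comp_self W
  have hin : ∀ a b, ⟪g a, b⟫_ℂ = ⟪W a, W b⟫_ℂ := by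
    intro a b
    change ⟪adjoint W (W a), b⟫_ℂ = _
    rw [adjoint_inner_left]
  have hgM : g ∈ M.commutant := by
    rw [VonNeumannAlgebra.mem_commutant_iff]
    intro y hy
    ext a
    refine ext_inner_right ℂ fun b => ?_
    change ⟪y (g a), b⟫_ℂ = ⟪g (y a), b⟫_ℂ
    rw [hin, h2 y hy, ← adjoint_inner_right, hin, ← star_eq_adjoint, h2 _ (star_mem hy), map_star,
      star_eq_adjoint, adjoint_inner_right]
  set s := CFC.sqrt g with hs
  have hs0 : 0 ≤ s := CFC.sqrt_nonneg g
  have hss : s * s = g := CFC.sqrt_mul_sqrt_self g hg0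
  have hsM : s ∈ M.commutant := by
    rw [hs, CFC.sqrt_eq_real_sqrt g hg0, cfcₙ_eq_cfc]
    exact cfc_mem M.commutant hgM _
  refine ⟨s ζ, fun y hy => ?_⟩
  have e1 : y (s ζ) = s (y ζ) := by
    have := (VonNeumannAlgebra.mem_commutant_iff.1 hsM) y hy
    exact congrArg (fun F : H →L[ℂ] H => F ζ) this
  rw [e1, ← h1 y hy]
  have e2 : ‖s (y ζ)‖ ^ 2 = ‖W (y ζ)‖ ^ 2 := by
    have e3 : ⟪s (y ζ), s (y ζ)⟫_ℂ = ⟪W (y ζ), W (y ζ)⟫_ℂ := by
      have hsa : adjoint s = s := hs0.isSelfAdjoint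
      rw [← hin, ← hss]
      conv_lhs => rw [← hsa, adjoint_inner_right, hsa]
      rfl
    rw [← inner_self_eq_norm_sq (𝕜 := ℂ), ← inner_self_eq_norm_sq (𝕜 := ℂ), e3]
  exact ((pow_left_inj₀ (norm_nonneg _) (norm_nonneg _) two_ne_zero).1 e2).symm

end Crest.Agent.R109
end

-- ▼ part R109/ExQ3
section

/-!
# Row 109, ExistsQ, part 3: the closed subspace of normal vectors
-/

set_option autoImplicit false
set_option linter.unusedSectionVars false
set_option linter.style.haveILetI false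

namespace Crest.Agent.R109

open scoped InnerProductSpace Topology
open ContinuousLinearMap Crest.Agent.R121 Crest.Agent.R124 Filter

universe u v w

variable {H : Type u} [NormedAddCommGroup H] [InnerProductSpace ℂ H] [CompleteSpace H]
variable {K : Type v} [NormedAddCommGroup K] [InnerProductSpace ℂ K] [CompleteSpace K]
variable {M : VonNeumannAlgebra H}

lemma comm_app {x T : H →L[ℂ] H} (hx : x ∈ M) (hT : T ∈ M.commutant) (v : H) :
    x (T v) = T (x v) := by
  have := congrArg (fun F : H →L[ℂ] H => F v) (commutant_comm M hx hT)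
  exact this.symm

/-- infinitely many isometries with orthogonal ranges in the commutant -/
theorem exists_isoms (hA : Amp M) : ∃ J : ℕ → H →L[ℂ] H, (∀ n, J n ∈ M.commutant) ∧
    (∀ n, star (J n) * J n = 1) ∧ ∀ m n, m ≠ n → star (J m) * J n = 0 := by
  obtain ⟨S, T, hS, hT, hSS, hTT, hST⟩ := hA
  have hTS : star T * S = 0 := by
    have := congrArg star hST
    rwa [star_mul, star_star, star_zero] at this
  have hpow : ∀ n, star (S ^ n) * S ^ n = 1 := by
    intro n
    induction n with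
    | zero => simp
    | succ n ih =>
      rw [pow_succ', star_mul]
      calc star (S ^ n) * star S * (S * S ^ n) = star (S ^ n) * (star S * S) * S ^ n := by
            simp only [mul_assoc]
        _ = 1 := by rw [hSS, mul_one, ih]
  have hlt : ∀ m n, m < n → star (S ^ m * T) * (S ^ n * T) = 0 := by
    intro m n hmn
    obtain ⟨k, rfl⟩ := Nat.exists_eq_add_of_lt hmn
    have e1 : S ^ (m + k + 1) = S ^ m * (S * S ^ k) := by
      rw [← pow_succ', ← pow_add, add_assoc]
    rw [e1, star_mul]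
    calc star T * star (S ^ m) * (S ^ m * (S * S ^ k) * T)
        = star T * (star (S ^ m) * S ^ m) * (S * S ^ k * T) := by simp only [mul_assoc]
      _ = (star T * S) * (S ^ k * T) := by rw [hpow, mul_one]; simp only [mul_assoc]
      _ = 0 := by rw [hTS, zero_mul]
  refine ⟨fun n => S ^ n * T, fun n => mul_mem (pow_mem hS n) hT, ?_, ?_⟩
  · intro n
    rw [star_mul]
    calc star T * star (S ^ n) * (S ^ n * T) = star T * (star (S ^ n) * S ^ n) * T := by
          simp only [mul_assoc]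
      _ = 1 := by rw [hpow, mul_one, hTT]
  · intro m n hmn
    rcases lt_or_gt_of_ne hmn with h | h
    · exact hlt m n h
    · have := congrArg star (hlt n m h)
      rwa [star_mul, star_star, star_zero] at this

lemma norm_star_isom {J : H →L[ℂ] H} (h : star J * J = 1) (v : H) : ‖star J v‖ ≤ ‖v‖ := by
  have h1 : ‖J‖ ≤ 1 := by
    have h2 : ‖star J * J‖ = ‖J‖ * ‖J‖ := CStarRing.norm_star_mul_self
    rw [h] at h2
    have h3 : ‖(1 : H →L[ℂ] H)‖ ≤ 1 := ContinuousLinearMap.norm_id_le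
    nlinarith [norm_nonneg J]
  have h2 : ‖star J‖ ≤ 1 := by rwa [norm_star]
  calc ‖star J v‖ ≤ ‖star J‖ * ‖v‖ := le_opNorm _ _
    _ ≤ 1 * ‖v‖ := by gcongr
    _ = _ := one_mul _

/-- the normal vectors of a representation -/
def Rs (hA : Amp M) (π : (H →L[ℂ] H) →⋆ₐ[ℂ] (K →L[ℂ] K)) : Submodule ℂ K where
  carrier := {u | ∃ ζ : H, ∀ y ∈ M, ‖π y u‖ ≤ ‖y ζ‖}
  add_mem' := by
    rintro u₁ u₂ ⟨ζ₁, h₁⟩ ⟨ζ₂, h₂⟩
    obtain ⟨J, hJ, hJJ, hJo⟩ := exists_isoms hA
    refine ⟨(2 : ℂ) • (J 0 ζ₁ + J 1 ζ₂), fun y hy => ?_⟩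
    have e : ∀ n, star (J n) (y (J 0 ζ₁ + J 1 ζ₂)) = y (star (J n) (J 0 ζ₁ + J 1 ζ₂)) :=
      fun n => (comm_app hy (star_mem (hJ n)) _).symm
    have e0 : star (J 0) (J 0 ζ₁ + J 1 ζ₂) = ζ₁ := by
      have f1 : star (J 0) (J 0 ζ₁) = (star (J 0) * J 0) ζ₁ := rfl
      have f2 : star (J 0) (J 1 ζ₂) = (star (J 0) * J 1) ζ₂ := rfl
      rw [map_add, f1, f2, hJJ, hJo 0 1 (by norm_num)]
      simp
    have e1 : star (J 1) (J 0 ζ₁ + J 1 ζ₂) = ζ₂ := by
      have f1 : star (J 1) (J 0 ζ₁) = (star (J 1) * J 0) ζ₁ := rfl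
      have f2 : star (J 1) (J 1 ζ₂) = (star (J 1) * J 1) ζ₂ := rfl
      rw [map_add, f1, f2, hJJ, hJo 1 0 (by norm_num)]
      simp
    have n0 : ‖y ζ₁‖ ≤ ‖y (J 0 ζ₁ + J 1 ζ₂)‖ := by
      rw [← e0, ← e 0, e0]
      exact norm_star_isom (hJJ 0) _
    have n1 : ‖y ζ₂‖ ≤ ‖y (J 0 ζ₁ + J 1 ζ₂)‖ := by
      rw [← e1, ← e 1, e1]
      exact norm_star_isom (hJJ 1) _
    calc ‖π y (u₁ + u₂)‖ ≤ ‖π y u₁‖ + ‖π y u₂‖ := by rw [map_add]; exact norm_add_le _ _
      _ ≤ ‖y ζ₁‖ + ‖y ζ₂‖ := add_le_add (h₁ y hy) (h₂ y hy)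
      _ ≤ ‖y (J 0 ζ₁ + J 1 ζ₂)‖ + ‖y (J 0 ζ₁ + J 1 ζ₂)‖ := add_le_add n0 n1
      _ = _ := by
        rw [map_smul, norm_smul]
        norm_num
        ring
  zero_mem' := ⟨0, fun y _ => by simp⟩
  smul_mem' := by
    rintro c u ⟨ζ, h⟩
    refine ⟨c • ζ, fun y hy => ?_⟩
    rw [map_smul, map_smul, norm_smul, norm_smul]
    exact mul_le_mul_of_nonneg_left (h y hy) (norm_nonneg _)

variable {hA : Amp M} {π : (H →L[ℂ] H) →⋆ₐ[ℂ] (K →L[ℂ] K)}


lemma Rs_of_le {u : K} {ζ : H} (c : ℝ) (h : ∀ y ∈ M, ‖π y u‖ ≤ c * ‖y ζ‖) : u ∈ Rs hA π := by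
  refine ⟨((|c| : ℝ) : ℂ) • ζ, fun y hy => (h y hy).trans ?_⟩
  rw [map_smul, norm_smul, Complex.norm_real, Real.norm_eq_abs, abs_abs]
  exact mul_le_mul_of_nonneg_right (le_abs_self c) (norm_nonneg _)

lemma Rs_pi {b : H →L[ℂ] H} (hb : b ∈ M) {u : K} (hu : u ∈ Rs hA π) : π b u ∈ Rs hA π := by
  obtain ⟨ζ, h⟩ := hu
  refine ⟨b ζ, fun y hy => ?_⟩
  have h1 := h (y * b) (mul_mem hy hb)
  rw [map_mul] at h1
  exact h1

lemma Rs_comm {V : K →L[ℂ] K} (hV : ∀ y ∈ M, π y * V = V * π y) {u : K} (hu : u ∈ Rs hA π) :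
    V u ∈ Rs hA π := by
  obtain ⟨ζ, h⟩ := hu
  refine Rs_of_le (ζ := ζ) ‖V‖ fun y hy => ?_
  have h1 : π y (V u) = V (π y u) := congrArg (fun F : K →L[ℂ] K => F u) (hV y hy)
  rw [h1]
  exact (le_opNorm _ _).trans (mul_le_mul_of_nonneg_left (h y hy) (norm_nonneg _))

theorem Rs_isClosed : IsClosed (Rs hA π : Set K) := by
  refine isClosed_of_closure_subset fun u hu => ?_
  obtain ⟨J, hJ, hJJ, hJo⟩ := exists_isoms hA
  have hex : ∀ k : ℕ, ∃ r ∈ Rs hA π, ‖u - r‖ < (1 / 4 : ℝ) ^ k := by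
    intro k
    obtain ⟨r, hr, h⟩ := Metric.mem_closure_iff.1 hu ((1 / 4 : ℝ) ^ k) (by positivity)
    exact ⟨r, hr, by rwa [dist_eq_norm] at h⟩
  choose r hr hur using hex
  set d : ℕ → K := fun k => Nat.rec (r 0) (fun j _ => r (j + 1) - r j) k with hd
  have hd0 : d 0 = r 0 := rfl
  have hds : ∀ k, d (k + 1) = r (k + 1) - r k := fun k => rfl
  have hdR : ∀ k, d k ∈ Rs hA π := by
    intro k
    cases k with
    | zero => exact hr 0
    | succ k => rw [hds]; exact Submodule.sub_mem _ (hr _) (hr _)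
  have hsum : ∀ n, ∑ k ∈ Finset.range (n + 1), d k = r n := by
    intro n
    induction n with
    | zero => simp [hd0]
    | succ n ih => rw [Finset.sum_range_succ, ih, hds]; abel
  have hdn : ∀ k, ‖d (k + 1)‖ ≤ 2 * (1 / 4 : ℝ) ^ k := by
    intro k
    rw [hds]
    have e1 : r (k + 1) - r k = (u - r k) - (u - r (k + 1)) := by abel
    rw [e1]
    refine (norm_sub_le _ _).trans ?_
    have h1 := (hur k).le
    have h2 := (hur (k + 1)).le
    rw [pow_succ] at h2
    have h3 : (0 : ℝ) ≤ (1 / 4 : ℝ) ^ k := by positivity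
    linarith
  have hrn : ∀ k, ∃ ζ' : H, ∀ y ∈ M, ‖π y (d k)‖ = ‖y ζ'‖ := by
    intro k
    obtain ⟨ζ, h⟩ := hdR k
    exact exists_rn M π h
  choose ζ hζ using hrn
  have hζn : ∀ k, ‖ζ k‖ = ‖d k‖ := by
    intro k
    have := hζ k 1 (one_mem _)
    rw [map_one] at this
    exact this.symm
  have hJn : ∀ k v, ‖J k v‖ = ‖v‖ := by
    intro k v
    have h1 := norm_sq_of_fix (u := J k) (η := v) (by rw [hJJ]; rfl)
    exact (pow_left_inj₀ (norm_nonneg _) (norm_nonneg _) two_ne_zero).1 h1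
  have hsm : Summable fun k => ((2 : ℂ) ^ k) • J k (ζ k) := by
    rw [← summable_nat_add_iff 1]
    refine Summable.of_norm_bounded (g := fun k => 4 * (1 / 2 : ℝ) ^ k)
      ((summable_geometric_of_lt_one (by norm_num) (by norm_num)).mul_left 4) ?_
    intro k
    rw [norm_smul, hJn, hζn, norm_pow]
    have h1 := hdn k
    have h2 : ‖(2 : ℂ)‖ = 2 := by norm_num
    rw [h2]
    have h3 : (0 : ℝ) < 2 ^ (k + 1) := by positivity
    calc (2 : ℝ) ^ (k + 1) * ‖d (k + 1)‖ ≤ 2 ^ (k + 1) * (2 * (1 / 4 : ℝ) ^ k) := by gcongr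
      _ = 4 * (2 ^ k * (1 / 4 : ℝ) ^ k) := by ring
      _ = 4 * (1 / 2 : ℝ) ^ k := by rw [← mul_pow]; norm_num
  set η : H := ∑' k, ((2 : ℂ) ^ k) • J k (ζ k) with hη
  have hJη : ∀ k, star (J k) η = (2 : ℂ) ^ k • ζ k := by
    intro k
    rw [hη, ContinuousLinearMap.map_tsum _ hsm, tsum_eq_single k]
    · rw [map_smul]
      have : star (J k) (J k (ζ k)) = (star (J k) * J k) (ζ k) := rfl
      rw [this, hJJ]
      rfl
    · intro m hm
      rw [map_smul]
      have : star (J k) (J m (ζ m)) = (star (J k) * J m) (ζ m) := rfl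
      rw [this, hJo k m hm.symm]
      simp
  have hbound : ∀ y ∈ M, ∀ k, ‖π y (d k)‖ ≤ (1 / 2 : ℝ) ^ k * ‖y η‖ := by
    intro y hy k
    rw [hζ k y hy]
    have e1 : star (J k) (y η) = y (star (J k) η) := (comm_app hy (star_mem (hJ k)) _).symm
    have e2 : ‖star (J k) (y η)‖ = 2 ^ k * ‖y (ζ k)‖ := by
      rw [e1, hJη, map_smul, norm_smul, norm_pow]
      norm_num
    have e3 := norm_star_isom (hJJ k) (y η)
    rw [e2] at e3
    have h3 : (0 : ℝ) < 2 ^ k := by positivity
    calc ‖y (ζ k)‖ = (1 / 2 : ℝ) ^ k * (2 ^ k * ‖y (ζ k)‖) := by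
          rw [← mul_assoc, ← mul_pow]; norm_num
      _ ≤ _ := by gcongr
  have hlim : Tendsto r atTop (𝓝 u) := by
    rw [tendsto_iff_norm_sub_tendsto_zero]
    refine squeeze_zero (fun _ => norm_nonneg _) (fun n => ?_)
      (tendsto_pow_atTop_nhds_zero_of_lt_one (r := (1 / 4 : ℝ)) (by norm_num) (by norm_num))
    rw [norm_sub_rev]
    exact (hur n).le
  refine Rs_of_le (ζ := η) 2 fun y hy => ?_
  have hlim2 : Tendsto (fun n => ‖π y (r n)‖) atTop (𝓝 ‖π y u‖) :=
    (((π y).continuous.tendsto u).comp hlim).norm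
  refine le_of_tendsto hlim2 (Eventually.of_forall fun n => ?_)
  rw [← hsum n, map_sum]
  calc ‖∑ k ∈ Finset.range (n + 1), π y (d k)‖ ≤ ∑ k ∈ Finset.range (n + 1), ‖π y (d k)‖ :=
        norm_sum_le _ _
    _ ≤ ∑ k ∈ Finset.range (n + 1), (1 / 2 : ℝ) ^ k * ‖y η‖ :=
        Finset.sum_le_sum fun k _ => hbound y hy k
    _ = (∑ k ∈ Finset.range (n + 1), (1 / 2 : ℝ) ^ k) * ‖y η‖ := by rw [Finset.sum_mul]
    _ ≤ 2 * ‖y η‖ := by
        gcongr
        exact sum_geometric_two_le _

/-- the projection onto the normal vectors -/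
lemma cproj_Rs_mem (t : K) : cproj (Rs hA π) t ∈ Rs hA π := by
  have h := cproj_apply_mem (W := Rs hA π) t
  rw [Rs_isClosed.closure_eq] at h
  exact h

lemma cproj_Rs_pi {b : H →L[ℂ] H} (hb : b ∈ M) :
    π b * cproj (Rs hA π) = cproj (Rs hA π) * π b := by
  refine cproj_comm (fun w hw => Rs_pi hb hw) (fun w hw => ?_)
  rw [← map_star]
  exact Rs_pi (star_mem hb) hw

lemma cproj_Rs_comm {V : K →L[ℂ] K} (hV : ∀ y ∈ M, π y * V = V * π y) :
    V * cproj (Rs hA π) = cproj (Rs hA π) * V := by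
  refine cproj_comm (fun w hw => Rs_comm hV hw) (fun w hw => Rs_comm ?_ hw)
  intro y hy
  have := congrArg star (hV (star y) (star_mem hy))
  rw [star_mul, star_mul, map_star, star_star] at this
  exact this.symm

end Crest.Agent.R109
end

-- ▼ part R109/ExQ4
section

/-!
# Row 109, ExistsQ, part 4: without central vectors the functional is singular
-/

set_option autoImplicit false
set_option linter.unusedSectionVars false
set_option linter.style.haveILetI false

namespace Crest.Agent.R109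

open scoped InnerProductSpace Topology
open ContinuousLinearMap Crest.Agent.R121 Crest.Agent.R124 Filter

universe u v w

variable {H : Type u} [NormedAddCommGroup H] [InnerProductSpace ℂ H] [CompleteSpace H]
variable {K : Type v} [NormedAddCommGroup K] [InnerProductSpace ℂ K] [CompleteSpace K]
variable {M : VonNeumannAlgebra H} {A : StarSubalgebra ℂ (H →L[ℂ] H)}

section Quad

lemma re_inner_mono {a b : H →L[ℂ] H} (h : a ≤ b) (η : H) :
    (⟪a η, η⟫_ℂ).re ≤ (⟪b η, η⟫_ℂ).re := by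
  have h1 := re_inner_nonneg (sub_nonneg.2 h) η
  rw [sub_apply, inner_sub_left, Complex.sub_re] at h1
  linarith

lemma re_inner_rsmul (δ : ℝ) (a : H →L[ℂ] H) (η : H) :
    (⟪(δ • a) η, η⟫_ℂ).re = δ * (⟪a η, η⟫_ℂ).re := by
  have e : (δ • a) η = (δ : ℂ) • a η := (Complex.coe_smul δ (a η)).symm
  rw [e, inner_smul_left, Complex.conj_ofReal, Complex.re_ofReal_mul]

lemma re_inner_sum {ι : Type*} (s : Finset ι) (a : ι → H →L[ℂ] H) (η : H) :
    (⟪(∑ i ∈ s, a i) η, η⟫_ℂ).re = ∑ i ∈ s, (⟪a i η, η⟫_ℂ).re := by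
  rw [sum_apply, sum_inner, Complex.re_sum]

lemma re_inner_one (η : H) : (⟪(1 : H →L[ℂ] H) η, η⟫_ℂ).re = ‖η‖ ^ 2 :=
  inner_self_eq_norm_sq (𝕜 := ℂ) η

lemma re_inner_algebraMap (δ : ℝ) (η : H) :
    (⟪(algebraMap ℝ (H →L[ℂ] H) δ) η, η⟫_ℂ).re = δ * ‖η‖ ^ 2 := by
  rw [Algebra.algebraMap_eq_smul_one, re_inner_rsmul, re_inner_one]

lemma isStarProjection_map (π : (H →L[ℂ] H) →⋆ₐ[ℂ] (K →L[ℂ] K)) {p : H →L[ℂ] H}
    (hp : IsStarProjection p) : IsStarProjection (π p) := by
  refine ⟨?_, ?_⟩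
  · change π p * π p = π p
    rw [← map_mul, hp.isIdempotentElem.eq]
  · change star (π p) = π p
    rw [← map_star, hp.isSelfAdjoint.star_eq]

lemma sum_isProj {ι : Type*} (F : Finset ι) (p : ι → H →L[ℂ] H)
    (hp : ∀ i ∈ F, IsStarProjection (p i)) (ho : ∀ i ∈ F, ∀ j ∈ F, i ≠ j → p i * p j = 0) :
    IsStarProjection (∑ i ∈ F, p i) := by
  refine ⟨?_, ?_⟩
  · change (∑ i ∈ F, p i) * (∑ i ∈ F, p i) = _
    rw [Finset.sum_mul]
    refine Finset.sum_congr rfl fun i hi => ?_
    rw [Finset.mul_sum, Finset.sum_eq_single i]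
    · exact (hp i hi).isIdempotentElem
    · intro j hj hji
      exact ho i hi j hj hji.symm
    · intro h; exact absurd hi h
  · change star (∑ i ∈ F, p i) = _
    rw [star_sum]
    exact Finset.sum_congr rfl fun i hi => (hp i hi).isSelfAdjoint

end Quad

section Central

variable {π : (H →L[ℂ] H) →⋆ₐ[ℂ] (K →L[ℂ] K)}

/-- equal norms give equal functionals -/
lemma inner_of_norm {ω : K} {η : H} (h : ∀ y ∈ M, ‖π y ω‖ = ‖y η‖) {x : H →L[ℂ] H} (hx : x ∈ M) :
    ⟪ω, π x ω⟫_ℂ = ⟪η, x η⟫_ℂ := by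
  have hI : ∀ c : ℂ, ‖ω + c • π x ω‖ = ‖η + c • x η‖ := by
    intro c
    have := h (1 + c • x) (add_mem (one_mem _) (M.toStarSubalgebra.smul_mem hx c))
    simpa using this
  have h1 := hI 1
  have h2 := hI (-1)
  have h3 := hI (-RCLike.I)
  have h4 := hI RCLike.I
  rw [one_smul, one_smul] at h1
  rw [neg_one_smul, neg_one_smul, ← sub_eq_add_neg, ← sub_eq_add_neg] at h2
  rw [neg_smul, neg_smul, ← sub_eq_add_neg, ← sub_eq_add_neg] at h3
  rw [inner_eq_sum_norm_sq_div_four, inner_eq_sum_norm_sq_div_four, h1, h2, h3, h4]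

/-- centrality for the projections gives centrality -/
theorem cvec_of_proj (hM : Masa M A) {η : H}
    (h : ∀ e ∈ A, IsStarProjection e → ∀ x ∈ M, ⟪η, (e * x) η⟫_ℂ = ⟪η, (x * e) η⟫_ℂ) :
    CVec M A η := by
  set P : (H →L[ℂ] H) → Prop := fun a => ∀ x ∈ M, ⟪η, (a * x) η⟫_ℂ = ⟪η, (x * a) η⟫_ℂ with hP
  have hadd : ∀ a b, P a → P b → P (a + b) := by
    intro a b ha hb x hx
    rw [add_mul, mul_add, add_apply, add_apply, inner_add_right, inner_add_right, ha x hx, hb x hx]
  have hsmul : ∀ (c : ℂ) a, P a → P (c • a) := by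
    intro c a ha x hx
    rw [smul_mul_assoc, mul_smul_comm, smul_apply, smul_apply, inner_smul_right, inner_smul_right,
      ha x hx]
  have hsum : ∀ (n : ℕ) (q : Fin n → H →L[ℂ] H), (∀ k, P (q k)) → P (∑ k, q k) := by
    intro n q hq x hx
    rw [Finset.sum_mul, Finset.mul_sum, sum_apply,
      sum_apply, inner_sum, inner_sum]
    exact Finset.sum_congr rfl fun k _ => hq k x hx
  have h1 : P 1 := fun x hx => by rw [one_mul, mul_one]
  have hpos : ∀ a ∈ A, 0 ≤ a → P a := by
    intro a haA ha x hx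
    have key : ∀ δ : ℝ, 0 < δ →
        ‖⟪η, (a * x) η⟫_ℂ - ⟪η, (x * a) η⟫_ℂ‖ ≤ δ * (2 * ‖x‖ * ‖η‖ ^ 2) := by
      intro δ hδ
      obtain ⟨n, q, hqp, hqc, -, hl, hu⟩ := exists_simple ha hδ
      have hqA : ∀ k, q k ∈ A := by
        intro k
        apply hM.max
        · exact mem_of_commutant M _ fun T hT =>
            hqc T (commutant_comm M (hM.le haA) hT) k
        · intro b hb
          exact hqc b (hM.comm b hb a haA) k
      set s : H →L[ℂ] H := δ • ∑ k, q k with hs
      have hsP : P s := by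
        have e : s = (δ : ℂ) • ∑ k, q k := (Complex.coe_smul δ _).symm
        rw [e]
        exact hsmul _ _ (hsum _ _ fun k => h _ (hqA k) (hqp k))
      have hn : ‖a - s‖ ≤ δ := by
        have h5 := CStarAlgebra.norm_le_norm_of_nonneg_of_le (sub_nonneg.2 hl)
          (sub_le_iff_le_add'.2 hu)
        refine h5.trans ?_
        rw [Algebra.algebraMap_eq_smul_one, norm_smul, Real.norm_of_nonneg hδ.le]
        have : ‖(1 : H →L[ℂ] H)‖ ≤ 1 := ContinuousLinearMap.norm_id_le
        nlinarith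
      have e1 : ⟪η, (a * x) η⟫_ℂ - ⟪η, (x * a) η⟫_ℂ
          = ⟪η, ((a - s) * x - x * (a - s)) η⟫_ℂ := by
        have e2 := hsP x hx
        rw [sub_mul, mul_sub, sub_apply, sub_apply, sub_apply, inner_sub_right, inner_sub_right,
          inner_sub_right, e2]
        ring
      rw [e1]
      refine (norm_inner_le_norm _ _).trans ?_
      have e3 : ‖(a - s) * x - x * (a - s)‖ ≤ δ * (2 * ‖x‖) := by
        refine (norm_sub_le _ _).trans ?_
        have f1 : ‖(a - s) * x‖ ≤ δ * ‖x‖ :=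
          (norm_mul_le _ _).trans (mul_le_mul_of_nonneg_right hn (norm_nonneg _))
        have f2 : ‖x * (a - s)‖ ≤ ‖x‖ * δ :=
          (norm_mul_le _ _).trans (mul_le_mul_of_nonneg_left hn (norm_nonneg _))
        linarith
      calc ‖η‖ * ‖((a - s) * x - x * (a - s)) η‖
          ≤ ‖η‖ * (‖(a - s) * x - x * (a - s)‖ * ‖η‖) := by
            gcongr
            exact le_opNorm _ _
        _ ≤ ‖η‖ * ((δ * (2 * ‖x‖)) * ‖η‖) := by gcongr
        _ = _ := by ring
    rw [← sub_eq_zero, ← norm_eq_zero]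
    refine le_antisymm ?_ (norm_nonneg _)
    refine le_of_forall_pos_le_add fun ε hε => ?_
    rw [zero_add]
    set D : ℝ := 2 * ‖x‖ * ‖η‖ ^ 2 with hD
    have hD0 : 0 ≤ D := by positivity
    refine (key (ε / (D + 1)) (by positivity)).trans ?_
    rw [div_mul_eq_mul_div, div_le_iff₀ (by positivity)]
    nlinarith
  have hsa : ∀ a ∈ A, star a = a → P a := by
    intro a haA ha
    have hle : -(algebraMap ℝ (H →L[ℂ] H) ‖a‖) ≤ a :=
      IsSelfAdjoint.neg_algebraMap_norm_le_self (show IsSelfAdjoint a from ha)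
    have h0 : 0 ≤ a + algebraMap ℝ (H →L[ℂ] H) ‖a‖ := by
      have := sub_nonneg.2 hle
      rwa [sub_neg_eq_add] at this
    have e : algebraMap ℝ (H →L[ℂ] H) ‖a‖ = (‖a‖ : ℂ) • (1 : H →L[ℂ] H) := by
      rw [Algebra.algebraMap_eq_smul_one]
      exact (Complex.coe_smul ‖a‖ _).symm
    rw [e] at h0
    have h2 := hpos _ (add_mem haA (A.smul_mem (one_mem _) _)) h0
    have h3 := hadd _ _ h2 (hsmul (-(‖a‖ : ℂ)) 1 h1)
    have e4 : a + (‖a‖ : ℂ) • (1 : H →L[ℂ] H) + -(‖a‖ : ℂ) • (1 : H →L[ℂ] H) = a := by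
      rw [neg_smul]; abel
    rwa [e4] at h3
  intro a ha
  have e : a = (1 / 2 : ℂ) • (a + star a) + (-(Complex.I) / 2) • (Complex.I • (a - star a)) := by
    rw [smul_smul]
    have : (-(Complex.I) / 2) * Complex.I = 1 / 2 := by
      rw [div_mul_eq_mul_div, neg_mul, Complex.I_mul_I]; norm_num
    rw [this, ← smul_add]
    have : a + star a + (a - star a) = (2 : ℂ) • a := by rw [two_smul]; abel
    rw [this, smul_smul]
    norm_num
  rw [e]
  refine hadd _ _ (hsmul _ _ (hsa _ (add_mem ha (star_mem ha)) ?_))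
    (hsmul _ _ (hsa _ (A.smul_mem (sub_mem ha (star_mem ha)) _) ?_))
  · rw [star_add, star_star, add_comm]
  · rw [star_smul, star_sub, star_star, Complex.star_def, Complex.conj_I, neg_smul, ← smul_neg,
      neg_sub]

variable {hA : Amp M}

/-- without central vectors the normal part vanishes -/
theorem central_zero (hM : Masa M A) {z : H →L[ℂ] H} (hz : z ∈ A) (hNo : NoC M A z) {Ω : K}
    (hV : ∀ e ∈ A, IsStarProjection e → ∃ V : K →L[ℂ] K, star V = V ∧
      (∀ y ∈ M, π y * V = V * π y) ∧ V Ω = π e Ω)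
    (hzΩ : π z Ω = Ω) : cproj (Rs hA π) Ω = 0 := by
  set P := cproj (Rs hA π) with hP
  obtain ⟨ζ, hζ⟩ := cproj_Rs_mem (hA := hA) (π := π) Ω
  obtain ⟨η, hη⟩ := exists_rn M π hζ
  have hC : CVec M A η := by
    apply cvec_of_proj hM
    intro e he hep x hx
    obtain ⟨V, hVs, hVc, hVΩ⟩ := hV e he hep
    have heM : e ∈ M := hM.le he
    rw [← inner_of_norm hη (mul_mem heM hx), ← inner_of_norm hη (mul_mem hx heM), map_mul, map_mul]
    have h1 : π e (P Ω) = V (P Ω) := by
      have f1 : π e (P Ω) = P (π e Ω) :=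
        congrArg (fun F : K →L[ℂ] K => F Ω) (cproj_Rs_pi (hA := hA) (π := π) heM)
      have f2 : V (P Ω) = P (V Ω) :=
        congrArg (fun F : K →L[ℂ] K => F Ω) (cproj_Rs_comm (hA := hA) (π := π) hVc)
      rw [f1, f2, hVΩ]
    have hes : adjoint (π e) = π e := by
      rw [← star_eq_adjoint, ← map_star, hep.isSelfAdjoint.star_eq]
    have hVs' : adjoint V = V := hVs
    calc ⟪P Ω, π e (π x (P Ω))⟫_ℂ = ⟪π e (P Ω), π x (P Ω)⟫_ℂ := by
          rw [← adjoint_inner_left, hes]
      _ = ⟪V (P Ω), π x (P Ω)⟫_ℂ := by rw [h1]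
      _ = ⟪P Ω, V (π x (P Ω))⟫_ℂ := (adjoint_inner_right V _ _).symm.trans (by rw [hVs'])
      _ = ⟪P Ω, π x (V (P Ω))⟫_ℂ := by
          have : π x (V (P Ω)) = V (π x (P Ω)) :=
            congrArg (fun F : K →L[ℂ] K => F (P Ω)) (hVc x hx)
          rw [this]
      _ = ⟪P Ω, π x (π e (P Ω))⟫_ℂ := by rw [h1]
  have h0 : z η = 0 := hNo η hC
  have h1 : π (1 - z) (P Ω) = 0 := by
    have f1 : π z (P Ω) = P (π z Ω) :=
      congrArg (fun F : K →L[ℂ] K => F Ω) (cproj_Rs_pi (hA := hA) (π := π) (hM.le hz))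
    rw [map_sub, map_one, sub_apply, f1, hzΩ]
    simp
  have h2 := hη (1 - z) (sub_mem (one_mem _) (hM.le hz))
  rw [h1, norm_zero] at h2
  have h3 : (1 - z) η = η := by
    change η - z η = η
    rw [h0, sub_zero]
  rw [h3] at h2
  have h4 := hη 1 (one_mem _)
  rw [map_one] at h4
  change ‖P Ω‖ = ‖η‖ at h4
  rw [← h2, norm_eq_zero] at h4
  exact h4

lemma rs_orth {Ω : K} (h : cproj (Rs hA π) Ω = 0) {u : K} (hu : u ∈ Rs hA π) : ⟪u, Ω⟫_ℂ = 0 := by
  have h1 : cproj (Rs hA π) u = u := cproj_of_mem hu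
  have h2 : adjoint (cproj (Rs hA π)) = cproj (Rs hA π) := (cproj_proj _).isSelfAdjoint
  rw [← h1, ← h2, adjoint_inner_left, h, inner_zero_right]

/-- where `π(·)Ω` dominates a vector there is a normal part -/
theorem sing_step {Ω : K} (horth : ∀ u ∈ Rs hA π, ⟪u, Ω⟫_ℂ = 0) {g : H →L[ℂ] H} (hg : g ∈ M)
    (hgp : IsStarProjection g) {ξ : H} {C : ℝ} (hC : 0 ≤ C)
    (h : ∀ q ∈ M, IsStarProjection q → g * q = q → ‖q ξ‖ ^ 2 ≤ C * ‖π q Ω‖ ^ 2) : g ξ = 0 := by
  have hgs : star g = g := hgp.isSelfAdjoint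
  have hgg : g * g = g := hgp.isIdempotentElem
  have key : ∀ y ∈ M, ‖y (g ξ)‖ ^ 2 ≤ C * ‖π y (π g Ω)‖ ^ 2 := by
    intro y hy
    set a : H →L[ℂ] H := star (y * g) * (y * g) with ha
    have ha0 : 0 ≤ a := star_mul_self_nonneg _
    have haM : a ∈ M := mul_mem (star_mem (mul_mem hy hg)) (mul_mem hy hg)
    have e1 : ‖y (g ξ)‖ ^ 2 = (⟪a ξ, ξ⟫_ℂ).re := (re_star_mul_self (y * g) ξ).symm
    have e2 : ‖π y (π g Ω)‖ ^ 2 = (⟪π a Ω, Ω⟫_ℂ).re := by
      rw [ha, map_mul, map_star, re_star_mul_self, map_mul]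
      rfl
    have hδ : ∀ δ : ℝ, 0 < δ → ‖y (g ξ)‖ ^ 2 ≤ C * ‖π y (π g Ω)‖ ^ 2 + δ * ‖ξ‖ ^ 2 := by
      intro δ hδ
      obtain ⟨n, q, hqp, hqc, hqs, hl, hu⟩ := exists_simple ha0 hδ
      have hqM : ∀ k, q k ∈ M := fun k => mem_of_commutant M _ fun T hT =>
        hqc T (commutant_comm M haM hT) k
      have hqg : ∀ k, g * q k = q k := by
        intro k
        have h0' : g * a = a := by
          rw [ha, star_mul, hgs]
          calc g * (g * star y * (y * g)) = (g * g) * star y * (y * g) := by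
                simp only [mul_assoc]
            _ = _ := by rw [hgg]
        have h0 : (1 - g) * a = 0 := by
          rw [sub_mul, one_mul, h0', sub_self]
        have := hqs _ h0 k
        rw [sub_mul, one_mul, sub_eq_zero] at this
        exact this.symm
      have f1 : (⟪a ξ, ξ⟫_ℂ).re ≤ δ * ∑ k, ‖q k ξ‖ ^ 2 + δ * ‖ξ‖ ^ 2 := by
        refine (re_inner_mono hu ξ).trans ?_
        rw [add_apply, inner_add_left, Complex.add_re, re_inner_rsmul, re_inner_sum,
          re_inner_algebraMap]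
        simp only [re_inner_proj (hqp _)]
        exact le_rfl
      have f2 : δ * ∑ k, ‖π (q k) Ω‖ ^ 2 ≤ (⟪π a Ω, Ω⟫_ℂ).re := by
        have h5 : π (δ • ∑ k, q k) ≤ π a := OrderHomClass.mono π hl
        refine le_trans ?_ (re_inner_mono h5 Ω)
        have e5 : π (δ • ∑ k, q k) = δ • ∑ k, π (q k) := by
          rw [← Complex.coe_smul, ← Complex.coe_smul, map_smul, map_sum]
        rw [e5, re_inner_rsmul, re_inner_sum]
        simp only [re_inner_proj (isStarProjection_map π (hqp _))]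
        exact le_rfl
      rw [e1, e2]
      have f3 : ∑ k, ‖q k ξ‖ ^ 2 ≤ C * ∑ k, ‖π (q k) Ω‖ ^ 2 := by
        rw [Finset.mul_sum]
        exact Finset.sum_le_sum fun k _ => h _ (hqM k) (hqp k) (hqg k)
      calc (⟪a ξ, ξ⟫_ℂ).re ≤ δ * ∑ k, ‖q k ξ‖ ^ 2 + δ * ‖ξ‖ ^ 2 := f1
        _ ≤ δ * (C * ∑ k, ‖π (q k) Ω‖ ^ 2) + δ * ‖ξ‖ ^ 2 := by gcongr
        _ = C * (δ * ∑ k, ‖π (q k) Ω‖ ^ 2) + δ * ‖ξ‖ ^ 2 := by ring
        _ ≤ _ := by gcongr
    refine le_of_forall_pos_le_add fun ε hε => ?_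
    refine (hδ (ε / (‖ξ‖ ^ 2 + 1)) (by positivity)).trans ?_
    gcongr
    rw [div_mul_eq_mul_div, div_le_iff₀ (by positivity)]
    nlinarith [sq_nonneg ‖ξ‖]
  have key2 : ∀ y ∈ M, ‖(StarAlgHom.id ℂ (H →L[ℂ] H)) y (g ξ)‖ ≤ √C * ‖π y (π g Ω)‖ := by
    intro y hy
    have h1 := key y hy
    have h2 : (√C * ‖π y (π g Ω)‖) ^ 2 = C * ‖π y (π g Ω)‖ ^ 2 := by
      rw [mul_pow, Real.sq_sqrt hC]
    rw [← h2] at h1
    exact (pow_le_pow_iff_left₀ (norm_nonneg _) (by positivity) two_ne_zero).1 h1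
  obtain ⟨W, hW1, hW2⟩ := exists_intertwiner M π (StarAlgHom.id ℂ (H →L[ℂ] H)) (π g Ω) (g ξ) _ key2
  change ∀ y ∈ M, W (π y (π g Ω)) = y (g ξ) at hW1
  change ∀ y ∈ M, ∀ v, W (π y v) = y (W v) at hW2
  have hWg : W (π g Ω) = g ξ := by
    have := hW1 1 (one_mem _)
    rw [map_one] at this
    exact this
  have hadj : ∀ y ∈ M, ∀ ζ, π y (adjoint W ζ) = adjoint W (y ζ) := by
    intro y hy ζ
    refine ext_inner_right ℂ fun v => ?_
    have h1 : adjoint (π y) = π (star y) := by rw [← star_eq_adjoint, map_star]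
    rw [adjoint_inner_left, ← adjoint_inner_right, h1, adjoint_inner_left, hW2 _ (star_mem hy),
      star_eq_adjoint, adjoint_inner_right]
  have hu : adjoint W (g ξ) ∈ Rs hA π := by
    refine Rs_of_le (ζ := g ξ) ‖adjoint W‖ fun y hy => ?_
    rw [hadj y hy]
    exact le_opNorm _ _
  have h1 := horth _ hu
  rw [adjoint_inner_left] at h1
  have h2 : ⟪g ξ, W Ω⟫_ℂ = ⟪g ξ, g ξ⟫_ℂ := by
    have h3 : g (g ξ) = g ξ := congrArg (fun F : H →L[ℂ] H => F ξ) hgg
    have hgs' : adjoint g = g := hgs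
    conv_lhs => rw [← h3]
    rw [← hWg, hW2 g hg]
    conv_lhs => rw [← hgs', adjoint_inner_left, hgs']
  rw [h2, inner_self_eq_zero] at h1
  exact h1

/-- a large projection on which the functional is small -/
theorem exists_small {Ω : K} (horth : ∀ u ∈ Rs hA π, ⟪u, Ω⟫_ℂ = 0) {z : H →L[ℂ] H} (hz : z ∈ M)
    (hzp : IsStarProjection z) (ξ : H) {ε τ : ℝ} (hε : 0 < ε) (hτ : 0 < τ) :
    ∃ q ∈ M, IsStarProjection q ∧ z * q = q ∧ ‖(z - q) ξ‖ < τ ∧ ‖π q Ω‖ ^ 2 ≤ ε * ‖ξ‖ ^ 2 := by
  classical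
  obtain ⟨S, -, hS1, hS2, hS3⟩ := zorn_pair
    (fun p : H →L[ℂ] H => p ∈ M ∧ IsStarProjection p ∧ z * p = p ∧ ‖π p Ω‖ ^ 2 ≤ ε * ‖p ξ‖ ^ 2)
    (fun p q : H →L[ℂ] H => p * q = 0) ∅ (by simp) (by simp)
  have hOS : OrthSys S := by
    refine ⟨fun w hw => ?_, fun w hw w' hw' hne => ?_, fun w hw w' hw' hne => ?_⟩
    · rw [(hS1 w hw).2.1.isSelfAdjoint.star_eq, (hS1 w hw).2.1.isIdempotentElem.eq,
        (hS1 w hw).2.1.isIdempotentElem.eq]
    · rw [(hS1 w hw).2.1.isSelfAdjoint.star_eq]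
      exact hS2 w hw w' hw' hne
    · rw [(hS1 w' hw').2.1.isSelfAdjoint.star_eq]
      exact hS2 w hw w' hw' hne
  obtain ⟨G, hG⟩ := hOS.exists_sum
  obtain ⟨hGp, hGm⟩ := sum_proj hOS (fun q hq => (hS1 q hq).2.1) hG
  have hGs : star G = G := hGp.isSelfAdjoint
  have hzs : star z = z := hzp.isSelfAdjoint
  have hGM : G ∈ M := by
    apply mem_of_commutant
    intro T hT
    ext v
    have h1 := (hG v).mapL T
    have h2 := hG (T v)
    have h3 : (fun w : S => T ((w : H →L[ℂ] H) v)) = fun w : S => (w : H →L[ℂ] H) (T v) := by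
      funext w
      exact (comm_app (hS1 w w.2).1 hT v).symm
    rw [h3] at h1
    exact h1.unique h2
  have hzG : z * G = G := by
    have := sum_mul_eq_zero hG (z - 1) fun w hw => by
      rw [sub_mul, one_mul, (hS1 w hw).2.2.1, sub_self]
    rwa [sub_mul, one_mul, sub_eq_zero] at this
  have hGz : G * z = G := by
    have := congrArg star hzG
    rwa [star_mul, hGs, hzs] at this
  have hgp : IsStarProjection (z - G) := by
    refine ⟨?_, ?_⟩
    · change (z - G) * (z - G) = z - G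
      rw [sub_mul, mul_sub, mul_sub, hzG, hGz, hGp.isIdempotentElem.eq,
        hzp.isIdempotentElem.eq]
      abel
    · change star (z - G) = z - G
      rw [star_sub, hGs, hzs]
  have hgM : z - G ∈ M := sub_mem hz hGM
  have hgξ : (z - G) ξ = 0 := by
    refine sing_step horth hgM hgp (C := 1 / ε) (by positivity) ?_
    intro q hq hqp hgq
    by_contra hcon
    push Not at hcon
    have hqs : star q = q := hqp.isSelfAdjoint
    have hzq : z * q = q := by
      rw [← hgq, ← mul_assoc, mul_sub, hzp.isIdempotentElem.eq, hzG]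
    have hGq : G * q = 0 := by
      rw [← hgq, ← mul_assoc, mul_sub, hGz, hGp.isIdempotentElem.eq, sub_self, zero_mul]
    have hqG : q * G = 0 := by
      have := congrArg star hGq
      rwa [star_mul, hGs, hqs, star_zero] at this
    have hle : ‖π q Ω‖ ^ 2 ≤ ε * ‖q ξ‖ ^ 2 := by
      rw [one_div, inv_mul_eq_div, div_lt_iff₀ hε] at hcon
      nlinarith
    have hmem : q ∈ S := by
      refine hS3 q ⟨hq, hqp, hzq, hle⟩ fun w hw => ⟨?_, ?_⟩
      · rw [← (hGm w hw).2, ← mul_assoc, hqG, zero_mul]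
      · rw [← (hGm w hw).1, mul_assoc, hGq, mul_zero]
    have h0 : q = 0 := by
      rw [← (hGm q hmem).1, hqG]
    rw [h0] at hcon
    simp at hcon
  have hz' : z ξ = G ξ := by
    change z ξ - G ξ = 0 at hgξ
    exact sub_eq_zero.1 hgξ
  obtain ⟨F, hF⟩ : ∃ F : Finset S, ‖G ξ - ∑ w ∈ F, (w : H →L[ℂ] H) ξ‖ < τ := by
    have h1 := hG ξ
    rw [HasSum, tendsto_iff_norm_sub_tendsto_zero] at h1
    obtain ⟨F, hF⟩ := (h1.eventually (gt_mem_nhds hτ)).exists
    exact ⟨F, by rwa [norm_sub_rev]⟩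
  have hproj : IsStarProjection (∑ w ∈ F, (w : H →L[ℂ] H)) :=
    sum_isProj F _ (fun w _ => (hS1 w w.2).2.1)
      (fun w _ w' _ hne => hS2 w w.2 w' w'.2 fun h => hne (Subtype.ext h))
  refine ⟨∑ w ∈ F, (w : H →L[ℂ] H), sum_mem fun w _ => (hS1 w w.2).1, hproj, ?_, ?_, ?_⟩
  · rw [Finset.mul_sum]
    exact Finset.sum_congr rfl fun w _ => (hS1 w w.2).2.2.1
  · rw [sub_apply, hz', sum_apply]
    exact hF
  · rw [← re_inner_proj (isStarProjection_map π hproj), map_sum, re_inner_sum]
    calc ∑ w ∈ F, (⟪π (w : H →L[ℂ] H) Ω, Ω⟫_ℂ).re = ∑ w ∈ F, ‖π (w : H →L[ℂ] H) Ω‖ ^ 2 :=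
          Finset.sum_congr rfl fun w _ => re_inner_proj (isStarProjection_map π (hS1 w w.2).2.1) _
      _ ≤ ∑ w ∈ F, ε * ‖(w : H →L[ℂ] H) ξ‖ ^ 2 :=
          Finset.sum_le_sum fun w _ => (hS1 w w.2).2.2.2
      _ = ε * ∑ w ∈ F, ‖(w : H →L[ℂ] H) ξ‖ ^ 2 := by rw [Finset.mul_sum]
      _ ≤ ε * ‖ξ‖ ^ 2 := by
          gcongr
          exact hOS.sum_norm_sq_le F ξ

end Central

end Crest.Agent.R109
end

-- ▼ part R109/ExQ5
section

/-!
# Row 109, ExistsQ, part 5: the limit functional along finite partitions of the masa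
-/

set_option autoImplicit false
set_option linter.unusedSectionVars false
set_option linter.style.haveILetI false

namespace Crest.Agent.R109

open scoped InnerProductSpace Topology ComplexOrder
open ContinuousLinearMap Crest.Agent.R121 Crest.Agent.R124 Filter

universe u v w

variable {H : Type u} [NormedAddCommGroup H] [InnerProductSpace ℂ H] [CompleteSpace H]
variable {M : VonNeumannAlgebra H} {A : StarSubalgebra ℂ (H →L[ℂ] H)}

section Refine

lemma proj_mul_proj {p q : H →L[ℂ] H} (hp : IsStarProjection p) (hq : IsStarProjection q)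
    (h : p * q = q * p) : IsStarProjection (p * q) := by
  refine ⟨?_, ?_⟩
  · change p * q * (p * q) = p * q
    calc p * q * (p * q) = p * (q * p) * q := by simp only [mul_assoc]
      _ = (p * p) * (q * q) := by rw [← h]; simp only [mul_assoc]
      _ = p * q := by rw [hp.isIdempotentElem.eq, hq.isIdempotentElem.eq]
  · change star (p * q) = p * q
    rw [star_mul, hp.isSelfAdjoint.star_eq, hq.isSelfAdjoint.star_eq, h]

/-- restriction of a partition to a projection of the masa -/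
lemma Part.restrict (hM : Masa M A) {z : H →L[ℂ] H} {n : ℕ} {e : Fin n → H →L[ℂ] H}
    (he : Part A z e) {p : H →L[ℂ] H} (hp : p ∈ A) (hpp : IsStarProjection p) :
    Part A (z * p) (fun j => e j * p) where
  mem := fun j => mul_mem (he.mem j) hp
  proj := fun j => proj_mul_proj (he.proj j) hpp (hM.comm _ (he.mem j) _ hp)
  orth := fun i j hij => by
    calc e i * p * (e j * p) = e i * (p * e j) * p := by simp only [mul_assoc]
      _ = e i * e j * p * p := by rw [← hM.comm _ (he.mem j) _ hp]; simp only [mul_assoc]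
      _ = 0 := by rw [he.orth i j hij, zero_mul, zero_mul]
  sum := by rw [← Finset.sum_mul, he.sum]

lemma exists_refine (hM : Masa M A) {z : H →L[ℂ] H} {n : ℕ} {e : Fin n → H →L[ℂ] H}
    (he : Part A z e) {p : H →L[ℂ] H} (hp : p ∈ A) (hpp : IsStarProjection p) :
    ∃ (n' : ℕ) (e' : Fin n' → H →L[ℂ] H), Part A z e' ∧ (∀ j, e' j * p = e' j ∨ e' j * p = 0) ∧
      ∀ r ∈ A, (∀ j, e j * r = e j ∨ e j * r = 0) → ∀ j, e' j * r = e' j ∨ e' j * r = 0 := by
  have hp1 : 1 - p ∈ A := sub_mem (one_mem _) hp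
  have h1 := he.restrict hM hp hpp
  have h2 := he.restrict hM hp1 hpp.one_sub
  have hzA : z ∈ A := he.z_mem
  have hpz : p * z = z * p := hM.comm _ hp _ hzA
  have o1 : z * p * (z * (1 - p)) = 0 := by
    rw [mul_sub, mul_one, mul_sub]
    have e1 : z * p * (z * p) = z * p * z := by
      calc z * p * (z * p) = z * (p * z) * p := by simp only [mul_assoc]
        _ = z * z * (p * p) := by rw [hpz]; simp only [mul_assoc]
        _ = z * (z * p) := by rw [hpp.isIdempotentElem.eq, mul_assoc]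
        _ = z * p * z := by rw [mul_assoc z p z, hpz]
    rw [e1, sub_self]
  have o2 : z * (1 - p) * (z * p) = 0 := by
    have h3 : z * p * (z * (1 - p)) = z * (1 - p) * (z * p) :=
      hM.comm _ (mul_mem hzA hp) _ (mul_mem hzA hp1)
    rw [← h3, o1]
  have h3 := h1.append h2 o1 o2
  have e3 : z * p + z * (1 - p) = z := by rw [mul_sub, mul_one]; abel
  rw [e3] at h3
  refine ⟨n + n, _, h3, ?_, ?_⟩
  · intro j
    refine Fin.addCases (fun i => ?_) (fun i => ?_) j
    · rw [Fin.append_left]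
      left
      rw [mul_assoc, hpp.isIdempotentElem.eq]
    · rw [Fin.append_right]
      right
      rw [mul_assoc, sub_mul, one_mul, hpp.isIdempotentElem.eq, sub_self, mul_zero]
  · intro r hr h j
    refine Fin.addCases (fun i => ?_) (fun i => ?_) j
    · rw [Fin.append_left, mul_assoc, hM.comm _ hp _ hr, ← mul_assoc]
      rcases h i with h | h
      · left; rw [h]
      · right; rw [h, zero_mul]
    · rw [Fin.append_right, mul_assoc, hM.comm _ hp1 _ hr, ← mul_assoc]
      rcases h i with h | h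
      · left; rw [h]
      · right; rw [h, zero_mul]

lemma exists_part (hM : Masa M A) {z : H →L[ℂ] H} (hz : z ∈ A) (hzp : IsStarProjection z)
    (F : Finset {p : H →L[ℂ] H // p ∈ A ∧ IsStarProjection p}) :
    ∃ (n : ℕ) (e : Fin n → H →L[ℂ] H), Part A z e ∧
      ∀ p ∈ F, ∀ j, e j * (p : H →L[ℂ] H) = e j ∨ e j * (p : H →L[ℂ] H) = 0 := by
  classical
  induction F using Finset.induction_on with
  | empty => exact ⟨1, _, Part.single hz hzp, by simp⟩
  | insert p F _ ih =>
    obtain ⟨n, e, he, h⟩ := ih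
    obtain ⟨n', e', he', h1, h2⟩ := exists_refine hM he p.2.1 p.2.2
    refine ⟨n', e', he', ?_⟩
    intro q hq
    rcases Finset.mem_insert.1 hq with rfl | hq
    · exact h1
    · exact h2 q q.2.1 (h q hq)

end Refine

section Functional

lemma part_norm_le {z : H →L[ℂ] H} (hzp : IsStarProjection z) {n : ℕ} {e : Fin n → H →L[ℂ] H}
    (he : Part A z e) (v : H) : ∑ j, ‖e j v‖ ^ 2 ≤ ‖v‖ ^ 2 := by
  have h1 : ∑ j, ‖e j v‖ ^ 2 = (⟪z v, v⟫_ℂ).re := by
    rw [← he.sum, re_inner_sum]
    exact Finset.sum_congr rfl fun j _ => (re_inner_proj (he.proj j) v).symm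
  rw [h1, re_inner_proj hzp]
  exact norm_proj_le hzp v

lemma inner_block {e : H →L[ℂ] H} (he : IsStarProjection e) (y : H →L[ℂ] H) (v : H) :
    ⟪v, (e * y * e) v⟫_ℂ = ⟪e v, y (e v)⟫_ℂ := by
  have h1 : adjoint e = e := he.isSelfAdjoint
  conv_rhs => rw [← h1, adjoint_inner_left, h1]
  rfl

lemma inner_blocks {n : ℕ} {e : Fin n → H →L[ℂ] H} (he : ∀ j, IsStarProjection (e j))
    (y : H →L[ℂ] H) (v : H) :
    ⟪v, (∑ j, e j * y * e j) v⟫_ℂ = ∑ j, ⟪e j v, y (e j v)⟫_ℂ := by
  rw [sum_apply, inner_sum]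
  exact Finset.sum_congr rfl fun j _ => inner_block (he j) y v

lemma norm_inner_blocks {z : H →L[ℂ] H} (hzp : IsStarProjection z) {n : ℕ}
    {e : Fin n → H →L[ℂ] H} (he : Part A z e) (y : H →L[ℂ] H) (v : H) :
    ‖⟪v, (∑ j, e j * y * e j) v⟫_ℂ‖ ≤ ‖y‖ * ‖v‖ ^ 2 := by
  rw [inner_blocks he.proj]
  calc ‖∑ j, ⟪e j v, y (e j v)⟫_ℂ‖ ≤ ∑ j, ‖⟪e j v, y (e j v)⟫_ℂ‖ := norm_sum_le _ _
    _ ≤ ∑ j, ‖y‖ * ‖e j v‖ ^ 2 := by
        refine Finset.sum_le_sum fun j _ => ?_
        refine (norm_inner_le_norm _ _).trans ?_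
        have := y.le_opNorm (e j v)
        calc ‖e j v‖ * ‖y (e j v)‖ ≤ ‖e j v‖ * (‖y‖ * ‖e j v‖) := by gcongr
          _ = _ := by ring
    _ = ‖y‖ * ∑ j, ‖e j v‖ ^ 2 := by rw [Finset.mul_sum]
    _ ≤ _ := by
        gcongr
        exact part_norm_le hzp he v

theorem exists_functional (hM : Masa M A) {z : H →L[ℂ] H} (hz : z ∈ A) (hzp : IsStarProjection z)
    (v : H) : ∃ φ : (H →L[ℂ] H) →ₚ[ℂ] ℂ,
      (∀ p ∈ A, IsStarProjection p → ∀ y, φ (p * y) = φ (y * p)) ∧
      ∀ y, ∀ ε : ℝ, 0 < ε → ∃ (n : ℕ) (e : Fin n → H →L[ℂ] H), Part A z e ∧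
        ‖⟪v, (∑ j, e j * y * e j) v⟫_ℂ - φ y‖ < ε := by
  classical
  choose n e he hd using exists_part hM hz hzp
  set 𝒰 : Ultrafilter (Finset {p : H →L[ℂ] H // p ∈ A ∧ IsStarProjection p}) :=
    Ultrafilter.of atTop with h𝒰
  set f : (H →L[ℂ] H) → Finset {p : H →L[ℂ] H // p ∈ A ∧ IsStarProjection p} → ℂ :=
    fun y F => ⟪v, (∑ j, e F j * y * e F j) v⟫_ℂ with hf
  have hb : ∀ y F, ‖f y F‖ ≤ ‖y‖ * ‖v‖ ^ 2 := fun y F => norm_inner_blocks hzp (he F) y v
  choose c hc _ using fun y => exists_lim_of_bdd 𝒰 (hb y)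
  have hadd : ∀ y y', c (y + y') = c y + c y' := by
    intro y y'
    refine tendsto_nhds_unique (hc (y + y')) ?_
    refine ((hc y).add (hc y')).congr fun F => ?_
    simp only [hf, mul_add, add_mul, Finset.sum_add_distrib, add_apply, inner_add_right]
  have hsmul : ∀ (a : ℂ) y, c (a • y) = a • c y := by
    intro a y
    refine tendsto_nhds_unique (hc (a • y)) ?_
    refine ((hc y).const_mul a).congr fun F => ?_
    simp only [hf, mul_smul_comm, smul_mul_assoc, ← Finset.smul_sum, smul_apply, inner_smul_right]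
  have hpos : ∀ y, 0 ≤ y → 0 ≤ c y := by
    intro y hy
    have h1 : ∀ F, 0 ≤ f y F := by
      intro F
      simp only [hf]
      rw [inner_blocks (he F).proj]
      refine Finset.sum_nonneg fun j _ => ?_
      exact ((ContinuousLinearMap.nonneg_iff_isPositive y).1 hy).inner_nonneg_right _
    rw [Complex.nonneg_iff]
    constructor
    · exact ge_of_tendsto' ((Complex.continuous_re.tendsto _).comp (hc y))
        fun F => (Complex.nonneg_iff.1 (h1 F)).1
    · refine (tendsto_nhds_unique ((Complex.continuous_im.tendsto _).comp (hc y))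
        (tendsto_const_nhds.congr fun F => ?_)).symm
      exact (Complex.nonneg_iff.1 (h1 F)).2
  refine ⟨PositiveLinearMap.mk₀
    { toFun := c, map_add' := hadd, map_smul' := hsmul } hpos, ?_, ?_⟩
  · intro p hp hpp y
    change c (p * y) = c (y * p)
    refine tendsto_nhds_unique_of_eventuallyEq (hc (p * y)) (hc (y * p)) ?_
    set p' : {p : H →L[ℂ] H // p ∈ A ∧ IsStarProjection p} := ⟨p, hp, hpp⟩ with hp'
    have h1 : ∀ᶠ F in (𝒰 : Filter (Finset {p : H →L[ℂ] H // p ∈ A ∧ IsStarProjection p})),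
        {p'} ≤ F :=
      (Ultrafilter.of_le atTop) (eventually_ge_atTop ({p'} : Finset _))
    filter_upwards [h1] with F hF
    have h2 := hd F p' (Finset.singleton_subset_iff.1 hF)
    simp only [hf]
    congr 2
    refine Finset.sum_congr rfl fun j _ => ?_
    have h3 : p * e F j = e F j * p := hM.comm _ hp _ ((he F).mem j)
    rcases h2 j with h | h
    · calc e F j * (p * y) * e F j = (e F j * p) * y * e F j := by simp only [mul_assoc]
        _ = e F j * y * (p * e F j) := by rw [h3, h]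
        _ = _ := by simp only [mul_assoc]
    · calc e F j * (p * y) * e F j = (e F j * p) * y * e F j := by simp only [mul_assoc]
        _ = e F j * y * (p * e F j) := by rw [h3, h, zero_mul, zero_mul, mul_zero]
        _ = _ := by simp only [mul_assoc]
  · intro y ε hε
    have h1 := hc y
    rw [tendsto_iff_norm_sub_tendsto_zero] at h1
    obtain ⟨F, hF⟩ := (h1.eventually (gt_mem_nhds hε)).exists
    exact ⟨n F, e F, he F, hF⟩

end Functional

section Gns

variable (φ : (H →L[ℂ] H) →ₚ[ℂ] ℂ)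

lemma gns_coe (x : H →L[ℂ] H) (w : φ.PreGNS) :
    φ.gnsStarAlgHom x (w : φ.GNS) = ((φ.toPreGNS (x * φ.ofPreGNS w) : φ.PreGNS) : φ.GNS) :=
  φ.gnsNonUnitalStarAlgHom_apply_coe

lemma gns_vec (x : H →L[ℂ] H) :
    φ.gnsStarAlgHom x (gnsVec φ) = ((φ.toPreGNS x : φ.PreGNS) : φ.GNS) := by
  rw [gnsVec, gns_coe, φ.ofPreGNS_toPreGNS, mul_one]

lemma norm_gns_proj {q : H →L[ℂ] H} (hq : IsStarProjection q) :
    ‖φ.gnsStarAlgHom q (gnsVec φ)‖ ^ 2 = (φ q).re := by
  rw [gns_vec, UniformSpace.Completion.norm_coe]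
  have := φ.preGNS_norm_sq (φ.toPreGNS q)
  rw [φ.ofPreGNS_toPreGNS, hq.isSelfAdjoint.star_eq, hq.isIdempotentElem.eq] at this
  rw [← this]
  norm_cast

/-- right multiplication by a symmetry in the centralizer -/
noncomputable def preV (u : H →L[ℂ] H) (huu : u * u = 1) (hus : star u = u)
    (hc : ∀ y, φ (u * y) = φ (y * u)) : φ.PreGNS →L[ℂ] φ.PreGNS :=
  LinearMap.mkContinuous
    { toFun := fun x => φ.toPreGNS (φ.ofPreGNS x * u)
      map_add' := fun x y => by simp [add_mul]
      map_smul' := fun c x => by simp } 1 (fun x => by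
        rw [one_mul, ← sq_le_sq₀ (norm_nonneg _) (norm_nonneg _), ← Complex.real_le_real]
        push_cast
        rw [φ.preGNS_norm_sq, φ.preGNS_norm_sq]
        change φ (star (φ.ofPreGNS x * u) * (φ.ofPreGNS x * u)) ≤ _
        rw [star_mul, hus, mul_assoc, hc, mul_assoc, mul_assoc, huu, mul_one])


theorem exists_V {p : H →L[ℂ] H} (hp : IsStarProjection p) (hc : ∀ y, φ (p * y) = φ (y * p)) :
    ∃ V : φ.GNS →L[ℂ] φ.GNS, star V = V ∧
      (∀ y : H →L[ℂ] H, φ.gnsStarAlgHom y * V = V * φ.gnsStarAlgHom y) ∧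
      V (gnsVec φ) = φ.gnsStarAlgHom p (gnsVec φ) := by
  set u : H →L[ℂ] H := 1 - (2 : ℂ) • p with hu
  have hpp : p * p = p := hp.isIdempotentElem
  have huu : u * u = 1 := by
    rw [hu, sub_mul, mul_sub, mul_sub, one_mul, mul_one, one_mul, smul_mul_smul_comm, hpp]
    have : (2 : ℂ) * 2 = 4 := by norm_num
    rw [this]
    module
  have hus : star u = u := by
    rw [hu, star_sub, star_one, star_smul, hp.isSelfAdjoint.star_eq]
    congr 2
    simp
  have hcu : ∀ y, φ (u * y) = φ (y * u) := by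
    intro y
    rw [hu, sub_mul, mul_sub, one_mul, mul_one, smul_mul_assoc, mul_smul_comm, map_sub, map_sub,
      map_smul, map_smul, hc]
  set V0 := (preV φ u huu hus hcu).completion with hV0
  have hV0c : ∀ w : φ.PreGNS, V0 (w : φ.GNS) =
      ((φ.toPreGNS (φ.ofPreGNS w * u) : φ.PreGNS) : φ.GNS) := by
    intro w
    rw [hV0, ContinuousLinearMap.completion_apply_coe]
    rfl
  have hV0s : star V0 = V0 := by
    rw [star_eq_adjoint]
    refine ((eq_adjoint_iff V0 V0).mpr ?_).symm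
    intro x y
    induction x, y using UniformSpace.Completion.induction_on₂ with
    | hp => apply isClosed_eq <;> fun_prop
    | ih x y =>
      rw [hV0c, hV0c, UniformSpace.Completion.inner_coe, UniformSpace.Completion.inner_coe,
        φ.preGNS_inner_def, φ.preGNS_inner_def]
      simp only [φ.ofPreGNS_toPreGNS]
      rw [star_mul, hus, mul_assoc, hcu, mul_assoc]
  have hV0π : ∀ (y : H →L[ℂ] H) (w : φ.GNS), φ.gnsStarAlgHom y (V0 w)
      = V0 (φ.gnsStarAlgHom y w) := by
    intro y w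
    induction w using UniformSpace.Completion.induction_on with
    | hp => apply isClosed_eq <;> fun_prop
    | ih w => rw [hV0c, gns_coe, gns_coe, hV0c]; simp [mul_assoc]
  refine ⟨(1 / 2 : ℂ) • (1 - V0), ?_, ?_, ?_⟩
  · rw [star_smul, star_sub, star_one, hV0s]
    congr 1
    simp
  · intro y
    rw [mul_smul_comm, smul_mul_assoc, mul_sub, sub_mul, mul_one, one_mul]
    congr 2
    ext w
    exact hV0π y w
  · have e1 : V0 (gnsVec φ) = φ.gnsStarAlgHom u (gnsVec φ) := by
      rw [gns_vec, gnsVec, hV0c, φ.ofPreGNS_toPreGNS, one_mul]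
    change (1 / 2 : ℂ) • (gnsVec φ - V0 (gnsVec φ)) = _
    have e2 : φ.gnsStarAlgHom u (gnsVec φ)
        = gnsVec φ - (2 : ℂ) • φ.gnsStarAlgHom p (gnsVec φ) := by
      rw [hu, map_sub, map_one, map_smul]
      rfl
    rw [e1, e2, sub_sub_cancel, smul_smul]
    norm_num

end Gns

end Crest.Agent.R109
end

-- ▼ part R109/ExQ6

/-!
# Row 109, ExistsQ, part 6: final assembly
-/

set_option autoImplicit false
set_option linter.unusedSectionVars false
set_option linter.style.haveILetI false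

namespace Crest.Agent.R109

open scoped InnerProductSpace Topology ComplexOrder
open ContinuousLinearMap Crest.Agent.R121 Crest.Agent.R124 Filter

universe u

/-- cutting down: from a large projection with small quadratic form of its block diagonal to one
whose block diagonal is small in norm -/
theorem cut_down {H : Type u} [NormedAddCommGroup H] [InnerProductSpace ℂ H] [CompleteSpace H]
    {M : VonNeumannAlgebra H} {A : StarSubalgebra ℂ (H →L[ℂ] H)} (hM : Masa M A)
    {z : H →L[ℂ] H} (hzp : IsStarProjection z) {ξ : H} {κ : ℝ} (hκ : 0 < κ)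
    {q₀ : H →L[ℂ] H} (hq₀M : q₀ ∈ M) (hq₀ : IsStarProjection q₀) (hzq₀ : z * q₀ = q₀)
    (hτ : ‖(z - q₀) ξ‖ < κ / 4) {n : ℕ} {e : Fin n → H →L[ℂ] H} (he : Part A z e)
    (hsm : (⟪ξ, (∑ j, e j * q₀ * e j) ξ⟫_ℂ).re < κ ^ 3 / 128) :
    ∃ q ∈ M, IsStarProjection q ∧ z * q = q ∧ ‖(z - q) ξ‖ < κ ∧ ‖∑ j, e j * q * e j‖ ≤ κ := by
  have hzM : z ∈ M := hM.le he.z_mem
  have hzs : star z = z := hzp.isSelfAdjoint
  have hzz : z * z = z := hzp.isIdempotentElem
  have heM : ∀ j, e j ∈ M := fun j => hM.le (he.mem j)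
  have hes : ∀ j, star (e j) = e j := fun j => (he.proj j).isSelfAdjoint
  have hee : ∀ j, e j * e j = e j := fun j => (he.proj j).isIdempotentElem
  have hblock : ∀ y : H →L[ℂ] H, 0 ≤ y → 0 ≤ ∑ j, e j * y * e j := by
    intro y hy
    refine Finset.sum_nonneg fun j _ => ?_
    have := star_left_conjugate_nonneg hy (e j)
    rwa [hes] at this
  have hblockc : ∀ (y : H →L[ℂ] H) (i : Fin n), e i * (∑ j, e j * y * e j) = e i * y * e i ∧
      (∑ j, e j * y * e j) * e i = e i * y * e i := by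
    intro y i
    constructor
    · rw [Finset.mul_sum, Finset.sum_eq_single i]
      · rw [← mul_assoc, ← mul_assoc, hee]
      · intro j _ hj
        rw [← mul_assoc, ← mul_assoc, he.orth i j hj.symm, zero_mul, zero_mul]
      · intro h; exact absurd (Finset.mem_univ i) h
    · rw [Finset.sum_mul, Finset.sum_eq_single i]
      · rw [mul_assoc, hee]
      · intro j _ hj
        rw [mul_assoc, he.orth j i hj, mul_zero]
      · intro h; exact absurd (Finset.mem_univ i) h
  set h : H →L[ℂ] H := ∑ j, e j * q₀ * e j with hh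
  have hh0 : 0 ≤ h := hblock _ hq₀.nonneg
  have hhM : h ∈ M := sum_mem fun j _ => mul_mem (mul_mem (heM j) hq₀M) (heM j)
  have hhs : star h = h := hh0.isSelfAdjoint
  have hhc : ∀ j, e j * h = h * e j := fun j => (hblockc q₀ j).1.trans (hblockc q₀ j).2.symm
  have hzh : z * h = h := by
    rw [hh, Finset.mul_sum]
    refine Finset.sum_congr rfl fun j _ => ?_
    rw [← mul_assoc, ← mul_assoc, he.z_mul]
  have hhz : h * z = h := by
    have := congrArg star hzh
    rwa [star_mul, hhs, hzs] at this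
  have hκ2 : 0 < κ / 2 := by positivity
  set c : H →L[ℂ] H := cut h (κ / 2) with hc
  have hcp : IsStarProjection c := cut_proj _ _
  have hcs : star c = c := hcp.isSelfAdjoint
  have hcc : c * c = c := hcp.isIdempotentElem
  have hcM : c ∈ M := cut_mem hhM _
  have hzc : z * c = c := by
    have := cut_supp (g := 1 - z) hh0 hκ2 (by rw [sub_mul, one_mul, hzh, sub_self])
    rw [sub_mul, one_mul, sub_eq_zero] at this
    exact this.symm
  have hcz : c * z = c := by
    have := congrArg star hzc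
    rwa [star_mul, hcs, hzs] at this
  have hec : ∀ j, e j * c = c * e j := fun j => cut_comm hh0 (hhc j) _
  -- size of the cut
  have hcξ : ‖c ξ‖ < κ / 8 := by
    have h1 := re_inner_mono (cut_le hh0 hκ2) ξ
    rw [re_inner_rsmul, re_inner_proj hcp] at h1
    have h2 : (⟪h ξ, ξ⟫_ℂ).re < κ ^ 3 / 128 := by
      rw [← inner_conj_symm, Complex.conj_re]
      exact hsm
    have h3 : ‖c ξ‖ ^ 2 < (κ / 8) ^ 2 := by
      have h4 : κ / 2 * ‖c ξ‖ ^ 2 < κ / 2 * (κ / 8) ^ 2 := by
        calc κ / 2 * ‖c ξ‖ ^ 2 ≤ _ := h1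
          _ < κ ^ 3 / 128 := h2
          _ = _ := by ring
      exact lt_of_mul_lt_mul_left h4 hκ2.le
    exact (pow_lt_pow_iff_left₀ (norm_nonneg _) (by positivity) two_ne_zero).1 h3
  set s : H →L[ℂ] H := z - c with hs
  have hsp : IsStarProjection s := by
    refine ⟨?_, ?_⟩
    · change (z - c) * (z - c) = z - c
      rw [sub_mul, mul_sub, mul_sub, hzz, hzc, hcz, hcc]; abel
    · change star (z - c) = z - c
      rw [star_sub, hzs, hcs]
  have hss : star s = s := hsp.isSelfAdjoint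
  have hsM : s ∈ M := sub_mem hzM hcM
  have hsz : s * z = s := by rw [hs, sub_mul, hzz, hcz]
  have hzs' : z * s = s := by rw [hs, mul_sub, hzz, hzc]
  have hes' : ∀ j, e j * s = s * e j := fun j => by
    rw [hs, mul_sub, sub_mul, hec, he.mul_z, he.z_mul]
  have hs1 : ‖s‖ ≤ 1 := hsp.norm_le
  -- the cut down operator
  set k : H →L[ℂ] H := s * q₀ * s with hk
  have hk0 : 0 ≤ k := by
    have := star_left_conjugate_nonneg hq₀.nonneg s
    rwa [hss] at this
  have hkM : k ∈ M := mul_mem (mul_mem hsM hq₀M) hsM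
  have hks : star k = k := hk0.isSelfAdjoint
  have hzk : z * k = k := by rw [hk, ← mul_assoc, ← mul_assoc, hzs']
  have hkz : k * z = k := by
    have := congrArg star hzk
    rwa [star_mul, hks, hzs] at this
  have h12 : (0 : ℝ) < 1 / 2 := by norm_num
  set q : H →L[ℂ] H := cut k (1 / 2) with hq
  have hqp : IsStarProjection q := cut_proj _ _
  have hqs : star q = q := hqp.isSelfAdjoint
  have hqq : q * q = q := hqp.isIdempotentElem
  have hqM : q ∈ M := cut_mem hkM _
  have hzq : z * q = q := by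
    have := cut_supp (g := 1 - z) hk0 h12 (by rw [sub_mul, one_mul, hzk, sub_self])
    rw [sub_mul, one_mul, sub_eq_zero] at this
    exact this.symm
  have hqz : q * z = q := by
    have := congrArg star hzq
    rwa [star_mul, hqs, hzs] at this
  have hkq : k * q = q * k := cut_comm hk0 rfl _
  refine ⟨q, hqM, hqp, hzq, ?_, ?_⟩
  · -- strong closeness
    have hz1 : ‖z - q‖ ≤ 1 := by
      have : IsStarProjection (z - q) := by
        refine ⟨?_, ?_⟩
        · change (z - q) * (z - q) = z - q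
          rw [sub_mul, mul_sub, mul_sub, hzz, hzq, hqz, hqq]; abel
        · change star (z - q) = z - q
          rw [star_sub, hzs, hqs]
      exact this.norm_le
    have e1 : (z - q) * k = (k * (1 - q)) * (z - q) := by
      have : (1 - q) * (z - q) = z - q := by
        rw [sub_mul, one_mul, mul_sub, hqz, hqq, sub_self, sub_zero]
      rw [mul_assoc, this, sub_mul, mul_sub, hzk, hkz, hkq]
    have e2 : ‖(z - q) (k ξ)‖ ≤ 1 / 2 * ‖(z - q) ξ‖ := by
      have : (z - q) (k ξ) = (k * (1 - q)) ((z - q) ξ) :=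
        congrArg (fun F : H →L[ℂ] H => F ξ) e1
      rw [this]
      exact (le_opNorm _ _).trans
        (mul_le_mul_of_nonneg_right (norm_mul_one_sub_cut hk0 h12) (norm_nonneg _))
    have e3 : (z - q) ξ = (z - q) (z ξ - k ξ) + (z - q) (k ξ) := by
      rw [← map_add, sub_add_cancel]
      have : (z - q) * z = z - q := by rw [sub_mul, hzz, hqz]
      exact (congrArg (fun F : H →L[ℂ] H => F ξ) this).symm
    have e4 : ‖(z - q) (z ξ - k ξ)‖ ≤ ‖z ξ - k ξ‖ := by
      calc _ ≤ ‖z - q‖ * ‖z ξ - k ξ‖ := le_opNorm _ _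
        _ ≤ 1 * ‖z ξ - k ξ‖ := by gcongr
        _ = _ := one_mul _
    have e5 : ‖(z - q) ξ‖ ≤ ‖z ξ - k ξ‖ + 1 / 2 * ‖(z - q) ξ‖ := by
      conv_lhs => rw [e3]
      exact (norm_add_le _ _).trans (add_le_add e4 e2)
    have e6 : z ξ - k ξ = c ξ + s ((z - q₀) ξ + q₀ (c ξ)) := by
      have hq₀z : q₀ * z = q₀ := by
        have := congrArg star hzq₀
        rwa [star_mul, hzs, hq₀.isSelfAdjoint.star_eq] at this
      have : z - k = c + s * ((z - q₀) + q₀ * c) := by
        have f1 : q₀ * c = q₀ - q₀ * s := by rw [hs, mul_sub, hq₀z]; abel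
        have f2 : z - q₀ + (q₀ - q₀ * s) = z - q₀ * s := by abel
        have f3 : c + s = z := by rw [hs]; abel
        rw [f1, f2, mul_sub s z (q₀ * s), hsz, ← mul_assoc, ← add_sub_assoc, f3]
      exact congrArg (fun F : H →L[ℂ] H => F ξ) this
    have e7 : ‖z ξ - k ξ‖ < κ / 2 := by
      rw [e6]
      have g1 : ‖q₀ (c ξ)‖ ≤ ‖c ξ‖ := by
        calc _ ≤ ‖q₀‖ * ‖c ξ‖ := le_opNorm _ _
          _ ≤ 1 * ‖c ξ‖ := by gcongr; exact hq₀.norm_le
          _ = _ := one_mul _
      have g2 : ‖s ((z - q₀) ξ + q₀ (c ξ))‖ ≤ ‖(z - q₀) ξ + q₀ (c ξ)‖ := by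
        calc _ ≤ ‖s‖ * ‖(z - q₀) ξ + q₀ (c ξ)‖ := le_opNorm _ _
          _ ≤ 1 * ‖(z - q₀) ξ + q₀ (c ξ)‖ := by gcongr
          _ = _ := one_mul _
      have g3 := norm_add_le ((z - q₀) ξ) (q₀ (c ξ))
      have g4 := norm_add_le (c ξ) (s ((z - q₀) ξ + q₀ (c ξ)))
      linarith
    linarith
  · -- norm of the block diagonal
    have e1 : (∑ j, e j * q * e j) ≤ (2 : ℝ) • ∑ j, e j * k * e j := by
      have f1 : q ≤ (2 : ℝ) • k := by
        have := smul_le_smul_of_nonneg_left (cut_le hk0 h12) (show (0 : ℝ) ≤ 2 by norm_num)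
        rw [smul_smul] at this
        norm_num at this
        exact this
      rw [Finset.smul_sum]
      refine Finset.sum_le_sum fun j _ => ?_
      have := star_left_conjugate_le_conjugate f1 (e j)
      rw [hes, mul_smul_comm, smul_mul_assoc] at this
      exact this
    have e2 : ∑ j, e j * k * e j = s * (h * s) := by
      rw [hh, Finset.sum_mul, Finset.mul_sum]
      refine Finset.sum_congr rfl fun j _ => ?_
      rw [hk]
      calc e j * (s * q₀ * s) * e j = (e j * s) * q₀ * (s * e j) := by simp only [mul_assoc]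
        _ = (s * e j) * q₀ * (e j * s) := by rw [hes' j]
        _ = _ := by simp only [mul_assoc]
    have e3 : h * s = h * (1 - c) := by rw [hs, mul_sub, mul_sub, mul_one, hhz]
    have e4 : ‖s * (h * s)‖ ≤ κ / 2 := by
      rw [e3]
      calc _ ≤ ‖s‖ * ‖h * (1 - c)‖ := norm_mul_le _ _
        _ ≤ 1 * (κ / 2) := by
            gcongr
            exact norm_mul_one_sub_cut hh0 hκ2
        _ = _ := one_mul _
    refine (CStarAlgebra.norm_le_norm_of_nonneg_of_le (hblock _ hqp.nonneg) e1).trans ?_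
    rw [e2, norm_smul]
    norm_num
    linarith

/-- **ExistsQ** -/
theorem existsQ : ExistsQ.{u} := by
  intro H _ _ _ M A hM hA z hz hzp hNo ξ κ hκ
  obtain ⟨φ, hφ1, hφ2⟩ := exists_functional hM hz hzp ξ
  set Ω := gnsVec φ with hΩ
  have hφz : φ (1 - z) = 0 := by
    rw [← norm_eq_zero]
    refine le_antisymm ?_ (norm_nonneg _)
    refine le_of_forall_pos_le_add fun ε hε => ?_
    obtain ⟨n, e, he, h⟩ := hφ2 (1 - z) ε hε
    have h0 : ∑ j, e j * (1 - z) * e j = 0 := by
      refine Finset.sum_eq_zero fun j _ => ?_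
      rw [mul_sub, mul_one, he.mul_z, sub_self, zero_mul]
    rw [h0] at h
    simp only [zero_apply, inner_zero_right, zero_sub, norm_neg] at h
    linarith
  have hzΩ : φ.gnsStarAlgHom z Ω = Ω := by
    have h1 := norm_gns_proj φ hzp.one_sub
    rw [hφz] at h1
    simp only [Complex.zero_re] at h1
    have h2 : ‖φ.gnsStarAlgHom (1 - z) Ω‖ = 0 := by
      exact pow_eq_zero_iff (two_ne_zero) |>.1 h1
    rw [norm_eq_zero, map_sub, map_one, sub_apply] at h2
    exact (sub_eq_zero.1 h2).symm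
  have h0 : cproj (Rs hA φ.gnsStarAlgHom) Ω = 0 := by
    refine central_zero hM hz hNo ?_ hzΩ
    intro e he hep
    obtain ⟨V, h1, h2, h3⟩ := exists_V φ hep (hφ1 e he hep)
    exact ⟨V, h1, fun y _ => h2 y, h3⟩
  set N : ℝ := ‖ξ‖ ^ 2 + 1 with hN
  have hN0 : 0 < N := by positivity
  obtain ⟨q₀, hq₀M, hq₀, hzq₀, hτ, hsm⟩ := exists_small (Ω := Ω)
    (fun u hu => rs_orth (hA := hA) h0 hu) (hM.le hz) hzp ξ
    (ε := κ ^ 3 / (256 * N)) (τ := κ / 4) (by positivity) (by positivity)
  rw [hΩ, norm_gns_proj φ hq₀] at hsm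
  obtain ⟨n, e, he, h⟩ := hφ2 q₀ (κ ^ 3 / 256) (by positivity)
  have h1 : (⟪ξ, (∑ j, e j * q₀ * e j) ξ⟫_ℂ).re < κ ^ 3 / 128 := by
    have h2 : (⟪ξ, (∑ j, e j * q₀ * e j) ξ⟫_ℂ).re - (φ q₀).re < κ ^ 3 / 256 := by
      rw [← Complex.sub_re]
      exact (Complex.re_le_norm _).trans_lt h
    have h3 : κ ^ 3 / (256 * N) * ‖ξ‖ ^ 2 ≤ κ ^ 3 / 256 := by
      rw [div_mul_eq_mul_div, div_le_div_iff₀ (by positivity) (by norm_num)]
      have h4 : ‖ξ‖ ^ 2 ≤ N := by rw [hN]; linarith
      have h5 : 0 < κ ^ 3 := by positivity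
      nlinarith [mul_le_mul_of_nonneg_left h4 h5.le]
    have h6 : κ ^ 3 / 256 + κ ^ 3 / 256 = κ ^ 3 / 128 := by ring
    linarith
  obtain ⟨q, hq1, hq2, hq3, hq4, hq5⟩ := cut_down hM hzp hκ hq₀M hq₀ hzq₀ hτ he h1
  exact ⟨q, hq1, hq2, hq3, hq4, n, e, he, hq5⟩

end Crest.Agent.R109
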