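import Crest.Agent.R109.L0Gns
import Mathlib.Analysis.InnerProductSpace.ProdL2
import Crest.Agent.R109.CE
import Crest.Agent.R109.PartLib
import Crest.Agent.R109.Cut

-- ▼ part R109/L0Psi
section

/-!
# Row 109, part without normal expectation: the central limit functional
-/

set_option autoImplicit false
set_option linter.unusedSectionVars false
set_option linter.style.haveILetI false

namespace Crest.Agent.R109.L0

open scoped InnerProductSpace ComplexOrder
open ContinuousLinearMap Crest.Agent.R124 Crest.Agent.R121 Filter Topology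

universe u

noncomputable section

variable {H : Type u} [NormedAddCommGroup H] [InnerProductSpace ℂ H] [CompleteSpace H]
variable {M : VonNeumannAlgebra H} {A : StarSubalgebra ℂ (H →L[ℂ] H)}

/-- an ultrafilter of partitions finer than refinement -/
def UU (hM : Masa M A) : Ultrafilter (FP A) :=
  haveI := FP.atTop_neBot hM
  Ultrafilter.of atTop

/-- the same as a filter -/
def UF (hM : Masa M A) : Filter (FP A) := (UU hM : Filter (FP A))

lemma UF_le (hM : Masa M A) : UF hM ≤ atTop := by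
  haveI := FP.atTop_neBot hM
  exact Ultrafilter.of_le atTop

instance (hM : Masa M A) : NeBot (UF hM) := (UU hM).neBot









end

end Crest.Agent.R109.L0
end

-- ▼ part R109/WLim
section

/-!
# Row 109, part without normal expectation: weak limits of pinchings
-/

set_option autoImplicit false
set_option linter.unusedSectionVars false
set_option linter.style.haveILetI false

namespace Crest.Agent.R109

open scoped InnerProductSpace ComplexOrder
open ContinuousLinearMap Crest.Agent.R124 Crest.Agent.R121 Filter Topology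

universe u

section Wlim

variable {H : Type u} [NormedAddCommGroup H] [InnerProductSpace ℂ H] [CompleteSpace H]

/-- weak limits of bounded families along an ultrafilter -/
theorem exists_wlim {ι : Type*} (U : Ultrafilter ι) (T : ι → H →L[ℂ] H) {C : ℝ} (hC : 0 ≤ C)
    (hT : ∀ i, ‖T i‖ ≤ C) : ∃ E : H →L[ℂ] H, ‖E‖ ≤ C ∧
      ∀ v w : H, Tendsto (fun i => ⟪T i v, w⟫_ℂ) U (𝓝 ⟪E v, w⟫_ℂ) := by
  have hex : ∀ v w : H, ∃ c : ℂ, Tendsto (fun i => ⟪T i v, w⟫_ℂ) U (𝓝 c) := by
    intro v w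
    have hc : IsCompact (Metric.closedBall (0 : ℂ) ((C * ‖v‖) * ‖w‖)) := isCompact_closedBall _ _
    obtain ⟨c, -, hc⟩ := hc.ultrafilter_le_nhds (U.map (fun i => ⟪T i v, w⟫_ℂ)) (by
      rw [le_principal_iff, Ultrafilter.coe_map, mem_map]
      refine Filter.univ_mem' (fun i => ?_)
      simp only [Set.mem_preimage, Metric.mem_closedBall, dist_zero_right]
      refine (norm_inner_le_norm _ _).trans ?_
      gcongr
      exact (le_opNorm _ _).trans (by gcongr; exact hT i))
    exact ⟨c, hc⟩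
  choose B hB using hex
  have hadd1 : ∀ v v' w, B (v + v') w = B v w + B v' w := by
    intro v v' w
    refine tendsto_nhds_unique (hB (v + v') w) ?_
    simpa only [map_add, inner_add_left] using (hB v w).add (hB v' w)
  have hadd2 : ∀ v w w', B v (w + w') = B v w + B v w' := by
    intro v w w'
    refine tendsto_nhds_unique (hB v (w + w')) ?_
    simpa only [inner_add_right] using (hB v w).add (hB v w')
  have hsm1 : ∀ (c : ℂ) v w, B (c • v) w = (starRingEnd ℂ) c • B v w := by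
    intro c v w
    refine tendsto_nhds_unique (hB (c • v) w) ?_
    simpa only [map_smul, inner_smul_left, smul_eq_mul] using (hB v w).const_mul ((starRingEnd ℂ) c)
  have hsm2 : ∀ (c : ℂ) v w, B v (c • w) = c • B v w := by
    intro c v w
    refine tendsto_nhds_unique (hB v (c • w)) ?_
    simpa only [inner_smul_right, smul_eq_mul] using (hB v w).const_mul c
  have hbd : ∀ v w, ‖B v w‖ ≤ C * ‖v‖ * ‖w‖ := by
    intro v w
    refine le_of_tendsto (hB v w).norm (Eventually.of_forall fun i => ?_)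
    refine (norm_inner_le_norm _ _).trans ?_
    gcongr
    exact (le_opNorm _ _).trans (by gcongr; exact hT i)
  let L : H →ₗ⋆[ℂ] H →ₗ[ℂ] ℂ := LinearMap.mk₂'ₛₗ (starRingEnd ℂ) (RingHom.id ℂ) B hadd1
    (fun c v w => hsm1 c v w) (fun v w w' => hadd2 v w w') (fun c v w => hsm2 c v w)
  let Lc : H →L⋆[ℂ] H →L[ℂ] ℂ := L.mkContinuous₂ C (fun v w => hbd v w)
  have happ : ∀ v w, ⟪InnerProductSpace.continuousLinearMapOfBilin Lc v, w⟫_ℂ = B v w := by
    intro v w
    rw [InnerProductSpace.continuousLinearMapOfBilin_apply]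
    rfl
  refine ⟨InnerProductSpace.continuousLinearMapOfBilin Lc, ?_, ?_⟩
  · refine ContinuousLinearMap.opNorm_le_bound _ hC fun v => ?_
    by_cases h0 : InnerProductSpace.continuousLinearMapOfBilin Lc v = 0
    · rw [h0, norm_zero]; positivity
    · have h1 := hbd v (InnerProductSpace.continuousLinearMapOfBilin Lc v)
      rw [← happ, inner_self_eq_norm_sq_to_K] at h1
      have h2 : ‖((‖InnerProductSpace.continuousLinearMapOfBilin Lc v‖ : ℂ)) ^ 2‖
          = ‖InnerProductSpace.continuousLinearMapOfBilin Lc v‖ ^ 2 := by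
        rw [norm_pow, Complex.norm_real, norm_norm]
      have h3 : 0 < ‖InnerProductSpace.continuousLinearMapOfBilin Lc v‖ := norm_pos_iff.2 h0
      have h4 : ‖InnerProductSpace.continuousLinearMapOfBilin Lc v‖ ^ 2
          ≤ C * ‖v‖ * ‖InnerProductSpace.continuousLinearMapOfBilin Lc v‖ := by
        rw [← h2]; exact h1
      rw [sq] at h4
      exact le_of_mul_le_mul_right h4 h3
  · intro v w
    rw [happ]
    exact hB v w

end Wlim

variable {H : Type u} [NormedAddCommGroup H] [InnerProductSpace ℂ H] [CompleteSpace H]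
variable {M : VonNeumannAlgebra H} {A : StarSubalgebra ℂ (H →L[ℂ] H)}

/-- weak limit of the pinchings of `x`: an element of the masa -/
theorem exists_ED (hM : Masa M A) {x : H →L[ℂ] H} (hx : x ∈ M) (hxs : IsSelfAdjoint x) :
    ∃ a ∈ A, IsSelfAdjoint a ∧ ‖a‖ ≤ ‖x‖ ∧ ∀ v w : H, ∀ ε : ℝ, 0 < ε → ∃ P : FP A,
      ‖⟪(D P x - a) v, w⟫_ℂ‖ ≤ ε := by
  obtain ⟨a, ha, hlim⟩ := exists_wlim (L0.UU hM) (fun P => D P x) (norm_nonneg x)
    (fun P => norm_D_le P x)
  have hle : ((L0.UU hM : Ultrafilter (FP A)) : Filter (FP A)) ≤ atTop := L0.UF_le hM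
  have haM : a ∈ M := by
    apply mem_of_commutant
    intro T hT
    ext v
    refine ext_inner_right ℂ fun w => ?_
    have h1 := hlim (T v) w
    have h2 := hlim v (star T w)
    have e3 : ∀ y : H →L[ℂ] H, ⟪y v, star T w⟫_ℂ = ⟪(T * y) v, w⟫_ℂ := by
      intro y
      rw [star_eq_adjoint, adjoint_inner_right]
      rfl
    simp only [e3] at h2
    refine tendsto_nhds_unique h2 (h1.congr fun P => ?_)
    rw [commutant_comm M (D_mem P x hM hx) hT]
    rfl
  have haA : a ∈ A := by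
    have hproj : ∀ p ∈ A, IsStarProjection p → p * a = a * p := by
      intro p hp hpp
      have hps : star p = p := hpp.isSelfAdjoint
      ext v
      refine ext_inner_right ℂ fun w => ?_
      have h1 := hlim (p v) w
      have h2 := hlim v (p w)
      have e3 : ∀ y : H →L[ℂ] H, ⟪y v, p w⟫_ℂ = ⟪(p * y) v, w⟫_ℂ := by
        intro y
        conv_lhs => rw [← hps, star_eq_adjoint, adjoint_inner_right]
        rfl
      simp only [e3] at h2
      refine tendsto_nhds_unique h2 (h1.congr' ?_)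
      have h3 : ∀ᶠ P : FP A in (L0.UU hM : Filter (FP A)), FP.two hp hpp ≤ P :=
        hle (eventually_ge_atTop _)
      filter_upwards [h3] with P hP
      have h4 := D_comm_of_le hP x (0 : Fin 2)
      have h5 : (FP.two hp hpp).e (0 : Fin 2) = p := rfl
      rw [h5] at h4
      rw [h4]
      rfl
    apply hM.max a haM
    intro b hb
    exact hM.comm_of_proj hproj hb
  refine ⟨a, haA, ?_, ha, ?_⟩
  · change star a = a
    ext v
    refine ext_inner_right ℂ fun w => ?_
    have h1 := hlim v w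
    have h2 := hlim w v
    have e1 : ⟪star a v, w⟫_ℂ = (starRingEnd ℂ) ⟪a w, v⟫_ℂ := by
      rw [star_eq_adjoint, adjoint_inner_left, ← inner_conj_symm]
    rw [e1]
    refine tendsto_nhds_unique ((Complex.continuous_conj.tendsto _).comp h2) (h1.congr fun P => ?_)
    have e2 : star (D P x) = D P x := by rw [← D_star, hxs.star_eq]
    change _ = (starRingEnd ℂ) ⟪D P x w, v⟫_ℂ
    conv_lhs => rw [← e2, star_eq_adjoint, adjoint_inner_left, ← inner_conj_symm]
  · intro v w ε hε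
    have h1 := hlim v w
    have h2 := Metric.tendsto_nhds.1 h1 ε hε
    obtain ⟨P, hP⟩ := h2.exists
    refine ⟨P, ?_⟩
    rw [sub_apply, inner_sub_left, ← dist_eq_norm]
    exact hP.le

end Crest.Agent.R109
end

-- ▼ part R109/SeqLev
section

/-!
# Row 109, part without normal expectation: choosing the levels one after the other
-/

set_option autoImplicit false
set_option linter.unusedSectionVars false

namespace Crest.Agent.R109

open scoped InnerProductSpace
open ContinuousLinearMap Crest.Agent.R124 Crest.Agent.R121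

universe u

variable {H : Type u} [NormedAddCommGroup H] [InnerProductSpace ℂ H] [CompleteSpace H]

lemma inner_proj_move {p : H →L[ℂ] H} (hp : IsStarProjection p) (u v : H) :
    ⟪p u, v⟫_ℂ = ⟪u, p v⟫_ℂ := by
  have e3 : adjoint p = p := hp.isSelfAdjoint
  conv_lhs => rw [← e3]
  rw [adjoint_inner_left]

lemma norm_proj_le' {p : H →L[ℂ] H} (hp : IsStarProjection p) (u : H) : ‖p u‖ ≤ ‖u‖ :=
  le_of_sq_le_sq (norm_proj_le hp u) (norm_nonneg _)
where
  le_of_sq_le_sq {a b : ℝ} (h : a ^ 2 ≤ b ^ 2) (hb : 0 ≤ b) : a ≤ b := by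
    nlinarith [abs_le_of_sq_le_sq h hb, abs_nonneg a, le_abs_self a]

/-- the squared norms of the pieces of a vector -/
lemma Part.sum_norm_sq {A : StarSubalgebra ℂ (H →L[ℂ] H)} {z : H →L[ℂ] H} {ι : Type*} [Fintype ι]
    {e : ι → H →L[ℂ] H} (he : Part A z e) (ζ : H) : ∑ i, ‖e i ζ‖ ^ 2 = (⟪z ζ, ζ⟫_ℂ).re := by
  rw [← he.sum, sum_apply, sum_inner, Complex.re_sum]
  exact Finset.sum_congr rfl fun i _ => (re_inner_proj (he.proj i) ζ).symm

lemma Part.sum_norm_sq_le {A : StarSubalgebra ℂ (H →L[ℂ] H)} {z : H →L[ℂ] H} {ι : Type*}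
    [Fintype ι] {e : ι → H →L[ℂ] H} (he : Part A z e) (hz : IsStarProjection z) (ζ : H) :
    ∑ i, ‖e i ζ‖ ^ 2 ≤ ‖ζ‖ ^ 2 := by
  rw [he.sum_norm_sq, re_inner_proj hz]
  exact norm_proj_le hz ζ

/-- the block diagonal part controls `‖q e_k w‖` -/
lemma Part.norm_q_e_sq {A : StarSubalgebra ℂ (H →L[ℂ] H)} {z : H →L[ℂ] H} {ι : Type*}
    [Fintype ι] [DecidableEq ι] {e : ι → H →L[ℂ] H} (he : Part A z e) {q : H →L[ℂ] H}
    (hq : IsStarProjection q) {η : ℝ} (hη : ‖∑ j, e j * q * e j‖ ≤ η) (k : ι) (w : H) :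
    ‖q (e k w)‖ ^ 2 ≤ η * ‖e k w‖ ^ 2 := by
  have hk2 : e k * e k = e k := (he.proj k).isIdempotentElem.eq
  have hsum : (∑ j, e j * q * e j) * e k = e k * q * e k := by
    rw [Finset.sum_mul, Finset.sum_eq_single k]
    · rw [mul_assoc (e k * q), hk2]
    · intro j _ hj
      rw [mul_assoc (e j * q), he.orth _ _ hj, mul_zero]
    · simp
  have h1 : ‖q (e k w)‖ ^ 2 = (⟪(∑ j, e j * q * e j) (e k w), e k w⟫_ℂ).re := by
    have h2 : (∑ j, e j * q * e j) (e k w) = e k (q (e k w)) := by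
      have h3 : ((∑ j, e j * q * e j) * e k) w = (e k * q * e k) w := by rw [hsum]
      exact h3
    rw [h2, inner_proj_move (he.proj k)]
    have h4 : e k (e k w) = e k w := congrArg (fun R : H →L[ℂ] H => R w) hk2
    rw [h4, re_inner_proj hq]
  rw [h1]
  calc (⟪(∑ j, e j * q * e j) (e k w), e k w⟫_ℂ).re
      ≤ ‖(∑ j, e j * q * e j) (e k w)‖ * ‖e k w‖ :=
        (Complex.re_le_norm _).trans (norm_inner_le_norm _ _)
    _ ≤ (‖∑ j, e j * q * e j‖ * ‖e k w‖) * ‖e k w‖ := by gcongr; exact le_opNorm _ _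
    _ ≤ (η * ‖e k w‖) * ‖e k w‖ := by gcongr
    _ = η * ‖e k w‖ ^ 2 := by ring

variable {A : StarSubalgebra ℂ (H →L[ℂ] H)}

/-- sequential choice of the levels -/
theorem exists_levels {x a : H →L[ℂ] H} (hax : ‖a‖ ≤ ‖x‖)
    (hlim : ∀ v w : H, ∀ ε : ℝ, 0 < ε → ∃ P : FP A, ‖⟪(D P x - a) v, w⟫_ℂ‖ ≤ ε)
    {z : H →L[ℂ] H} (hz : IsStarProjection z) {n : ℕ} {e : Fin n → H →L[ℂ] H} (he : Part A z e)
    {q : H →L[ℂ] H} (hq : IsStarProjection q) {η : ℝ} (hη : ‖∑ j, e j * q * e j‖ ≤ η)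
    (ζ : H) {ε : ℝ} (hε : 0 < ε) : ∃ P : Fin n → FP A,
      ‖q ((∑ j, e j * (D (P j) x - a) * e j) ζ)‖ ^ 2 ≤ η * (2 * ‖x‖) ^ 2 * ‖ζ‖ ^ 2 + ε := by
  classical
  have hη0 : 0 ≤ η := (norm_nonneg _).trans hη
  have key : ∀ s : Finset (Fin n), ∀ ε : ℝ, 0 < ε → ∃ P : Fin n → FP A,
      ‖q ((∑ j ∈ s, e j * (D (P j) x - a) * e j) ζ)‖ ^ 2
        ≤ η * (2 * ‖x‖) ^ 2 * ∑ j ∈ s, ‖e j ζ‖ ^ 2 + ε := by
    intro s
    induction s using Finset.induction_on with
    | empty =>
      intro ε hε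
      exact ⟨fun _ => FP.triv A, by simpa using hε.le⟩
    | insert k s hk ih =>
      intro ε hε
      obtain ⟨P, hP⟩ := ih (ε / 2) (by positivity)
      set S := q ((∑ j ∈ s, e j * (D (P j) x - a) * e j) ζ) with hS
      obtain ⟨Q, hQ⟩ := hlim (e k ζ) (e k S) (ε / 4) (by positivity)
      refine ⟨Function.update P k Q, ?_⟩
      rw [Finset.sum_insert hk, Finset.sum_insert hk, Function.update_self]
      have h1 : ∑ j ∈ s, e j * (D (Function.update P k Q j) x - a) * e j
          = ∑ j ∈ s, e j * (D (P j) x - a) * e j := by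
        refine Finset.sum_congr rfl fun j hj => ?_
        rw [Function.update_of_ne (ne_of_mem_of_not_mem hj hk)]
      rw [h1, add_apply, map_add, ← hS]
      set w := (D Q x - a) (e k ζ) with hw
      have h2 : (e k * (D Q x - a) * e k) ζ = e k w := rfl
      rw [h2, norm_add_sq (𝕜 := ℂ)]
      have h3 : ‖q (e k w)‖ ^ 2 ≤ η * (2 * ‖x‖) ^ 2 * ‖e k ζ‖ ^ 2 := by
        refine (he.norm_q_e_sq hq hη k w).trans ?_
        have h4 : ‖e k w‖ ≤ 2 * ‖x‖ * ‖e k ζ‖ := by
          refine (norm_proj_le' (he.proj k) w).trans ?_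
          refine (le_opNorm _ _).trans ?_
          gcongr
          calc ‖D Q x - a‖ ≤ ‖D Q x‖ + ‖a‖ := norm_sub_le _ _
            _ ≤ ‖x‖ + ‖x‖ := by gcongr; exact norm_D_le Q x
            _ = 2 * ‖x‖ := by ring
        calc η * ‖e k w‖ ^ 2 ≤ η * (2 * ‖x‖ * ‖e k ζ‖) ^ 2 := by gcongr
          _ = η * (2 * ‖x‖) ^ 2 * ‖e k ζ‖ ^ 2 := by ring
      have h5 : (RCLike.re ⟪q (e k w), S⟫_ℂ : ℝ) ≤ ε / 4 := by
        have h6 : ⟪q (e k w), S⟫_ℂ = ⟪w, e k S⟫_ℂ := by
          rw [inner_proj_move hq, inner_proj_move (he.proj k)]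
          have h7 : q S = S := by
            rw [hS]
            exact congrArg (fun R : H →L[ℂ] H => R _) hq.isIdempotentElem.eq
          rw [h7]
        rw [h6]
        exact (RCLike.re_le_norm _).trans hQ
      rw [mul_add]
      linarith
  obtain ⟨P, hP⟩ := key Finset.univ ε hε
  refine ⟨P, hP.trans ?_⟩
  gcongr
  exact he.sum_norm_sq_le hz ζ

end Crest.Agent.R109
end

-- ▼ part R109/Color
section

/-!
# Row 109, part without normal expectation: the random colouring
-/

set_option autoImplicit false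
set_option linter.unusedSectionVars false

namespace Crest.Agent.R109

open scoped InnerProductSpace
open ContinuousLinearMap Crest.Agent.R124 Crest.Agent.R121

universe u

/-- a sum over colourings vanishes if the sum over one colour vanishes -/
lemma sum_col_eq_zero {I : Type*} [Fintype I] [DecidableEq I] {R : ℕ} (a : I)
    (F : (I → Fin R) → ℝ) (h : ∀ c, ∑ k, F (Function.update c a k) = 0) : ∑ c, F c = 0 := by
  rw [← (Equiv.funSplitAt a (Fin R)).symm.sum_comp F, Fintype.sum_prod_type, Finset.sum_comm]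
  refine Finset.sum_eq_zero fun g _ => ?_
  rcases Nat.eq_zero_or_pos R with h0 | h0
  · subst h0
    simp
  · have h1 := h ((Equiv.funSplitAt a (Fin R)).symm (⟨0, h0⟩, g))
    rw [← h1]
    refine Finset.sum_congr rfl fun k _ => ?_
    congr 1
    funext j
    by_cases hj : j = a
    · subst hj
      simp [Equiv.funSplitAt, Equiv.piSplitAt]
    · simp [Equiv.funSplitAt, Equiv.piSplitAt, hj]

/-- centred colour coincidence -/
noncomputable def th {I : Type*} [DecidableEq I] {R : ℕ} (c : I → Fin R) (p : I × I) : ℝ :=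
  if p.1 = p.2 then 0 else (if c p.1 = c p.2 then 1 else 0) - 1 / (R : ℝ)

lemma th_symm {I : Type*} [DecidableEq I] {R : ℕ} (c : I → Fin R) (p : I × I) :
    th c p = th c p.swap := by
  unfold th
  simp only [Prod.fst_swap, Prod.snd_swap]
  by_cases h : p.1 = p.2
  · rw [if_pos h, if_pos h.symm]
  · rw [if_neg h, if_neg (Ne.symm h)]
    simp only [eq_comm]

lemma sum_th_update {I : Type*} [DecidableEq I] {R : ℕ} (hR : 0 < R) (c : I → Fin R) (a b : I)
    (hab : a ≠ b) : ∑ k, th (Function.update c a k) (a, b) = 0 := by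
  have h1 : ∀ k, th (Function.update c a k) (a, b) = (if k = c b then 1 else 0) - 1 / (R : ℝ) := by
    intro k
    unfold th
    simp only [if_neg hab, Function.update_self, Function.update_of_ne (Ne.symm hab)]
  simp only [h1, Finset.sum_sub_distrib, Finset.sum_ite_eq', Finset.mem_univ, if_true,
    Finset.sum_const, Finset.card_univ, Fintype.card_fin]
  have h2 : (R : ℝ) ≠ 0 := by positivity
  rw [nsmul_eq_mul, mul_one_div_cancel h2, sub_self]

/-- decorrelation -/
lemma sum_th_th {I : Type*} [Fintype I] [DecidableEq I] {R : ℕ} (hR : 0 < R) (p p' : I × I)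
    (h1 : p' ≠ p) (h2 : p' ≠ p.swap) : ∑ c : I → Fin R, th c p * th c p' = 0 := by
  obtain ⟨a, b⟩ := p
  obtain ⟨a', b'⟩ := p'
  by_cases hab : a = b
  · refine Finset.sum_eq_zero fun c _ => ?_
    simp [th, hab]
  by_cases hab' : a' = b'
  · refine Finset.sum_eq_zero fun c _ => ?_
    simp [th, hab']
  -- one of a, b is not in {a', b'}
  have hcase : (a ≠ a' ∧ a ≠ b') ∨ (b ≠ a' ∧ b ≠ b') := by
    by_contra hcon
    push Not at hcon
    obtain ⟨c1, c2⟩ := hcon
    by_cases ha : a = a'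
    · subst ha
      have hb : b = b' := c2 (fun h => hab h.symm)
      subst hb
      exact h1 rfl
    · have hb : a = b' := c1 ha
      subst hb
      by_cases hb' : b = a'
      · subst hb'
        exact h2 rfl
      · exact hab (c2 hb').symm
  have main : ∀ a b a' b' : I, a ≠ b → a ≠ a' → a ≠ b' →
      ∑ c : I → Fin R, th c (a, b) * th c (a', b') = 0 := by
    intro a b a' b' hab h3 h4
    refine sum_col_eq_zero a _ fun c => ?_
    have h5 : ∀ k, th (Function.update c a k) (a', b') = th c (a', b') := by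
      intro k
      unfold th
      simp only [Function.update_of_ne (Ne.symm h3), Function.update_of_ne (Ne.symm h4)]
    simp only [h5, ← Finset.sum_mul, sum_th_update hR c a b hab, zero_mul]
  rcases hcase with ⟨h3, h4⟩ | ⟨h3, h4⟩
  · exact main a b a' b' hab h3 h4
  · have h5 : ∀ c : I → Fin R, th c (a, b) = th c (b, a) := fun c => th_symm c (a, b)
    simp only [h5]
    exact main b a a' b' (Ne.symm hab) h3 h4

/-- the second moment -/
lemma sum_th_sq {I : Type*} [Fintype I] [DecidableEq I] {R : ℕ} (hR : 0 < R) (p : I × I) :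
    ∑ c : I → Fin R, th c p ^ 2 ≤ (Fintype.card (I → Fin R) : ℝ) * (1 / R) := by
  obtain ⟨a, b⟩ := p
  have hRR : (0 : ℝ) < R := by exact_mod_cast hR
  by_cases hab : a = b
  · have : ∑ c : I → Fin R, th c (a, b) ^ 2 = 0 := Finset.sum_eq_zero fun c _ => by simp [th, hab]
    rw [this]; positivity
  · -- th² - (1/R) has nonpositive ... use : th² = θ (1 - 2/R) + (1/R)(1 - 1/R)
    have h1 : ∀ c : I → Fin R, th c (a, b) ^ 2
        = (1 - 2 / R) * th c (a, b) + (1 / R) * (1 - 1 / R) := by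
      intro c
      unfold th
      simp only [if_neg hab]
      split_ifs
      · field_simp; ring
      · field_simp; ring
    have h2 : ∑ c : I → Fin R, th c (a, b) = 0 :=
      sum_col_eq_zero a _ fun c => sum_th_update hR c a b hab
    simp only [h1, Finset.sum_add_distrib, ← Finset.mul_sum, h2, mul_zero, zero_add,
      Finset.sum_const, Finset.card_univ, nsmul_eq_mul]
    have h3 : 1 - 1 / (R : ℝ) ≤ 1 := by
      have : 0 ≤ 1 / (R : ℝ) := by positivity
      linarith
    have h4 : 1 / (R : ℝ) * (1 - 1 / R) ≤ 1 / (R : ℝ) :=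
      mul_le_of_le_one_right (by positivity) h3
    have h5 := mul_le_mul_of_nonneg_left h4 (Nat.cast_nonneg (α := ℝ) (Fintype.card (I → Fin R)))
    linarith

variable {H : Type u} [NormedAddCommGroup H] [InnerProductSpace ℂ H] [CompleteSpace H]

/-- the averaged square norm of a combination with centred colour coincidences -/
lemma sum_norm_th_sq {I : Type*} [Fintype I] [DecidableEq I] {R : ℕ} (hR : 0 < R)
    (v : I × I → H) :
    ∑ c : I → Fin R, ‖∑ p, (th c p : ℂ) • v p‖ ^ 2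
      ≤ (Fintype.card (I → Fin R) : ℝ) * (2 / R) * ∑ p, ‖v p‖ ^ 2 := by
  have hRR : (0 : ℝ) < R := by exact_mod_cast hR
  -- expand
  have h1 : ∀ c : I → Fin R, ‖∑ p, (th c p : ℂ) • v p‖ ^ 2
      = ∑ p, ∑ p', th c p * th c p' * (⟪v p, v p'⟫_ℂ).re := by
    intro c
    rw [← re_inner_self', sum_inner, Complex.re_sum]
    refine Finset.sum_congr rfl fun p _ => ?_
    rw [inner_sum, Complex.re_sum]
    refine Finset.sum_congr rfl fun p' _ => ?_
    rw [inner_smul_left, inner_smul_right, Complex.conj_ofReal, Complex.re_ofReal_mul,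
      Complex.re_ofReal_mul]
    ring
  simp only [h1]
  rw [Finset.sum_comm]
  have h2 : ∀ p : I × I, ∑ c : I → Fin R, ∑ p', th c p * th c p' * (⟪v p, v p'⟫_ℂ).re
      ≤ (Fintype.card (I → Fin R) : ℝ) * (1 / R) * (‖v p‖ ^ 2 + ‖v p‖ * ‖v p.swap‖) := by
    intro p
    rw [Finset.sum_comm]
    have h3 : ∀ p', ∑ c : I → Fin R, th c p * th c p' * (⟪v p, v p'⟫_ℂ).re
        = (∑ c : I → Fin R, th c p * th c p') * (⟪v p, v p'⟫_ℂ).re := by
      intro p'; rw [Finset.sum_mul]
    simp only [h3]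
    -- only p' = p, p.swap
    have h4 : ∑ p', (∑ c : I → Fin R, th c p * th c p') * (⟪v p, v p'⟫_ℂ).re
        ≤ ∑ p', ((if p' = p then (∑ c : I → Fin R, th c p ^ 2) * ‖v p‖ ^ 2 else 0)
          + (if p' = p.swap then (∑ c : I → Fin R, th c p ^ 2) * (‖v p‖ * ‖v p.swap‖) else 0)) := by
      refine Finset.sum_le_sum fun p' _ => ?_
      have hn : 0 ≤ ∑ c : I → Fin R, th c p ^ 2 := Finset.sum_nonneg fun _ _ => sq_nonneg _
      by_cases e1 : p' = p
      · subst e1
        rw [if_pos rfl]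
        have h5 : ∑ c : I → Fin R, th c p' * th c p' = ∑ c : I → Fin R, th c p' ^ 2 :=
          Finset.sum_congr rfl fun c _ => (sq _).symm
        rw [h5, re_inner_self']
        have h6 : 0 ≤ (if p' = p'.swap then
            (∑ c : I → Fin R, th c p' ^ 2) * (‖v p'‖ * ‖v p'.swap‖) else 0) := by
          split_ifs <;> positivity
        linarith
      · rw [if_neg e1]
        by_cases e2 : p' = p.swap
        · subst e2
          rw [if_pos rfl, zero_add]
          have h5 : ∑ c : I → Fin R, th c p * th c p.swap = ∑ c : I → Fin R, th c p ^ 2 :=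
            Finset.sum_congr rfl fun c _ => by rw [← th_symm, sq]
          rw [h5]
          gcongr
          exact (Complex.re_le_norm _).trans (norm_inner_le_norm _ _)
        · rw [if_neg e2, sum_th_th hR p p' e1 e2]
          simp
    refine h4.trans ?_
    rw [Finset.sum_add_distrib, Finset.sum_ite_eq' Finset.univ p,
      Finset.sum_ite_eq' Finset.univ p.swap]
    simp only [Finset.mem_univ, if_true]
    rw [← mul_add]
    gcongr
    exact sum_th_sq hR p
  refine (Finset.sum_le_sum fun p _ => h2 p).trans ?_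
  rw [← Finset.mul_sum, Finset.sum_add_distrib]
  have h6 : ∑ p : I × I, ‖v p‖ * ‖v p.swap‖ ≤ ∑ p, ‖v p‖ ^ 2 := by
    have h7 : ∑ p : I × I, ‖v p.swap‖ ^ 2 = ∑ p, ‖v p‖ ^ 2 :=
      (Equiv.prodComm I I).sum_comp (fun p => ‖v p‖ ^ 2)
    have h8 : ∑ p : I × I, ‖v p‖ * ‖v p.swap‖
        ≤ ∑ p : I × I, (‖v p‖ ^ 2 / 2 + ‖v p.swap‖ ^ 2 / 2) := by
      refine Finset.sum_le_sum fun p _ => ?_
      nlinarith [sq_nonneg (‖v p‖ - ‖v p.swap‖)]
    rw [Finset.sum_add_distrib, ← Finset.sum_div, ← Finset.sum_div, h7] at h8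
    linarith
  calc (Fintype.card (I → Fin R) : ℝ) * (1 / R) * (∑ p, ‖v p‖ ^ 2 + ∑ p : I × I, ‖v p‖ * ‖v p.swap‖)
      ≤ (Fintype.card (I → Fin R) : ℝ) * (1 / R) * (∑ p, ‖v p‖ ^ 2 + ∑ p, ‖v p‖ ^ 2) := by gcongr
    _ = (Fintype.card (I → Fin R) : ℝ) * (2 / R) * ∑ p, ‖v p‖ ^ 2 := by ring

section Grp

variable {A : StarSubalgebra ℂ (H →L[ℂ] H)} {z : H →L[ℂ] H} {I : Type*} [Fintype I]
  [DecidableEq I] {E : I → H →L[ℂ] H}

lemma Part.mul_ite (hE : Part A z E) (a b : I) : E a * E b = if a = b then E a else 0 := by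
  by_cases h : a = b
  · subst h
    rw [if_pos rfl]
    exact (hE.proj a).isIdempotentElem.eq
  · rw [if_neg h, hE.orth _ _ h]

/-- grouping a partition by colours -/
lemma Part.group (hE : Part A z E) {R : ℕ} (c : I → Fin R) :
    Part A z (fun i => ∑ a, if c a = i then E a else 0) where
  mem i := sum_mem fun a _ => by
    split_ifs
    · exact hE.mem a
    · exact zero_mem _
  proj i := by
    refine ⟨?_, ?_⟩
    · change (∑ a, if c a = i then E a else 0) * (∑ a, if c a = i then E a else 0) = _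
      rw [Finset.sum_mul]
      refine Finset.sum_congr rfl fun a _ => ?_
      by_cases h : c a = i
      · rw [if_pos h, Finset.mul_sum, Finset.sum_eq_single a]
        · rw [if_pos h]; exact (hE.proj a).isIdempotentElem.eq
        · intro b _ hb
          split_ifs
          · exact hE.orth _ _ (Ne.symm hb)
          · exact mul_zero _
        · simp
      · rw [if_neg h, zero_mul]
    · change Star.star (∑ a, if c a = i then E a else 0) = ∑ a, if c a = i then E a else 0
      rw [star_sum]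
      refine Finset.sum_congr rfl fun a _ => ?_
      split_ifs
      · exact (hE.proj a).isSelfAdjoint
      · exact star_zero _
  orth i j hij := by
    rw [Finset.sum_mul]
    refine Finset.sum_eq_zero fun a _ => ?_
    rw [Finset.mul_sum]
    refine Finset.sum_eq_zero fun b _ => ?_
    by_cases h1 : c a = i
    · by_cases h2 : c b = j
      · rw [if_pos h1, if_pos h2]
        apply hE.orth
        rintro rfl
        exact hij (h1.symm.trans h2)
      · rw [if_neg h2, mul_zero]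
    · rw [if_neg h1, zero_mul]
  sum := by
    rw [Finset.sum_comm]
    conv_rhs => rw [← hE.sum]
    refine Finset.sum_congr rfl fun a _ => ?_
    rw [Finset.sum_ite_eq Finset.univ (c a)]
    simp

/-- the pinching by the colour classes -/
lemma Part.group_pinch (hE : Part A z E) {R : ℕ} (c : I → Fin R) (x : H →L[ℂ] H) :
    (∑ i, (∑ a, if c a = i then E a else 0) * x * (∑ a, if c a = i then E a else 0))
      - ((1 / R : ℝ) : ℂ) • (z * x * z) - ((1 - 1 / R : ℝ) : ℂ) • ∑ a, E a * x * E a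
      = ∑ p : I × I, (th c p : ℂ) • (E p.1 * x * E p.2) := by
  have h1 : (∑ i, (∑ a, if c a = i then E a else 0) * x * (∑ a, if c a = i then E a else 0))
      = ∑ p : I × I, (if c p.1 = c p.2 then (1 : ℂ) else 0) • (E p.1 * x * E p.2) := by
    rw [Fintype.sum_prod_type]
    have h2 : ∀ i : Fin R, (∑ a, if c a = i then E a else 0) * x
        * (∑ a, if c a = i then E a else 0)
        = ∑ a, ∑ b, if c a = i then (if c b = i then E a * x * E b else 0) else 0 := by
      intro i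
      rw [Finset.sum_mul, Finset.sum_mul]
      refine Finset.sum_congr rfl fun a _ => ?_
      by_cases h : c a = i
      · simp only [if_pos h]
        rw [Finset.mul_sum]
        refine Finset.sum_congr rfl fun b _ => ?_
        split_ifs
        · rfl
        · exact mul_zero _
      · simp [h]
    simp only [h2]
    rw [Finset.sum_comm]
    refine Finset.sum_congr rfl fun a _ => ?_
    rw [Finset.sum_comm]
    refine Finset.sum_congr rfl fun b _ => ?_
    rw [Finset.sum_ite_eq Finset.univ (c a)]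
    simp only [Finset.mem_univ, if_true]
    by_cases h : c a = c b
    · rw [if_pos h.symm, if_pos h, one_smul]
    · rw [if_neg (Ne.symm h), if_neg h, zero_smul]
  have h3 : z * x * z = ∑ p : I × I, E p.1 * x * E p.2 := by
    rw [Fintype.sum_prod_type]
    conv_lhs => rw [← hE.sum]
    rw [Finset.sum_mul, Finset.sum_mul]
    refine Finset.sum_congr rfl fun a _ => ?_
    rw [Finset.mul_sum]
  have h4 : ∑ a, E a * x * E a = ∑ p : I × I, (if p.1 = p.2 then (1 : ℂ) else 0)
      • (E p.1 * x * E p.2) := by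
    rw [Fintype.sum_prod_type]
    refine Finset.sum_congr rfl fun a _ => ?_
    rw [Finset.sum_eq_single a]
    · simp
    · intro b _ hb
      simp [Ne.symm hb]
    · simp
  rw [h1, h3, h4, Finset.smul_sum, Finset.smul_sum, ← Finset.sum_sub_distrib,
    ← Finset.sum_sub_distrib]
  refine Finset.sum_congr rfl fun p _ => ?_
  rw [smul_smul, ← sub_smul, ← sub_smul]
  congr 1
  unfold th
  by_cases h : p.1 = p.2
  · rw [if_pos h, if_pos h, if_pos (by rw [h])]
    push_cast
    ring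
  · rw [if_neg h, if_neg h]
    split_ifs <;> push_cast <;> ring

/-- a good colouring -/
theorem exists_color (hz : IsStarProjection z) (hE : Part A z E) {R : ℕ} (hR : 0 < R)
    {q : H →L[ℂ] H} {η : ℝ} (hη0 : 0 ≤ η) (hη : ∀ a w, ‖q (E a w)‖ ^ 2 ≤ η * ‖E a w‖ ^ 2)
    (x : H →L[ℂ] H) (ζ : H) : ∃ c : I → Fin R,
      ‖q (((∑ i, (∑ a, if c a = i then E a else 0) * x * (∑ a, if c a = i then E a else 0))
        - ((1 / R : ℝ) : ℂ) • (z * x * z) - ((1 - 1 / R : ℝ) : ℂ) • ∑ a, E a * x * E a) ζ)‖ ^ 2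
        ≤ 2 / R * (η * (‖x‖ ^ 2 * ‖ζ‖ ^ 2)) := by
  have hRR : (0 : ℝ) < R := by exact_mod_cast hR
  have : Nonempty (Fin R) := ⟨⟨0, hR⟩⟩
  have h1 : ∑ c : I → Fin R, ‖∑ p : I × I, (th c p : ℂ) • q (E p.1 (x (E p.2 ζ)))‖ ^ 2
      ≤ ∑ _c : I → Fin R, 2 / R * (η * (‖x‖ ^ 2 * ‖ζ‖ ^ 2)) := by
    refine (sum_norm_th_sq hR _).trans ?_
    rw [Finset.sum_const, Finset.card_univ, nsmul_eq_mul, mul_assoc]
    gcongr
    rw [Fintype.sum_prod_type, Finset.sum_comm]
    have h2 : ∀ b, ∑ a, ‖q (E a (x (E b ζ)))‖ ^ 2 ≤ η * (‖x‖ ^ 2 * ‖E b ζ‖ ^ 2) := by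
      intro b
      calc ∑ a, ‖q (E a (x (E b ζ)))‖ ^ 2 ≤ ∑ a, η * ‖E a (x (E b ζ))‖ ^ 2 :=
            Finset.sum_le_sum fun a _ => hη a _
        _ = η * ∑ a, ‖E a (x (E b ζ))‖ ^ 2 := by rw [Finset.mul_sum]
        _ ≤ η * ‖x (E b ζ)‖ ^ 2 := by gcongr; exact hE.sum_norm_sq_le hz _
        _ ≤ η * (‖x‖ * ‖E b ζ‖) ^ 2 := by gcongr; exact le_opNorm _ _
        _ = η * (‖x‖ ^ 2 * ‖E b ζ‖ ^ 2) := by ring
    calc ∑ b, ∑ a, ‖q (E a (x (E b ζ)))‖ ^ 2 ≤ ∑ b, η * (‖x‖ ^ 2 * ‖E b ζ‖ ^ 2) :=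
          Finset.sum_le_sum fun b _ => h2 b
      _ = η * (‖x‖ ^ 2 * ∑ b, ‖E b ζ‖ ^ 2) := by rw [← Finset.mul_sum, ← Finset.mul_sum]
      _ ≤ η * (‖x‖ ^ 2 * ‖ζ‖ ^ 2) := by gcongr; exact hE.sum_norm_sq_le hz _
  obtain ⟨c, -, hc⟩ := Finset.exists_le_of_sum_le Finset.univ_nonempty h1
  refine ⟨c, ?_⟩
  rw [hE.group_pinch, sum_apply, map_sum]
  simp only [smul_apply, map_smul]
  exact hc

end Grp

end Crest.Agent.R109
end

-- ▼ part R109/No143

/-!
# Row 109, part without normal expectation, S0143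
-/

set_option autoImplicit false
set_option linter.unusedSectionVars false

namespace Crest.Agent.R109

open scoped InnerProductSpace
open ContinuousLinearMap Crest.Agent.R124 Crest.Agent.R121

universe u

section Ref

variable {H : Type u} [NormedAddCommGroup H] [InnerProductSpace ℂ H] [CompleteSpace H]
variable {M : VonNeumannAlgebra H} {A : StarSubalgebra ℂ (H →L[ℂ] H)}

/-- refining every cell of a partition by its own partition -/
lemma Part.refineBy (hM : Masa M A) {z : H →L[ℂ] H} {n : ℕ} {e : Fin n → H →L[ℂ] H}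
    (he : Part A z e) (P : Fin n → FP A) :
    Part A z (fun a : (j : Fin n) × Fin (P j).n => e a.1 * (P a.1).e a.2) where
  mem a := mul_mem (he.mem _) ((P a.1).part.mem _)
  proj a := by
    have h1 := (he.proj a.1).isIdempotentElem.eq
    have h2 := (P a.1).e_mul_e a.2
    have hc := hM.comm _ (he.mem a.1) _ ((P a.1).part.mem a.2)
    refine ⟨?_, ?_⟩
    · change (e a.1 * (P a.1).e a.2) * (e a.1 * (P a.1).e a.2) = _
      calc (e a.1 * (P a.1).e a.2) * (e a.1 * (P a.1).e a.2)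
          = e a.1 * ((P a.1).e a.2 * e a.1) * (P a.1).e a.2 := by simp only [mul_assoc]
        _ = (e a.1 * e a.1) * ((P a.1).e a.2 * (P a.1).e a.2) := by
            rw [← hc]; simp only [mul_assoc]
        _ = _ := by rw [h1, h2]
    · change Star.star (e a.1 * (P a.1).e a.2) = _
      rw [star_mul, (P a.1).star_e, (he.proj a.1).isSelfAdjoint.star_eq, hc]
  orth a b hab := by
    obtain ⟨j, k⟩ := a
    obtain ⟨j', k'⟩ := b
    have hc := hM.comm _ (he.mem j') _ ((P j).part.mem k)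
    change e j * (P j).e k * (e j' * (P j').e k') = 0
    have h0 : e j * (P j).e k * (e j' * (P j').e k')
        = (e j * e j') * ((P j).e k * (P j').e k') := by
      calc _ = e j * ((P j).e k * e j') * (P j').e k' := by simp only [mul_assoc]
        _ = _ := by rw [← hc]; simp only [mul_assoc]
    rw [h0]
    by_cases h : j = j'
    · subst h
      have hk : k ≠ k' := fun h => hab (by rw [h])
      rw [(P j).part.orth _ _ hk, mul_zero]
    · rw [he.orth _ _ h, zero_mul]
  sum := by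
    rw [Fintype.sum_sigma]
    simp only [← Finset.mul_sum, (P _).part.sum, mul_one]
    exact he.sum

lemma Part.refineBy_pinch (hM : Masa M A) {z : H →L[ℂ] H} {n : ℕ} {e : Fin n → H →L[ℂ] H}
    (he : Part A z e) (P : Fin n → FP A) (x : H →L[ℂ] H) :
    ∑ a : (j : Fin n) × Fin (P j).n, (e a.1 * (P a.1).e a.2) * x * (e a.1 * (P a.1).e a.2)
      = ∑ j, e j * D (P j) x * e j := by
  rw [Fintype.sum_sigma]
  refine Finset.sum_congr rfl fun j _ => ?_
  rw [D, Finset.mul_sum, Finset.sum_mul]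
  refine Finset.sum_congr rfl fun k _ => ?_
  have hc := hM.comm _ (he.mem j) _ ((P j).part.mem k)
  calc e j * (P j).e k * x * (e j * (P j).e k) = e j * (P j).e k * x * ((P j).e k * e j) := by
        rw [hc]
    _ = _ := by simp only [mul_assoc]

end Ref

/-- the part without normal expectation, S0143 -/
theorem noNCE143 (hQ : ExistsQ.{u}) : NoNCE143.{u} := by
  intro H _ _ _ M A hM hA z hz hzp hN x hx hxs ξ R hR κ hκ
  classical
  have hRR : (0 : ℝ) < R := by exact_mod_cast hR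
  have hR1 : (1 : ℝ) ≤ R := by exact_mod_cast hR
  have hR2 : (1 : ℝ) / R ≤ 1 := by rw [div_le_one hRR]; exact hR1
  have hR3 : 0 ≤ (1 : ℝ) / R := by positivity
  set B : ℝ := ‖x‖ ^ 2 * ‖ξ‖ ^ 2 with hB
  have hB0 : 0 ≤ B := by positivity
  set κ₀ : ℝ := min (κ / 2) (κ ^ 4 / (32 * 12 * (B + 1))) with hκ₀
  have hκ₀p : 0 < κ₀ := by positivity
  obtain ⟨q, hqM, hq, hzq, hqξ, n, e, he, hηe⟩ := hQ H M A hM hA z hz hzp hN ξ κ₀ hκ₀p
  have hη : 12 * κ₀ * B ≤ κ ^ 4 / 32 := by
    have h1 : κ₀ ≤ κ ^ 4 / (32 * 12 * (B + 1)) := min_le_right _ _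
    have h2 : 12 * κ₀ * B ≤ 12 * (κ ^ 4 / (32 * 12 * (B + 1))) * (B + 1) := by
      gcongr
      linarith
    refine h2.trans (le_of_eq ?_)
    field_simp
  obtain ⟨a₀, ha₀, ha₀s, ha₀n, hlim⟩ := exists_ED hM hx hxs
  obtain ⟨P, hP⟩ := exists_levels ha₀n hlim hzp he hq hηe (q ξ)
    (show 0 < κ ^ 4 / 64 by positivity)
  have hE := he.refineBy hM P
  have hqe : ∀ (a : (j : Fin n) × Fin (P j).n) (w : H),
      ‖q ((e a.1 * (P a.1).e a.2) w)‖ ^ 2 ≤ κ₀ * ‖(e a.1 * (P a.1).e a.2) w‖ ^ 2 :=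
    fun a w => he.norm_q_e_sq hq hηe a.1 ((P a.1).e a.2 w)
  obtain ⟨c, hc⟩ := exists_color hzp hE hR hκ₀p.le hqe x (q ξ)
  have hpart := hE.group c
  set p : Fin R → H →L[ℂ] H := fun i => ∑ a : (j : Fin n) × Fin (P j).n,
    if c a = i then e a.1 * (P a.1).e a.2 else 0 with hp
  have hzs : star z = z := hzp.isSelfAdjoint
  have hqs : star q = q := hq.isSelfAdjoint
  have hqq : q * q = q := hq.isIdempotentElem.eq
  have hzz : z * z = z := hzp.isIdempotentElem.eq
  have hza : z * a₀ = a₀ * z := hM.comm _ hz _ ha₀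
  -- the centre
  set ρ : ℂ := ((1 - 1 / R : ℝ) : ℂ) with hρ
  have hρn : ‖ρ‖ ≤ 1 := by
    rw [hρ, Complex.norm_real, Real.norm_eq_abs, abs_of_nonneg (by linarith)]
    linarith
  set a : H →L[ℂ] H := ρ • (z * a₀) with ha
  have haA : a ∈ A := by
    rw [ha]
    exact A.smul_mem (mul_mem hz ha₀) _
  set T : H →L[ℂ] H := ∑ i, p i * x * p i with hT
  set V : H →L[ℂ] H := ∑ j, e j * (D (P j) x - a₀) * e j with hV
  have hVe : V = ∑ j, e j * D (P j) x * e j - z * a₀ := by
    rw [hV]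
    have h1 : ∀ j, e j * (D (P j) x - a₀) * e j = e j * D (P j) x * e j - e j * a₀ := by
      intro j
      rw [mul_sub, sub_mul]
      congr 1
      rw [mul_assoc, ← hM.comm _ (he.mem j) _ ha₀, ← mul_assoc,
        (he.proj j).isIdempotentElem.eq]
    simp only [h1, Finset.sum_sub_distrib, ← Finset.sum_mul, he.sum]
  set r : ℂ := ((1 / R : ℝ) : ℂ) with hr
  set W : H →L[ℂ] H := T - r • (z * x * z) - ρ • ∑ j, e j * D (P j) x * e j with hW
  rw [he.refineBy_pinch hM P x] at hc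
  have hc' : ‖q (W (q ξ))‖ ^ 2 ≤ 2 / R * (κ₀ * (‖x‖ ^ 2 * ‖q ξ‖ ^ 2)) := hc
  set Δ : H →L[ℂ] H := T - r • (z * x * z) - a with hΔ
  have hΔe : Δ = W + ρ • V := by
    rw [hVe, hW, hΔ, ha, smul_sub]
    abel
  have hpM : ∀ i, p i ∈ M := fun i => hM.memM (hpart.mem i)
  have hTM : T ∈ M := sum_mem fun i _ => mul_mem (mul_mem (hpM i) hx) (hpM i)
  have hzM : z ∈ M := hM.memM hz
  have hΔM : Δ ∈ M := by
    refine sub_mem (sub_mem hTM ?_) (hM.memM haA)
    exact M.smul_mem (mul_mem (mul_mem hzM hx) hzM) _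
  have hTs : star T = T := by
    rw [hT, star_sum]
    refine Finset.sum_congr rfl fun i _ => ?_
    rw [star_mul, star_mul, hxs.star_eq, (hpart.proj i).isSelfAdjoint.star_eq, mul_assoc]
  have has : star a = a := by
    rw [ha, star_smul, star_mul, hzs, ha₀s.star_eq, ← hza]
    congr 1
    rw [hρ]
    exact Complex.conj_ofReal _
  have hΔs : star Δ = Δ := by
    rw [hΔ, star_sub, star_sub, hTs, has, star_smul, star_mul, star_mul, hzs, hxs.star_eq,
      ← mul_assoc]
    congr 3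
    rw [hr]
    exact Complex.conj_ofReal _
  -- the compressed difference
  set S : H →L[ℂ] H := q * Δ * q with hS
  have hSM : S ∈ M := mul_mem (mul_mem hqM hΔM) hqM
  have hSs : star S = S := by
    rw [hS, star_mul, star_mul, hqs, hΔs, mul_assoc]
  have hqS : q * S = S := by rw [hS, ← mul_assoc, ← mul_assoc, hqq]
  have hKpos : 0 ≤ S * S := by
    have := star_mul_self_nonneg S
    rwa [hSs] at this
  have hKin : ∀ ζ, (⟪(S * S) ζ, ζ⟫_ℂ).re = ‖S ζ‖ ^ 2 := by
    intro ζ
    rw [← re_inner_self']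
    congr 1
    have e3 : adjoint S = S := hSs
    conv_rhs => rw [← adjoint_inner_left, e3]
    rfl
  obtain ⟨s, hsM, hs, hqs', hs1, hs2, -⟩ := exists_cut M hKpos (mul_mem hSM hSM) hq hqM
    (by rw [← mul_assoc, hqS]) (show 0 ≤ κ ^ 2 by positivity)
  -- the size of `S ξ`
  have hqn : ‖q ξ‖ ≤ ‖ξ‖ := norm_proj_le' hq ξ
  have hSξ : ‖S ξ‖ ^ 2 ≤ κ ^ 4 / 16 := by
    have h1 : S ξ = q (W (q ξ)) + ρ • q (V (q ξ)) := by
      have : S ξ = q (Δ (q ξ)) := rfl
      rw [this, hΔe, add_apply, map_add, smul_apply, map_smul]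
    have h2 : ‖S ξ‖ ≤ ‖q (W (q ξ))‖ + ‖q (V (q ξ))‖ := by
      rw [h1]
      refine (norm_add_le _ _).trans ?_
      gcongr
      rw [norm_smul]
      exact mul_le_of_le_one_left (norm_nonneg _) hρn
    have h3 : ‖q (W (q ξ))‖ ^ 2 ≤ 2 * κ₀ * B := by
      refine hc'.trans ?_
      have h4 : (2 : ℝ) / R ≤ 2 := by rw [div_le_iff₀ hRR]; linarith
      calc 2 / R * (κ₀ * (‖x‖ ^ 2 * ‖q ξ‖ ^ 2)) ≤ 2 * (κ₀ * (‖x‖ ^ 2 * ‖ξ‖ ^ 2)) := by gcongr
        _ = 2 * κ₀ * B := by rw [hB]; ring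
    have h5 : ‖q (V (q ξ))‖ ^ 2 ≤ 4 * κ₀ * B + κ ^ 4 / 64 := by
      refine hP.trans ?_
      have h7 : κ₀ * (2 * ‖x‖) ^ 2 * ‖q ξ‖ ^ 2 ≤ 4 * κ₀ * B := by
        calc κ₀ * (2 * ‖x‖) ^ 2 * ‖q ξ‖ ^ 2 ≤ κ₀ * (2 * ‖x‖) ^ 2 * ‖ξ‖ ^ 2 := by gcongr
          _ = 4 * κ₀ * B := by rw [hB]; ring
      linarith
    have h6 : ‖S ξ‖ ^ 2 ≤ 2 * ‖q (W (q ξ))‖ ^ 2 + 2 * ‖q (V (q ξ))‖ ^ 2 := by
      calc ‖S ξ‖ ^ 2 ≤ (‖q (W (q ξ))‖ + ‖q (V (q ξ))‖) ^ 2 := by gcongr
        _ ≤ _ := by nlinarith [sq_nonneg (‖q (W (q ξ))‖ - ‖q (V (q ξ))‖)]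
    linarith
  refine ⟨p, hpart, a, haA, has, ?_, ?_, s, hsM, hs, ?_, ?_, ?_⟩
  · rw [ha, mul_smul_comm, ← mul_assoc, hzz]
  · rw [ha, norm_smul]
    calc ‖ρ‖ * ‖z * a₀‖ ≤ 1 * (‖z‖ * ‖a₀‖) := by gcongr; exact norm_mul_le _ _
      _ ≤ 1 * (1 * ‖x‖) := by gcongr; exact hzp.norm_le
      _ = ‖x‖ := by ring
  · rw [← hqs', ← mul_assoc, hzq]
  · have h1 : (z - s) ξ = (z - q) ξ + (q - s) ξ := by
      simp only [sub_apply]; abel
    rw [h1]
    have h2 : ‖(q - s) ξ‖ ≤ κ / 4 := by
      have h3 := hs1 ξ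
      rw [hKin] at h3
      have h4 : κ ^ 2 * ‖(q - s) ξ‖ ^ 2 ≤ κ ^ 2 * (κ / 4) ^ 2 := by
        calc _ ≤ κ ^ 4 / 16 := h3.trans hSξ
          _ = _ := by ring
      have h5 : ‖(q - s) ξ‖ ^ 2 ≤ (κ / 4) ^ 2 := le_of_mul_le_mul_left h4 (by positivity)
      exact (sq_le_sq₀ (norm_nonneg _) (by positivity)).1 h5
    have h3 : κ₀ ≤ κ / 2 := min_le_left _ _
    calc ‖(z - q) ξ + (q - s) ξ‖ ≤ ‖(z - q) ξ‖ + ‖(q - s) ξ‖ := norm_add_le _ _
      _ < κ := by linarith
  · -- the norm bound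
    have hsq : s * q = s := by
      have := congrArg star hqs'
      rwa [star_mul, hqs, hs.isSelfAdjoint.star_eq] at this
    have h1 : s * (T - a) * s = r • (s * (z * x * z) * s) + s * S * s := by
      have e1 : T - a = r • (z * x * z) + Δ := by rw [hΔ]; abel
      have e2 : s * S * s = s * Δ * s := by
        rw [hS]
        calc s * (q * Δ * q) * s = (s * q) * Δ * (q * s) := by simp only [mul_assoc]
          _ = _ := by rw [hsq, hqs']
      rw [e2, e1, mul_add, add_mul, mul_smul_comm, smul_mul_assoc]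
    have hsn : ‖s‖ ≤ 1 := hs.norm_le
    have hzn : ‖z‖ ≤ 1 := hzp.norm_le
    have h2 : ‖r • (s * (z * x * z) * s)‖ ≤ 1 / R * ‖x‖ := by
      rw [norm_smul, hr, Complex.norm_real, Real.norm_eq_abs, abs_of_nonneg hR3]
      gcongr
      calc ‖s * (z * x * z) * s‖ ≤ ‖s‖ * (‖z‖ * ‖x‖ * ‖z‖) * ‖s‖ := by
            refine (norm_mul_le _ _).trans ?_
            gcongr
            refine (norm_mul_le _ _).trans ?_
            gcongr
            refine (norm_mul_le _ _).trans ?_
            gcongr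
            exact norm_mul_le _ _
        _ ≤ 1 * (1 * ‖x‖ * 1) * 1 := by gcongr
        _ = ‖x‖ := by ring
    have h3 : ‖s * S * s‖ ≤ κ := by
      refine ContinuousLinearMap.opNorm_le_bound _ hκ.le fun ζ => ?_
      have h4 : ‖S (s ζ)‖ ^ 2 ≤ κ ^ 2 * ‖s ζ‖ ^ 2 := by
        have := hs2 ζ
        rwa [hKin] at this
      have h5 : ‖S (s ζ)‖ ≤ κ * ‖s ζ‖ := by
        rw [← mul_pow] at h4
        exact (sq_le_sq₀ (norm_nonneg _) (by positivity)).1 h4
      calc ‖(s * S * s) ζ‖ = ‖s (S (s ζ))‖ := rfl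
        _ ≤ ‖S (s ζ)‖ := norm_proj_le' hs _
        _ ≤ κ * ‖s ζ‖ := h5
        _ ≤ κ * ‖ζ‖ := by gcongr; exact norm_proj_le' hs _
    change ‖s * (T - a) * s‖ ≤ _
    rw [h1]
    refine (norm_add_le _ _).trans ?_
    have h6 : 1 / (R : ℝ) * ‖x‖ ≤ 2 / R * ‖x‖ := by gcongr; norm_num
    linarith

end Crest.Agent.R109
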