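import Crest.Agent.R109.PartLib
import Crest.Agent.R121.DichA

/-!
# Row 109: `NoNCE144` from `ExistsQ`
-/

set_option autoImplicit false
set_option linter.unusedSectionVars false

namespace Crest.Agent.R109

open scoped InnerProductSpace
open ContinuousLinearMap Crest.Agent.R121 Crest.Agent.R124

universe u

namespace No144

section Greedy

variable {E : Type*} [NormedAddCommGroup E] [InnerProductSpace ℂ E]

lemma norm_add_real_smul (V w : E) (x : ℝ) :
    ‖V + (x : ℂ) • w‖ ^ 2 = ‖V‖ ^ 2 + 2 * x * (⟪V, w⟫_ℂ).re + x ^ 2 * ‖w‖ ^ 2 := by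
  rw [@norm_add_sq ℂ, inner_smul_right, norm_smul]
  have h1 : RCLike.re ((x : ℂ) * ⟪V, w⟫_ℂ) = x * (⟪V, w⟫_ℂ).re := by
    change ((x : ℂ) * ⟪V, w⟫_ℂ).re = _
    rw [Complex.re_ofReal_mul]
  rw [h1, mul_pow, Complex.norm_real, Real.norm_eq_abs, sq_abs]
  ring

/-- greedy colouring -/
lemma greedy {J : Type*} [DecidableEq J] {R : ℕ} (hR : 0 < R) (w : J → E) (s : Finset J) :
    ∃ c : J → Fin R, ∑ i, ‖∑ j ∈ s, (((if c j = i then 1 else 0) - 1 / R : ℝ) : ℂ) • w j‖ ^ 2 ≤
      ∑ j ∈ s, ‖w j‖ ^ 2 := by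
  classical
  induction s using Finset.induction_on with
  | empty => exact ⟨fun _ => ⟨0, hR⟩, by simp⟩
  | insert j₀ s hj₀ ih =>
    obtain ⟨c, hc⟩ := ih
    set V : Fin R → E := fun i =>
      ∑ j ∈ s, (((if c j = i then 1 else 0) - 1 / R : ℝ) : ℂ) • w j with hV
    have hR' : (0 : ℝ) < R := by exact_mod_cast hR
    have key : ∃ a : Fin R, ∑ i, ‖V i + (((if a = i then 1 else 0) - 1 / R : ℝ) : ℂ) • w j₀‖ ^ 2 ≤
        ∑ i, ‖V i‖ ^ 2 + ‖w j₀‖ ^ 2 := by
      by_contra hcon
      push Not at hcon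
      have hne : (Finset.univ : Finset (Fin R)).Nonempty := ⟨⟨0, hR⟩, Finset.mem_univ _⟩
      have h1 := Finset.sum_lt_sum_of_nonempty hne (fun a _ => hcon a)
      rw [Finset.sum_const, Finset.card_univ, Fintype.card_fin, nsmul_eq_mul, Finset.sum_comm] at h1
      have h2 : ∀ i : Fin R, ∑ a : Fin R, ‖V i + (((if a = i then 1 else 0) - 1 / R : ℝ) : ℂ) •
          w j₀‖ ^ 2 = R * ‖V i‖ ^ 2 + (1 - 1 / R) * ‖w j₀‖ ^ 2 := by
        intro i
        have e1 : ∀ a : Fin R, ‖V i + (((if a = i then 1 else 0) - 1 / R : ℝ) : ℂ) • w j₀‖ ^ 2 =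
            (‖V i‖ ^ 2 - 2 / R * (⟪V i, w j₀⟫_ℂ).re + 1 / R ^ 2 * ‖w j₀‖ ^ 2) +
              (if a = i then 2 * (⟪V i, w j₀⟫_ℂ).re + (1 - 2 / R) * ‖w j₀‖ ^ 2 else 0) := by
          intro a
          rw [norm_add_real_smul]
          by_cases ha : a = i
          · simp only [ha, if_true]
            field_simp
            ring
          · simp only [ha, if_false]
            field_simp
            ring
        rw [Finset.sum_congr rfl (fun a _ => e1 a), Finset.sum_add_distrib, Finset.sum_const,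
          Finset.card_univ, Fintype.card_fin, nsmul_eq_mul,
          Finset.sum_ite_eq' Finset.univ i, if_pos (Finset.mem_univ i)]
        field_simp
        ring
      rw [Finset.sum_congr rfl (fun i _ => h2 i), Finset.sum_add_distrib, ← Finset.mul_sum,
        Finset.sum_const, Finset.card_univ, Fintype.card_fin, nsmul_eq_mul] at h1
      have h3 : (R : ℝ) * ((1 - 1 / R) * ‖w j₀‖ ^ 2) = R * ‖w j₀‖ ^ 2 - ‖w j₀‖ ^ 2 := by
        field_simp
      rw [h3] at h1
      nlinarith [sq_nonneg ‖w j₀‖]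
    obtain ⟨a, ha⟩ := key
    refine ⟨Function.update c j₀ a, ?_⟩
    rw [Finset.sum_insert hj₀]
    have h4 : ∀ i : Fin R, ∑ j ∈ insert j₀ s,
        (((if Function.update c j₀ a j = i then 1 else 0) - 1 / R : ℝ) : ℂ) • w j =
        V i + (((if a = i then 1 else 0) - 1 / R : ℝ) : ℂ) • w j₀ := by
      intro i
      rw [Finset.sum_insert hj₀, Function.update_self, add_comm]
      congr 1
      refine Finset.sum_congr rfl (fun j hj => ?_)
      rw [Function.update_of_ne (fun h : j = j₀ => hj₀ (by rwa [h] at hj))]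
    rw [Finset.sum_congr rfl (fun i _ => by rw [h4 i])]
    linarith

end Greedy

variable {H : Type u} [NormedAddCommGroup H] [InnerProductSpace ℂ H] [CompleteSpace H]
variable {M : VonNeumannAlgebra H} {A : StarSubalgebra ℂ (H →L[ℂ] H)}

/-- **spectral cut** -/
theorem spectral_cut (M : VonNeumannAlgebra H) {S : H →L[ℂ] H} (hS : 0 ≤ S) (hSM : S ∈ M) {t : ℝ}
    (ht : 0 < t) : ∃ g ∈ M, IsStarProjection g ∧ (∀ B : H →L[ℂ] H, B * S = S → B * g = g) ∧
      ‖S * (1 - g)‖ ≤ t ∧ ∀ ξ, t * ‖g ξ‖ ^ 2 ≤ (⟪S ξ, ξ⟫_ℂ).re := by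
  have hsa : IsSelfAdjoint S := hS.isSelfAdjoint
  refine ⟨rp (tr S t), rp_mem M (cfc_mem M hSM _), rp_proj _, ?_, ?_, ?_⟩
  · intro B hB
    apply rp_mul_of
    obtain ⟨c, hc⟩ := tr_factor hS (t := 0) ht
    rw [zero_add, tr_zero hS] at hc
    rw [hc, ← mul_assoc, hB]
  · have h1 : tr S t * (1 - rp (tr S t)) = 0 := by
      have h := congrArg star (rp_mul_self (tr S t))
      rw [star_mul, (rp_proj (tr S t)).isSelfAdjoint.star_eq, tr_sa hS] at h
      rw [mul_sub, mul_one, h, sub_self]
    have h2 : S * (1 - rp (tr S t)) = (S - tr S t) * (1 - rp (tr S t)) := by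
      rw [sub_mul, h1, sub_zero]
    rw [h2]
    have h3 : ‖(1 : H →L[ℂ] H) - rp (tr S t)‖ ≤ 1 := (rp_proj (tr S t)).one_sub.norm_le
    have h4 : ‖S - tr S t‖ ≤ t := by
      have : S - tr S t = cfc (fun s : ℝ => s - max (s - t) 0) S := by
        unfold tr
        rw [cfc_sub (fun s : ℝ => s) (fun s : ℝ => max (s - t) 0) S (by fun_prop) (by fun_prop),
          cfc_id' ℝ S]
      rw [this]
      refine norm_cfc_le ht.le (fun s hs => ?_)
      have hs0 : 0 ≤ s := spectrum_nonneg_of_nonneg hS hs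
      rw [Real.norm_eq_abs, abs_le]
      rcases le_total (s - t) 0 with h | h
      · rw [max_eq_right h]
        constructor <;> linarith
      · rw [max_eq_left h]
        constructor <;> linarith
    calc _ ≤ ‖S - tr S t‖ * ‖(1 : H →L[ℂ] H) - rp (tr S t)‖ := norm_mul_le _ _
      _ ≤ t * 1 := by gcongr
      _ = t := mul_one t
  · intro ξ
    set g := rp (tr S t) with hg
    have hgp : IsStarProjection g := rp_proj _
    have hgs : star g = g := hgp.isSelfAdjoint
    have hcomm0 : S * tr S t = tr S t * S := by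
      unfold tr
      conv_lhs => rw [← cfc_id' ℝ S]
      conv_rhs => rw [← cfc_id' ℝ S]
      rw [cfc_id' ℝ S]
      exact (cfc_commute_cfc (fun s : ℝ => s) (fun s : ℝ => max (s - t) 0) S).eq |> (by
        simpa [cfc_id' ℝ S] using ·)
    have hz : (1 - g) * S * g = 0 := by
      apply mul_rp_eq_zero
      rw [mul_assoc, hcomm0, ← mul_assoc, sub_mul, one_mul, rp_mul_self, sub_self, zero_mul]
    have hz' : g * S * (1 - g) = 0 := by
      have := congrArg star hz
      rw [star_mul, star_mul, star_sub, star_one, hgs, hsa.star_eq, star_zero, ← mul_assoc] at this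
      exact this
    have hSg : S * g = g * S * g := by
      rw [sub_mul, one_mul, sub_mul, sub_eq_zero] at hz
      exact hz
    have hcl : IsClosed {v : H | t * ‖v‖ ^ 2 ≤ (⟪S v, v⟫_ℂ).re} := by
      apply isClosed_le
      · fun_prop
      · fun_prop
    have hrange : ∀ v ∈ Set.range (tr S t), t * ‖v‖ ^ 2 ≤ (⟪S v, v⟫_ℂ).re := by
      rintro _ ⟨η, rfl⟩
      have h5 : 0 ≤ cfc (fun s : ℝ => (s - t) * (max (s - t) 0 * max (s - t) 0)) S := by
        apply cfc_nonneg
        intro s _
        rcases le_total (s - t) 0 with h | h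
        · rw [max_eq_right h]; simp
        · rw [max_eq_left h]; positivity
      have h6 : cfc (fun s : ℝ => (s - t) * (max (s - t) 0 * max (s - t) 0)) S =
          (S - algebraMap ℝ _ t) * (tr S t * tr S t) := by
        unfold tr
        rw [cfc_mul (fun s : ℝ => s - t) (fun s : ℝ => max (s - t) 0 * max (s - t) 0) S
          (by fun_prop) (by fun_prop), cfc_mul (fun s : ℝ => max (s - t) 0)
          (fun s : ℝ => max (s - t) 0) S (by fun_prop) (by fun_prop),
          cfc_sub (fun s : ℝ => s) (fun _ : ℝ => t) S (by fun_prop) (by fun_prop), cfc_id' ℝ S,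
          cfc_const t S]
      rw [h6] at h5
      have h7 := re_inner_nonneg h5 η
      have h8 : (S - algebraMap ℝ (H →L[ℂ] H) t) * (tr S t * tr S t) =
          tr S t * ((S - algebraMap ℝ (H →L[ℂ] H) t) * tr S t) := by
        have e1 : algebraMap ℝ (H →L[ℂ] H) t * tr S t = tr S t * algebraMap ℝ (H →L[ℂ] H) t :=
          Algebra.commutes _ _
        have e1' : (S - algebraMap ℝ (H →L[ℂ] H) t) * tr S t =
            tr S t * (S - algebraMap ℝ (H →L[ℂ] H) t) := by
          rw [sub_mul, hcomm0, e1, ← mul_sub]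
        rw [← mul_assoc, e1', mul_assoc, e1']
      rw [h8] at h7
      have h9 : (⟪(tr S t * ((S - algebraMap ℝ (H →L[ℂ] H) t) * tr S t)) η, η⟫_ℂ).re =
          (⟪S (tr S t η), tr S t η⟫_ℂ).re - t * ‖tr S t η‖ ^ 2 := by
        have e2 : ∀ v, ⟪tr S t v, η⟫_ℂ = ⟪v, tr S t η⟫_ℂ := by
          intro v
          have := (adjoint_inner_right (tr S t) v η)
          rw [← star_eq_adjoint, tr_sa hS] at this
          exact this.symm
        change (⟪tr S t ((S - algebraMap ℝ (H →L[ℂ] H) t) (tr S t η)), η⟫_ℂ).re = _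
        rw [e2]
        have e3 : (S - algebraMap ℝ (H →L[ℂ] H) t) (tr S t η) = S (tr S t η) -
            (t : ℂ) • tr S t η := by
          rw [Algebra.algebraMap_eq_smul_one]
          change S (tr S t η) - t • tr S t η = _
          rw [Complex.coe_smul]
        rw [e3, inner_sub_left, inner_smul_left, Complex.conj_ofReal, Complex.sub_re,
          Complex.re_ofReal_mul]
        have e4 : (⟪tr S t η, tr S t η⟫_ℂ).re = ‖tr S t η‖ ^ 2 := inner_self_eq_norm_sq (𝕜 := ℂ) _
        rw [e4]
      rw [h9] at h7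
      linarith
    have h10 : t * ‖g ξ‖ ^ 2 ≤ (⟪S (g ξ), g ξ⟫_ℂ).re :=
      closure_minimal hrange hcl (rp_apply_mem (tr S t) ξ)
    have h11 : S = g * S * g + (1 - g) * S * (1 - g) := by
      have : S = g * S * g + g * S * (1 - g) + ((1 - g) * S * g + (1 - g) * S * (1 - g)) := by
        noncomm_ring
      rw [hz, hz', add_zero, zero_add] at this
      exact this
    have h12 : ∀ (e : H →L[ℂ] H), star e = e → ⟪(e * S * e) ξ, ξ⟫_ℂ = ⟪S (e ξ), e ξ⟫_ℂ := by
      intro e he
      change ⟪e (S (e ξ)), ξ⟫_ℂ = _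
      have := (adjoint_inner_right e (S (e ξ)) ξ)
      rw [← star_eq_adjoint, he] at this
      exact this.symm
    rw [h11, add_apply, inner_add_left, Complex.add_re, h12 g hgs,
      h12 (1 - g) (by rw [star_sub, star_one, hgs])]
    have h13 : 0 ≤ (⟪S ((1 - g) ξ), (1 - g) ξ⟫_ℂ).re := re_inner_nonneg hS _
    linarith

end No144

open No144 in
/-- **`NoNCE144` from `ExistsQ`** -/
theorem noNCE144 (hQ : ExistsQ.{u}) : NoNCE144.{u} := by
  intro H _ _ _ M A hM hA z hz hzp hno ξ R hR κ hκ
  have hR' : (0 : ℝ) < R := by exact_mod_cast hR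
  set κ' : ℝ := min (κ / 2) (κ ^ 4 / (8 * (‖ξ‖ ^ 2 + 1))) with hκ'def
  have hκ' : 0 < κ' := by positivity
  obtain ⟨q, hqM, hqp, hzq, hqξ, n, e, he, hen⟩ := hQ H M A hM hA z hz hzp hno ξ κ' hκ'
  have hqs : star q = q := hqp.isSelfAdjoint
  have hqq : q * q = q := hqp.isIdempotentElem
  have hzs : star z = z := hzp.isSelfAdjoint
  have hqz : q * z = q := by
    have := congrArg star hzq
    rwa [star_mul, hqs, hzs] at this
  set ζ : H := q ξ with hζ
  set w : Fin n → H := fun j => q (e j ζ) with hw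
  obtain ⟨c, hc⟩ := greedy hR w Finset.univ
  -- the partition
  set p : Fin R → H →L[ℂ] H := fun i => ∑ j, if c j = i then e j else 0 with hp
  have hpart : Part A z p := by
    refine ⟨?_, ?_, ?_, ?_⟩
    · intro i
      refine sum_mem (fun j _ => ?_)
      split_ifs
      · exact he.mem j
      · exact zero_mem _
    · intro i
      refine ⟨?_, ?_⟩
      · change p i * p i = p i
        simp only [hp]
        rw [Finset.sum_mul]
        refine Finset.sum_congr rfl (fun j _ => ?_)
        rw [Finset.mul_sum, Finset.sum_eq_single j]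
        · split_ifs
          · exact (he.proj j).isIdempotentElem
          · simp
        · intro k _ hk
          split_ifs
          · exact he.orth j k hk.symm
          all_goals simp
        · intro h; exact absurd (Finset.mem_univ j) h
      · change star (p i) = p i
        simp only [hp]
        rw [star_sum]
        refine Finset.sum_congr rfl (fun j _ => ?_)
        split_ifs
        · exact he.star j
        · exact star_zero _
    · intro i i' hii'
      simp only [hp]
      rw [Finset.sum_mul]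
      refine Finset.sum_eq_zero (fun j _ => ?_)
      rw [Finset.mul_sum]
      refine Finset.sum_eq_zero (fun k _ => ?_)
      by_cases hj : c j = i
      · by_cases hk : c k = i'
        · rw [if_pos hj, if_pos hk]
          refine he.orth j k (fun h => hii' ?_)
          rw [← hj, ← hk, h]
        · rw [if_neg hk, mul_zero]
      · rw [if_neg hj, zero_mul]
    · simp only [hp]
      rw [Finset.sum_comm, ← he.sum]
      refine Finset.sum_congr rfl (fun j _ => ?_)
      rw [Finset.sum_ite_eq Finset.univ (c j), if_pos (Finset.mem_univ _)]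
  -- the defects
  set B : Fin R → H →L[ℂ] H := fun i => q * p i * q - ((1 / R : ℝ) : ℂ) • q with hB
  have hBM : ∀ i, B i ∈ M := fun i =>
    sub_mem (mul_mem (mul_mem hqM (hM.le (hpart.mem i))) hqM)
      (SMulMemClass.smul_mem (S := StarSubalgebra ℂ (H →L[ℂ] H)) (s := M.toStarSubalgebra) _ hqM)
  have hBs : ∀ i, star (B i) = B i := by
    intro i
    simp only [hB]
    rw [star_sub, star_smul, star_mul, star_mul, hqs, hpart.star, ← mul_assoc]
    congr 2
    exact Complex.conj_ofReal _
  have hqB : ∀ i, q * B i = B i := by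
    intro i
    simp only [hB]
    rw [mul_sub, mul_smul_comm, hqq, ← mul_assoc, ← mul_assoc, hqq]
  have hBξ : ∀ i, B i ξ = ∑ j, (((if c j = i then 1 else 0) - 1 / R : ℝ) : ℂ) • w j := by
    intro i
    have h1 : ∀ j, (((if c j = i then 1 else 0) - 1 / R : ℝ) : ℂ) • w j =
        (if c j = i then w j else 0) - ((1 / R : ℝ) : ℂ) • w j := by
      intro j
      rw [Complex.ofReal_sub, sub_smul]
      congr 1
      split_ifs
      · simp
      · simp
    rw [Finset.sum_congr rfl (fun j _ => h1 j), Finset.sum_sub_distrib, ← Finset.smul_sum]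
    have h2 : ∑ j, w j = q ξ := by
      simp only [hw]
      rw [← map_sum]
      have : ∑ j, e j ζ = z ζ := by
        rw [← he.sum, sum_apply]
      rw [this, hζ]
      change (q * (z * q)) ξ = q ξ
      rw [hzq, hqq]
    have h3 : ∑ j, (if c j = i then w j else 0) = (q * p i * q) ξ := by
      change _ = q ((p i) (q ξ))
      simp only [hp]
      rw [sum_apply, map_sum]
      refine Finset.sum_congr rfl (fun j _ => ?_)
      split_ifs
      · rfl
      · simp
    rw [h2, h3]
    rfl
  have hsum : ∑ i, ‖B i ξ‖ ^ 2 ≤ κ' * ‖ξ‖ ^ 2 := by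
    rw [Finset.sum_congr rfl (fun i _ => by rw [hBξ i])]
    refine hc.trans ?_
    have h4 : ∑ j, ‖w j‖ ^ 2 = (⟪(∑ j, e j * q * e j) ζ, ζ⟫_ℂ).re := by
      rw [sum_apply, sum_inner, Complex.re_sum]
      refine Finset.sum_congr rfl (fun j _ => ?_)
      have h5 := re_inner_proj hqp (e j ζ)
      rw [← h5]
      change _ = (⟪e j (q (e j ζ)), ζ⟫_ℂ).re
      have := (adjoint_inner_right (e j) (q (e j ζ)) ζ)
      rw [← star_eq_adjoint, he.star] at this
      rw [this]
    rw [h4]
    have h6 : ‖ζ‖ ≤ ‖ξ‖ := by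
      rw [hζ]
      exact (le_opNorm _ _).trans (by
        have := hqp.norm_le
        nlinarith [norm_nonneg ξ])
    calc (⟪(∑ j, e j * q * e j) ζ, ζ⟫_ℂ).re ≤ ‖(∑ j, e j * q * e j) ζ‖ * ‖ζ‖ :=
          (Complex.re_le_norm _).trans (norm_inner_le_norm _ _)
      _ ≤ (κ' * ‖ζ‖) * ‖ζ‖ := by
          gcongr
          exact (le_opNorm _ _).trans (by gcongr)
      _ = κ' * ‖ζ‖ ^ 2 := by ring
      _ ≤ κ' * ‖ξ‖ ^ 2 := by gcongr
  -- the cut
  set S : H →L[ℂ] H := ∑ i, B i * B i with hS
  have hS0 : 0 ≤ S := Finset.sum_nonneg (fun i _ => by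
    have := star_mul_self_nonneg (B i)
    rwa [hBs i] at this)
  have hSM : S ∈ M := sum_mem (fun i _ => mul_mem (hBM i) (hBM i))
  have hSv : ∀ v, (⟪S v, v⟫_ℂ).re = ∑ i, ‖B i v‖ ^ 2 := by
    intro v
    simp only [hS]
    rw [sum_apply, sum_inner, Complex.re_sum]
    refine Finset.sum_congr rfl (fun i _ => ?_)
    change (⟪B i (B i v), v⟫_ℂ).re = _
    have := (adjoint_inner_right (B i) (B i v) v)
    rw [← star_eq_adjoint, hBs i] at this
    rw [← this]
    exact inner_self_eq_norm_sq (𝕜 := ℂ) _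
  obtain ⟨g, hgM, hgp, hgB, hSg, hgξ⟩ := spectral_cut M hS0 hSM (t := κ ^ 2) (by positivity)
  have hgs : star g = g := hgp.isSelfAdjoint
  have hgg : g * g = g := hgp.isIdempotentElem
  have hqg : q * g = g := by
    apply hgB
    simp only [hS]
    rw [Finset.mul_sum]
    exact Finset.sum_congr rfl (fun i _ => by rw [← mul_assoc, hqB])
  have hgq : g * q = g := by
    have := congrArg star hqg
    rwa [star_mul, hqs, hgs] at this
  have hzg : z * g = g := by rw [← hqg, ← mul_assoc, hzq]
  refine ⟨p, hpart, q - g, sub_mem hqM hgM, ?_, ?_, ?_, ?_⟩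
  · refine ⟨?_, ?_⟩
    · change (q - g) * (q - g) = q - g
      rw [sub_mul, mul_sub, mul_sub, hqq, hqg, hgq, hgg, sub_self, sub_zero]
    · change star (q - g) = q - g
      rw [star_sub, hqs, hgs]
  · rw [mul_sub, hzq, hzg]
  · -- the size of the cut
    have h7 : ‖g ξ‖ < κ / 2 := by
      have h8 := hgξ ξ
      rw [hSv ξ] at h8
      have h9 : κ ^ 2 * ‖g ξ‖ ^ 2 ≤ κ ^ 4 / (8 * (‖ξ‖ ^ 2 + 1)) * ‖ξ‖ ^ 2 := by
        refine h8.trans (hsum.trans ?_)
        gcongr
        exact min_le_right _ _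
      have h10 : κ ^ 4 / (8 * (‖ξ‖ ^ 2 + 1)) * ‖ξ‖ ^ 2 ≤ κ ^ 4 / 8 := by
        rw [div_mul_eq_mul_div, div_le_div_iff₀ (by positivity) (by positivity)]
        have : 0 < κ ^ 4 := by positivity
        nlinarith [sq_nonneg ‖ξ‖]
      have h11 : κ ^ 2 * ‖g ξ‖ ^ 2 ≤ κ ^ 2 * (κ ^ 2 / 8) := by
        calc _ ≤ κ ^ 4 / 8 := h9.trans h10
          _ = _ := by ring
      have h12 : ‖g ξ‖ ^ 2 ≤ κ ^ 2 / 8 := le_of_mul_le_mul_left h11 (by positivity)
      have h13 : ‖g ξ‖ ^ 2 < (κ / 2) ^ 2 := by nlinarith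
      exact lt_of_pow_lt_pow_left₀ 2 (by positivity) h13
    have h14 : (z - (q - g)) ξ = (z - q) ξ + g ξ := by
      simp only [sub_apply]
      abel
    rw [h14]
    refine (norm_add_le _ _).trans_lt ?_
    have h15 : ‖(z - q) ξ‖ < κ / 2 := hqξ.trans_le (min_le_left _ _)
    linarith
  · intro i
    have h16 : ‖B i * (q - g)‖ ≤ κ := by
      refine opNorm_le_bound _ hκ.le (fun v => ?_)
      have h17 : ‖(q - g) v‖ ≤ ‖v‖ := by
        have h18 : IsStarProjection (q - g) := by
          refine ⟨?_, ?_⟩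
          · change (q - g) * (q - g) = q - g
            rw [sub_mul, mul_sub, mul_sub, hqq, hqg, hgq, hgg, sub_self, sub_zero]
          · change star (q - g) = q - g
            rw [star_sub, hqs, hgs]
        refine (le_opNorm _ _).trans ?_
        have := h18.norm_le
        nlinarith [norm_nonneg v]
      have h19 : ‖(B i * (q - g)) v‖ ^ 2 ≤ (κ * ‖v‖) ^ 2 := by
        calc ‖(B i * (q - g)) v‖ ^ 2 = ‖B i ((q - g) v)‖ ^ 2 := rfl
          _ ≤ ∑ i, ‖B i ((q - g) v)‖ ^ 2 :=
              Finset.single_le_sum (f := fun i => ‖B i ((q - g) v)‖ ^ 2)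
                (fun _ _ => by positivity) (Finset.mem_univ i)
          _ = (⟪S ((q - g) v), (q - g) v⟫_ℂ).re := (hSv _).symm
          _ = (⟪(S * (1 - g)) ((q - g) v), (q - g) v⟫_ℂ).re := by
              have h20 : (1 - g) * (q - g) = q - g := by
                rw [sub_mul, one_mul, mul_sub, hgq, hgg, sub_self, sub_zero]
              have h21 : (q - g) v = (1 - g) ((q - g) v) :=
                (congrArg (fun F : H →L[ℂ] H => F v) h20).symm
              have h22 : (S * (1 - g)) ((q - g) v) = S ((1 - g) ((q - g) v)) := rfl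
              rw [h22, ← h21]
          _ ≤ ‖(S * (1 - g)) ((q - g) v)‖ * ‖(q - g) v‖ :=
              (Complex.re_le_norm _).trans (norm_inner_le_norm _ _)
          _ ≤ (κ ^ 2 * ‖v‖) * ‖v‖ := by
              gcongr
              exact (le_opNorm _ _).trans (by gcongr)
          _ = _ := by ring
      exact (pow_le_pow_iff_left₀ (norm_nonneg _) (by positivity) two_ne_zero).1 h19
    have h23 : (q - g) * p i * (q - g) = (q - g) * (B i * (q - g)) +
        ((1 / R : ℝ) : ℂ) • (q - g) := by
      have h24 : (q - g) * q = q - g := by rw [sub_mul, hqq, hgq]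
      have h25 : q * (q - g) = q - g := by rw [mul_sub, hqq, hqg]
      have h26 : (q - g) * (q - g) = q - g := by
        rw [sub_mul, mul_sub, mul_sub, hqq, hqg, hgq, hgg, sub_self, sub_zero]
      have h28 : B i * (q - g) = q * p i * q * (q - g) - ((1 / R : ℝ) : ℂ) • (q - g) := by
        simp only [hB]
        rw [sub_mul _ _ (q - g), smul_mul_assoc, h25]
      rw [h28, mul_sub (q - g), mul_smul_comm, h26, sub_add_cancel]
      calc (q - g) * p i * (q - g) = ((q - g) * q) * p i * (q * (q - g)) := by rw [h24, h25]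
        _ = _ := by simp only [mul_assoc]
    rw [h23]
    have h27 : IsStarProjection (q - g) := by
      refine ⟨?_, ?_⟩
      · change (q - g) * (q - g) = q - g
        rw [sub_mul, mul_sub, mul_sub, hqq, hqg, hgq, hgg, sub_self, sub_zero]
      · change star (q - g) = q - g
        rw [star_sub, hqs, hgs]
    calc _ ≤ ‖(q - g) * (B i * (q - g))‖ + ‖((1 / R : ℝ) : ℂ) • (q - g)‖ := norm_add_le _ _
      _ ≤ ‖q - g‖ * ‖B i * (q - g)‖ + (1 / R) * ‖q - g‖ := by
          gcongr
          · exact norm_mul_le _ _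
          · rw [norm_smul, Complex.norm_real, Real.norm_of_nonneg (by positivity)]
      _ ≤ 1 * κ + (1 / R) * 1 := by
          gcongr
          · exact h27.norm_le
          · exact h27.norm_le
      _ = 1 / R + κ := by ring

end Crest.Agent.R109
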