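import Crest.Agent.R109.Choice_Mg
import Crest.Agent.R109.EN5
import Crest.Agent.R109.DecompOf
import Crest.Agent.R109.Diffuse
import Crest.Agent.R109.CartanOf_Mg
import Crest.Agent.R109.ExQ6_Mg
import Crest.Agent.R109.RedFinal
import Crest.Agent.R109.No143
import Crest.Agent.R109.No144

/-!
# Row 109: `NCE_q` and the two statements
-/

set_option autoImplicit false

namespace Crest.Agent.R109

universe u

/-- **the theorem for masas with a faithful normal central state** -/
theorem nce_q : NCE_q.{u} :=
  nce_q_of bdHalf_BdN0 (decomp_of en_prop
    (fun _ _ _ _ _ _ _ h _ hz hsa horth => diffuse h hz hsa horth)) (cartan_of measList) x2 choice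

end Crest.Agent.R109
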