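import Crest.Agent.R109.PartLib
import Crest.Agent.R109.Defs

-- ▼ part R109/Red143
section

/-!
# Row 109: S0143 in the amplified situation, from `NCE_q`, `HasE`, `NoNCE143`
-/

set_option autoImplicit false
set_option linter.unusedSectionVars false

namespace Crest.Agent.R109

open scoped InnerProductSpace
open ContinuousLinearMap Crest.Agent.R121 Crest.Agent.R124

universe u

variable {H : Type u} [NormedAddCommGroup H] [InnerProductSpace ℂ H] [CompleteSpace H]
variable {M : VonNeumannAlgebra H} {A : StarSubalgebra ℂ (H →L[ℂ] H)}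

/-- pinching of an element of the masa -/
lemma Part.pinch_mem (hM : Masa M A) {z : H →L[ℂ] H} {ι : Type*} [Fintype ι]
    {p : ι → H →L[ℂ] H} (h : Part A z p) {a : H →L[ℂ] H} (ha : a ∈ A) :
    ∑ i, p i * a * p i = z * a := by
  rw [← h.sum, Finset.sum_mul]
  refine Finset.sum_congr rfl (fun i _ => ?_)
  rw [mul_assoc, hM.comm a ha (p i) (h.mem i), ← mul_assoc, (h.proj i).isIdempotentElem.eq]

lemma proj_add {e f : H →L[ℂ] H} (he : IsStarProjection e) (hf : IsStarProjection f)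
    (hef : e * f = 0) : IsStarProjection (e + f) := by
  have hfe : f * e = 0 := by
    have := congrArg star hef
    rwa [star_mul, he.isSelfAdjoint.star_eq, hf.isSelfAdjoint.star_eq, star_zero] at this
  refine ⟨?_, ?_⟩
  · change (e + f) * (e + f) = e + f
    rw [add_mul, mul_add, mul_add, he.isIdempotentElem.eq, hf.isIdempotentElem.eq, hef, hfe]
    abel
  · exact he.isSelfAdjoint.add hf.isSelfAdjoint

lemma proj_sub {e f : H →L[ℂ] H} (he : IsStarProjection e) (hf : IsStarProjection f)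
    (hef : e * f = f) : IsStarProjection (e - f) := by
  have hfe : f * e = f := by
    have := congrArg star hef
    rwa [star_mul, he.isSelfAdjoint.star_eq, hf.isSelfAdjoint.star_eq] at this
  refine ⟨?_, ?_⟩
  · change (e - f) * (e - f) = e - f
    rw [sub_mul, mul_sub, mul_sub, he.isIdempotentElem.eq, hf.isIdempotentElem.eq, hef, hfe]
    abel
  · exact he.isSelfAdjoint.sub hf.isSelfAdjoint

/-- **S0143 when the commutant is properly infinite** -/
theorem red143_amp (hN : NCE_q.{u}) (hE : HasE.{u}) (h0 : NoNCE143.{u}) (hM : Masa M A)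
    (hA : Amp M) {ε : ℝ} (hε : 0 < ε) (hε1 : ε < 1) {x : H →L[ℂ] H} (hx : x ∈ M)
    (hsa : IsSelfAdjoint x) (ξ : H) {δ : ℝ} (hδ : 0 < δ) :
    ∃ p : Fin (Nat.ceil (400000000 / ε ^ 2) + Nat.ceil (4 / ε) + 1) → (H →L[ℂ] H),
      Part A 1 p ∧ ∃ a ∈ A, IsSelfAdjoint a ∧ ‖a‖ ≤ ‖x‖ ∧
        ∃ q ∈ M, IsStarProjection q ∧ ‖(1 - q) ξ‖ < δ ∧
          ‖q * (∑ i, p i * x * p i - a) * q‖ ≤ ε * ‖x‖ := by
  -- the dichotomy
  obtain ⟨z, hzA, hzp, hNoC, hzle, hznear⟩ := exists_zed hM hA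
  obtain ⟨η, hη, hηξ⟩ := hznear ξ (δ / 3) (by positivity)
  set e := vs M η with he
  have hep : IsStarProjection e := vs_proj M η
  have heA : e ∈ A := hη.vs_mem hM
  have heM : e ∈ M := hM.le heA
  have hzM : z ∈ M := hM.le hzA
  have hze : z * e = e := hzle η hη
  have hez : e * z = e := by
    have := congrArg star hze
    rwa [star_mul, hep.isSelfAdjoint.star_eq, hzp.isSelfAdjoint.star_eq] at this
  have hzz : z * z = z := hzp.isIdempotentElem
  have hee : e * e = e := hep.isIdempotentElem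
  have h1zp : IsStarProjection (1 - z) := hzp.one_sub
  have h1zA : (1 - z) ∈ A := sub_mem (one_mem _) hzA
  have hrp : IsStarProjection (z - e) := proj_sub hzp hep hze
  have hrA : z - e ∈ A := sub_mem hzA heA
  have he1 : e * (1 - z) = 0 := by rw [mul_sub, mul_one, hez, sub_self]
  have h1e : (1 - z) * e = 0 := by rw [sub_mul, one_mul, hze, sub_self]
  -- the part with normal expectation
  obtain ⟨a₁, ha₁A, ha₁sa, ha₁n, hea₁, ha₁e, ha₁0⟩ := exists_E hE hM hη hx hsa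
  have ha₁M : a₁ ∈ M := hM.le ha₁A
  have part1 : ∃ p : Fin (Nat.ceil (400000000 / ε ^ 2)) → H →L[ℂ] H, Part A e p ∧ ∃ q ∈ M,
      IsStarProjection q ∧ e * q = q ∧ ‖(e - q) ξ‖ < δ / 3 ∧
        ‖q * (∑ i, p i * x * p i - a₁) * q‖ ≤ ε * ‖x‖ := by
    obtain ⟨δ', hδ', hnear⟩ := near M η ξ 1 (show (0 : ℝ) < δ / 3 by positivity)
    have hr : (10 : ℝ) ^ 8 / (ε / 2) ^ 2 ≤ ((Nat.ceil (400000000 / ε ^ 2) : ℕ) : ℝ) := by
      refine le_trans (le_of_eq ?_) (Nat.le_ceil _)
      field_simp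
      norm_num
    -- normalisation
    by_cases hx0 : x = 0
    · -- trivial case
      have ha₁0' : a₁ = 0 := by
        rw [hx0, norm_zero] at ha₁n
        exact norm_le_zero_iff.1 ha₁n
      obtain ⟨p, hp, q, hqM, hqp, heq, hqη, -⟩ := nce_corner hN hM hA hη (x := 0) (zero_mem _)
        (by simp [IsSelfAdjoint]) (by simp) (by intro a _; simp)
        (show (0 : ℝ) < ε / 2 by positivity) (by linarith) hr hδ'
      refine ⟨p, hp, q, hqM, hqp, heq, ?_, ?_⟩
      · have h1 := hnear (e - q) (sub_mem heM hqM) ((proj_sub hep hqp heq).norm_le) hqη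
        have h2 : (e - q) (e ξ) = (e - q) ξ := by
          have h3 : (e - q) * e = e - q := by
            have hqe : q * e = q := by
              have := congrArg star heq
              rwa [star_mul, hep.isSelfAdjoint.star_eq, hqp.isSelfAdjoint.star_eq] at this
            rw [sub_mul, hee, hqe]
          exact congrArg (fun F : H →L[ℂ] H => F ξ) h3
        rwa [h2] at h1
      · rw [hx0, ha₁0']
        simp
    · have hxn : 0 < ‖x‖ := norm_pos_iff.2 hx0
      set c : ℂ := (((2 * ‖x‖)⁻¹ : ℝ) : ℂ) with hc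
      have hcn : ‖c‖ = (2 * ‖x‖)⁻¹ := by
        rw [hc, Complex.norm_real, Real.norm_of_nonneg (by positivity)]
      have hyM : c • (x - a₁) ∈ M :=
        SMulMemClass.smul_mem (S := StarSubalgebra ℂ (H →L[ℂ] H))
          (s := M.toStarSubalgebra) c (sub_mem hx ha₁M)
      have hysa : IsSelfAdjoint (c • (x - a₁)) := by
        have h1 : IsSelfAdjoint (x - a₁) := hsa.sub ha₁sa
        change star (c • (x - a₁)) = _
        rw [star_smul, h1.star_eq, hc, Complex.star_def, Complex.conj_ofReal]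
      have hyn : ‖c • (x - a₁)‖ ≤ 1 := by
        rw [norm_smul, hcn]
        have h1 : ‖x - a₁‖ ≤ 2 * ‖x‖ := (norm_sub_le _ _).trans (by linarith)
        calc (2 * ‖x‖)⁻¹ * ‖x - a₁‖ ≤ (2 * ‖x‖)⁻¹ * (2 * ‖x‖) := by gcongr
          _ = 1 := by field_simp
      have hy0 : ∀ a ∈ A, ⟪η, (a * (c • (x - a₁))) η⟫_ℂ = 0 := by
        intro a ha
        rw [mul_smul_comm, smul_apply, inner_smul_right, ha₁0 a ha, mul_zero]
      obtain ⟨p, hp, q, hqM, hqp, heq, hqη, hq⟩ := nce_corner hN hM hA hη hyM hysa hyn hy0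
        (show (0 : ℝ) < ε / 2 by positivity) (by linarith) hr hδ'
      refine ⟨p, hp, q, hqM, hqp, heq, ?_, ?_⟩
      · have h1 := hnear (e - q) (sub_mem heM hqM) ((proj_sub hep hqp heq).norm_le) hqη
        have h2 : (e - q) (e ξ) = (e - q) ξ := by
          have h3 : (e - q) * e = e - q := by
            have hqe : q * e = q := by
              have := congrArg star heq
              rwa [star_mul, hep.isSelfAdjoint.star_eq, hqp.isSelfAdjoint.star_eq] at this
            rw [sub_mul, hee, hqe]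
          exact congrArg (fun F : H →L[ℂ] H => F ξ) h3
        rwa [h2] at h1
      · have h1 : q * (∑ i, p i * (c • (x - a₁)) * p i) * q =
            c • (q * (∑ i, p i * x * p i - a₁) * q) := by
          have h2 : ∑ i, p i * (c • (x - a₁)) * p i = c • (∑ i, p i * x * p i - a₁) := by
            have h3 : ∑ i, p i * a₁ * p i = a₁ := by
              rw [hp.pinch_mem hM ha₁A, hea₁]
            have h5 : ∑ i, p i * (c • (x - a₁)) * p i =
                c • (∑ i, p i * x * p i - ∑ i, p i * a₁ * p i) := by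
              rw [← Finset.sum_sub_distrib, Finset.smul_sum]
              refine Finset.sum_congr rfl (fun i _ => ?_)
              rw [mul_smul_comm, smul_mul_assoc, mul_sub, sub_mul]
            rw [h5, h3]
          rw [h2, mul_smul_comm, smul_mul_assoc]
        rw [h1, norm_smul, hcn] at hq
        have h4 : ‖q * (∑ i, p i * x * p i - a₁) * q‖ =
            (2 * ‖x‖) * ((2 * ‖x‖)⁻¹ * ‖q * (∑ i, p i * x * p i - a₁) * q‖) := by
          field_simp
        rw [h4]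
        calc (2 * ‖x‖) * ((2 * ‖x‖)⁻¹ * ‖q * (∑ i, p i * x * p i - a₁) * q‖)
            ≤ (2 * ‖x‖) * (ε / 2) := by gcongr
          _ = ε * ‖x‖ := by ring
  obtain ⟨p₁, hp₁, q₁, hq₁M, hq₁p, heq₁, hq₁ξ, hq₁⟩ := part1
  -- the part without normal expectation
  have part0 : ∃ p : Fin (Nat.ceil (4 / ε)) → H →L[ℂ] H, Part A (1 - z) p ∧ ∃ a ∈ A,
      IsSelfAdjoint a ∧ (1 - z) * a = a ∧ ‖a‖ ≤ ‖x‖ ∧ ∃ q ∈ M,
      IsStarProjection q ∧ (1 - z) * q = q ∧ ‖((1 - z) - q) ξ‖ < δ / 3 ∧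
        ‖q * (∑ i, p i * x * p i - a) * q‖ ≤ ε * ‖x‖ := by
    have hR : 0 < Nat.ceil (4 / ε) := Nat.ceil_pos.2 (by positivity)
    have hR' : 4 / ε ≤ ((Nat.ceil (4 / ε) : ℕ) : ℝ) := Nat.le_ceil _
    by_cases hx0 : x = 0
    · obtain ⟨p, hp, a, haA, hasa, hza, han, q, hqM, hqp, hzq, hqξ, hq⟩ :=
        h0 H M A hM hA (1 - z) h1zA h1zp hNoC x hx hsa ξ _ hR (δ / 3) (by positivity)
      have ha0 : a = 0 := by
        rw [hx0, norm_zero] at han
        exact norm_le_zero_iff.1 han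
      refine ⟨p, hp, a, haA, hasa, hza, han, q, hqM, hqp, hzq, hqξ, ?_⟩
      rw [ha0, hx0]
      simp
    · have hxn : 0 < ‖x‖ := norm_pos_iff.2 hx0
      obtain ⟨p, hp, a, haA, hasa, hza, han, q, hqM, hqp, hzq, hqξ, hq⟩ :=
        h0 H M A hM hA (1 - z) h1zA h1zp hNoC x hx hsa ξ _ hR (min (δ / 3) (ε * ‖x‖ / 4))
          (lt_min (by positivity) (by positivity))
      refine ⟨p, hp, a, haA, hasa, hza, han, q, hqM, hqp, hzq,
        lt_of_lt_of_le hqξ (min_le_left _ _), hq.trans ?_⟩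
      have h1 : 2 / ((Nat.ceil (4 / ε) : ℕ) : ℝ) ≤ ε / 2 := by
        rw [div_le_div_iff₀ (by positivity) (by norm_num)]
        rw [div_le_iff₀ hε] at hR'
        linarith
      calc 2 / ((Nat.ceil (4 / ε) : ℕ) : ℝ) * ‖x‖ + min (δ / 3) (ε * ‖x‖ / 4)
          ≤ ε / 2 * ‖x‖ + ε * ‖x‖ / 4 := by
            gcongr
            exact min_le_right _ _
        _ ≤ ε * ‖x‖ := by nlinarith
  obtain ⟨p₀, hp₀, a₀, ha₀A, ha₀sa, hza₀, ha₀n, q₀, hq₀M, hq₀p, hzq₀, hq₀ξ, hq₀⟩ := part0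
  -- glue
  have ha₀z : a₀ * (1 - z) = a₀ := by
    have := congrArg star hza₀
    rwa [star_mul, ha₀sa.star_eq, h1zp.isSelfAdjoint.star_eq] at this
  have hq₀z : q₀ * (1 - z) = q₀ := by
    have := congrArg star hzq₀
    rwa [star_mul, hq₀p.isSelfAdjoint.star_eq, h1zp.isSelfAdjoint.star_eq] at this
  have hq₁e : q₁ * e = q₁ := by
    have := congrArg star heq₁
    rwa [star_mul, hq₁p.isSelfAdjoint.star_eq, hep.isSelfAdjoint.star_eq] at this
  have hq10 : q₁ * q₀ = 0 := by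
    rw [← hq₁e, ← hzq₀, mul_assoc, ← mul_assoc e, he1, zero_mul, mul_zero]
  have hq01 : q₀ * q₁ = 0 := by
    rw [← hq₀z, ← heq₁, mul_assoc, ← mul_assoc (1 - z), h1e, zero_mul, mul_zero]
  have hP := (hp₁.append hp₀ he1 h1e).append (Part.single hrA hrp)
    (by
      rw [add_mul, mul_sub, mul_sub, hez, hee, sub_self, zero_add, sub_mul, sub_mul, one_mul,
        one_mul, hzz, hze]
      abel)
    (by
      rw [mul_add, sub_mul, sub_mul, hze, hee, sub_self, zero_add, mul_sub, mul_sub, mul_one,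
        mul_one, hzz, hez]
      abel)
  have hPsum : e + (1 - z) + (z - e) = 1 := by abel
  rw [hPsum] at hP
  refine ⟨_, hP, a₁ + a₀, add_mem ha₁A ha₀A, ha₁sa.add ha₀sa,
    norm_block hep h1zp he1 hea₁ ha₁e hza₀ ha₀z ha₁n ha₀n,
    q₁ + q₀, add_mem hq₁M hq₀M, proj_add hq₁p hq₀p hq10, ?_, ?_⟩
  · have h1 : (1 - (q₁ + q₀)) ξ = (e - q₁) ξ + (((1 - z) - q₀) ξ + (z - e) ξ) := by
      have : (1 - (q₁ + q₀) : H →L[ℂ] H) = (e - q₁) + (((1 - z) - q₀) + (z - e)) := by abel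
      rw [this]
      rfl
    rw [h1]
    calc ‖(e - q₁) ξ + (((1 - z) - q₀) ξ + (z - e) ξ)‖
        ≤ ‖(e - q₁) ξ‖ + (‖((1 - z) - q₀) ξ‖ + ‖(z - e) ξ‖) :=
          (norm_add_le _ _).trans (by gcongr; exact norm_add_le _ _)
      _ < δ / 3 + (δ / 3 + δ / 3) := by gcongr
      _ = δ := by ring
  · have hsum : ∑ i, Fin.append (Fin.append p₁ p₀) (fun _ : Fin 1 => z - e) i * x *
        Fin.append (Fin.append p₁ p₀) (fun _ : Fin 1 => z - e) i =
        (∑ i, p₁ i * x * p₁ i) + (∑ i, p₀ i * x * p₀ i) + (z - e) * x * (z - e) := by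
      rw [Fin.sum_univ_add, Fin.sum_univ_add]
      simp only [Fin.append_left, Fin.append_right]
      simp
    rw [hsum]
    set T₁ := ∑ i, p₁ i * x * p₁ i with hT₁
    set T₀ := ∑ i, p₀ i * x * p₀ i with hT₀
    have t1 : e * T₁ = T₁ := by
      rw [hT₁, Finset.mul_sum]
      refine Finset.sum_congr rfl (fun i _ => ?_)
      rw [← mul_assoc, ← mul_assoc, hp₁.z_mul]
    have t1' : T₁ * e = T₁ := by
      rw [hT₁, Finset.sum_mul]
      refine Finset.sum_congr rfl (fun i _ => ?_)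
      rw [mul_assoc, hp₁.mul_z]
    have t0 : (1 - z) * T₀ = T₀ := by
      rw [hT₀, Finset.mul_sum]
      refine Finset.sum_congr rfl (fun i _ => ?_)
      rw [← mul_assoc, ← mul_assoc, hp₀.z_mul]
    have t0' : T₀ * (1 - z) = T₀ := by
      rw [hT₀, Finset.sum_mul]
      refine Finset.sum_congr rfl (fun i _ => ?_)
      rw [mul_assoc, hp₀.mul_z]
    have key : (q₁ + q₀) * (T₁ + T₀ + (z - e) * x * (z - e) - (a₁ + a₀)) * (q₁ + q₀) =
        q₁ * (T₁ - a₁) * q₁ + q₀ * (T₀ - a₀) * q₀ := by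
      have r1 : (q₁ + q₀) * (z - e) = 0 := by
        have s1 : q₁ * z = q₁ := by rw [← hq₁e, mul_assoc, hez]
        have s2 : q₀ * z = 0 := by
          have : q₀ * (1 - z) = q₀ := hq₀z
          rw [mul_sub, mul_one, sub_eq_self] at this
          exact this
        have s3 : q₀ * e = 0 := by rw [← hze, ← mul_assoc, s2, zero_mul]
        rw [add_mul, mul_sub, mul_sub, s1, hq₁e, s2, s3]
        simp
      have l0 : q₁ * T₀ = 0 := by
        rw [← hq₁e, ← t0, mul_assoc, ← mul_assoc e, he1, zero_mul, mul_zero]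
      have l1 : q₀ * T₁ = 0 := by
        rw [← hq₀z, ← t1, mul_assoc, ← mul_assoc (1 - z), h1e, zero_mul, mul_zero]
      have l2 : q₁ * a₀ = 0 := by
        rw [← hq₁e, ← hza₀, mul_assoc, ← mul_assoc e, he1, zero_mul, mul_zero]
      have l3 : q₀ * a₁ = 0 := by
        rw [← hq₀z, ← hea₁, mul_assoc, ← mul_assoc (1 - z), h1e, zero_mul, mul_zero]
      have r0 : T₀ * q₁ = 0 := by
        rw [← heq₁, ← t0', mul_assoc, ← mul_assoc (1 - z), h1e, zero_mul, mul_zero]
      have r2 : T₁ * q₀ = 0 := by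
        rw [← hzq₀, ← t1', mul_assoc, ← mul_assoc e, he1, zero_mul, mul_zero]
      have r3 : a₀ * q₁ = 0 := by
        rw [← heq₁, ← ha₀z, mul_assoc, ← mul_assoc (1 - z), h1e, zero_mul, mul_zero]
      have r4 : a₁ * q₀ = 0 := by
        rw [← hzq₀, ← ha₁e, mul_assoc, ← mul_assoc e, he1, zero_mul, mul_zero]
      have step : (q₁ + q₀) * (T₁ + T₀ + (z - e) * x * (z - e) - (a₁ + a₀)) =
          q₁ * (T₁ - a₁) + q₀ * (T₀ - a₀) := by
        rw [mul_sub, mul_add, mul_add, ← mul_assoc, ← mul_assoc, r1, zero_mul, zero_mul, add_zero,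
          mul_add, add_mul, add_mul, add_mul, add_mul, l0, l1, l2, l3, mul_sub, mul_sub]
        abel
      rw [step, mul_add, add_mul, add_mul]
      have u1 : q₀ * (T₀ - a₀) * q₁ = 0 := by
        rw [mul_assoc, sub_mul, r0, r3, sub_self, mul_zero]
      have u2 : q₁ * (T₁ - a₁) * q₀ = 0 := by
        rw [mul_assoc, sub_mul, r2, r4, sub_self, mul_zero]
      rw [u1, u2, add_zero, zero_add]
    rw [key]
    refine norm_block hep h1zp he1 ?_ ?_ ?_ ?_ hq₁ hq₀
    · rw [← mul_assoc, ← mul_assoc, heq₁]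
    · rw [mul_assoc, hq₁e]
    · rw [← mul_assoc, ← mul_assoc, hzq₀]
    · rw [mul_assoc, hq₀z]

end Crest.Agent.R109
end

-- ▼ part R109/Ampl
section

/-!
# Row 109: the countable amplification

`exists_ampl`: every maximal abelian subalgebra `A` of a von Neumann algebra `M` on `H` is carried
by an isometric `*`-homomorphism `Φ` (the countable multiple of the identity representation) to a
maximal abelian subalgebra `At` of a von Neumann algebra `Mt` on `K = ℓ²(ℕ, H)` whose commutant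
contains two isometries with orthogonal ranges, and each finite set of vectors of `H` is
dominated by a single vector of `K`.
-/

set_option autoImplicit false
set_option linter.unusedSectionVars false

namespace Crest.Agent.R109

open scoped InnerProductSpace
open ContinuousLinearMap

universe u

namespace Ampl

/-! ### the space -/

/-- the countable multiple of `H` -/
def KK (H : Type u) [NormedAddCommGroup H] : Type u := lp (fun _ : ℕ => H) 2

section Space

variable {H : Type u} [NormedAddCommGroup H] [InnerProductSpace ℂ H] [CompleteSpace H]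

noncomputable instance : NormedAddCommGroup (KK H) :=
  inferInstanceAs (NormedAddCommGroup (lp (fun _ : ℕ => H) 2))

noncomputable instance : InnerProductSpace ℂ (KK H) :=
  inferInstanceAs (InnerProductSpace ℂ (lp (fun _ : ℕ => H) 2))

instance : CompleteSpace (KK H) :=
  inferInstanceAs (CompleteSpace (lp (fun _ : ℕ => H) 2))

/-- the coordinate embedding -/
noncomputable def jj (n : ℕ) : H →L[ℂ] KK H :=
  lp.singleContinuousLinearMap ℂ (fun _ : ℕ => H) 2 n

/-- the coordinate projection -/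
noncomputable def pp (n : ℕ) : KK H →L[ℂ] H := lp.evalCLM ℂ (fun _ : ℕ => H) 2 n

theorem kext {f g : KK H} (h : ∀ n, pp n f = pp n g) : f = g := lp.ext (funext h)

/-- the vector with given square summable coordinates -/
noncomputable def kmk (f : ℕ → H) (hf : Summable fun n => ‖f n‖ ^ 2) : KK H :=
  (⟨f, memℓp_gen (by
    have h : (2 : ENNReal).toReal = ((2 : ℕ) : ℝ) := by norm_num
    simp only [h, Real.rpow_natCast]
    exact hf)⟩ : lp (fun _ : ℕ => H) 2)

@[simp] theorem pp_kmk (f : ℕ → H) (hf : Summable fun n => ‖f n‖ ^ 2) (n : ℕ) :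
    pp n (kmk f hf) = f n := rfl

theorem pp_jj_self (n : ℕ) (h : H) : pp n (jj n h : KK H) = h :=
  lp.single_apply_self (E := fun _ : ℕ => H) 2 n h

theorem pp_jj_ne {m n : ℕ} (hmn : m ≠ n) (h : H) : pp m (jj n h : KK H) = 0 :=
  lp.single_apply_ne (E := fun _ : ℕ => H) 2 n h hmn

theorem hasSum_norm_sq (f : KK H) : HasSum (fun n => ‖pp n f‖ ^ 2) (‖f‖ ^ 2) := by
  have h := lp.hasSum_norm (p := 2) (E := fun _ : ℕ => H) (by norm_num) f
  have h2 : (2 : ENNReal).toReal = ((2 : ℕ) : ℝ) := by norm_num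
  simp only [h2, Real.rpow_natCast] at h
  exact h

theorem hasSum_inner (f g : KK H) : HasSum (fun n => ⟪pp n f, pp n g⟫_ℂ) ⟪f, g⟫_ℂ :=
  lp.hasSum_inner (𝕜 := ℂ) (G := fun _ : ℕ => H) f g

theorem summable_sq (f : KK H) : Summable (fun n => ‖pp n f‖ ^ 2) := (hasSum_norm_sq f).summable

theorem norm_pp_le (n : ℕ) (f : KK H) : ‖pp n f‖ ≤ ‖f‖ :=
  lp.norm_apply_le_norm (E := fun _ : ℕ => H) (by norm_num) f n

theorem norm_jj (n : ℕ) (h : H) : ‖(jj n h : KK H)‖ = ‖h‖ :=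
  lp.norm_single (E := fun _ : ℕ => H) (by norm_num) n h

end Space

section Main

variable {H : Type u} [NormedAddCommGroup H] [InnerProductSpace ℂ H] [CompleteSpace H]

/-! ### the coordinatewise operator -/

/-- the coordinatewise action, as a vector -/
noncomputable def phiVec (x : H →L[ℂ] H) (f : KK H) : KK H :=
  kmk (fun n => x (pp n f)) (((summable_sq f).mul_left (‖x‖ ^ 2)).of_nonneg_of_le
    (fun n => by positivity) (fun n => by
      rw [← mul_pow]
      exact pow_le_pow_left₀ (norm_nonneg _) (x.le_opNorm _) 2))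

@[simp] theorem pp_phiVec (x : H →L[ℂ] H) (f : KK H) (n : ℕ) : pp n (phiVec x f) = x (pp n f) :=
  rfl

theorem norm_phiVec_le (x : H →L[ℂ] H) (f : KK H) : ‖phiVec x f‖ ≤ ‖x‖ * ‖f‖ := by
  refine abs_le_of_sq_le_sq' ?_ (by positivity) |>.2
  rw [mul_pow]
  refine hasSum_le (fun n => ?_) (hasSum_norm_sq (phiVec x f))
    ((hasSum_norm_sq f).mul_left (‖x‖ ^ 2))
  rw [pp_phiVec, ← mul_pow]
  exact pow_le_pow_left₀ (norm_nonneg _) (x.le_opNorm _) 2

/-- the coordinatewise action as a continuous linear map -/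
noncomputable def phi (x : H →L[ℂ] H) : KK H →L[ℂ] KK H :=
  LinearMap.mkContinuous
    { toFun := phiVec x
      map_add' := fun f g => kext (fun n => by simp [map_add])
      map_smul' := fun c f => kext (fun n => by simp [map_smul]) } ‖x‖
    (fun f => norm_phiVec_le x f)

@[simp] theorem pp_phi (x : H →L[ℂ] H) (f : KK H) (n : ℕ) : pp n (phi x f) = x (pp n f) := rfl

theorem norm_phi_le (x : H →L[ℂ] H) : ‖phi x‖ ≤ ‖x‖ :=
  LinearMap.mkContinuous_norm_le _ (norm_nonneg _) _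

theorem phi_jj (x : H →L[ℂ] H) (n : ℕ) (h : H) : phi x (jj n h) = jj n (x h) := by
  refine kext (fun m => ?_)
  rw [pp_phi]
  by_cases hmn : m = n
  · subst hmn; rw [pp_jj_self, pp_jj_self]
  · rw [pp_jj_ne hmn, pp_jj_ne hmn, map_zero]

theorem norm_phi (x : H →L[ℂ] H) : ‖phi x‖ = ‖x‖ := by
  refine le_antisymm (norm_phi_le x) ?_
  refine x.opNorm_le_bound (norm_nonneg _) (fun h => ?_)
  calc ‖x h‖ = ‖phi x (jj 0 h)‖ := by rw [phi_jj, norm_jj]
    _ ≤ ‖phi x‖ * ‖(jj 0 h : KK H)‖ := (phi x).le_opNorm _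
    _ = ‖phi x‖ * ‖h‖ := by rw [norm_jj]

theorem phi_star (x : H →L[ℂ] H) : phi (star x) = star (phi x) := by
  rw [ContinuousLinearMap.star_eq_adjoint (phi x), ContinuousLinearMap.eq_adjoint_iff]
  intro f g
  refine (hasSum_inner _ _).unique ?_
  have h := hasSum_inner f (phi x g)
  convert h using 2 with n
  rw [pp_phi, pp_phi, ContinuousLinearMap.star_eq_adjoint,
    ContinuousLinearMap.adjoint_inner_left]

theorem phi_mul (x y : H →L[ℂ] H) : phi (x * y) = phi x * phi y := by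
  ext1 f; exact kext (fun n => rfl)

theorem phi_one : phi (1 : H →L[ℂ] H) = 1 := by
  ext1 f; exact kext (fun n => rfl)

theorem phi_zero : phi (0 : H →L[ℂ] H) = 0 := by
  ext1 f; exact kext (fun n => by
    rw [pp_phi, zero_apply, zero_apply, map_zero])

theorem phi_add (x y : H →L[ℂ] H) : phi (x + y) = phi x + phi y := by
  ext1 f; exact kext (fun n => by
    rw [pp_phi, add_apply, add_apply, map_add,
      pp_phi, pp_phi])

theorem phi_algebraMap (c : ℂ) : phi (algebraMap ℂ (H →L[ℂ] H) c) = algebraMap ℂ _ c := by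
  ext1 f
  refine kext (fun n => ?_)
  rw [pp_phi, Algebra.algebraMap_eq_smul_one, Algebra.algebraMap_eq_smul_one,
    smul_apply, smul_apply,
    one_apply_eq_self, one_apply_eq_self, map_smul]

/-- the amplification as a `*`-homomorphism -/
noncomputable def Phi (H : Type u) [NormedAddCommGroup H] [InnerProductSpace ℂ H]
    [CompleteSpace H] : (H →L[ℂ] H) →⋆ₐ[ℂ] (KK H →L[ℂ] KK H) where
  toFun := phi
  map_one' := phi_one
  map_mul' := phi_mul
  map_zero' := phi_zero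
  map_add' := phi_add
  commutes' := phi_algebraMap
  map_star' x := phi_star x

theorem Phi_eq (x : H →L[ℂ] H) : Phi H x = phi x := rfl

theorem phi_inj {x y : H →L[ℂ] H} (h : phi x = phi y) : x = y := by
  have h1 : Phi H (x - y) = 0 := by rw [map_sub, Phi_eq, Phi_eq, h, sub_self]
  have h2 : ‖x - y‖ = 0 := by rw [← norm_phi, ← Phi_eq, h1, norm_zero]
  exact sub_eq_zero.1 (norm_eq_zero.1 h2)

/-! ### the matrix units -/

/-- the matrix unit `1 ⊗ E_{mn}` -/
noncomputable def EE (m n : ℕ) : KK H →L[ℂ] KK H := (jj m).comp (pp n)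

theorem EE_apply (m n : ℕ) (f : KK H) : EE m n f = jj m (pp n f) := rfl

theorem pp_EE_self (m n : ℕ) (f : KK H) : pp m (EE m n f) = pp n f := by
  rw [EE_apply, pp_jj_self]

theorem inner_jj_left (n : ℕ) (h : H) (f : KK H) : ⟪jj n h, f⟫_ℂ = ⟪h, pp n f⟫_ℂ := by
  refine (hasSum_inner _ _).unique ?_
  convert hasSum_single (f := fun m => ⟪pp m (jj n h : KK H), pp m f⟫_ℂ) n (fun m hm => ?_)
    using 1
  · rw [pp_jj_self]
  · rw [pp_jj_ne hm, inner_zero_left]

theorem EE_star (m n : ℕ) : star (EE m n : KK H →L[ℂ] KK H) = EE n m := by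
  symm
  rw [ContinuousLinearMap.star_eq_adjoint, ContinuousLinearMap.eq_adjoint_iff]
  intro f g
  rw [EE_apply, EE_apply, inner_jj_left, ← inner_conj_symm f, inner_jj_left, inner_conj_symm]

theorem phi_comm_EE (x : H →L[ℂ] H) (m n : ℕ) : phi x * EE m n = EE m n * phi x := by
  ext1 f
  change phi x (EE m n f) = EE m n (phi x f)
  rw [EE_apply, EE_apply, phi_jj, pp_phi]

/-- the entry `(0,0)` -/
noncomputable def entry (T : KK H →L[ℂ] KK H) : H →L[ℂ] H := (pp 0).comp (T.comp (jj 0))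

theorem entry_apply (T : KK H →L[ℂ] KK H) (h : H) : entry T h = pp 0 (T (jj 0 h)) := rfl

/-- an operator commuting with the matrix units is a multiple of its corner entry -/
theorem eq_phi_entry (T : KK H →L[ℂ] KK H) (hT : ∀ m n, EE m n * T = T * EE m n) :
    T = phi (entry T) := by
  ext1 f
  refine kext (fun m => ?_)
  have h1 : EE 0 m (T f) = T (EE 0 m f) := congrArg (fun S : KK H →L[ℂ] KK H => S f) (hT 0 m)
  have h2 := congrArg (fun v : KK H => pp 0 v) h1
  simp only [pp_EE_self] at h2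
  rw [h2, pp_phi, entry_apply, EE_apply]

/-! ### the amplified algebra -/

/-- the generating set of the commutant -/
def gens (M : VonNeumannAlgebra H) : Set (KK H →L[ℂ] KK H) :=
  {T | (∃ m n, T = EE m n) ∨ ∃ y ∈ M.commutant, T = phi y}

theorem gens_star (M : VonNeumannAlgebra H) : star (gens M) = gens M := by
  have h : ∀ T ∈ gens M, star T ∈ gens M := by
    rintro T (⟨m, n, rfl⟩ | ⟨y, hy, rfl⟩)
    · exact Or.inl ⟨n, m, EE_star m n⟩
    · exact Or.inr ⟨star y, star_mem hy, (phi_star y).symm⟩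
  ext T
  rw [Set.mem_star]
  exact ⟨fun hT => by simpa using h _ hT, fun hT => h _ hT⟩

/-- membership in the centralizer of the generators -/
theorem mem_centralizer_gens (M : VonNeumannAlgebra H) (T : KK H →L[ℂ] KK H) :
    T ∈ Set.centralizer (gens M) ↔ ∃ x ∈ M, phi x = T := by
  constructor
  · intro hT
    rw [Set.mem_centralizer_iff] at hT
    have h1 : T = phi (entry T) := eq_phi_entry T (fun m n => hT _ (Or.inl ⟨m, n, rfl⟩))
    refine ⟨entry T, ?_, h1.symm⟩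
    have h2 : entry T ∈ M.commutant.commutant := by
      rw [VonNeumannAlgebra.mem_commutant_iff]
      intro y hy
      have h3 := hT (phi y) (Or.inr ⟨y, hy, rfl⟩)
      rw [h1, ← phi_mul, ← phi_mul] at h3
      exact phi_inj h3
    rwa [VonNeumannAlgebra.commutant_commutant] at h2
  · rintro ⟨x, hx, rfl⟩
    rw [Set.mem_centralizer_iff]
    rintro T (⟨m, n, rfl⟩ | ⟨y, hy, rfl⟩)
    · exact (phi_comm_EE x m n).symm
    · rw [← phi_mul, ← phi_mul]
      congr 1
      exact ((VonNeumannAlgebra.mem_commutant_iff.1 hy) x hx).symm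

theorem coe_centralizer_gens (M : VonNeumannAlgebra H) :
    ((StarSubalgebra.centralizer ℂ (gens M) : StarSubalgebra ℂ (KK H →L[ℂ] KK H)) :
      Set (KK H →L[ℂ] KK H)) = Set.centralizer (gens M) := by
  rw [StarSubalgebra.coe_centralizer, gens_star, Set.union_self]

/-- the amplified von Neumann algebra -/
noncomputable def Mt (M : VonNeumannAlgebra H) : VonNeumannAlgebra (KK H) where
  toStarSubalgebra := StarSubalgebra.centralizer ℂ (gens M)
  centralizer_centralizer' := by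
    have h := coe_centralizer_gens M
    change Set.centralizer (Set.centralizer
      ((StarSubalgebra.centralizer ℂ (gens M) : StarSubalgebra ℂ (KK H →L[ℂ] KK H)) :
        Set (KK H →L[ℂ] KK H))) =
      ((StarSubalgebra.centralizer ℂ (gens M) : StarSubalgebra ℂ (KK H →L[ℂ] KK H)) :
        Set (KK H →L[ℂ] KK H))
    rw [h]
    exact Set.centralizer_centralizer_centralizer _

theorem mem_Mt (M : VonNeumannAlgebra H) (T : KK H →L[ℂ] KK H) :
    T ∈ Mt M ↔ ∃ x ∈ M, phi x = T := by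
  rw [← mem_centralizer_gens, ← coe_centralizer_gens]
  rfl

/-! ### the two isometries -/

/-- the vector moved along an injective index map -/
noncomputable def shiftVec (e : ℕ → ℕ) (he : Function.Injective e) (f : KK H) : KK H :=
  kmk (Function.extend e (fun n => pp n f) 0) (by
    have h1 : (fun i => ‖Function.extend e (fun n => pp n f) 0 i‖ ^ 2) =
        Function.extend e (fun i => ‖pp i f‖ ^ 2) 0 := by
      funext i
      by_cases hi : ∃ n, e n = i
      · obtain ⟨n, rfl⟩ := hi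
        rw [he.extend_apply, he.extend_apply]
      · rw [Function.extend_apply' _ _ _ hi, Function.extend_apply' _ _ _ hi]
        simp
    rw [h1]
    exact ((hasSum_extend_zero he).2 (hasSum_norm_sq f)).summable)

theorem pp_shiftVec (e : ℕ → ℕ) (he : Function.Injective e) (f : KK H) (n : ℕ) :
    pp (e n) (shiftVec e he f) = pp n f := by
  rw [shiftVec, pp_kmk, he.extend_apply]

theorem pp_shiftVec' (e : ℕ → ℕ) (he : Function.Injective e) (f : KK H) (n : ℕ)
    (hn : ¬ ∃ m, e m = n) : pp n (shiftVec e he f) = 0 := by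
  rw [shiftVec, pp_kmk, Function.extend_apply' _ _ _ hn]; rfl

/-- pointwise check over the two cases -/
theorem shift_kext (e : ℕ → ℕ) {f g : KK H} (h1 : ∀ n, pp (e n) f = pp (e n) g)
    (h2 : ∀ n, (¬ ∃ m, e m = n) → pp n f = pp n g) : f = g := by
  refine kext (fun n => ?_)
  by_cases hn : ∃ m, e m = n
  · obtain ⟨m, rfl⟩ := hn; exact h1 m
  · exact h2 n hn

theorem hasSum_shift (e : ℕ → ℕ) (he : Function.Injective e) (f g : KK H) :
    ⟪shiftVec e he f, shiftVec e he g⟫_ℂ = ⟪f, g⟫_ℂ := by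
  refine (hasSum_inner _ _).unique ?_
  have h := (hasSum_extend_zero (f := fun n => ⟪pp n f, pp n g⟫_ℂ) he).2 (hasSum_inner f g)
  convert h using 1
  funext i
  by_cases hi : ∃ n, e n = i
  · obtain ⟨n, rfl⟩ := hi
    rw [he.extend_apply, pp_shiftVec, pp_shiftVec]
  · rw [Function.extend_apply' _ _ _ hi, pp_shiftVec' _ _ _ _ hi, inner_zero_left]; rfl

/-- the isometry induced by an injective index map -/
noncomputable def shift (e : ℕ → ℕ) (he : Function.Injective e) : KK H →L[ℂ] KK H :=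
  LinearMap.mkContinuous
    { toFun := shiftVec e he
      map_add' := fun f g => shift_kext e (fun n => by
          rw [pp_shiftVec, map_add, map_add, pp_shiftVec, pp_shiftVec]) (fun n hn => by
          rw [pp_shiftVec' _ _ _ _ hn, map_add, pp_shiftVec' _ _ _ _ hn, pp_shiftVec' _ _ _ _ hn,
            add_zero])
      map_smul' := fun c f => shift_kext e (fun n => by
          rw [pp_shiftVec, map_smul, RingHom.id_apply, map_smul, pp_shiftVec]) (fun n hn => by
          rw [pp_shiftVec' _ _ _ _ hn, RingHom.id_apply, map_smul, pp_shiftVec' _ _ _ _ hn,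
            smul_zero]) } 1
    (fun f => by
      have h := hasSum_shift e he f f
      have h2 : ‖shiftVec e he f‖ ^ 2 = ‖f‖ ^ 2 := by
        have h3 := congrArg Complex.re h
        have h4 := inner_self_eq_norm_sq (𝕜 := ℂ) (shiftVec e he f)
        have h5 := inner_self_eq_norm_sq (𝕜 := ℂ) f
        exact h4.symm.trans (h3.trans h5)
      rw [one_mul]
      exact le_of_eq ((pow_left_inj₀ (norm_nonneg _) (norm_nonneg _) two_ne_zero).1 h2))

theorem shift_apply (e : ℕ → ℕ) (he : Function.Injective e) (f : KK H) :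
    shift e he f = shiftVec e he f := rfl

theorem shift_star_mul_self (e : ℕ → ℕ) (he : Function.Injective e) :
    star (shift e he : KK H →L[ℂ] KK H) * shift e he = 1 := by
  ext1 f
  refine ext_inner_left ℂ (fun g => ?_)
  rw [mul_apply_eq_comp, ContinuousLinearMap.star_eq_adjoint,
    ContinuousLinearMap.adjoint_inner_right, shift_apply, shift_apply, hasSum_shift,
    one_apply_eq_self]

theorem shift_star_mul (e e' : ℕ → ℕ) (he : Function.Injective e) (he' : Function.Injective e')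
    (hd : ∀ m n, e m ≠ e' n) : star (shift e he : KK H →L[ℂ] KK H) * shift e' he' = 0 := by
  ext1 f
  refine ext_inner_left ℂ (fun g => ?_)
  rw [mul_apply_eq_comp, ContinuousLinearMap.star_eq_adjoint,
    ContinuousLinearMap.adjoint_inner_right, shift_apply, shift_apply,
    zero_apply, inner_zero_right]
  refine (hasSum_inner _ _).unique ?_
  convert (hasSum_zero : HasSum (fun _ : ℕ => (0 : ℂ)) 0) using 1
  funext n
  by_cases hn : ∃ m, e m = n
  · obtain ⟨m, rfl⟩ := hn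
    rw [pp_shiftVec' e' he' f (e m) (fun ⟨k, hk⟩ => hd m k hk.symm), inner_zero_right]
  · rw [pp_shiftVec' e he g n hn, inner_zero_left]

theorem shift_comm_phi (e : ℕ → ℕ) (he : Function.Injective e) (x : H →L[ℂ] H) :
    phi x * shift e he = shift e he * phi x := by
  ext1 f
  rw [mul_apply_eq_comp, mul_apply_eq_comp, shift_apply,
    shift_apply]
  refine shift_kext e (fun n => ?_) (fun n hn => ?_)
  · rw [pp_phi, pp_shiftVec, pp_shiftVec, pp_phi]
  · rw [pp_phi, pp_shiftVec' _ _ _ _ hn, pp_shiftVec' _ _ _ _ hn, map_zero]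

theorem shift_mem (M : VonNeumannAlgebra H) (e : ℕ → ℕ) (he : Function.Injective e) :
    shift e he ∈ (Mt M).commutant := by
  rw [VonNeumannAlgebra.mem_commutant_iff]
  intro T hT
  obtain ⟨x, -, rfl⟩ := (mem_Mt M T).1 hT
  exact shift_comm_phi e he x

theorem amp_Mt (M : VonNeumannAlgebra H) : Amp (Mt M) := by
  have h1 : Function.Injective (fun n : ℕ => 2 * n) := fun a b h => by
    have : 2 * a = 2 * b := h
    omega
  have h2 : Function.Injective (fun n : ℕ => 2 * n + 1) := fun a b h => by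
    have : 2 * a + 1 = 2 * b + 1 := h
    omega
  refine ⟨shift _ h1, shift _ h2, shift_mem M _ h1, shift_mem M _ h2, shift_star_mul_self _ h1,
    shift_star_mul_self _ h2, shift_star_mul _ _ h1 h2 (fun m n => ?_)⟩
  omega

/-! ### the dominating vector -/

theorem exists_dominating (F : Finset H) :
    ∃ ξ : KK H, ∀ x : H →L[ℂ] H, ∀ ζ ∈ F, ‖x ζ‖ ≤ ‖phi x ξ‖ := by
  classical
  obtain ⟨e, he⟩ : ∃ e : H → ℕ, Set.InjOn e (F : Set H) := by
    refine ⟨fun ζ => F.toList.idxOf ζ, fun a ha b hb hab => ?_⟩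
    have ha' : a ∈ F.toList := by simpa using ha
    exact (List.idxOf_inj ha').1 hab
  refine ⟨∑ ζ ∈ F, jj (e ζ) ζ, fun x ζ hζ => ?_⟩
  have h1 : pp (e ζ) (∑ ζ' ∈ F, jj (e ζ') ζ' : KK H) = ζ := by
    rw [map_sum, Finset.sum_eq_single ζ]
    · exact pp_jj_self _ _
    · intro b hb hne
      exact pp_jj_ne (fun h => hne (he hζ hb h).symm) _
    · intro h; exact absurd hζ h
  calc ‖x ζ‖ = ‖pp (e ζ) (phi x (∑ ζ' ∈ F, jj (e ζ') ζ' : KK H))‖ := by rw [pp_phi, h1]
    _ ≤ _ := norm_pp_le _ _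

end Main

end Ampl

open Ampl in
/-- the amplification lemma -/
theorem exists_ampl {H : Type u} [NormedAddCommGroup H] [InnerProductSpace ℂ H] [CompleteSpace H]
    (M : VonNeumannAlgebra H) (A : StarSubalgebra ℂ (H →L[ℂ] H)) (hM : Masa M A) :
    ∃ (K : Type u) (_ : NormedAddCommGroup K) (_ : InnerProductSpace ℂ K) (_ : CompleteSpace K)
      (Φ : (H →L[ℂ] H) →⋆ₐ[ℂ] (K →L[ℂ] K)) (Mt : VonNeumannAlgebra K)
      (At : StarSubalgebra ℂ (K →L[ℂ] K)),
      (∀ x, ‖Φ x‖ = ‖x‖) ∧ (∀ T, T ∈ Mt ↔ ∃ x ∈ M, Φ x = T) ∧ (∀ T, T ∈ At ↔ ∃ a ∈ A, Φ a = T) ∧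
      Masa Mt At ∧ Amp Mt ∧
      ∀ F : Finset H, ∃ ξ : K, ∀ x : H →L[ℂ] H, ∀ ζ ∈ F, ‖x ζ‖ ≤ ‖Φ x ξ‖ := by
  have hAt : ∀ T, T ∈ A.map (Phi H) ↔ ∃ a ∈ A, Phi H a = T := fun T => StarSubalgebra.mem_map
  refine ⟨KK H, inferInstance, inferInstance, inferInstance, Phi H, Mt M, A.map (Phi H),
    norm_phi, mem_Mt M, hAt, ?_, amp_Mt M, exists_dominating⟩
  refine ⟨?_, ?_, ?_⟩
  · intro T hT
    obtain ⟨a, ha, rfl⟩ := (hAt T).1 hT
    exact (mem_Mt M _).2 ⟨a, hM.le ha, rfl⟩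
  · intro S hS T hT
    obtain ⟨a, ha, rfl⟩ := (hAt S).1 hS
    obtain ⟨b, hb, rfl⟩ := (hAt T).1 hT
    rw [← map_mul, ← map_mul, hM.comm a ha b hb]
  · intro T hT hc
    obtain ⟨x, hx, rfl⟩ := (mem_Mt M T).1 hT
    refine (hAt _).2 ⟨x, hM.max x hx (fun a ha => ?_), rfl⟩
    have h := hc (Phi H a) ((hAt _).2 ⟨a, ha, rfl⟩)
    rw [Phi_eq, ← phi_mul, ← phi_mul] at h
    exact phi_inj h

end Crest.Agent.R109
end

-- ▼ part R109/Final143
section

/-!
# Row 109: S0143 from `NCE_q`, `HasE`, `NoNCE143`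
-/

set_option autoImplicit false
set_option linter.unusedSectionVars false

namespace Crest.Agent.R109

open scoped InnerProductSpace
open ContinuousLinearMap Crest.Agent.R121 Crest.Agent.R124

universe u

/-- **S0143** -/
theorem s0143_of (hN : NCE_q.{u}) (hE : HasE.{u}) (h0 : NoNCE143.{u})
    (ε : ℝ) (hε : 0 < ε) (hε1 : ε < 1)
    (H : Type u) [NormedAddCommGroup H] [InnerProductSpace ℂ H] [CompleteSpace H]
    (M : VonNeumannAlgebra H) (A : StarSubalgebra ℂ (H →L[ℂ] H))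
    (hAM : A ≤ M.toStarSubalgebra) (hA : ∀ a ∈ A, ∀ b ∈ A, a * b = b * a)
    (hAmax : ∀ y ∈ M, (∀ a ∈ A, a * y = y * a) → y ∈ A)
    (x : H →L[ℂ] H) (hxM : x ∈ M) (hx : IsSelfAdjoint x) (F : Finset H) (δ : ℝ) (hδ : 0 < δ) :
    ∃ p : Fin (Nat.ceil (400000000 / ε ^ 2) + Nat.ceil (4 / ε) + 1) → (H →L[ℂ] H),
      (∀ i, p i ∈ A ∧ IsStarProjection (p i)) ∧ (∀ i j, i ≠ j → p i * p j = 0) ∧
      ∑ i, p i = 1 ∧
      ∃ a ∈ A, IsSelfAdjoint a ∧ ‖a‖ ≤ ‖x‖ ∧
        ∃ q ∈ M, IsStarProjection q ∧ (∀ ξ ∈ F, ‖(1 - q) ξ‖ < δ) ∧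
          ‖q * (∑ i, p i * x * p i - a) * q‖ ≤ ε * ‖x‖ := by
  have hM : Masa M A := ⟨hAM, hA, hAmax⟩
  obtain ⟨K, iK1, iK2, iK3, Φ, Mt, At, hΦ, hMt, hAt, hMasa, hAmp, hF⟩ := exists_ampl M A hM
  have hinj : ∀ {y y' : H →L[ℂ] H}, Φ y = Φ y' → y = y' := by
    intro y y' h
    have h1 : ‖y - y'‖ = 0 := by rw [← hΦ, map_sub, h, sub_self, norm_zero]
    exact sub_eq_zero.1 (norm_eq_zero.1 h1)
  obtain ⟨ξ, hξ⟩ := hF F
  have hproj : ∀ {y : H →L[ℂ] H}, IsStarProjection (Φ y) → IsStarProjection y := by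
    intro y h
    refine ⟨hinj ?_, hinj ?_⟩
    · rw [map_mul]; exact h.isIdempotentElem
    · rw [map_star]; exact h.isSelfAdjoint
  obtain ⟨p, hp, a, haA, hasa, han, q, hqM, hqp, hqξ, hq⟩ := red143_amp hN hE h0 hMasa hAmp hε hε1
    (x := Φ x) ((hMt _).2 ⟨x, hxM, rfl⟩) (hx.map Φ) ξ hδ
  choose p' hp'A hp' using fun i => (hAt (p i)).1 (hp.mem i)
  obtain ⟨a', ha'A, rfl⟩ := (hAt a).1 haA
  obtain ⟨q', hq'M, rfl⟩ := (hMt q).1 hqM
  refine ⟨p', fun i => ⟨hp'A i, hproj (by rw [hp' i]; exact hp.proj i)⟩, ?_, ?_, a', ha'A, ?_, ?_,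
    q', hq'M, hproj hqp, ?_, ?_⟩
  · intro i j hij
    apply hinj
    rw [map_mul, hp', hp', hp.orth i j hij, map_zero]
  · apply hinj
    rw [map_sum, map_one, ← hp.sum]
    exact Finset.sum_congr rfl (fun i _ => hp' i)
  · apply hinj
    rw [map_star]
    exact hasa
  · rwa [hΦ, hΦ] at han
  · intro ζ hζ
    refine lt_of_le_of_lt (hξ (1 - q') ζ hζ) ?_
    rw [map_sub, map_one]
    exact hqξ
  · have h1 : Φ (q' * (∑ i, p' i * x * p' i - a') * q') =
        Φ q' * (∑ i, p i * Φ x * p i - Φ a') * Φ q' := by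
      rw [map_mul, map_mul, map_sub, map_sum]
      simp only [map_mul, hp']
    rw [← hΦ, h1, ← hΦ x]
    exact hq

end Crest.Agent.R109
end

-- ▼ part R109/Red144
section

/-!
# Row 109: S0144 in the amplified situation
-/

set_option autoImplicit false
set_option linter.unusedSectionVars false

namespace Crest.Agent.R109

open scoped InnerProductSpace
open ContinuousLinearMap Crest.Agent.R121 Crest.Agent.R124

universe u

/-- statement of `exists_g` (file Gauge.lean) -/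
def HasG : Prop := ∀ c κ : ℝ, 0 < c → 0 < κ → ∃ C : ℝ, 0 < C ∧
  ∀ (H : Type u) [NormedAddCommGroup H] [InnerProductSpace ℂ H] [CompleteSpace H]
    (M : VonNeumannAlgebra H) (A : StarSubalgebra ℂ (H →L[ℂ] H)), Masa M A →
    ∀ η : H, CVec M A η → ∀ (n : ℕ) (p : Fin n → H →L[ℂ] H), Part A (vs M η) p →
    ∀ T ∈ M, IsSelfAdjoint T → vs M η * T = T → ‖T‖ ≤ 2 → (∀ i, p i * T = T * p i) →
    ∀ q ∈ M, IsStarProjection q → vs M η * q = q → ‖q * T * q‖ ≤ c →
    ∃ g ∈ M, IsSelfAdjoint g ∧ ‖g‖ ≤ 1 ∧ vs M η * g = g ∧ (∀ i, p i * g = g * p i) ∧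
      ‖g * T * g‖ ≤ c + κ ∧ ‖(vs M η - g) η‖ ^ 2 ≤ C * ‖(vs M η - q) η‖ ^ 2

variable {H : Type u} [NormedAddCommGroup H] [InnerProductSpace ℂ H] [CompleteSpace H]
variable {M : VonNeumannAlgebra H} {A : StarSubalgebra ℂ (H →L[ℂ] H)}

/-- two vectors are dominated by one -/
lemma amp_vec (hA : Amp M) (ζ₁ ζ₂ : H) :
    ∃ ζ : H, ∀ y ∈ M, ‖y ζ₁‖ ≤ ‖y ζ‖ ∧ ‖y ζ₂‖ ≤ ‖y ζ‖ := by
  obtain ⟨S, T, hS, hT, hSS, hTT, hST⟩ := hA
  refine ⟨S ζ₁ + T ζ₂, ?_⟩
  intro y hy
  have key : ∀ v : H, ‖y v‖ ^ 2 = (⟪v, (star y * y) v⟫_ℂ).re := by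
    intro v
    rw [← inner_self_eq_norm_sq (𝕜 := ℂ), star_eq_adjoint]
    change _ = (⟪v, adjoint y (y v)⟫_ℂ).re
    rw [adjoint_inner_right]
    rfl
  have h1 : ‖y (S ζ₁ + T ζ₂)‖ ^ 2 = ‖y ζ₁‖ ^ 2 + ‖y ζ₂‖ ^ 2 := by
    rw [key, amp_inner hS hT hSS hTT hST ζ₁ ζ₂ (mul_mem (star_mem hy) hy), Complex.add_re,
      ← key, ← key]
  constructor
  · refine (pow_le_pow_iff_left₀ (norm_nonneg _) (norm_nonneg _) two_ne_zero).1 ?_
    rw [h1]
    nlinarith [sq_nonneg ‖y ζ₂‖]
  · refine (pow_le_pow_iff_left₀ (norm_nonneg _) (norm_nonneg _) two_ne_zero).1 ?_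
    rw [h1]
    nlinarith [sq_nonneg ‖y ζ₁‖]

lemma amp_vec4 (hA : Amp M) (ζ₁ ζ₂ ζ₃ ζ₄ : H) :
    ∃ ζ : H, ∀ y ∈ M, ‖y ζ₁‖ ≤ ‖y ζ‖ ∧ ‖y ζ₂‖ ≤ ‖y ζ‖ ∧ ‖y ζ₃‖ ≤ ‖y ζ‖ ∧ ‖y ζ₄‖ ≤ ‖y ζ‖ := by
  obtain ⟨ζ, h⟩ := amp_vec hA ζ₁ ζ₂
  obtain ⟨ζ', h'⟩ := amp_vec hA ζ₃ ζ₄
  obtain ⟨ζ'', h''⟩ := amp_vec hA ζ ζ'
  refine ⟨ζ'', fun y hy => ⟨?_, ?_, ?_, ?_⟩⟩
  · exact (h y hy).1.trans (h'' y hy).1
  · exact (h y hy).2.trans (h'' y hy).1
  · exact (h' y hy).1.trans (h'' y hy).2
  · exact (h' y hy).2.trans (h'' y hy).2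

/-- norm of a sum of blocks -/
lemma norm_pinch {z : H →L[ℂ] H} {ι : Type*} [Fintype ι] {p B : ι → H →L[ℂ] H}
    (h : Part A z p) {c : ℝ} (hc : 0 ≤ c) (hB : ∀ i, ‖p i * B i * p i‖ ≤ c) :
    ‖∑ i, p i * B i * p i‖ ≤ c := by
  classical
  have key : ∀ s : Finset ι, IsStarProjection (∑ i ∈ s, p i) ∧
      ‖∑ i ∈ s, p i * B i * p i‖ ≤ c ∧
      (∑ i ∈ s, p i) * (∑ i ∈ s, p i * B i * p i) = ∑ i ∈ s, p i * B i * p i ∧
      (∑ i ∈ s, p i * B i * p i) * (∑ i ∈ s, p i) = ∑ i ∈ s, p i * B i * p i := by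
    intro s
    induction s using Finset.induction_on with
    | empty =>
        refine ⟨⟨by simp [IsIdempotentElem], by simp [IsSelfAdjoint]⟩, by simpa using hc, ?_, ?_⟩ <;>
        simp
    | insert a s ha ih =>
        obtain ⟨i1, i2, i3, i4⟩ := ih
        have o1 : p a * (∑ i ∈ s, p i) = 0 := by
          rw [Finset.mul_sum]
          apply Finset.sum_eq_zero
          intro i hi
          exact h.orth a i (fun hh => ha (hh ▸ hi))
        have o2 : (∑ i ∈ s, p i) * p a = 0 := by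
          rw [Finset.sum_mul]
          apply Finset.sum_eq_zero
          intro i hi
          exact h.orth i a (fun hh => ha (hh ▸ hi))
        have b1 : p a * (p a * B a * p a) = p a * B a * p a := by
          rw [← mul_assoc, ← mul_assoc, (h.proj a).isIdempotentElem.eq]
        have b2 : (p a * B a * p a) * p a = p a * B a * p a := by
          rw [mul_assoc, (h.proj a).isIdempotentElem.eq]
        rw [Finset.sum_insert ha, Finset.sum_insert ha]
        refine ⟨proj_add (h.proj a) i1 o1, norm_block (h.proj a) i1 o1 b1 b2 i3 i4 (hB a) i2,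
          ?_, ?_⟩
        · rw [add_mul, mul_add, mul_add, b1, i3]
          have c1 : p a * (∑ i ∈ s, p i * B i * p i) = 0 := by
            rw [← i3, ← mul_assoc, o1, zero_mul]
          have c2 : (∑ i ∈ s, p i) * (p a * B a * p a) = 0 := by
            rw [← b1, ← mul_assoc, o2, zero_mul]
          rw [c1, c2, add_zero, zero_add]
        · rw [add_mul, mul_add, mul_add, b2, i4]
          have c1 : (∑ i ∈ s, p i * B i * p i) * p a = 0 := by
            rw [← i4, mul_assoc, o2, mul_zero]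
          have c2 : (p a * B a * p a) * (∑ i ∈ s, p i) = 0 := by
            rw [← b2, mul_assoc, o1, mul_zero]
          rw [c1, c2, add_zero, zero_add]
  exact (key Finset.univ).2.1

set_option maxHeartbeats 3200000 in
/-- **S0144 when the commutant is properly infinite** -/
theorem red144_amp (hN : NCE_q.{u}) (hE : HasE.{u}) (hG : HasG.{u}) (h0 : NoNCE144.{u})
    (hM : Masa M A) (hA : Amp M) {ε : ℝ} (hε : 0 < ε) (hε1 : ε < 1) {x : H →L[ℂ] H} (hx : x ∈ M)
    (hsa : IsSelfAdjoint x) (hx0 : x ≠ 0) (ξ : H) {δ : ℝ} (hδ : 0 < δ) :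
    ∃ y ∈ M, IsSelfAdjoint y ∧ ‖y‖ ≤ 3 * ‖x‖ ∧ ‖(y - x) ξ‖ < δ ∧
      ∃ p : Fin (Nat.ceil (100000000 / (ε / 16) ^ 2) + Nat.ceil (16 / ε) + 1) → (H →L[ℂ] H),
        Part A 1 p ∧ ∃ a ∈ A, IsSelfAdjoint a ∧ ‖a‖ ≤ ‖y‖ ∧ ‖∑ i, p i * y * p i - a‖ ≤ ε * ‖y‖ := by
  have hxn : 0 < ‖x‖ := norm_pos_iff.2 hx0
  set X := ‖x‖ with hX
  -- a test vector
  obtain ⟨v, hv⟩ : ∃ v : H, (1 - ε / 8) * X * ‖v‖ < ‖x v‖ := by
    by_contra hcon
    push Not at hcon
    have := opNorm_le_bound x (M := (1 - ε / 8) * X) (by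
      apply mul_nonneg _ hxn.le
      linarith) hcon
    rw [← hX] at this
    nlinarith
  have hv0 : 0 < ‖v‖ := by
    rcases (norm_nonneg v).eq_or_lt with h | h
    · exfalso
      have : v = 0 := norm_eq_zero.1 h.symm
      rw [this] at hv
      simp at hv
    · exact h
  set τ : ℝ := min δ (ε / 8 * X * ‖v‖) with hτ
  have hτ0 : 0 < τ := lt_min hδ (by positivity)
  set τ' : ℝ := τ / (12 * X + 6) with hτ'
  have hτ'0 : 0 < τ' := by positivity
  -- the dichotomy
  obtain ⟨z, hzA, hzp, hNoC, hzle, hznear⟩ := exists_zed hM hA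
  obtain ⟨ζ₀, hζ₀⟩ := amp_vec4 hA ξ v (x ξ) (x v)
  obtain ⟨η, hη, hηζ⟩ := hznear ζ₀ (τ' / 3) (by positivity)
  set e := vs M η with he
  have hep : IsStarProjection e := vs_proj M η
  have heA : e ∈ A := hη.vs_mem hM
  have heM : e ∈ M := hM.le heA
  have hzM : z ∈ M := hM.le hzA
  have hze : z * e = e := hzle η hη
  have hez : e * z = e := by
    have := congrArg star hze
    rwa [star_mul, hep.isSelfAdjoint.star_eq, hzp.isSelfAdjoint.star_eq] at this
  have hzz : z * z = z := hzp.isIdempotentElem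
  have hee : e * e = e := hep.isIdempotentElem
  have h1zp : IsStarProjection (1 - z) := hzp.one_sub
  have h1zA : (1 - z) ∈ A := sub_mem (one_mem _) hzA
  have hrp : IsStarProjection (z - e) := proj_sub hzp hep hze
  have hrA : z - e ∈ A := sub_mem hzA heA
  have he1 : e * (1 - z) = 0 := by rw [mul_sub, mul_one, hez, sub_self]
  have h1e : (1 - z) * e = 0 := by rw [sub_mul, one_mul, hze, sub_self]
  obtain ⟨a₁, ha₁A, ha₁sa, ha₁n, hea₁, ha₁e, ha₁0⟩ := exists_E hE hM hη hx hsa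
  have ha₁M : a₁ ∈ M := hM.le ha₁A
  set w := x - a₁ with hw
  have hwM : w ∈ M := sub_mem hx ha₁M
  have hwsa : IsSelfAdjoint w := hsa.sub ha₁sa
  have hwn : ‖w‖ ≤ 2 * X := (norm_sub_le _ _).trans (by linarith)
  obtain ⟨ζ, hζ⟩ := amp_vec4 hA ξ v (w ξ) (w v)
  -- the corner with expectation
  have part1 : ∃ p : Fin (Nat.ceil (100000000 / (ε / 16) ^ 2)) → H →L[ℂ] H, Part A e p ∧ ∃ g ∈ M,
      IsSelfAdjoint g ∧ ‖g‖ ≤ 1 ∧ e * g = g ∧ g * e = g ∧ (∀ i, p i * g = g * p i) ∧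
      ‖(e - g) ζ‖ < τ' / 3 ∧
      ‖g * (∑ i, p i * w * p i) * g‖ ≤ ε / 4 * X := by
    obtain ⟨δ', hδ', hnear⟩ := near M η ζ 2 (show (0 : ℝ) < τ' / 3 by positivity)
    obtain ⟨C, hC, hG'⟩ := hG (ε / 16) (ε / 16) (by positivity) (by positivity)
    set c : ℂ := (((2 * X)⁻¹ : ℝ) : ℂ) with hc
    have hcn : ‖c‖ = (2 * X)⁻¹ := by
      rw [hc, Complex.norm_real, Real.norm_of_nonneg (by positivity)]
    have hyM : c • w ∈ M :=
      SMulMemClass.smul_mem (S := StarSubalgebra ℂ (H →L[ℂ] H))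
        (s := M.toStarSubalgebra) c hwM
    have hysa : IsSelfAdjoint (c • w) := by
      change star (c • w) = _
      rw [star_smul, hwsa.star_eq, hc, Complex.star_def, Complex.conj_ofReal]
    have hyn : ‖c • w‖ ≤ 1 := by
      rw [norm_smul, hcn]
      calc (2 * X)⁻¹ * ‖w‖ ≤ (2 * X)⁻¹ * (2 * X) := by gcongr
        _ = 1 := by field_simp
    have hy0 : ∀ a ∈ A, ⟪η, (a * (c • w)) η⟫_ℂ = 0 := by
      intro a ha
      rw [mul_smul_comm, smul_apply, inner_smul_right, ha₁0 a ha, mul_zero]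
    have hr : (10 : ℝ) ^ 8 / (ε / 16) ^ 2 ≤ ((Nat.ceil (100000000 / (ε / 16) ^ 2) : ℕ) : ℝ) := by
      refine le_trans (le_of_eq ?_) (Nat.le_ceil _)
      norm_num
    have hδ2 : 0 < δ' / Real.sqrt (C + 1) := by positivity
    obtain ⟨p, hp, q, hqM, hqp, heq, hqη, hq⟩ := nce_corner hN hM hA hη hyM hysa hyn hy0
      (show (0 : ℝ) < ε / 16 by positivity) (by linarith) hr hδ2
    set T := ∑ i, p i * (c • w) * p i with hT
    have hTe : e * T = T := by
      rw [hT, Finset.mul_sum]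
      refine Finset.sum_congr rfl (fun i _ => ?_)
      rw [← mul_assoc, ← mul_assoc, hp.z_mul]
    have hTM : T ∈ M := sum_mem (fun i _ =>
      mul_mem (mul_mem (hM.le (hp.mem i)) hyM) (hM.le (hp.mem i)))
    have hTsa : IsSelfAdjoint T := by
      change star T = T
      rw [hT, star_sum]
      refine Finset.sum_congr rfl (fun i _ => ?_)
      rw [star_mul, star_mul, hp.star i, hysa.star_eq, mul_assoc]
    have hTn : ‖T‖ ≤ 2 := by
      refine le_trans (norm_pinch (B := fun _ => c • w) hp zero_le_one ?_) (by norm_num)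
      intro i
      calc ‖p i * (c • w) * p i‖ ≤ ‖p i * (c • w)‖ * ‖p i‖ := norm_mul_le _ _
        _ ≤ (‖p i‖ * ‖c • w‖) * ‖p i‖ := by
            gcongr
            exact norm_mul_le _ _
        _ ≤ (1 * 1) * 1 := by
            have := (hp.proj i).norm_le
            gcongr
        _ = 1 := by norm_num
    have hTc : ∀ i, p i * T = T * p i := by
      classical
      intro i
      have e1 : p i * T = p i * (c • w) * p i := by
        rw [hT, Finset.mul_sum, Finset.sum_eq_single i]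
        · rw [← mul_assoc, ← mul_assoc, (hp.proj i).isIdempotentElem.eq]
        · intro j _ hj
          rw [← mul_assoc, ← mul_assoc, hp.orth i j hj.symm, zero_mul, zero_mul]
        · intro h; exact absurd (Finset.mem_univ i) h
      have e2 : T * p i = p i * (c • w) * p i := by
        rw [hT, Finset.sum_mul, Finset.sum_eq_single i]
        · rw [mul_assoc, (hp.proj i).isIdempotentElem.eq]
        · intro j _ hj
          rw [mul_assoc, hp.orth j i hj, mul_zero]
        · intro h; exact absurd (Finset.mem_univ i) h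
      rw [e1, e2]
    obtain ⟨g, hgM, hgsa, hgn, heg, hpg, hgT, hgη⟩ := hG' H M A hM η hη _ p hp T hTM hTsa hTe hTn
      hTc q hqM hqp heq hq
    have hge : g * e = g := by
      have := congrArg star heg
      rwa [star_mul, hgsa.star_eq, (vs_proj M η).isSelfAdjoint.star_eq] at this
    refine ⟨p, hp, g, hgM, hgsa, hgn, heg, hge, hpg, ?_, ?_⟩
    · have h1 : ‖(e - g) η‖ < δ' := by
        have h2 : ‖(e - g) η‖ ^ 2 < δ' ^ 2 := by
          refine hgη.trans_lt ?_
          have h3 : ‖(vs M η - q) η‖ ^ 2 < (δ' / Real.sqrt (C + 1)) ^ 2 := by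
            gcongr
          rw [div_pow, Real.sq_sqrt (by positivity)] at h3
          calc C * ‖(vs M η - q) η‖ ^ 2 < C * (δ' ^ 2 / (C + 1)) := by gcongr
            _ ≤ δ' ^ 2 := by
              rw [← mul_div_assoc, div_le_iff₀ (by positivity)]
              nlinarith [sq_nonneg δ']
        exact lt_of_pow_lt_pow_left₀ 2 hδ'.le h2
      have h2 : ‖(e - g : H →L[ℂ] H)‖ ≤ 2 := by
        refine (norm_sub_le _ _).trans ?_
        have := hep.norm_le
        linarith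
      have h3 := hnear (e - g) (sub_mem heM hgM) h2 h1
      have h4 : (e - g) (e ζ) = (e - g) ζ := by
        have h5 : (e - g) * e = e - g := by rw [sub_mul, hee, hge]
        exact congrArg (fun F : H →L[ℂ] H => F ζ) h5
      rwa [h4] at h3
    · have h5 : T = c • ∑ i, p i * w * p i := by
        rw [hT, Finset.smul_sum]
        refine Finset.sum_congr rfl (fun i _ => ?_)
        rw [mul_smul_comm, smul_mul_assoc]
      rw [h5, mul_smul_comm, smul_mul_assoc, norm_smul, hcn] at hgT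
      have h6 : ‖g * (∑ i, p i * w * p i) * g‖ =
          (2 * X) * ((2 * X)⁻¹ * ‖g * (∑ i, p i * w * p i) * g‖) := by
        field_simp
      rw [h6]
      calc (2 * X) * ((2 * X)⁻¹ * ‖g * (∑ i, p i * w * p i) * g‖)
          ≤ (2 * X) * (ε / 16 + ε / 16) := by gcongr
        _ = ε / 4 * X := by ring
  obtain ⟨p₁, hp₁, g, hgM, hgsa, hgn, heg, hge, hpg, hgζ, hgT⟩ := part1
  -- the corner without expectation
  have hR : 0 < Nat.ceil (16 / ε) := Nat.ceil_pos.2 (by positivity)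
  have hR' : 16 / ε ≤ ((Nat.ceil (16 / ε) : ℕ) : ℝ) := Nat.le_ceil _
  obtain ⟨p₀, hp₀, q₀, hq₀M, hq₀p, hzq₀, hq₀ζ, hq₀⟩ := h0 H M A hM hA (1 - z) h1zA h1zp hNoC ζ _ hR
    (min (τ' / 3) (ε / 16)) (lt_min (by positivity) (by positivity))
  have hq₀' : ∀ i, ‖q₀ * p₀ i * q₀‖ ≤ ε / 4 := by
    intro i
    refine (hq₀ i).trans ?_
    have h1 : 1 / ((Nat.ceil (16 / ε) : ℕ) : ℝ) ≤ ε / 16 := by
      rw [div_le_div_iff₀ (by positivity) (by norm_num)]
      rw [div_le_iff₀ hε] at hR'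
      linarith
    have h2 := min_le_right (τ' / 3) (ε / 16)
    linarith
  have hq₀ζ' : ‖((1 - z) - q₀) ζ‖ < τ' / 3 := lt_of_lt_of_le hq₀ζ (min_le_left _ _)
  have hq₀z : q₀ * (1 - z) = q₀ := by
    have := congrArg star hzq₀
    rwa [star_mul, hq₀p.isSelfAdjoint.star_eq, h1zp.isSelfAdjoint.star_eq] at this
  -- the contraction G
  set G := g + q₀ with hGdef
  have hGM : G ∈ M := add_mem hgM hq₀M
  have hGsa : IsSelfAdjoint G := hgsa.add hq₀p.isSelfAdjoint
  have hGn : ‖G‖ ≤ 1 := norm_block hep h1zp he1 heg hge hzq₀ hq₀z hgn hq₀p.norm_le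
  have hP := (hp₁.append hp₀ he1 h1e).append (Part.single hrA hrp)
    (by
      rw [add_mul, mul_sub, mul_sub, hez, hee, sub_self, zero_add, sub_mul, sub_mul, one_mul,
        one_mul, hzz, hze]
      abel)
    (by
      rw [mul_add, sub_mul, sub_mul, hze, hee, sub_self, zero_add, mul_sub, mul_sub, mul_one,
        mul_one, hzz, hez]
      abel)
  have hPsum : e + (1 - z) + (z - e) = 1 := by abel
  rw [hPsum] at hP
  set y := G * w * G + a₁ with hy
  have hyM : y ∈ M := add_mem (mul_mem (mul_mem hGM hwM) hGM) ha₁M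
  have hysa : IsSelfAdjoint y := by
    refine IsSelfAdjoint.add ?_ ha₁sa
    change star (G * w * G) = _
    rw [star_mul, star_mul, hGsa.star_eq, hwsa.star_eq, mul_assoc]
  have hyn : ‖y‖ ≤ 3 * X := by
    refine (norm_add_le _ _).trans ?_
    have h1 : ‖G * w * G‖ ≤ 2 * X := by
      calc ‖G * w * G‖ ≤ ‖G * w‖ * ‖G‖ := norm_mul_le _ _
        _ ≤ (‖G‖ * ‖w‖) * ‖G‖ := by
            gcongr
            exact norm_mul_le _ _
        _ ≤ (1 * (2 * X)) * 1 := by gcongr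
        _ = 2 * X := by ring
    linarith
  -- closeness
  have hclose : ∀ u : H, ‖(z - e) u‖ ≤ ‖(z - e) ζ₀‖ → ‖(z - e) (x u)‖ ≤ ‖(z - e) ζ₀‖ →
      (∀ t ∈ M, ‖t u‖ ≤ ‖t ζ‖ ∧ ‖t (w u)‖ ≤ ‖t ζ‖) → ‖(y - x) u‖ < τ := by
    intro u hu1 hu2 hu3
    have d1 : ∀ u' : H, ‖(z - e) u'‖ ≤ ‖(z - e) ζ₀‖ →
        (∀ t ∈ M, ‖t u'‖ ≤ ‖t ζ‖) → ‖(1 - G) u'‖ < τ' := by
      intro u' h1 h2
      have h3 : (1 - G) u' = (e - g) u' + (((1 - z) - q₀) u' + (z - e) u') := by
        have : (1 - G : H →L[ℂ] H) = (e - g) + (((1 - z) - q₀) + (z - e)) := by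
          rw [hGdef]; abel
        rw [this]
        rfl
      rw [h3]
      calc ‖(e - g) u' + (((1 - z) - q₀) u' + (z - e) u')‖
          ≤ ‖(e - g) u'‖ + (‖((1 - z) - q₀) u'‖ + ‖(z - e) u'‖) :=
            (norm_add_le _ _).trans (by gcongr; exact norm_add_le _ _)
        _ < τ' / 3 + (τ' / 3 + τ' / 3) := by
            have i1 := (h2 _ (sub_mem heM hgM)).trans_lt hgζ
            have i2 := (h2 _ (sub_mem (hM.le h1zA) hq₀M)).trans_lt hq₀ζ'
            have i3 := h1.trans_lt hηζ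
            linarith
        _ = τ' := by ring
    have d2 : ‖(1 - G) u‖ < τ' := d1 u hu1 (fun t ht => (hu3 t ht).1)
    have d3 : ‖(1 - G) (w u)‖ < τ' := by
      refine d1 (w u) ?_ (fun t ht => (hu3 t ht).2)
      have h1 : (z - e) (w u) = (z - e) (x u) := by
        have h2 : (z - e) * a₁ = 0 := by
          rw [← hea₁, ← mul_assoc, sub_mul]
          rw [hze, hee, sub_self, zero_mul]
        have h3 : (z - e) (a₁ u) = 0 := congrArg (fun F : H →L[ℂ] H => F u) h2
        rw [hw]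
        change (z - e) (x u - a₁ u) = _
        rw [map_sub, h3, sub_zero]
      rw [h1]
      exact hu2
    have d4 : (y - x) u = -(G (w ((1 - G) u))) - (1 - G) (w u) := by
      have h1 : (y - x : H →L[ℂ] H) = -(G * (w * (1 - G))) - (1 - G) * w := by
        rw [hy, hw]
        noncomm_ring
      rw [h1]
      rfl
    rw [d4]
    have d5 : ‖G (w ((1 - G) u))‖ ≤ 2 * X * τ' := by
      calc ‖G (w ((1 - G) u))‖ ≤ ‖G‖ * ‖w ((1 - G) u)‖ := le_opNorm _ _
        _ ≤ 1 * (‖w‖ * ‖(1 - G) u‖) := by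
            gcongr
            exact le_opNorm _ _
        _ ≤ 1 * ((2 * X) * τ') := by gcongr
        _ = _ := by ring
    calc ‖-(G (w ((1 - G) u))) - (1 - G) (w u)‖ ≤ ‖G (w ((1 - G) u))‖ + ‖(1 - G) (w u)‖ := by
          refine (norm_sub_le _ _).trans ?_
          rw [norm_neg]
      _ < 2 * X * τ' + τ' := by linarith
      _ ≤ τ := by
        rw [hτ']
        rw [show 2 * X * (τ / (12 * X + 6)) + τ / (12 * X + 6) =
          ((2 * X + 1) / (12 * X + 6)) * τ by ring]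
        have : (2 * X + 1) / (12 * X + 6) ≤ 1 := by
          rw [div_le_one (by positivity)]
          linarith
        nlinarith
  have hzeM : z - e ∈ M := hM.le hrA
  have cξ : ‖(y - x) ξ‖ < τ := hclose ξ (hζ₀ _ hzeM).1 (hζ₀ _ hzeM).2.2.1
    (fun t ht => ⟨(hζ t ht).1, (hζ t ht).2.2.1⟩)
  have cv : ‖(y - x) v‖ < τ := hclose v (hζ₀ _ hzeM).2.1 (hζ₀ _ hzeM).2.2.2
    (fun t ht => ⟨(hζ t ht).2.1, (hζ t ht).2.2.2⟩)
  have hylow : (1 - ε / 4) * X ≤ ‖y‖ := by
    have h1 : ‖x v‖ - τ ≤ ‖y v‖ := by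
      have h2 : x v = y v - (y - x) v := by
        change x v = y v - (y v - x v)
        abel
      have h3 : ‖x v‖ ≤ ‖y v‖ + ‖(y - x) v‖ := by
        conv_lhs => rw [h2]
        exact norm_sub_le _ _
      linarith
    have h2 : ‖y v‖ ≤ ‖y‖ * ‖v‖ := le_opNorm _ _
    have h3 : τ ≤ ε / 8 * X * ‖v‖ := min_le_right _ _
    have h4 : (1 - ε / 4) * X * ‖v‖ ≤ ‖y‖ * ‖v‖ := by nlinarith
    exact le_of_mul_le_mul_right h4 hv0
  -- the diagonal element
  set a : H →L[ℂ] H := (((1 - ε / 4 : ℝ)) : ℂ) • a₁ with ha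
  have hε4 : 0 < 1 - ε / 4 := by linarith
  have haA : a ∈ A := SMulMemClass.smul_mem _ ha₁A
  have hasa : IsSelfAdjoint a := by
    change star a = a
    rw [ha, star_smul, ha₁sa.star_eq, Complex.star_def, Complex.conj_ofReal]
  have han : ‖a‖ ≤ ‖y‖ := by
    rw [ha, norm_smul, Complex.norm_real, Real.norm_of_nonneg hε4.le]
    refine le_trans ?_ hylow
    gcongr
  refine ⟨y, hyM, hysa, hyn, lt_of_lt_of_le cξ (min_le_left _ _), _, hP, a, haA, hasa, han, ?_⟩
  -- the pinching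
  have hsum : ∑ i, Fin.append (Fin.append p₁ p₀) (fun _ : Fin 1 => z - e) i * y *
      Fin.append (Fin.append p₁ p₀) (fun _ : Fin 1 => z - e) i =
      (∑ i, p₁ i * y * p₁ i) + (∑ i, p₀ i * y * p₀ i) + (z - e) * y * (z - e) := by
    rw [Fin.sum_univ_add, Fin.sum_univ_add]
    simp only [Fin.append_left, Fin.append_right]
    simp
  rw [hsum]
  have hq₀e : q₀ * e = 0 := by rw [← hq₀z, mul_assoc, h1e, mul_zero]
  have heq₀ : e * q₀ = 0 := by rw [← hzq₀, ← mul_assoc, he1, zero_mul]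
  have hgz : (1 - z) * g = 0 := by rw [← heg, ← mul_assoc, h1e, zero_mul]
  have hgz' : g * (1 - z) = 0 := by rw [← hge, mul_assoc, he1, mul_zero]
  have s1 : ∑ i, p₁ i * y * p₁ i = g * (∑ i, p₁ i * w * p₁ i) * g + a₁ := by
    have e1 : ∀ i, p₁ i * G = g * p₁ i := by
      intro i
      rw [hGdef, mul_add, hpg i]
      rw [← hp₁.mul_z i, mul_assoc (p₁ i) e q₀, heq₀, mul_zero, add_zero]
    have e2 : ∀ i, G * p₁ i = p₁ i * g := by
      intro i
      rw [hGdef, add_mul, hpg i]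
      rw [← hp₁.z_mul i, ← mul_assoc q₀ e (p₁ i), hq₀e, zero_mul, add_zero]
    have e3 : ∑ i, p₁ i * a₁ * p₁ i = a₁ := by
      rw [hp₁.pinch_mem hM ha₁A, hea₁]
    have e4 : ∑ i, p₁ i * y * p₁ i = ∑ i, (g * (p₁ i * w * p₁ i) * g + p₁ i * a₁ * p₁ i) := by
      refine Finset.sum_congr rfl (fun i _ => ?_)
      rw [hy, mul_add, add_mul]
      congr 1
      calc p₁ i * (G * w * G) * p₁ i = (p₁ i * G) * w * (G * p₁ i) := by simp only [mul_assoc]
        _ = (g * p₁ i) * w * (p₁ i * g) := by rw [e1, e2]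
        _ = _ := by simp only [mul_assoc]
    rw [e4, Finset.sum_add_distrib, e3, Finset.mul_sum, Finset.sum_mul]
  have s2 : ∑ i, p₀ i * y * p₀ i = ∑ i, p₀ i * (q₀ * x * q₀) * p₀ i := by
    refine Finset.sum_congr rfl (fun i _ => ?_)
    have e1 : p₀ i * G = p₀ i * q₀ := by
      rw [hGdef, mul_add, ← hp₀.mul_z i, mul_assoc (p₀ i) (1 - z) g, hgz, mul_zero, zero_add]
    have e2 : G * p₀ i = q₀ * p₀ i := by
      rw [hGdef, add_mul, ← hp₀.z_mul i, ← mul_assoc g (1 - z), hgz', zero_mul, zero_add]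
    have e3 : p₀ i * a₁ = 0 := by
      rw [← hea₁, ← hp₀.mul_z i, mul_assoc (p₀ i) (1 - z), ← mul_assoc (1 - z)]
      rw [h1e, zero_mul, mul_zero]
    have e4 : q₀ * w * q₀ = q₀ * x * q₀ := by
      have f1 : q₀ * a₁ = 0 := by
        rw [← hea₁, ← mul_assoc]
        rw [hq₀e, zero_mul]
      rw [hw, mul_sub, f1, sub_zero]
    rw [hy, mul_add, add_mul, e3, zero_mul, add_zero]
    calc p₀ i * (G * w * G) * p₀ i = (p₀ i * G) * w * (G * p₀ i) := by simp only [mul_assoc]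
      _ = (p₀ i * q₀) * w * (q₀ * p₀ i) := by rw [e1, e2]
      _ = p₀ i * (q₀ * w * q₀) * p₀ i := by simp only [mul_assoc]
      _ = _ := by rw [e4]
  have s3 : (z - e) * y * (z - e) = 0 := by
    have e1 : (z - e) * G = 0 := by
      have f1 : (z - e) * g = 0 := by
        rw [← heg, ← mul_assoc, sub_mul, hze, hee, sub_self, zero_mul]
      have f2 : (z - e) * q₀ = 0 := by
        have f3 : (z - e) * (1 - z) = 0 := by
          rw [sub_mul, mul_sub, mul_sub, mul_one, mul_one, hzz, hez]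
          abel
        rw [← hzq₀, ← mul_assoc, f3, zero_mul]
      rw [hGdef, mul_add, f1, f2, add_zero]
    have e2 : (z - e) * a₁ = 0 := by
      rw [← hea₁, ← mul_assoc, sub_mul]
      rw [hze, hee, sub_self, zero_mul]
    rw [hy, mul_add, e2, add_zero, ← mul_assoc, ← mul_assoc, e1, zero_mul, zero_mul, zero_mul]
  rw [s1, s2, s3, add_zero]
  set U := g * (∑ i, p₁ i * w * p₁ i) * g with hU
  set V := ∑ i, p₀ i * (q₀ * x * q₀) * p₀ i with hV
  have hVn : ‖V‖ ≤ ε / 4 * X := by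
    refine norm_pinch hp₀ (by positivity) ?_
    intro i
    have f1 : ‖q₀ * p₀ i‖ * ‖q₀ * p₀ i‖ ≤ ε / 4 := by
      rw [← CStarRing.norm_self_mul_star, star_mul, hp₀.star i, hq₀p.isSelfAdjoint.star_eq,
        ← mul_assoc, mul_assoc q₀ (p₀ i) (p₀ i), (hp₀.proj i).isIdempotentElem.eq]
      exact hq₀' i
    have f2 : ‖p₀ i * q₀‖ = ‖q₀ * p₀ i‖ := by
      rw [← norm_star, star_mul, hp₀.star i, hq₀p.isSelfAdjoint.star_eq]
    calc ‖p₀ i * (q₀ * x * q₀) * p₀ i‖ = ‖(p₀ i * q₀) * x * (q₀ * p₀ i)‖ := by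
          simp only [mul_assoc]
      _ ≤ ‖(p₀ i * q₀) * x‖ * ‖q₀ * p₀ i‖ := norm_mul_le _ _
      _ ≤ (‖p₀ i * q₀‖ * ‖x‖) * ‖q₀ * p₀ i‖ := by
          gcongr
          exact norm_mul_le _ _
      _ = (‖q₀ * p₀ i‖ * ‖q₀ * p₀ i‖) * X := by rw [f2]; ring
      _ ≤ ε / 4 * X := by gcongr
  have hVz : (1 - z) * V = V := by
    rw [hV, Finset.mul_sum]
    refine Finset.sum_congr rfl (fun i _ => ?_)
    rw [← mul_assoc, ← mul_assoc, hp₀.z_mul]
  have hVz' : V * (1 - z) = V := by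
    rw [hV, Finset.sum_mul]
    refine Finset.sum_congr rfl (fun i _ => ?_)
    rw [mul_assoc, hp₀.mul_z]
  have hUe : e * U = U := by
    rw [hU, ← mul_assoc, ← mul_assoc]
    rw [heg]
  have hUe' : U * e = U := by
    rw [hU, mul_assoc, hge]
  have hUV : ‖U + V‖ ≤ ε / 4 * X := norm_block hep h1zp he1 hUe hUe' hVz hVz' hgT hVn
  have hfin : U + a₁ + V - a = (U + V) + ((ε / 4 : ℝ) : ℂ) • a₁ := by
    have f1 : a₁ - a = ((ε / 4 : ℝ) : ℂ) • a₁ := by
      rw [ha]
      nth_rw 1 [← one_smul ℂ a₁]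
      rw [← sub_smul]
      congr 1
      push_cast
      ring
    rw [← f1]
    abel
  rw [hfin]
  have f2 : ‖((ε / 4 : ℝ) : ℂ) • a₁‖ ≤ ε / 4 * X := by
    rw [norm_smul, Complex.norm_real, Real.norm_of_nonneg (by positivity)]
    gcongr
  calc ‖(U + V) + ((ε / 4 : ℝ) : ℂ) • a₁‖ ≤ ‖U + V‖ + ‖((ε / 4 : ℝ) : ℂ) • a₁‖ := norm_add_le _ _
    _ ≤ ε / 4 * X + ε / 4 * X := by gcongr
    _ ≤ ε * ((1 - ε / 4) * X) := by nlinarith [mul_pos hε hxn]
    _ ≤ ε * ‖y‖ := by gcongr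

end Crest.Agent.R109
end

-- ▼ part R109/Final144
section

/-!
# Row 109: S0144 from `NCE_q`, `HasE`, `HasG`, `NoNCE144`
-/

set_option autoImplicit false
set_option linter.unusedSectionVars false

namespace Crest.Agent.R109

open scoped InnerProductSpace
open ContinuousLinearMap Crest.Agent.R121 Crest.Agent.R124

universe u

lemma R144_le {ε : ℝ} (hε : 0 < ε) (hε1 : ε < 1) :
    ((Nat.ceil (100000000 / (ε / 16) ^ 2) + Nat.ceil (16 / ε) + 1 : ℕ) : ℝ) ≤
      30000000000 / ε ^ 6 := by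
  have h1 : ((Nat.ceil (100000000 / (ε / 16) ^ 2) : ℕ) : ℝ) ≤ 100000000 / (ε / 16) ^ 2 + 1 :=
    (Nat.ceil_lt_add_one (by positivity)).le
  have h2 : ((Nat.ceil (16 / ε) : ℕ) : ℝ) ≤ 16 / ε + 1 :=
    (Nat.ceil_lt_add_one (by positivity)).le
  have h6 : 0 < ε ^ 6 := by positivity
  have e1 : ε ^ 6 ≤ 1 := pow_le_one₀ hε.le hε1.le
  have e2 : ε ^ 6 ≤ ε ^ 2 := pow_le_pow_of_le_one hε.le hε1.le (by norm_num)
  have e3 : ε ^ 6 ≤ ε := by
    calc ε ^ 6 ≤ ε ^ 1 := pow_le_pow_of_le_one hε.le hε1.le (by norm_num)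
      _ = ε := pow_one ε
  have h3 : 100000000 / (ε / 16) ^ 2 ≤ 25600000000 / ε ^ 6 := by
    have : 100000000 / (ε / 16) ^ 2 = 25600000000 / ε ^ 2 := by
      field_simp
      norm_num
    rw [this]
    gcongr
  have h4 : 16 / ε ≤ 16 / ε ^ 6 := by gcongr
  have h5 : (1 : ℝ) ≤ 1 / ε ^ 6 := by
    rw [le_div_iff₀ h6]
    linarith
  have h7 : ((Nat.ceil (100000000 / (ε / 16) ^ 2) + Nat.ceil (16 / ε) + 1 : ℕ) : ℝ) =
      ((Nat.ceil (100000000 / (ε / 16) ^ 2) : ℕ) : ℝ) +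
      ((Nat.ceil (16 / ε) : ℕ) : ℝ) + 1 := by
    push_cast
    ring
  rw [h7]
  calc ((Nat.ceil (100000000 / (ε / 16) ^ 2) : ℕ) : ℝ) + ((Nat.ceil (16 / ε) : ℕ) : ℝ) + 1
      ≤ (25600000000 / ε ^ 6 + 1 / ε ^ 6) + (16 / ε ^ 6 + 1 / ε ^ 6) + 1 / ε ^ 6 := by
        linarith
    _ = 25600000019 / ε ^ 6 := by ring
    _ ≤ 30000000000 / ε ^ 6 := by
        gcongr
        norm_num

/-- **S0144** -/
theorem s0144_of (hN : NCE_q.{u}) (hE : HasE.{u}) (hG : HasG.{u}) (h0 : NoNCE144.{u}) :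
    ∃ C : ℝ, 0 < C ∧ ∀ ε : ℝ, 0 < ε → ε < 1 → ∃ R : ℕ, (R : ℝ) ≤ C / ε ^ 6 ∧
      ∀ (H : Type u) [NormedAddCommGroup H] [InnerProductSpace ℂ H] [CompleteSpace H]
        (M : VonNeumannAlgebra H) (A : StarSubalgebra ℂ (H →L[ℂ] H)),
        A ≤ M.toStarSubalgebra → (∀ a ∈ A, ∀ b ∈ A, a * b = b * a) →
        (∀ y ∈ M, (∀ a ∈ A, a * y = y * a) → y ∈ A) →
        ∀ x ∈ M, IsSelfAdjoint x → ∀ (F : Finset H) (δ : ℝ), 0 < δ →
          ∃ y ∈ M, IsSelfAdjoint y ∧ ‖y‖ ≤ 3 * ‖x‖ ∧ (∀ ξ ∈ F, ‖(y - x) ξ‖ < δ) ∧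
            ∃ p : Fin R → (H →L[ℂ] H),
              (∀ i, p i ∈ A ∧ IsStarProjection (p i)) ∧ (∀ i j, i ≠ j → p i * p j = 0) ∧
              ∑ i, p i = 1 ∧
              ∃ a ∈ A, IsSelfAdjoint a ∧ ‖a‖ ≤ ‖y‖ ∧ ‖∑ i, p i * y * p i - a‖ ≤ ε * ‖y‖ := by
  refine ⟨30000000000, by norm_num, ?_⟩
  intro ε hε hε1
  refine ⟨Nat.ceil (100000000 / (ε / 16) ^ 2) + Nat.ceil (16 / ε) + 1, R144_le hε hε1, ?_⟩
  intro H _ _ _ M A hAM hA hAmax x hxM hx F δ hδ
  have hM : Masa M A := ⟨hAM, hA, hAmax⟩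
  by_cases hx0 : x = 0
  · -- trivial case
    classical
    refine ⟨0, zero_mem _, by simp [IsSelfAdjoint], by simp, ?_,
      fun i => if i = Fin.last _ then 1 else 0, ?_, ?_, ?_, 0, zero_mem _, by simp [IsSelfAdjoint],
      by simp, by simp⟩
    · intro ξ _
      rw [hx0]
      simpa using hδ
    · intro i
      by_cases hi : i = Fin.last _
      · simp only [hi, if_true]
        exact ⟨one_mem _, IsStarProjection.one _⟩
      · simp only [hi, if_false]
        exact ⟨zero_mem _, IsStarProjection.zero _⟩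
    · intro i j hij
      by_cases hi : i = Fin.last _
      · have hj : j ≠ Fin.last _ := fun hj => hij (hi.trans hj.symm)
        simp [hj]
      · simp [hi]
    · rw [Finset.sum_ite_eq' Finset.univ (Fin.last _) (fun _ => (1 : H →L[ℂ] H))]
      simp
  obtain ⟨K, iK1, iK2, iK3, Φ, Mt, At, hΦ, hMt, hAt, hMasa, hAmp, hF⟩ := exists_ampl M A hM
  have hinj : ∀ {y y' : H →L[ℂ] H}, Φ y = Φ y' → y = y' := by
    intro y y' h
    have h1 : ‖y - y'‖ = 0 := by rw [← hΦ, map_sub, h, sub_self, norm_zero]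
    exact sub_eq_zero.1 (norm_eq_zero.1 h1)
  obtain ⟨ξ, hξ⟩ := hF F
  have hproj : ∀ {y : H →L[ℂ] H}, IsStarProjection (Φ y) → IsStarProjection y := by
    intro y h
    refine ⟨hinj ?_, hinj ?_⟩
    · rw [map_mul]; exact h.isIdempotentElem
    · rw [map_star]; exact h.isSelfAdjoint
  have hΦx : Φ x ≠ 0 := by
    intro h
    exact hx0 (hinj (h.trans (map_zero Φ).symm))
  obtain ⟨y, hyM, hysa, hyn, hyξ, p, hp, a, haA, hasa, han, hq⟩ := red144_amp hN hE hG h0 hMasa
    hAmp hε hε1 (x := Φ x) ((hMt _).2 ⟨x, hxM, rfl⟩) (hx.map Φ) hΦx ξ hδ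
  choose p' hp'A hp' using fun i => (hAt (p i)).1 (hp.mem i)
  obtain ⟨a', ha'A, rfl⟩ := (hAt a).1 haA
  obtain ⟨y', hy'M, rfl⟩ := (hMt y).1 hyM
  refine ⟨y', hy'M, ?_, ?_, ?_, p', fun i => ⟨hp'A i, hproj (by rw [hp' i]; exact hp.proj i)⟩,
    ?_, ?_, a', ha'A, ?_, ?_, ?_⟩
  · apply hinj
    rw [map_star]
    exact hysa
  · rwa [hΦ, hΦ] at hyn
  · intro ζ hζ
    refine lt_of_le_of_lt (hξ (y' - x) ζ hζ) ?_
    rw [map_sub]
    exact hyξ
  · intro i j hij
    apply hinj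
    rw [map_mul, hp', hp', hp.orth i j hij, map_zero]
  · apply hinj
    rw [map_sum, map_one, ← hp.sum]
    exact Finset.sum_congr rfl (fun i _ => hp' i)
  · apply hinj
    rw [map_star]
    exact hasa
  · rwa [hΦ, hΦ] at han
  · have h1 : Φ (∑ i, p' i * y' * p' i - a') = ∑ i, p i * Φ y' * p i - Φ a' := by
      rw [map_sub, map_sum]
      simp only [map_mul, hp']
    rw [← hΦ, h1, ← hΦ y']
    exact hq

end Crest.Agent.R109
end

-- ▼ part R109/Gauge

/-!
# Row 109: the gauge operator `g`, commuting with the paving, from the projection `q`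
-/

set_option autoImplicit false
set_option linter.unusedSectionVars false

namespace Crest.Agent.R109

open scoped InnerProductSpace
open ContinuousLinearMap Crest.Agent.R121 Crest.Agent.R124

universe u

namespace Gauge

variable {H : Type u} [NormedAddCommGroup H] [InnerProductSpace ℂ H] [CompleteSpace H]

/-- norm of a self-adjoint operator from its quadratic form -/
lemma norm_le_of_form {S : H →L[ℂ] H} (hS : IsSelfAdjoint S) {c : ℝ} (hc : 0 ≤ c)
    (h : ∀ v, |(⟪S v, v⟫_ℂ).re| ≤ c * ‖v‖ ^ 2) : ‖S‖ ≤ c := by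
  rw [norm_eq_iSup_rayleighQuotient S hS.isSymmetric]
  refine ciSup_le (fun v => ?_)
  rw [rayleighQuotient, reApplyInnerSelf_apply, abs_div, abs_of_nonneg (by positivity : (0 : ℝ) ≤ ‖v‖ ^ 2)]
  by_cases hv : ‖v‖ = 0
  · rw [hv]; simp [hc]
  · rw [div_le_iff₀ (by positivity)]
    exact h v

lemma proj_inner {e : H →L[ℂ] H} (he : IsStarProjection e) (v w : H) :
    ⟪e v, w⟫_ℂ = ⟪v, e w⟫_ℂ := by
  have : star e = e := he.isSelfAdjoint
  conv_lhs => rw [← this, star_eq_adjoint, adjoint_inner_left]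

lemma proj_idem {e : H →L[ℂ] H} (he : IsStarProjection e) (v : H) : e (e v) = e v :=
  congrArg (fun F : H →L[ℂ] H => F v) he.isIdempotentElem

variable {e q T : H →L[ℂ] H} {c κ : ℝ}

/-- the form bound -/
lemma form_bound (he : IsStarProjection e) (hq : IsStarProjection q) (heq : e * q = q)
    (hT : IsSelfAdjoint T) (heT : e * T = T) (hT2 : ‖T‖ ≤ 2) (hκ : 0 < κ) (hc : 0 < c)
    (hqT : ‖q * T * q‖ ≤ c) (v : H) :
    |(⟪T v, v⟫_ℂ).re| ≤ (c + κ) * ‖e v‖ ^ 2 + (4 / κ + 2) * ‖(e - q) v‖ ^ 2 := by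
  have hqe : q * e = q := by
    have := congrArg star heq
    rwa [star_mul, hq.isSelfAdjoint.star_eq, he.isSelfAdjoint.star_eq] at this
  have hTe : T * e = T := by
    have := congrArg star heT
    rwa [star_mul, hT.star_eq, he.isSelfAdjoint.star_eq] at this
  have hTi : ∀ a b : H, ⟪T a, b⟫_ℂ = ⟪a, T b⟫_ℂ := by
    intro a b
    conv_lhs => rw [← hT.star_eq, star_eq_adjoint, adjoint_inner_left]
  set a := q v with ha
  set b := (e - q) v with hb
  have hab : e v = a + b := by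
    rw [ha, hb]; change e v = q v + (e v - q v); abel
  have h1 : ⟪T v, v⟫_ℂ = ⟪T (a + b), a + b⟫_ℂ := by
    rw [← hab, ← proj_inner he]
    have h2 : T (e v) = T v := congrArg (fun F : H →L[ℂ] H => F v) hTe
    have h3 : e (T v) = T v := congrArg (fun F : H →L[ℂ] H => F v) heT
    rw [h2, h3]
  have hqa : q a = a := proj_idem hq v
  have h4 : ⟪T a, a⟫_ℂ = ⟪(q * T * q) a, a⟫_ℂ := by
    change _ = ⟪q (T (q a)), a⟫_ℂ
    rw [proj_inner hq, hqa]
  have h5 : |(⟪T a, a⟫_ℂ).re| ≤ c * ‖a‖ ^ 2 := by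
    rw [h4]
    calc |(⟪(q * T * q) a, a⟫_ℂ).re| ≤ ‖⟪(q * T * q) a, a⟫_ℂ‖ := Complex.abs_re_le_norm _
      _ ≤ ‖(q * T * q) a‖ * ‖a‖ := norm_inner_le_norm _ _
      _ ≤ (‖q * T * q‖ * ‖a‖) * ‖a‖ := by gcongr; exact le_opNorm _ _
      _ ≤ (c * ‖a‖) * ‖a‖ := by gcongr
      _ = c * ‖a‖ ^ 2 := by ring
  have h6 : ∀ x y : H, |(⟪T x, y⟫_ℂ).re| ≤ 2 * (‖x‖ * ‖y‖) := by
    intro x y
    calc |(⟪T x, y⟫_ℂ).re| ≤ ‖⟪T x, y⟫_ℂ‖ := Complex.abs_re_le_norm _
      _ ≤ ‖T x‖ * ‖y‖ := norm_inner_le_norm _ _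
      _ ≤ (‖T‖ * ‖x‖) * ‖y‖ := by gcongr; exact le_opNorm _ _
      _ ≤ (2 * ‖x‖) * ‖y‖ := by gcongr
      _ = _ := by ring
  have h7 : (⟪T v, v⟫_ℂ).re = (⟪T a, a⟫_ℂ).re + (⟪T a, b⟫_ℂ).re + (⟪T b, a⟫_ℂ).re +
      (⟪T b, b⟫_ℂ).re := by
    rw [h1, map_add, inner_add_left, inner_add_right, inner_add_right]
    simp only [Complex.add_re]; ring
  have h8 := h6 a b
  have h9 := h6 b a
  have h10 := h6 b b
  have h11 : ‖a‖ ^ 2 ≤ ‖e v‖ ^ 2 := by
    have : a = q (e v) := (congrArg (fun F : H →L[ℂ] H => F v) hqe).symm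
    rw [this]
    exact norm_proj_le hq _
  have h12 : 4 * (‖a‖ * ‖b‖) ≤ κ * ‖a‖ ^ 2 + 4 / κ * ‖b‖ ^ 2 := by
    have h13 : 0 ≤ κ * (‖a‖ - 2 / κ * ‖b‖) ^ 2 := by positivity
    have h14 : κ * (‖a‖ - 2 / κ * ‖b‖) ^ 2 = κ * ‖a‖ ^ 2 - 4 * (‖a‖ * ‖b‖) + 4 / κ * ‖b‖ ^ 2 := by
      field_simp; ring
    linarith
  rw [h7]
  have h15 : (c + κ) * ‖a‖ ^ 2 ≤ (c + κ) * ‖e v‖ ^ 2 := by gcongr
  rw [abs_le] at h5 h8 h9 h10 ⊢
  constructor <;> nlinarith

/-- the gauge function of a positive operator -/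
lemma exists_G {k : H →L[ℂ] H} (hk : 0 ≤ k) {a b : ℝ} (ha : 0 < a) (hb : 0 < b) :
    ∃ G : H →L[ℂ] H, (∃ f : ℝ → ℝ, G = cfc f k) ∧ IsSelfAdjoint G ∧ ‖G‖ ≤ 1 ∧
      G * G * (a • 1 + b • k) = a • 1 ∧ (1 - G) * (1 - G) ≤ (b / a) • k := by
  have hksa : IsSelfAdjoint k := hk.isSelfAdjoint
  set f : ℝ → ℝ := fun t => Real.sqrt (a / (a + b * max t 0)) with hf
  have hpos : ∀ t : ℝ, 0 < a + b * max t 0 := fun t => by positivity
  have hfc : Continuous f := by
    refine Real.continuous_sqrt.comp ?_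
    exact continuous_const.div (by fun_prop) (fun t => (hpos t).ne')
  have hf0 : ∀ t, 0 ≤ f t := fun t => Real.sqrt_nonneg _
  have hf1 : ∀ t, f t ≤ 1 := by
    intro t
    rw [hf]
    refine Real.sqrt_le_one.2 ?_
    rw [div_le_one (hpos t)]
    have : 0 ≤ b * max t 0 := by positivity
    linarith
  have hfsq : ∀ t, f t * f t = a / (a + b * max t 0) := fun t =>
    Real.mul_self_sqrt (by have := hpos t; positivity)
  clear_value f
  have hc1 : Continuous (fun t : ℝ => 1 - f t) := continuous_const.sub hfc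
  have hc2 : Continuous (fun t : ℝ => a + b * t) := by fun_prop
  have hc3 : Continuous (fun t : ℝ => f t * f t) := hfc.mul hfc
  have hc4 : Continuous (fun t : ℝ => b * t) := by fun_prop
  have hc5 : Continuous (fun t : ℝ => b / a * t) := by fun_prop
  refine ⟨cfc f k, ⟨f, rfl⟩, cfc_predicate f k, ?_, ?_, ?_⟩
  · refine norm_cfc_le zero_le_one (fun t _ => ?_)
    rw [Real.norm_eq_abs, abs_of_nonneg (hf0 t)]
    exact hf1 t
  · have h1 : (a • 1 + b • k : H →L[ℂ] H) = cfc (fun t : ℝ => a + b * t) k := by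
      rw [cfc_add (a := k) (fun _ : ℝ => a) (fun t => b * t) continuousOn_const hc4.continuousOn,
        cfc_const a k, cfc_const_mul b (fun t => t) k continuousOn_id,
        cfc_id' ℝ k, Algebra.algebraMap_eq_smul_one]
    have h2 : (a • 1 : H →L[ℂ] H) = cfc (fun _ : ℝ => a) k := by
      rw [cfc_const a k, Algebra.algebraMap_eq_smul_one]
    rw [h1, ← cfc_mul f f k hfc.continuousOn hfc.continuousOn,
      ← cfc_mul (fun t => f t * f t) (fun t => a + b * t) k hc3.continuousOn hc2.continuousOn, h2]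
    refine cfc_congr (fun t ht => ?_)
    have ht0 : 0 ≤ t := spectrum_nonneg_of_nonneg hk ht
    have h3 := hpos t
    change f t * f t * (a + b * t) = a
    rw [hfsq t]
    rw [max_eq_left ht0] at h3 ⊢
    field_simp
  · have h1 : (1 - cfc f k : H →L[ℂ] H) = cfc (fun t : ℝ => 1 - f t) k := by
      rw [cfc_sub (a := k) (fun _ => (1 : ℝ)) f continuousOn_const hfc.continuousOn,
        cfc_const_one ℝ k]
    have h2 : ((b / a) • k : H →L[ℂ] H) = cfc (fun t : ℝ => b / a * t) k := by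
      rw [cfc_const_mul (b / a) (fun t => t) k continuousOn_id, cfc_id' ℝ k]
    rw [h1, h2, ← cfc_mul (fun t => 1 - f t) (fun t => 1 - f t) k hc1.continuousOn
      hc1.continuousOn]
    refine cfc_mono (fun t ht => ?_) (hc1.mul hc1).continuousOn hc5.continuousOn
    have ht0 : 0 ≤ t := spectrum_nonneg_of_nonneg hk ht
    have h3 := hf0 t
    have h4 := hf1 t
    have h5 : 1 - f t * f t ≤ b / a * t := by
      rw [hfsq t, max_eq_left ht0]
      have h6 : 0 < a + b * t := by positivity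
      rw [sub_le_iff_le_add, ← sub_nonneg]
      have h7 : b / a * t + a / (a + b * t) - 1 = (b * t) ^ 2 / (a * (a + b * t)) := by
        field_simp; ring
      rw [h7]; positivity
    nlinarith

section Main

variable {A : StarSubalgebra ℂ (H →L[ℂ] H)} {n : ℕ} {p : Fin n → H →L[ℂ] H}

/-- the averaged defect -/
noncomputable def kk (e q : H →L[ℂ] H) (p : Fin n → H →L[ℂ] H) : H →L[ℂ] H :=
  ∑ i, p i * (e - q) * p i

lemma e_sub_proj (he : IsStarProjection e) (hq : IsStarProjection q) (heq : e * q = q) :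
    IsStarProjection (e - q) := by
  have hqe : q * e = q := by
    have := congrArg star heq
    rwa [star_mul, hq.isSelfAdjoint.star_eq, he.isSelfAdjoint.star_eq] at this
  refine ⟨?_, he.isSelfAdjoint.sub hq.isSelfAdjoint⟩
  change (e - q) * (e - q) = e - q
  have h1 : e * e = e := he.isIdempotentElem
  have h2 : q * q = q := hq.isIdempotentElem
  rw [sub_mul, mul_sub, mul_sub, h1, heq, hqe, h2, sub_self, sub_zero]

lemma kk_nonneg (hP : Part A e p) (he : IsStarProjection e) (hq : IsStarProjection q)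
    (heq : e * q = q) : 0 ≤ kk e q p := by
  refine Finset.sum_nonneg (fun i _ => ?_)
  have h1 := star_left_conjugate_nonneg (e_sub_proj he hq heq).nonneg (p i)
  rwa [hP.star i] at h1

lemma p_mul_kk (hP : Part A e p) (i : Fin n) : p i * kk e q p = p i * (e - q) * p i := by
  rw [kk, Finset.mul_sum, Finset.sum_eq_single i]
  · rw [← mul_assoc, ← mul_assoc, (hP.proj i).isIdempotentElem.eq]
  · intro j _ hj
    rw [← mul_assoc, ← mul_assoc, hP.orth i j hj.symm, zero_mul, zero_mul]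
  · intro h; exact absurd (Finset.mem_univ i) h

lemma kk_mul_p (hP : Part A e p) (i : Fin n) : kk e q p * p i = p i * (e - q) * p i := by
  rw [kk, Finset.sum_mul, Finset.sum_eq_single i]
  · rw [mul_assoc, (hP.proj i).isIdempotentElem.eq]
  · intro j _ hj
    rw [mul_assoc, hP.orth j i hj, mul_zero]
  · intro h; exact absurd (Finset.mem_univ i) h

lemma e_mul_kk (hP : Part A e p) : e * kk e q p = kk e q p := by
  rw [kk, Finset.mul_sum]
  refine Finset.sum_congr rfl (fun i _ => ?_)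
  rw [← mul_assoc, ← mul_assoc, hP.z_mul i]

lemma kk_mul_e (hP : Part A e p) : kk e q p * e = kk e q p := by
  rw [kk, Finset.sum_mul]
  refine Finset.sum_congr rfl (fun i _ => ?_)
  rw [mul_assoc, hP.mul_z i]

lemma sum_p_apply (hP : Part A e p) (v : H) : ∑ i, p i v = e v := by
  rw [← hP.sum, sum_apply]

lemma re_kk (hP : Part A e p) (he : IsStarProjection e) (hq : IsStarProjection q)
    (heq : e * q = q) (v : H) :
    (⟪kk e q p v, v⟫_ℂ).re = ∑ i, ‖(e - q) (p i v)‖ ^ 2 := by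
  rw [kk, sum_apply, sum_inner, Complex.re_sum]
  refine Finset.sum_congr rfl (fun i _ => ?_)
  change (⟪p i ((e - q) (p i v)), v⟫_ℂ).re = _
  rw [proj_inner (hP.proj i)]
  exact re_inner_proj (e_sub_proj he hq heq) _

lemma re_e (hP : Part A e p) (he : IsStarProjection e) (v : H) :
    ∑ i, ‖p i v‖ ^ 2 = ‖e v‖ ^ 2 := by
  rw [← re_inner_proj he, ← sum_p_apply hP v, sum_inner, Complex.re_sum]
  exact Finset.sum_congr rfl (fun i _ => (re_inner_proj (hP.proj i) v).symm)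

/-- the averaged form bound -/
lemma form_bound' (hP : Part A e p) (he : IsStarProjection e) (hq : IsStarProjection q)
    (heq : e * q = q) (hT : IsSelfAdjoint T) (heT : e * T = T) (hT2 : ‖T‖ ≤ 2)
    (hpT : ∀ i, p i * T = T * p i) (hκ : 0 < κ) (hc : 0 < c)
    (hqT : ‖q * T * q‖ ≤ c) (v : H) :
    |(⟪T v, v⟫_ℂ).re| ≤
      (⟪((c + κ) • e + (4 / κ + 2) • kk e q p : H →L[ℂ] H) v, v⟫_ℂ).re := by
  have hTe : T * e = T := by
    have := congrArg star heT
    rwa [star_mul, hT.star_eq, he.isSelfAdjoint.star_eq] at this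
  have h1 : (⟪T v, v⟫_ℂ).re = ∑ i, (⟪T (p i v), p i v⟫_ℂ).re := by
    have h2 : T v = ∑ i, T (p i v) := by
      rw [← map_sum, sum_p_apply hP v]
      exact (congrArg (fun F : H →L[ℂ] H => F v) hTe).symm
    rw [h2, sum_inner, Complex.re_sum]
    refine Finset.sum_congr rfl (fun i _ => ?_)
    rw [← proj_inner (hP.proj i)]
    have h3 : p i (T (p i v)) = T (p i v) := by
      have h4 : p i * (T * p i) = T * p i := by
        rw [← hpT i, ← mul_assoc, (hP.proj i).isIdempotentElem.eq]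
      exact congrArg (fun F : H →L[ℂ] H => F v) h4
    rw [h3]
  have h5 : (⟪((c + κ) • e + (4 / κ + 2) • kk e q p : H →L[ℂ] H) v, v⟫_ℂ).re =
      (c + κ) * ‖e v‖ ^ 2 + (4 / κ + 2) * ∑ i, ‖(e - q) (p i v)‖ ^ 2 := by
    rw [add_apply, inner_add_left, Complex.add_re]
    change (⟪(c + κ) • e v, v⟫_ℂ).re + (⟪(4 / κ + 2) • kk e q p v, v⟫_ℂ).re = _
    rw [inner_smul_left_eq_smul, inner_smul_left_eq_smul, Complex.smul_re, Complex.smul_re,
      re_inner_proj he, re_kk hP he hq heq, smul_eq_mul, smul_eq_mul]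
  rw [h1, h5, ← re_e hP he v, Finset.mul_sum, Finset.mul_sum, ← Finset.sum_add_distrib]
  refine (Finset.abs_sum_le_sum_abs _ _).trans (Finset.sum_le_sum (fun i _ => ?_))
  have h6 := form_bound he hq heq hT heT hT2 hκ hc hqT (p i v)
  have h7 : e (p i v) = p i v := congrArg (fun F : H →L[ℂ] H => F v) (hP.z_mul i)
  rwa [h7] at h6

end Main

end Gauge

open Gauge in
/-- **the gauge operator** -/
theorem exists_g {c κ : ℝ} (hc : 0 < c) (hκ : 0 < κ) : ∃ C : ℝ, 0 < C ∧
    ∀ (H : Type u) [NormedAddCommGroup H] [InnerProductSpace ℂ H] [CompleteSpace H]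
      (M : VonNeumannAlgebra H) (A : StarSubalgebra ℂ (H →L[ℂ] H)), Masa M A →
      ∀ η : H, CVec M A η → ∀ (n : ℕ) (p : Fin n → H →L[ℂ] H), Part A (vs M η) p →
      ∀ T ∈ M, IsSelfAdjoint T → vs M η * T = T → ‖T‖ ≤ 2 → (∀ i, p i * T = T * p i) →
      ∀ q ∈ M, IsStarProjection q → vs M η * q = q → ‖q * T * q‖ ≤ c →
      ∃ g ∈ M, IsSelfAdjoint g ∧ ‖g‖ ≤ 1 ∧ vs M η * g = g ∧ (∀ i, p i * g = g * p i) ∧
        ‖g * T * g‖ ≤ c + κ ∧ ‖(vs M η - g) η‖ ^ 2 ≤ C * ‖(vs M η - q) η‖ ^ 2 := by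
  refine ⟨(4 / κ + 2) / (c + κ), by positivity, ?_⟩
  intro H _ _ _ M A hM η hη n p hP T hTM hT heT hT2 hpT q hqM hq heq hqT
  set e := vs M η with he'
  have he : IsStarProjection e := vs_proj M η
  have heM : e ∈ M := R121.vs_mem M η
  have hee : e * e = e := he.isIdempotentElem
  have hk0 : 0 ≤ kk e q p := kk_nonneg hP he hq heq
  have hpM : ∀ i, p i ∈ M := fun i => hM.le (hP.mem i)
  have hkM : kk e q p ∈ M :=
    sum_mem (fun i _ => mul_mem (mul_mem (hpM i) (sub_mem heM hqM)) (hpM i))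
  obtain ⟨G, ⟨f, hf⟩, hGsa, hG1, hGk, hGle⟩ := exists_G hk0 (by positivity : 0 < c + κ)
    (by positivity : 0 < 4 / κ + 2)
  have hGM : G ∈ M := by rw [hf]; exact cfc_mem M hkM f
  have hGcomm : ∀ y : H →L[ℂ] H, kk e q p * y = y * kk e q p → G * y = y * G := by
    intro y hy
    rw [hf]
    exact (Commute.cfc_real (show Commute (kk e q p) y from hy) f).eq
  have hGe : G * e = e * G := hGcomm e (by rw [kk_mul_e hP, e_mul_kk hP])
  have hGp : ∀ i, G * p i = p i * G := fun i => hGcomm (p i) (by rw [kk_mul_p hP, p_mul_kk hP])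
  have hGk' : G * kk e q p = kk e q p * G := hGcomm _ rfl
  have hgsa : IsSelfAdjoint (e * G) := by
    change star (e * G) = e * G
    rw [star_mul, hGsa.star_eq, he.isSelfAdjoint.star_eq, hGe]
  refine ⟨e * G, mul_mem heM hGM, hgsa, ?_, ?_, ?_, ?_, ?_⟩
  · calc ‖e * G‖ ≤ ‖e‖ * ‖G‖ := norm_mul_le _ _
      _ ≤ 1 * 1 := by
        gcongr
        exact he.norm_le
      _ = 1 := one_mul 1
  · rw [← mul_assoc, hee]
  · intro i
    rw [← mul_assoc, hP.mul_z i, mul_assoc, hGp i, ← mul_assoc, hP.z_mul i]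
  · have hsa : IsSelfAdjoint (e * G * T * (e * G)) := by
      have h := hT.conjugate (e * G)
      rwa [hgsa.star_eq] at h
    refine norm_le_of_form hsa (by positivity) (fun v => ?_)
    have hgi : ∀ a b : H, ⟪(e * G) a, b⟫_ℂ = ⟪a, (e * G) b⟫_ℂ := by
      intro a b
      conv_lhs => rw [← hgsa.star_eq, star_eq_adjoint, adjoint_inner_left]
    have h1 : ⟪(e * G * T * (e * G)) v, v⟫_ℂ = ⟪T ((e * G) v), (e * G) v⟫_ℂ := by
      rw [← hgi]; rfl
    rw [h1]
    refine (form_bound' hP he hq heq hT heT hT2 hpT hκ hc hqT ((e * G) v)).trans ?_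
    have h2 : ⟪((c + κ) • e + (4 / κ + 2) • kk e q p : H →L[ℂ] H) ((e * G) v), (e * G) v⟫_ℂ =
        ⟪((e * G) * ((c + κ) • e + (4 / κ + 2) • kk e q p) * (e * G)) v, v⟫_ℂ := by
      rw [← hgi]; rfl
    have h3 : (e * G) * ((c + κ) • e + (4 / κ + 2) • kk e q p) * (e * G) =
        (c + κ) • e := by
      have h4 : ((c + κ) • e + (4 / κ + 2) • kk e q p : H →L[ℂ] H) =
          e * ((c + κ) • 1 + (4 / κ + 2) • kk e q p) := by
        rw [mul_add, mul_smul_comm, mul_smul_comm, mul_one, e_mul_kk hP]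
      set B : H →L[ℂ] H := (c + κ) • 1 + (4 / κ + 2) • kk e q p with hB
      have h5 : G * B = B * G := by
        rw [hB, mul_add, add_mul, mul_smul_comm, mul_smul_comm, smul_mul_assoc, smul_mul_assoc,
          mul_one, one_mul, hGk']
      have h6 : e * B = B * e := by
        rw [hB, mul_add, add_mul, mul_smul_comm, mul_smul_comm, smul_mul_assoc, smul_mul_assoc,
          mul_one, one_mul, e_mul_kk hP, kk_mul_e hP]
      rw [h4]
      calc e * G * (e * B) * (e * G) = e * (G * e) * B * e * G := by simp only [mul_assoc]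
        _ = e * (e * G) * B * e * G := by rw [hGe]
        _ = (e * e) * G * (B * e) * G := by simp only [mul_assoc]
        _ = e * G * (e * B) * G := by rw [hee, h6]
        _ = e * (G * e) * (B * G) := by simp only [mul_assoc]
        _ = e * (e * G) * (G * B) := by rw [hGe, h5]
        _ = (e * e) * (G * G * B) := by simp only [mul_assoc]
        _ = (c + κ) • e := by rw [hee, hGk, mul_smul_comm, mul_one]
    rw [h2, h3]
    change (⟪(c + κ) • e v, v⟫_ℂ).re ≤ _
    rw [inner_smul_left_eq_smul, Complex.smul_re, re_inner_proj he, smul_eq_mul]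
    have := norm_proj_le he v
    gcongr
  · have h1 : ‖(e - e * G) η‖ ^ 2 ≤ ‖(1 - G) η‖ ^ 2 := by
      have h2 : (e - e * G) η = e ((1 - G) η) := by
        have : e - e * G = e * (1 - G) := by rw [mul_sub, mul_one]
        rw [this]; rfl
      rw [h2]
      exact norm_proj_le he _
    refine h1.trans ?_
    have hGsa1 : star (1 - G) = 1 - G := by rw [star_sub, star_one, hGsa.star_eq]
    have h3 : ‖(1 - G) η‖ ^ 2 = (⟪((1 - G) * (1 - G)) η, η⟫_ℂ).re := by
      rw [← re_star_mul_self, hGsa1]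
    have h4 : (⟪((1 - G) * (1 - G)) η, η⟫_ℂ).re ≤
        (⟪(((4 / κ + 2) / (c + κ)) • kk e q p : H →L[ℂ] H) η, η⟫_ℂ).re := by
      have h5 := re_inner_nonneg (sub_nonneg.2 hGle) η
      rw [sub_apply, inner_sub_left, Complex.sub_re] at h5
      linarith
    rw [h3]
    refine h4.trans ?_
    change (⟪((4 / κ + 2) / (c + κ)) • kk e q p η, η⟫_ℂ).re ≤ _
    rw [inner_smul_left_eq_smul, Complex.smul_re, smul_eq_mul]
    refine mul_le_mul_of_nonneg_left (le_of_eq ?_) (by positivity)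
    -- centrality
    have h6 : ∀ i, (⟪(p i * (e - q) * p i) η, η⟫_ℂ) = ⟪((e - q) * p i) η, η⟫_ℂ := by
      intro i
      have h7 := hη (p i) (hP.mem i) ((e - q) * p i) (mul_mem (sub_mem heM hqM) (hpM i))
      rw [← inner_conj_symm, mul_assoc, h7, inner_conj_symm, mul_assoc,
        (hP.proj i).isIdempotentElem.eq]
    rw [kk, sum_apply, sum_inner]
    simp only [h6]
    rw [← sum_inner]
    have h8 : ∑ i, ((e - q) * p i) η = (e - q) η := by
      have h9 : ∑ i, ((e - q) * p i) η = (e - q) (∑ i, p i η) := by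
        rw [map_sum]; rfl
      rw [h9, sum_p_apply hP, vs_self]
    rw [h8]
    exact re_inner_proj (e_sub_proj he hq heq) η

end Crest.Agent.R109
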